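import Vale.Agent.P209.Strong.K7
import Vale.Agent.P209.Toric

namespace Vale.Agent.P209.Strong

open MeasureTheory Vale.Agent.P209

/-! K8. Charts of permuted cells. -/

/-- partial sums -/
def cum {n : ℕ} (a : Fin n → ℝ) : Fin n → ℝ := fun k => ∑ i, if i ≤ k then a i else 0

private theorem k8_cum_zero {m : ℕ} (a : Fin (m + 1) → ℝ) : cum a 0 = a 0 := by
  unfold cum
  rw [Finset.sum_eq_single (0 : Fin (m + 1))]
  · simp
  · intro i _ hi
    rw [if_neg]
    intro h
    exact hi (le_antisymm h (Fin.zero_le _))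
  · intro h; exact absurd (Finset.mem_univ _) h

private theorem k8_cum_succ {m : ℕ} (a : Fin (m + 1) → ℝ) (k : Fin m) :
    cum a k.succ = cum a k.castSucc + a k.succ := by
  unfold cum
  have h : ∀ i : Fin (m + 1), (if i ≤ k.succ then a i else 0) =
      (if i ≤ k.castSucc then a i else 0) + (if i = k.succ then a i else 0) := by
    intro i
    have e1 : (i ≤ k.succ) ↔ (i : ℕ) ≤ k + 1 := by rw [Fin.le_def, Fin.val_succ]
    have e2 : (i ≤ k.castSucc) ↔ (i : ℕ) ≤ k := by rw [Fin.le_def, Fin.val_castSucc]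
    have e3 : (i = k.succ) ↔ (i : ℕ) = k + 1 := by rw [Fin.ext_iff, Fin.val_succ]
    by_cases h3 : i = k.succ
    · have h3' := e3.1 h3
      rw [if_pos (e1.2 (by omega)), if_neg (fun h => by have := e2.1 h; omega), if_pos h3, zero_add]
    · have h3' : ¬ (i : ℕ) = k + 1 := fun h => h3 (e3.2 h)
      rw [if_neg h3, add_zero]
      by_cases h2 : i ≤ k.castSucc
      · have := e2.1 h2
        rw [if_pos h2, if_pos (e1.2 (by omega))]
      · rw [if_neg h2, if_neg]
        intro h1
        have := e1.1 h1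
        exact h2 (e2.2 (by omega))
  rw [Finset.sum_congr rfl (fun i _ => h i), Finset.sum_add_distrib, Finset.sum_ite_eq']
  simp

private theorem k8_cum_last {m : ℕ} (a : Fin (m + 1) → ℝ) :
    cum a (Fin.last m) = ∑ i, a i := by
  unfold cum
  exact Finset.sum_congr rfl fun i _ => if_pos (Fin.le_last i)

private theorem k8_tri {m : ℕ} (a : Fin (m + 1) → ℝ) (R : ℝ) :
    cum a ∈ tri (m + 1) R ↔ a ∈ simplex (m + 1) R := by
  unfold tri simplex
  constructor
  · rintro ⟨h1, h2, h3⟩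
    refine ⟨fun j => ?_, ?_⟩
    · refine Fin.cases ?_ (fun i => ?_) j
      · have := h1 0
        rwa [k8_cum_zero] at this
      · have := h2 (Fin.castSucc_lt_succ (i := i))
        rw [k8_cum_succ] at this
        linarith
    · rw [← k8_cum_last]
      exact h3 _
  · rintro ⟨h1, h2⟩
    have hm : StrictMono (cum a) := by
      rw [Fin.strictMono_iff_lt_succ]
      intro i
      rw [k8_cum_succ]
      linarith [h1 i.succ]
    refine ⟨fun i => ?_, hm, fun i => ?_⟩
    · have h4 : cum a 0 ≤ cum a i := hm.monotone (Fin.zero_le _)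
      rw [k8_cum_zero] at h4
      exact lt_of_lt_of_le (h1 0) h4
    · have h4 : cum a i ≤ cum a (Fin.last m) := hm.monotone (Fin.le_last _)
      rw [k8_cum_last] at h4
      exact lt_of_le_of_lt h4 h2

theorem cum_tri {n : ℕ} (a : Fin n → ℝ) (R : ℝ) (hR : 0 < R) :
    cum a ∈ tri n R ↔ a ∈ simplex n R := by
  rcases n with _ | m
  · unfold tri simplex
    constructor
    · intro _
      refine ⟨fun j => j.elim0, ?_⟩
      simpa using hR
    · intro _
      exact ⟨fun i => i.elim0, fun i => i.elim0, fun i => i.elim0⟩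
  · exact k8_tri a R

/-- differences -/
private def k8_dif {m : ℕ} (y : Fin (m + 1) → ℝ) : Fin (m + 1) → ℝ :=
  fun k => Fin.cases (motive := fun _ => ℝ) (y 0) (fun j => y j.succ - y j.castSucc) k

private theorem k8_dif_zero {m : ℕ} (y : Fin (m + 1) → ℝ) : k8_dif y 0 = y 0 := rfl

private theorem k8_dif_succ {m : ℕ} (y : Fin (m + 1) → ℝ) (j : Fin m) :
    k8_dif y j.succ = y j.succ - y j.castSucc := rfl

private theorem k8_dif_cum {m : ℕ} (a : Fin (m + 1) → ℝ) : k8_dif (cum a) = a := by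
  funext k
  refine Fin.cases ?_ (fun j => ?_) k
  · rw [k8_dif_zero, k8_cum_zero]
  · rw [k8_dif_succ, k8_cum_succ]; ring

private theorem k8_cum_dif {m : ℕ} (y : Fin (m + 1) → ℝ) : cum (k8_dif y) = y := by
  funext k
  refine Fin.induction ?_ (fun j ih => ?_) k
  · rw [k8_cum_zero, k8_dif_zero]
  · rw [k8_cum_succ, ih, k8_dif_succ]; ring

private theorem k8_dif_add {m : ℕ} (y z : Fin (m + 1) → ℝ) :
    k8_dif (y + z) = k8_dif y + k8_dif z := by
  funext k
  refine Fin.cases ?_ (fun j => ?_) k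
  · simp only [Pi.add_apply, k8_dif_zero]
  · simp only [Pi.add_apply, k8_dif_succ]; ring

/-- partial sums as a linear equivalence -/
private def k8_C (m : ℕ) : (Fin (m + 1) → ℝ) ≃ₗ[ℝ] (Fin (m + 1) → ℝ) where
  toFun := cum
  invFun := k8_dif
  left_inv := k8_dif_cum
  right_inv := k8_cum_dif
  map_add' x y := by
    funext k
    simp only [cum, Pi.add_apply, ← Finset.sum_add_distrib]
    refine Finset.sum_congr rfl fun i _ => ?_
    split_ifs <;> simp
  map_smul' c x := by
    funext k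
    simp only [cum, Pi.smul_apply, smul_eq_mul, RingHom.id_apply, Finset.mul_sum]
    refine Finset.sum_congr rfl fun i _ => ?_
    split_ifs <;> simp

/-- integer valued vectors -/
private def k8_IV {n : ℕ} (x : Fin n → ℝ) : Prop := ∀ j, ∃ m : ℤ, x j = m

private theorem k8_IV_cum {n : ℕ} {x : Fin n → ℝ} (h : k8_IV x) : k8_IV (cum x) := by
  intro k
  choose m hm using h
  refine ⟨∑ i, if i ≤ k then m i else 0, ?_⟩
  unfold cum
  push_cast
  refine Finset.sum_congr rfl fun i _ => ?_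
  split_ifs
  · exact hm i
  · rfl

private theorem k8_IV_dif {m : ℕ} {x : Fin (m + 1) → ℝ} (h : k8_IV x) : k8_IV (k8_dif x) := by
  intro k
  refine Fin.cases ?_ (fun j => ?_) k
  · rw [k8_dif_zero]; exact h 0
  · obtain ⟨a, ha⟩ := h j.succ
    obtain ⟨b, hb⟩ := h j.castSucc
    refine ⟨a - b, ?_⟩
    rw [k8_dif_succ, ha, hb]
    push_cast
    rfl

private theorem k8_IV_single {n : ℕ} (i : Fin n) : k8_IV (Pi.single i (1 : ℝ) : Fin n → ℝ) := by
  intro j
  by_cases hij : j = i
  · exact ⟨1, by rw [hij, Pi.single_eq_same]; norm_num⟩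
  · exact ⟨0, by rw [Pi.single_eq_of_ne hij]; norm_num⟩

/-- the chart of a permutation -/
private def k8_L {d : ℕ} (σ : Equiv.Perm (Fin (d + 1))) :
    (Fin (d + 1) → ℝ) ≃ₗ[ℝ] (Fin (d + 1) → ℝ) :=
  (k8_C d).trans ((LinearEquiv.funCongrLeft ℝ ℝ σ).trans (k8_C d).symm)

private theorem k8_L_apply {d : ℕ} (σ : Equiv.Perm (Fin (d + 1))) (a : Fin (d + 1) → ℝ) :
    k8_L σ a = k8_dif (fun i => cum a (σ i)) := rfl

private theorem k8_L_symm {d : ℕ} (σ : Equiv.Perm (Fin (d + 1))) (a : Fin (d + 1) → ℝ) :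
    (k8_L σ).symm a = k8_dif (fun i => cum a (σ.symm i)) := rfl

private theorem k8_cum_single {m : ℕ} :
    cum (Pi.single (Fin.last m) (1 : ℝ) : Fin (m + 1) → ℝ) = Pi.single (Fin.last m) 1 := by
  funext k
  unfold cum
  rw [Finset.sum_eq_single (Fin.last m)]
  · rw [Pi.single_eq_same]
    by_cases hk : k = Fin.last m
    · rw [hk, Pi.single_eq_same, if_pos le_rfl]
    · rw [Pi.single_eq_of_ne hk, if_neg]
      intro h
      exact hk (le_antisymm (Fin.le_last _) h)
  · intro i _ hi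
    rw [Pi.single_eq_of_ne hi, ite_self]
  · intro h; exact absurd (Finset.mem_univ _) h

private theorem k8_vert {d : ℕ} (σ : Equiv.Perm (Fin (d + 1))) :
    bary (k8_L σ (Pi.single (Fin.last d) 1)) =
      Pi.single (σ.symm (Fin.last d)).castSucc 1 - Pi.single (σ.symm (Fin.last d)).succ 1 := by
  set p := σ.symm (Fin.last d) with hp
  have hu : (fun i => cum (Pi.single (Fin.last d) (1 : ℝ) : Fin (d + 1) → ℝ) (σ i)) =
      (Pi.single p 1 : Fin (d + 1) → ℝ) := by
    funext i
    rw [k8_cum_single]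
    simp only [Pi.single_apply, hp]
    congr 1
    exact propext (Equiv.eq_symm_apply σ).symm
  rw [k8_L_apply, hu]
  funext i
  refine Fin.lastCases ?_ (fun j => ?_) i
  · have h1 : bary (k8_dif (Pi.single p 1 : Fin (d + 1) → ℝ)) (Fin.last (d + 1)) =
        -∑ j, k8_dif (Pi.single p 1 : Fin (d + 1) → ℝ) j := by
      unfold bary
      exact Fin.snoc_last _ _
    rw [h1, ← k8_cum_last, k8_cum_dif, Pi.sub_apply]
    have h2 : (Pi.single p.castSucc (1 : ℝ) : Fin (d + 2) → ℝ) (Fin.last (d + 1)) = 0 :=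
      Pi.single_eq_of_ne (fun h => absurd h.symm (Fin.castSucc_lt_last p).ne) _
    rw [h2, zero_sub]
    congr 1
    simp only [Pi.single_apply]
    congr 1
    rw [← Fin.succ_last]
    exact propext ⟨fun h => by rw [h], fun h => Fin.succ_injective _ h⟩
  · have h1 : bary (k8_dif (Pi.single p 1 : Fin (d + 1) → ℝ)) j.castSucc =
        k8_dif (Pi.single p 1 : Fin (d + 1) → ℝ) j := by
      unfold bary
      exact Fin.snoc_castSucc _ _ _
    rw [h1, Pi.sub_apply]
    have hc : (Pi.single p.castSucc (1 : ℝ) : Fin (d + 2) → ℝ) j.castSucc =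
        (Pi.single p (1 : ℝ) : Fin (d + 1) → ℝ) j := by
      simp only [Pi.single_apply]
      congr 1
      exact propext ⟨fun h => Fin.castSucc_injective _ h, fun h => by rw [h]⟩
    rw [hc]
    refine Fin.cases ?_ (fun k => ?_) j
    · rw [k8_dif_zero]
      have h2 : (Pi.single p.succ (1 : ℝ) : Fin (d + 2) → ℝ) (Fin.castSucc 0) = 0 := by
        refine Pi.single_eq_of_ne ?_ _
        intro h
        exact absurd (congrArg Fin.val h) (by simp)
      rw [h2, sub_zero]
    · rw [k8_dif_succ]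
      congr 1
      simp only [Pi.single_apply]
      congr 1
      rw [← Fin.succ_castSucc]
      exact propext ⟨fun h => by rw [h], fun h => Fin.succ_injective _ h⟩

theorem cell_chart (d : ℕ) (hd : 1 ≤ d) (σ : Equiv.Perm (Fin (d + 1))) (b : Fin (d + 1) → ℝ)
    (s : ℝ) : ∃ (Λ : (Fin (d + 1) → ℝ) ≃ₗ[ℝ] (Fin (d + 1) → ℝ)) (v : Fin (d + 1) → ℝ), CH Λ ∧
      ∀ a, a ∈ CE Λ v s ↔ cum a ∈ cell σ b s := by
  obtain ⟨Λ, v, hΛ, h⟩ := exists_chart d hd (k8_L σ)
    (fun i j => k8_IV_dif (fun k => k8_IV_cum (k8_IV_single i) (σ k)) j)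
    (fun i j => k8_IV_dif (fun k => k8_IV_cum (k8_IV_single i) (σ.symm k)) j)
    (σ.symm (Fin.last d)).castSucc (σ.symm (Fin.last d)).succ (Fin.castSucc_lt_succ).ne
    (k8_vert σ) (k8_dif (fun i => - b i)) s
  refine ⟨Λ, v, hΛ, fun a => ?_⟩
  rw [h a]
  have h1 : k8_L σ a + k8_dif (fun i => - b i) = k8_dif (fun i => cum a (σ i) - b i) := by
    rw [k8_L_apply, ← k8_dif_add]
    rfl
  rw [h1]
  have h2 := k8_tri (k8_dif (fun i => cum a (σ i) - b i)) s
  rw [k8_cum_dif] at h2
  exact h2.symm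

end Vale.Agent.P209.Strong
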