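import Vale.Agent.P209.GWords
import Vale.Agent.P209.Words

namespace Vale.Agent.P209.Strong

open Vale.Agent.P209

/-! K9. Words: vertical order of the cells, and enumeration by the largest letter. -/

/-- the largest letter of a word -/
def mx {n m : ℕ} (w : Fin n → Fin m) : ℕ := Finset.univ.sup fun i => (w i : ℕ)

theorem mx_eq {d m : ℕ} (w : Fin (d + 1) → Fin m) :
    mx w = (w (Tuple.sort w (Fin.last d)) : ℕ) := by
  apply le_antisymm
  · refine Finset.sup_le fun i _ => ?_
    have h := Tuple.monotone_sort w (Fin.le_last ((Tuple.sort w)⁻¹ i))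
    simp only [Function.comp_apply] at h
    have h2 : Tuple.sort w ((Tuple.sort w)⁻¹ i) = i := by simp
    rw [h2] at h
    exact h
  · exact Finset.le_sup (f := fun i => (w i : ℕ)) (Finset.mem_univ _)

theorem k9_card {n : ℕ} (τ : Equiv.Perm (Fin n)) (p : Fin n) :
    (Finset.univ.filter fun k => τ k < p).card = (p : ℕ) := by
  have h : (Finset.univ.filter fun k => τ k < p) = (Finset.Iio p).map (τ⁻¹).toEmbedding := by
    ext k
    simp only [Finset.mem_filter, Finset.mem_univ, true_and, Finset.mem_map, Finset.mem_Iio,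
      Equiv.coe_toEmbedding]
    constructor
    · intro hk
      exact ⟨τ k, hk, by simp⟩
    · rintro ⟨a, ha, rfl⟩
      simpa using ha
  rw [h, Finset.card_map, Fin.card_Iio]

/-- Two cells over the same base point: the one whose last largest letter comes first is
below. -/
theorem wcell_order {d m : ℕ} {w w' : Fin (d + 1) → Fin m} {ℓ : Fin m → ℝ} {s : ℝ}
    (hℓ : ∀ c c', c < c' → ℓ c + s ≤ ℓ c') {y y' : Fin (d + 1) → ℝ} (hy : y ∈ wcell w ℓ s)
    (hy' : y' ∈ wcell w' ℓ s) (hb : ∀ k : Fin (d + 1), (k : ℕ) < d → y k = y' k)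
    (hM : mx w = mx w') (hp : Tuple.sort w (Fin.last d) ≤ Tuple.sort w' (Fin.last d))
    (hne : w ≠ w') : y (Fin.last d) < y' (Fin.last d) := by
  by_contra hcon
  rw [not_lt] at hcon
  set τ := Tuple.sort w with hτ
  set τ' := Tuple.sort w' with hτ'
  have elast : w (τ (Fin.last d)) = w' (τ' (Fin.last d)) := by
    apply Fin.ext
    rw [← mx_eq, ← mx_eq, hM]
  have e1 : ∀ j, w (τ j) = w' (τ' j) := by
    intro j
    by_cases hj : (j : ℕ) < d
    · have a := wcell_mem' hy j
      have a' := wcell_mem' hy' j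
      rw [hb j hj] at a
      rcases lt_trichotomy (w (τ j)) (w' (τ' j)) with h | h | h
      · have := hℓ _ _ h
        linarith [a.2, a'.1]
      · exact h
      · have := hℓ _ _ h
        linarith [a.1, a'.2]
    · have : j = Fin.last d := by
        apply Fin.ext
        have := j.2
        simp only [Fin.val_last]
        omega
      rw [this]
      exact elast
  -- the fractional parts
  have hU : StrictMono fun i => y (rnk w i) - ℓ (w i) := hy.2.1
  have hU' : StrictMono fun i => y' (rnk w' i) - ℓ (w' i) := hy'.2.1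
  have vU : ∀ j, y (rnk w (τ j)) - ℓ (w (τ j)) = y j - ℓ (w (τ j)) := by
    intro j
    rw [hτ, rnk_sort]
  have vU' : ∀ j, y' (rnk w' (τ' j)) - ℓ (w' (τ' j)) = y' j - ℓ (w (τ j)) := by
    intro j
    rw [e1 j, hτ', rnk_sort]
  have hlt : ∀ j j', τ j < τ j' ↔ y j - ℓ (w (τ j)) < y j' - ℓ (w (τ j')) := by
    intro j j'
    rw [← vU j, ← vU j']
    exact (hU.lt_iff_lt (a := τ j) (b := τ j')).symm
  have hlt' : ∀ j j', τ' j < τ' j' ↔ y' j - ℓ (w (τ j)) < y' j' - ℓ (w (τ j')) := by
    intro j j'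
    rw [← vU' j, ← vU' j']
    exact (hU'.lt_iff_lt (a := τ' j) (b := τ' j')).symm
  have hne_last : ∀ j : Fin (d + 1), j ≠ Fin.last d → (j : ℕ) < d := by
    intro j hj
    have h1 := j.2
    have h2 : (j : ℕ) ≠ d := fun h => hj (Fin.ext (by simpa using h))
    omega
  have hsub : (Finset.univ.filter fun k => τ' k < τ' (Fin.last d)) ⊆
      (Finset.univ.filter fun k => τ k < τ (Fin.last d)) := by
    intro k hk
    rw [Finset.mem_filter] at hk ⊢
    refine ⟨Finset.mem_univ _, ?_⟩
    have hk2 := hk.2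
    have hkl : k ≠ Fin.last d := by
      rintro rfl
      exact lt_irrefl _ hk2
    rw [hlt'] at hk2
    rw [hlt, hb k (hne_last k hkl)]
    linarith
  have hcard := k9_card τ (τ (Fin.last d))
  have hcard' := k9_card τ' (τ' (Fin.last d))
  have hset := Finset.eq_of_subset_of_card_le hsub (by
    rw [hcard, hcard']
    exact hp)
  have hpp : τ (Fin.last d) = τ' (Fin.last d) := by
    apply Fin.ext
    rw [← hcard, ← hcard', hset]
  have hiff : ∀ k, τ' k < τ' (Fin.last d) ↔ τ k < τ (Fin.last d) := by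
    intro k
    have := Finset.ext_iff.1 hset k
    simpa using this
  have q : ∀ j j', τ j < τ j' → τ' j < τ' j' := by
    intro j j' hjj
    by_cases hj : j = Fin.last d
    · have hj' : j' ≠ Fin.last d := by
        rintro rfl
        rw [hj] at hjj
        exact lt_irrefl _ hjj
      rcases lt_trichotomy (τ' j) (τ' j') with h | h | h
      · exact h
      · exact absurd (τ'.injective h) (by rw [hj]; exact fun h => hj' h.symm)
      · rw [hj] at h hjj
        have := (hiff j').1 h
        exact absurd hjj (not_lt.2 this.le)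
    · by_cases hj' : j' = Fin.last d
      · rw [hj'] at hjj ⊢
        exact (hiff j).2 hjj
      · rw [hlt] at hjj
        rw [hlt', ← hb j (hne_last j hj), ← hb j' (hne_last j' hj')]
        exact hjj
  have e3 : StrictMono (τ' * τ⁻¹ : Equiv.Perm (Fin (d + 1))) := by
    intro i i' hii
    rw [Equiv.Perm.mul_apply, Equiv.Perm.mul_apply]
    apply q
    simpa using hii
  have e4 : τ' * τ⁻¹ = 1 := (Equiv.Perm.monotone_iff _).1 e3.monotone
  have e5 : τ' = τ := by
    rwa [mul_inv_eq_one] at e4
  apply hne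
  funext i
  have := e1 (τ⁻¹ i)
  rw [e5] at this
  simpa using this

theorem words_enum (n m j : ℕ) (hj : j ≤ m) :
    ∃ e : Fin (m ^ n - j ^ n) → {w : Fin n → Fin m // ∃ i, j ≤ (w i : ℕ)},
      Function.Injective e ∧ ∀ i, (mx (e i).1) ^ n - j ^ n ≤ (i : ℕ) := by
  classical
  have hc := card_words n m j hj
  let e0 : Fin (m ^ n - j ^ n) ≃ {w : Fin n → Fin m // ∃ i, j ≤ (w i : ℕ)} :=
    (finCongr hc.symm).trans (Fintype.equivFin _).symm
  let g : Fin (m ^ n - j ^ n) → ℕ := fun i => mx (e0 i).1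
  let e : Fin (m ^ n - j ^ n) ≃ {w : Fin n → Fin m // ∃ i, j ≤ (w i : ℕ)} :=
    (Tuple.sort g).trans e0
  have hmono : Monotone fun i => mx (e i).1 := Tuple.monotone_sort g
  refine ⟨e, e.injective, fun i => ?_⟩
  obtain ⟨i0, hi0⟩ := (e i).2
  have hqm : mx (e i).1 ≤ m := Finset.sup_le fun t _ => ((e i).1 t).2.le
  have hjq : j ≤ mx (e i).1 :=
    hi0.trans (Finset.le_sup (f := fun t => ((e i).1 t : ℕ)) (Finset.mem_univ i0))
  rw [← card_words n (mx (e i).1) j hjq]
  have key : ∀ w : {w : Fin n → Fin (mx (e i).1) // ∃ t, j ≤ (w t : ℕ)},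
      ∃ t, j ≤ ((fun t => Fin.castLE hqm (w.1 t)) t : ℕ) := by
    intro w
    obtain ⟨t, ht⟩ := w.2
    exact ⟨t, by simpa using ht⟩
  let f : {w : Fin n → Fin (mx (e i).1) // ∃ t, j ≤ (w t : ℕ)} → Fin (i : ℕ) := fun w =>
    ⟨(e.symm ⟨fun t => Fin.castLE hqm (w.1 t), key w⟩ : ℕ), by
      by_contra hcon
      rw [not_lt] at hcon
      have h1 := hmono (show i ≤ e.symm ⟨fun t => Fin.castLE hqm (w.1 t), key w⟩ from hcon)
      simp only [Equiv.apply_symm_apply] at h1
      obtain ⟨t0, _⟩ := w.2
      have hpos : 0 < mx (e i).1 := Nat.lt_of_le_of_lt (Nat.zero_le _) (w.1 t0).2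
      have h2 : mx (fun t => Fin.castLE hqm (w.1 t)) < mx (e i).1 := by
        unfold mx
        rw [Finset.sup_lt_iff (by simpa [mx] using hpos)]
        intro t _
        exact (w.1 t).2
      omega⟩
  have hf : Function.Injective f := by
    intro w w' h
    have h1 : (e.symm ⟨fun t => Fin.castLE hqm (w.1 t), key w⟩ : ℕ)
        = (e.symm ⟨fun t => Fin.castLE hqm (w'.1 t), key w'⟩ : ℕ) :=
      congrArg (fun z : Fin (i : ℕ) => (z : ℕ)) h
    have h2 := e.symm.injective (Fin.ext h1)
    have h3 := congrArg Subtype.val h2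
    apply Subtype.ext
    funext t
    have h4 := congrFun h3 t
    simp only at h4
    exact Fin.castLE_injective hqm h4
  have := Fintype.card_le_of_injective f hf
  simpa using this

end Vale.Agent.P209.Strong
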