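import Vale.Agent.P209.Strong.K6
import Vale.Agent.P209.Strong.K8
import Vale.Agent.P209.Strong.K9

namespace Vale.Agent.P209.Strong

open MeasureTheory Vale.Agent.P209

/-! K10. A corner ball, layers of balls, and many small balls. -/

/-- left ends of the intervals of the letters, for the words with largest letter `q` -/
noncomputable def k10_off (j : ℕ) (T : ℝ) (S : ℕ → ℝ) (q c : ℕ) : ℝ :=
  if c < j then c * S j else T + ∑ i ∈ Finset.Ico j c, S (min i q)

theorem k10_off_eq {j q c : ℕ} (T : ℝ) (S : ℕ → ℝ) (hjc : j ≤ c) (hcq : c ≤ q) :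
    k10_off j T S q c = T + ∑ i ∈ Finset.Ico j c, S i := by
  rw [k10_off, if_neg (by omega)]
  congr 1
  refine Finset.sum_congr rfl fun i hi => ?_
  rw [Finset.mem_Ico] at hi
  rw [min_eq_left (by omega)]

section

variable {m j : ℕ} {T η : ℝ} {S : ℕ → ℝ}

theorem k10_S_pos (hη : 0 < η) (hS : ∀ q, j ≤ q → q < m → η ≤ S q) {q : ℕ} (hjq : j ≤ q)
    (hqm : q < m) : 0 < S q := lt_of_lt_of_le hη (hS q hjq hqm)

theorem k10_ge (hη : 0 < η) (hS : ∀ q, j ≤ q → q < m → η ≤ S q) {q c : ℕ} (hjq : j ≤ q)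
    (hqm : q < m) (hjc : j ≤ c) : T ≤ k10_off j T S q c := by
  rw [k10_off, if_neg (by omega)]
  have : 0 ≤ ∑ i ∈ Finset.Ico j c, S (min i q) := by
    refine Finset.sum_nonneg fun i hi => ?_
    rw [Finset.mem_Ico] at hi
    exact (k10_S_pos hη hS (by omega) (by omega)).le
  linarith

theorem k10_gap (hη : 0 < η) (hS : ∀ q, j ≤ q → q < m → η ≤ S q)
    (hanti : ∀ q q', j ≤ q → q ≤ q' → q' < m → S q' ≤ S q) (hjS : j < m → (j : ℝ) * S j ≤ T)
    {q c c' : ℕ} (hjq : j ≤ q) (hqm : q < m) (hcc : c < c') :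
    k10_off j T S q c + S q ≤ k10_off j T S q c' := by
  have hjm : j < m := by omega
  have hSj : 0 < S j := k10_S_pos hη hS le_rfl hjm
  have hqj : S q ≤ S j := hanti j q le_rfl hjq hqm
  by_cases h1 : c < j
  · have e1 : k10_off j T S q c = c * S j := by rw [k10_off, if_pos h1]
    rw [e1]
    by_cases h2 : c' < j
    · rw [k10_off, if_pos h2]
      have h3 : ((c : ℝ) + 1) ≤ c' := by exact_mod_cast hcc
      have h4 : ((c : ℝ) + 1) * S j ≤ c' * S j := mul_le_mul_of_nonneg_right h3 hSj.le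
      linarith
    · have h3 : ((c : ℝ) + 1) ≤ j := by exact_mod_cast h1
      have h4 : ((c : ℝ) + 1) * S j ≤ j * S j := mul_le_mul_of_nonneg_right h3 hSj.le
      have h5 := hjS hjm
      have h6 := k10_ge (T := T) (c := c') hη hS hjq hqm (by omega)
      linarith
  · rw [k10_off, k10_off, if_neg h1, if_neg (by omega)]
    have h2 : ∑ i ∈ Finset.Ico j c, S (min i q) + ∑ i ∈ Finset.Ico c c', S (min i q) =
        ∑ i ∈ Finset.Ico j c', S (min i q) :=
      Finset.sum_Ico_consecutive _ (by omega) hcc.le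
    have h3 : S q ≤ ∑ i ∈ Finset.Ico c c', S (min i q) := by
      have h4 : S (min c q) ≤ ∑ i ∈ Finset.Ico c c', S (min i q) := by
        refine Finset.single_le_sum (f := fun i => S (min i q)) ?_
          (Finset.mem_Ico.2 ⟨le_rfl, hcc⟩)
        intro i hi
        rw [Finset.mem_Ico] at hi
        exact (k10_S_pos hη hS (by omega) (by omega)).le
      exact (hanti _ _ (by omega) (min_le_right c q) hqm).trans h4
    linarith

theorem k10_nonneg (hη : 0 < η) (hT : η ≤ T) (hS : ∀ q, j ≤ q → q < m → η ≤ S q) {q c : ℕ}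
    (hjq : j ≤ q) (hqm : q < m) : 0 ≤ k10_off j T S q c := by
  by_cases h1 : c < j
  · rw [k10_off, if_pos h1]
    exact mul_nonneg (Nat.cast_nonneg c) (k10_S_pos hη hS le_rfl (by omega)).le
  · exact (hη.le.trans hT).trans (k10_ge hη hS hjq hqm (by omega))

theorem k10_top (hη : 0 < η) (hS : ∀ q, j ≤ q → q < m → η ≤ S q) {q q' : ℕ}
    (hjq : j ≤ q) (hqq : q < q') (hqm : q' ≤ m) :
    k10_off j T S q q + S q ≤ T + ∑ i ∈ Finset.Ico j q', S i := by
  rw [k10_off_eq T S hjq le_rfl]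
  have h1 : ∑ i ∈ Finset.Ico j (q + 1), S i ≤ ∑ i ∈ Finset.Ico j q', S i := by
    refine Finset.sum_le_sum_of_subset_of_nonneg (Finset.Ico_subset_Ico le_rfl (by omega)) ?_
    intro i hi _
    rw [Finset.mem_Ico] at hi
    exact (k10_S_pos hη hS (by omega) (by omega)).le
  rw [Finset.sum_Ico_succ_top hjq] at h1
  linarith

end

theorem k10_mx_lt {n m : ℕ} (w : Fin (n + 1) → Fin m) : mx w < m := by
  have h := mx_eq w
  rw [h]
  exact (w _).2

theorem k10_le_mx {n m : ℕ} (w : Fin n → Fin m) (i : Fin n) : (w i : ℕ) ≤ mx w := by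
  unfold mx
  exact Finset.le_sup (f := fun i => (w i : ℕ)) (Finset.mem_univ i)

theorem k10_cum {d : ℕ} {a b : Fin (d + 1) → ℝ} (h : ∀ k : Fin (d + 1), (k : ℕ) < d → a k = b k)
    (k : Fin (d + 1)) (hk : (k : ℕ) < d) : cum a k = cum b k := by
  unfold cum
  refine Finset.sum_congr rfl fun i _ => ?_
  by_cases hi : i ≤ k
  · rw [if_pos hi, if_pos hi, h i (lt_of_le_of_lt (Fin.le_def.1 hi) hk)]
  · rw [if_neg hi, if_neg hi]

theorem k10_cum_last {d : ℕ} {a b : Fin (d + 1) → ℝ}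
    (h : ∀ k : Fin (d + 1), (k : ℕ) < d → a k = b k)
    (hlt : cum a (Fin.last d) < cum b (Fin.last d)) : a (Fin.last d) < b (Fin.last d) := by
  have e : ∀ x : Fin (d + 1) → ℝ, cum x (Fin.last d) =
      ∑ i : Fin d, x i.castSucc + x (Fin.last d) := by
    intro x
    unfold cum
    rw [← Fin.sum_univ_castSucc]
    refine Finset.sum_congr rfl fun i _ => ?_
    rw [if_pos (Fin.le_last i)]
  rw [e a, e b] at hlt
  have h1 : ∑ i : Fin d, a i.castSucc = ∑ i : Fin d, b i.castSucc := by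
    refine Finset.sum_congr rfl fun i _ => ?_
    exact h _ i.2
  rw [h1] at hlt
  linarith

theorem k10_cell_one {n : ℕ} (T : ℝ) (y : Fin n → ℝ) :
    y ∈ cell (1 : Equiv.Perm (Fin n)) 0 T ↔ y ∈ tri n T := by
  unfold cell
  simp

theorem layers_config (d : ℕ) (hd : 1 ≤ d) (m j : ℕ) (hj : j ≤ m) (T : ℝ) (S : ℕ → ℝ) (η : ℝ)
    (hη : 0 < η) (hT : η ≤ T) (hS : ∀ q, j ≤ q → q < m → η ≤ S q)
    (hanti : ∀ q q', j ≤ q → q ≤ q' → q' < m → S q' ≤ S q) (hjS : j < m → (j : ℝ) * S j ≤ T)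
    (hsum : T + ∑ q ∈ Finset.Ico j m, S q ≤ 1) (δ N : ℝ) (hδ : 0 < δ) (hδ1 : δ ≤ 1)
    (hN : 0 ≤ N) :
    ∃ R0 : ℝ, 0 < R0 ∧ ∀ R, R0 ≤ R →
      ∀ b : Option {w : Fin (d + 1) → Fin m // ∃ i, j ≤ (w i : ℕ)} → ℝ, (∀ x, 0 ≤ b x) →
      b none + η * R ≤ T * R → (∀ w, b (some w) + η * R ≤ S (mx w.1) * R) →
      ∀ (ι : Type) [Fintype ι] (r : ι → ℝ) (J : Finset ι), (∀ i, 0 < r i ∧ r i ≤ 1) →
        (∀ i, i ∉ J → δ ≤ r i) → ∑ i ∈ J, r i ≤ N →
        ∑ x, b x ^ (d + 1) + ∑ i, r i ^ (d + 1) < R ^ (d + 1) →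
        TPk (simplex (d + 1) R) (Sum.elim b r) := by
  have hT0 : 0 < T := lt_of_lt_of_le hη hT
  have hSsum : 0 ≤ ∑ q ∈ Finset.Ico j m, S q := by
    refine Finset.sum_nonneg fun i hi => ?_
    rw [Finset.mem_Ico] at hi
    exact (k10_S_pos hη hS hi.1 hi.2).le
  have hT1 : T ≤ 1 := by linarith
  have hS1 : ∀ q, j ≤ q → q < m → S q ≤ 1 := by
    intro q h1 h2
    have h3 : S q ≤ ∑ i ∈ Finset.Ico j m, S i := by
      refine Finset.single_le_sum (f := S) ?_ (Finset.mem_Ico.2 ⟨h1, h2⟩)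
      intro i hi
      rw [Finset.mem_Ico] at hi
      exact (k10_S_pos hη hS hi.1 hi.2).le
    linarith
  have hgap : ∀ q, j ≤ q → q < m → ∀ c c' : Fin m, c < c' →
      k10_off j T S q c + S q ≤ k10_off j T S q c' := by
    intro q h1 h2 c c' hcc
    exact k10_gap hη hS hanti hjS h1 h2 (Fin.lt_def.1 hcc)
  have hmxj : ∀ w : {w : Fin (d + 1) → Fin m // ∃ i, j ≤ (w i : ℕ)}, j ≤ mx w.1 := by
    rintro ⟨w, i, hi⟩
    exact hi.trans (k10_le_mx w i)
  have hmxm : ∀ w : {w : Fin (d + 1) → Fin m // ∃ i, j ≤ (w i : ℕ)}, mx w.1 < m :=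
    fun w => k10_mx_lt w.1
  -- charts
  obtain ⟨Λ0, v0, hΛ0, hc0⟩ := cell_chart d hd (1 : Equiv.Perm (Fin (d + 1))) 0 T
  have hcw := fun w : {w : Fin (d + 1) → Fin m // ∃ i, j ≤ (w i : ℕ)} =>
    cell_chart d hd (rnk w.1) (fun i => k10_off j T S (mx w.1) (w.1 i)) (S (mx w.1))
  choose Λw vw hΛw hcw using hcw
  have hmem : ∀ (w : {w : Fin (d + 1) → Fin m // ∃ i, j ≤ (w i : ℕ)}) (a : Fin (d + 1) → ℝ),
      a ∈ CE (Λw w) (vw w) (S (mx w.1)) →
        cum a ∈ wcell w.1 (fun c => k10_off j T S (mx w.1) c) (S (mx w.1)) := by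
    intro w a ha
    exact (hcw w a).1 ha
  have hmem0 : ∀ a, a ∈ CE Λ0 v0 T → cum a ∈ tri (d + 1) T := by
    intro a ha
    exact (k10_cell_one T _).1 ((hc0 a).1 ha)
  -- bounds of the last coordinate
  have hlo : ∀ (w : {w : Fin (d + 1) → Fin m // ∃ i, j ≤ (w i : ℕ)}) (y : Fin (d + 1) → ℝ),
      y ∈ wcell w.1 (fun c => k10_off j T S (mx w.1) c) (S (mx w.1)) →
        k10_off j T S (mx w.1) (mx w.1) < y (Fin.last d) ∧
          y (Fin.last d) < k10_off j T S (mx w.1) (mx w.1) + S (mx w.1) := by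
    intro w y hy
    have h1 := wcell_mem' hy (Fin.last d)
    rw [← mx_eq] at h1
    exact h1
  have key := cells_packs_key d hd (Option {w : Fin (d + 1) → Fin m // ∃ i, j ≤ (w i : ℕ)})
    (fun x => Option.elim x Λ0 Λw) (fun x => Option.elim x v0 vw)
    (fun x => Option.elim x T (fun w => S (mx w.1)))
    (fun x => Option.elim x 0
      (fun w => 1 + (mx w.1) * (d + 2) + (Tuple.sort w.1 (Fin.last d) : ℕ)))
    (by
      rintro (_ | w)
      · exact hΛ0
      · exact hΛw w)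
    (by
      rintro (_ | w)
      · exact hT1
      · exact hS1 _ (hmxj w) (hmxm w))
    (by
      rintro (_ | w) a ha
      · have h1 := (cum_tri a T hT0).1 (hmem0 a ha)
        exact ⟨h1.1, h1.2.trans_le hT1⟩
      · have h1 := hmem w a ha
        refine (cum_tri a 1 one_pos).1 ⟨?_, ?_, ?_⟩
        · intro i
          have h2 := wcell_mem' h1 i
          exact lt_of_le_of_lt (k10_nonneg hη hT hS (hmxj w) (hmxm w)) h2.1
        · exact wcell_strictMono (hgap _ (hmxj w) (hmxm w)) h1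
        · intro i
          have h3 := (hlo w _ h1).2
          have h4 : cum a i ≤ cum a (Fin.last d) :=
            (wcell_strictMono (hgap _ (hmxj w) (hmxm w)) h1).monotone (Fin.le_last i)
          have h5 := k10_top (T := T) hη hS (hmxj w) (hmxm w) le_rfl
          linarith)
    (by
      rintro (_ | w) (_ | w') hne hk a ha b hb hab
      · exact absurd rfl hne
      · refine k10_cum_last hab ?_
        have h1 := (hmem0 a ha).2.2 (Fin.last d)
        have h2 := (hlo w' _ (hmem w' b hb)).1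
        have h3 := k10_ge (T := T) (c := mx w'.1) hη hS (hmxj w') (hmxm w') (hmxj w')
        linarith
      · simp only [Option.elim_some, Option.elim_none] at hk
        omega
      · refine k10_cum_last hab ?_
        simp only [Option.elim_some] at hk ha hb
        have hp : (Tuple.sort w.1 (Fin.last d) : ℕ) < d + 1 := Fin.is_lt _
        have hp' : (Tuple.sort w'.1 (Fin.last d) : ℕ) < d + 1 := Fin.is_lt _
        have hle : mx w.1 ≤ mx w'.1 := by
          by_contra hcon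
          have h1 : (mx w'.1 + 1) * (d + 2) ≤ mx w.1 * (d + 2) :=
            Nat.mul_le_mul_right _ (by omega)
          rw [Nat.add_mul, Nat.one_mul] at h1
          omega
        rcases hle.lt_or_eq with hlt | heq
        · have h1 := (hlo w _ (hmem w a ha)).2
          have h2 := (hlo w' _ (hmem w' b hb)).1
          have h3 := k10_top (T := T) hη hS (hmxj w) hlt (hmxm w').le
          rw [k10_off_eq T S (hmxj w') le_rfl] at h2
          linarith
        · have h1 := hmem w a ha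
          have h2 := hmem w' b hb
          rw [← heq] at h2
          refine wcell_order (hgap _ (hmxj w) (hmxm w)) h1 h2 (k10_cum hab) heq ?_ ?_
          · rw [Fin.le_def]
            rw [heq] at hk
            omega
          · intro hww
            exact hne (congrArg some (Subtype.ext hww)))
    η hη
    (by
      rintro (_ | w)
      · exact hT
      · exact hS _ (hmxj w) (hmxm w))
    δ N hδ hδ1 hN
  obtain ⟨R0, hR0, hkey⟩ := key
  refine ⟨R0, hR0, ?_⟩
  intro R hR b hb0 hbn hbs ι _ r J hr hJ hJN hvol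
  refine hkey R hR b hb0 ?_ ι r J hr hJ hJN hvol
  rintro (_ | w)
  · exact hbn
  · exact hbs w

end Vale.Agent.P209.Strong
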