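import Vale.Agent.P209.Strong.Base
import Vale.Agent.P209.OpenEmb

namespace Vale.Agent.P209.Strong

open Vale.Agent.P209 MeasureTheory

open scoped ContDiff

theorem e1b_smul_sum {n : ℕ} (c : ℝ) (z : Fin n → ℂ) :
    Real.pi * ∑ j, ‖(c • z) j‖ ^ 2 = c ^ 2 * (Real.pi * ∑ j, ‖z j‖ ^ 2) := by
  have h1 : ∀ j, ‖(c • z) j‖ ^ 2 = c ^ 2 * ‖z j‖ ^ 2 := by
    intro j
    rw [Pi.smul_apply, norm_smul, mul_pow, Real.norm_eq_abs, sq_abs]
  rw [Finset.sum_congr rfl fun j _ => h1 j, ← Finset.mul_sum]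
  ring

theorem e1b_closed {n : ℕ} {c s ρ : ℝ} (hc : 0 < c) (hcs : c ^ 2 = s) {z : Fin n → ℂ}
    (hz : z ∈ closedBall n (s * ρ)) : c⁻¹ • z ∈ closedBall n ρ := by
  unfold closedBall at hz ⊢
  simp only [Set.mem_ofPred_eq] at hz ⊢
  rw [e1b_smul_sum, inv_pow, inv_mul_le_iff₀ (by positivity), hcs]
  exact hz

theorem e1b_open {n : ℕ} {c s ρ : ℝ} (hc : 0 < c) (hcs : c ^ 2 = s) {z : Fin n → ℂ}
    (hz : z ∈ openBall n ρ) : c • z ∈ openBall n (s * ρ) := by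
  unfold openBall at hz ⊢
  simp only [Set.mem_ofPred_eq] at hz ⊢
  rw [e1b_smul_sum, ← hcs]
  exact mul_lt_mul_of_pos_left hz (by positivity)

/-- scaling -/
theorem Packs.scale {n : ℕ} {ι : Type} {R : ℝ} {r : ι → ℝ} {s : ℝ} (hs : 0 < s)
    (h : Packs (openBall n R) r) : Packs (openBall n (s * R)) (fun i => s * r i) := by
  obtain ⟨f, hf, hfR, hfd⟩ := h
  have hc : 0 < √s := Real.sqrt_pos.2 hs
  have hcs : √s ^ 2 = s := Real.sq_sqrt hs.le
  have hc0 : √s ≠ 0 := hc.ne'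
  refine ⟨fun i z => √s • f i ((√s)⁻¹ • z), ?_, ?_, ?_⟩
  · intro i
    obtain ⟨U, hUo, hU, hfU, hemb, hsy⟩ := hf i
    have hinj : Set.InjOn (f i) U := by
      intro a ha b hb hab
      have h1 := hemb.injective (a₁ := ⟨a, ha⟩) (a₂ := ⟨b, hb⟩) hab
      exact congrArg Subtype.val h1
    have hlin : ContDiff ℝ ∞ fun z : Fin n → ℂ => (√s)⁻¹ • z := contDiff_id.const_smul _
    have hV : IsOpen ((fun z : Fin n → ℂ => (√s)⁻¹ • z) ⁻¹' U) := hUo.preimage hlin.continuous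
    have hcd : ContDiffOn ℝ ∞ (fun z => √s • f i ((√s)⁻¹ • z))
        ((fun z : Fin n → ℂ => (√s)⁻¹ • z) ⁻¹' U) :=
      (hfU.comp hlin.contDiffOn fun z hz => hz).const_smul _
    have hder : ∀ z ∈ ((fun z : Fin n → ℂ => (√s)⁻¹ • z) ⁻¹' U), ∀ v,
        fderiv ℝ (fun z => √s • f i ((√s)⁻¹ • z)) z v = fderiv ℝ (f i) ((√s)⁻¹ • z) v := by
      intro z hz v
      have h1 : HasFDerivAt (f i) (fderiv ℝ (f i) ((√s)⁻¹ • z)) ((√s)⁻¹ • z) :=
        ((hfU.contDiffAt (hUo.mem_nhds hz)).differentiableAt (by simp)).hasFDerivAt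
      have h2 : HasFDerivAt (fun z : Fin n → ℂ => (√s)⁻¹ • z)
          ((√s)⁻¹ • ContinuousLinearMap.id ℝ (Fin n → ℂ)) z :=
        ((√s)⁻¹ • ContinuousLinearMap.id ℝ (Fin n → ℂ)).hasFDerivAt
      have h3 := (h1.comp z h2).const_smul (√s)
      have h4 : fderiv ℝ (fun z => √s • f i ((√s)⁻¹ • z)) z = _ := h3.fderiv
      rw [h4]
      simp only [_root_.smul_apply, ContinuousLinearMap.comp_apply,
        ContinuousLinearMap.id_apply, map_smul]
      rw [smul_smul, mul_inv_cancel₀ hc0, one_smul]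
    have hsy' : ∀ z ∈ ((fun z : Fin n → ℂ => (√s)⁻¹ • z) ⁻¹' U), ∀ v w : Fin n → ℂ,
        omega (fderiv ℝ (fun z => √s • f i ((√s)⁻¹ • z)) z v)
          (fderiv ℝ (fun z => √s • f i ((√s)⁻¹ • z)) z w) = omega v w := by
      intro z hz v w
      rw [hder z hz v, hder z hz w]
      exact hsy _ hz v w
    refine ⟨_, hV, fun z hz => hU (e1b_closed hc hcs hz), hcd, ?_, hsy'⟩
    refine isOpenEmbedding_of_sympl hV hcd ?_ hsy'
    intro a ha b hb hab
    have h1 : f i ((√s)⁻¹ • a) = f i ((√s)⁻¹ • b) := smul_right_injective _ hc0 hab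
    exact smul_right_injective _ (inv_ne_zero hc0) (hinj ha hb h1)
  · rintro i _ ⟨z, hz, rfl⟩
    exact e1b_open hc hcs (hfR i ⟨_, e1b_closed hc hcs hz, rfl⟩)
  · intro i j hij
    rw [Set.disjoint_left]
    rintro _ ⟨z, hz, rfl⟩ ⟨w, hw, hzw⟩
    have h1 : f j ((√s)⁻¹ • w) = f i ((√s)⁻¹ • z) := smul_right_injective _ hc0 hzw
    exact Set.disjoint_left.1 (hfd hij) ⟨_, e1b_closed hc hcs hz, rfl⟩
      ⟨_, e1b_closed hc hcs hw, h1⟩

theorem Packs.comp_inj {n : ℕ} {ι κ : Type} {S : Set (Fin n → ℂ)} {r : ι → ℝ} (h : Packs S r)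
    (e : κ → ι) (he : Function.Injective e) : Packs S (fun k => r (e k)) := by
  obtain ⟨f, hf, hfR, hfd⟩ := h
  exact ⟨fun k => f (e k), fun k => hf (e k), fun k => hfR (e k), fun i j hij =>
    hfd fun h => hij (he h)⟩

/-- Composition of symplectic embeddings of balls. -/
theorem e1b_comp {n : ℕ} {r ρ : ℝ} {F g : (Fin n → ℂ) → (Fin n → ℂ)}
    (hF : IsSymplecticEmbedding ρ F) (hg : IsSymplecticEmbedding r g)
    (hgr : g '' closedBall n r ⊆ closedBall n ρ) : IsSymplecticEmbedding r fun z => F (g z) := by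
  obtain ⟨U, hUo, hU, hFU, hFe, hFs⟩ := hF
  obtain ⟨V, hVo, hV, hgV, hge, hgs⟩ := hg
  have hFi : Set.InjOn F U := by
    intro a ha b hb hab
    have h1 := hFe.injective (a₁ := ⟨a, ha⟩) (a₂ := ⟨b, hb⟩) hab
    exact congrArg Subtype.val h1
  have hgi : Set.InjOn g V := by
    intro a ha b hb hab
    have h1 := hge.injective (a₁ := ⟨a, ha⟩) (a₂ := ⟨b, hb⟩) hab
    exact congrArg Subtype.val h1
  have hW : IsOpen (V ∩ g ⁻¹' U) := hgV.continuousOn.isOpen_inter_preimage hVo hUo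
  have hcd : ContDiffOn ℝ ∞ (fun z => F (g z)) (V ∩ g ⁻¹' U) :=
    hFU.comp (hgV.mono Set.inter_subset_left) fun z hz => hz.2
  have hsy : ∀ z ∈ V ∩ g ⁻¹' U, ∀ v w : Fin n → ℂ, omega (fderiv ℝ (fun z => F (g z)) z v)
      (fderiv ℝ (fun z => F (g z)) z w) = omega v w := by
    intro z hz v w
    have h1 : DifferentiableAt ℝ F (g z) :=
      (hFU.contDiffAt (hUo.mem_nhds hz.2)).differentiableAt (by simp)
    have h2 : DifferentiableAt ℝ g z :=
      (hgV.contDiffAt (hVo.mem_nhds hz.1)).differentiableAt (by simp)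
    have h3 : fderiv ℝ (fun z => F (g z)) z = (fderiv ℝ F (g z)).comp (fderiv ℝ g z) :=
      fderiv_comp z h1 h2
    rw [h3]
    simp only [ContinuousLinearMap.comp_apply]
    rw [hFs _ hz.2, hgs _ hz.1]
  refine ⟨V ∩ g ⁻¹' U, hW, fun z hz => ⟨hV hz, hU (hgr ⟨z, hz, rfl⟩)⟩, hcd, ?_, hsy⟩
  refine isOpenEmbedding_of_sympl hW hcd ?_ hsy
  intro a ha b hb hab
  exact hgi ha.1 hb.1 (hFi ha.2 hb.2 hab)

theorem e1b_open_sub_closed {n : ℕ} {ρ : ℝ} : openBall n ρ ⊆ closedBall n ρ :=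
  fun z hz => le_of_lt (show Real.pi * ∑ j, ‖z j‖ ^ 2 < ρ from hz)

/-- Replacing a group of balls by a virtual ball. -/
theorem Packs.merge {n : ℕ} {ι : Type} {R ρ : ℝ} {r : ι → ℝ} (G : Set ι)
    (h : Packs (openBall n R) (fun o : Option (Gᶜ : Set ι) => o.elim ρ (fun i => r i)))
    (hG : Packs (openBall n ρ) (fun i : G => r i)) : Packs (openBall n R) r := by
  classical
  obtain ⟨F, hF, hFR, hFd⟩ := h
  obtain ⟨g, hg, hgR, hgd⟩ := hG
  have hsub : ∀ i : G, g i '' closedBall n (r i) ⊆ closedBall n ρ := fun i =>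
    (hgR i).trans e1b_open_sub_closed
  have himg : ∀ i : G, (fun z => F none (g i z)) '' closedBall n (r i) ⊆
      F none '' closedBall n ρ := by
    rintro i _ ⟨z, hz, rfl⟩
    exact ⟨_, hsub i ⟨z, hz, rfl⟩, rfl⟩
  obtain ⟨U, hUo, hU, hFU, hFe, hFs⟩ := hF none
  have hFi : Set.InjOn (F none) U := by
    intro a ha b hb hab
    have h1 := hFe.injective (a₁ := ⟨a, ha⟩) (a₂ := ⟨b, hb⟩) hab
    exact congrArg Subtype.val h1
  refine ⟨fun i => if hi : i ∈ G then fun z => F none (g ⟨i, hi⟩ z) else F (some ⟨i, hi⟩),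
    ?_, ?_, ?_⟩
  · intro i
    by_cases hi : i ∈ G
    · simp only [dif_pos hi]
      exact e1b_comp (hF none) (hg ⟨i, hi⟩) (hsub ⟨i, hi⟩)
    · simp only [dif_neg hi]
      exact hF (some ⟨i, hi⟩)
  · intro i
    by_cases hi : i ∈ G
    · simp only [dif_pos hi]
      exact (himg ⟨i, hi⟩).trans (hFR none)
    · simp only [dif_neg hi]
      exact hFR (some ⟨i, hi⟩)
  · intro i j hij
    by_cases hi : i ∈ G
    · by_cases hj : j ∈ G
      · simp only [dif_pos hi, dif_pos hj]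
        rw [Set.disjoint_left]
        rintro _ ⟨z, hz, rfl⟩ ⟨w, hw, hzw⟩
        have h1 : g ⟨j, hj⟩ w = g ⟨i, hi⟩ z :=
          hFi (hU (hsub ⟨j, hj⟩ ⟨w, hw, rfl⟩)) (hU (hsub ⟨i, hi⟩ ⟨z, hz, rfl⟩)) hzw
        have h2 : (⟨i, hi⟩ : G) ≠ ⟨j, hj⟩ := fun h => hij (congrArg Subtype.val h)
        exact Set.disjoint_left.1 (hgd h2) ⟨z, hz, rfl⟩ ⟨w, hw, h1⟩
      · simp only [dif_pos hi, dif_neg hj]
        exact (hFd (Option.some_ne_none _).symm).mono_left (himg ⟨i, hi⟩)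
    · by_cases hj : j ∈ G
      · simp only [dif_neg hi, dif_pos hj]
        exact (hFd (Option.some_ne_none _)).mono_right (himg ⟨j, hj⟩)
      · simp only [dif_neg hi, dif_neg hj]
        exact hFd fun h => hij (congrArg Subtype.val (Option.some_injective _ h))

end Vale.Agent.P209.Strong
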