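import Vale.Agent.P209.Strong.E1

set_option linter.all false

namespace Vale.Agent.P209.Strong

open Vale.Agent.P209

/-- Merging a group of small balls, in the presence of big balls. -/
theorem h4_merge {n : ℕ} {κ ι : Type} {R ρ : ℝ} (b : κ → ℝ) (r : ι → ℝ) (G : Set ι)
    (h : Packs (openBall n R)
      (Sum.elim b (fun o : Option (Gᶜ : Set ι) => o.elim ρ (fun i => r i))))
    (hG : Packs (openBall n ρ) (fun i : G => r i)) : Packs (openBall n R) (Sum.elim b r) := by
  refine Packs.merge (ρ := ρ) (Sum.inr '' G) ?_ ?_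
  · have e : ∀ o : Option (((Sum.inr '' G : Set (κ ⊕ ι))ᶜ : Set (κ ⊕ ι))),
        ∃ x : κ ⊕ Option (Gᶜ : Set ι),
          (o = none ∧ x = Sum.inr none) ∨
          (∃ (p : κ) (hp : Sum.inl p ∈ (Sum.inr '' G : Set (κ ⊕ ι))ᶜ),
            o = some ⟨Sum.inl p, hp⟩ ∧ x = Sum.inl p) ∨
          (∃ (i : ι) (hi : Sum.inr i ∈ (Sum.inr '' G : Set (κ ⊕ ι))ᶜ) (hi' : i ∈ Gᶜ),
            o = some ⟨Sum.inr i, hi⟩ ∧ x = Sum.inr (some ⟨i, hi'⟩)) := by
      rintro (_ | ⟨p | i, hp⟩)
      · exact ⟨_, Or.inl ⟨rfl, rfl⟩⟩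
      · exact ⟨_, Or.inr (Or.inl ⟨p, hp, rfl, rfl⟩)⟩
      · exact ⟨_, Or.inr (Or.inr ⟨i, hp, fun h => hp ⟨i, h, rfl⟩, rfl, rfl⟩)⟩
    choose e he using e
    have hinj : Function.Injective e := by
      intro o o' hoo
      rcases he o with ⟨h1, h2⟩ | ⟨p, hp, h1, h2⟩ | ⟨i, hi, hi', h1, h2⟩ <;>
      rcases he o' with ⟨h3, h4⟩ | ⟨q, hq, h3, h4⟩ | ⟨j, hj, hj', h3, h4⟩
      · rw [h1, h3]
      · rw [h2, h4] at hoo; simp at hoo
      · rw [h2, h4] at hoo; simp at hoo
      · rw [h2, h4] at hoo; simp at hoo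
      · rw [h2, h4] at hoo
        obtain rfl := Sum.inl_injective hoo
        rw [h1, h3]
      · rw [h2, h4] at hoo; simp at hoo
      · rw [h2, h4] at hoo; simp at hoo
      · rw [h2, h4] at hoo; simp at hoo
      · rw [h2, h4] at hoo
        have h5 := congrArg Subtype.val (Option.some_injective _ (Sum.inr_injective hoo))
        simp only at h5
        subst h5
        rw [h1, h3]
    have h6 := Packs.comp_inj h e hinj
    have e3 : (fun o => Sum.elim b (fun o : Option (Gᶜ : Set ι) => o.elim ρ (fun i => r i)) (e o)) =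
        fun o : Option (((Sum.inr '' G : Set (κ ⊕ ι))ᶜ : Set (κ ⊕ ι))) =>
          o.elim ρ (fun i => Sum.elim b r i) := by
      funext o
      rcases he o with ⟨h1, h2⟩ | ⟨p, hp, h1, h2⟩ | ⟨i, hi, hi', h1, h2⟩
      · rw [h2, h1]; rfl
      · rw [h2, h1]; rfl
      · rw [h2, h1]; rfl
    rw [e3] at h6
    exact h6
  · have e : ∀ x : (Sum.inr '' G : Set (κ ⊕ ι)), ∃ y : G, (x : κ ⊕ ι) = Sum.inr (y : ι) := by
      rintro ⟨_, i, hi, rfl⟩
      exact ⟨⟨i, hi⟩, rfl⟩
    choose e he using e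
    have hinj : Function.Injective e := by
      intro x y hxy
      apply Subtype.ext
      rw [he x, he y, hxy]
    have h6 := Packs.comp_inj hG e hinj
    have e3 : (fun k => (fun i : G => r i) (e k)) =
        fun i : (Sum.inr '' G : Set (κ ⊕ ι)) => Sum.elim b r i := by
      funext x
      rw [he x]
      rfl
    rw [e3] at h6
    exact h6

/-- Reduction to small balls with few dyadic classes, by merging groups of tiny balls. -/
theorem merging (n : ℕ) (hn : 2 ≤ n) : ∃ (Nr : ℕ) (δ1 : ℝ), 0 < δ1 ∧ δ1 ≤ 1 ∧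
    ∀ (R s : ℝ) (κ : Type) [Fintype κ] (b : κ → ℝ), 0 < R → 0 < s → (∀ p, 0 < b p) →
      (∀ (ι : Type) [Fintype ι] (r : ι → ℝ) (J : Finset ι), (∀ i, 0 < r i ∧ r i ≤ s) →
        (∀ i, i ∉ J → δ1 * s ≤ r i) → ∑ i ∈ J, r i ≤ 2 * Nr * s →
        ∑ p, b p ^ n + ∑ i, r i ^ n < R ^ n → Packs (openBall n R) (Sum.elim b r)) →
      ∀ (ι : Type) [Fintype ι] (r : ι → ℝ), (∀ i, 0 < r i ∧ r i ≤ s) →
        ∑ p, b p ^ n + ∑ i, r i ^ n < R ^ n → Packs (openBall n R) (Sum.elim b r) := by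
  classical
  obtain ⟨R1, hR1, hF1⟩ := simplex_fill n hn (1 / 2) 0 (by norm_num) (by norm_num) le_rfl
  set m1 : ℝ := max R1 2 with hm1
  have hm1R : R1 ≤ m1 := le_max_left _ _
  have hm12 : 2 ≤ m1 := le_max_right _ _
  set Nr : ℕ := ⌈(2 * m1) ^ n⌉₊ with hNr
  have hNr1 : (2 * m1) ^ n ≤ (Nr : ℝ) := Nat.le_ceil _
  have hNr2 : 2 ≤ Nr := by
    have h1 : (1 : ℝ) ≤ 2 * m1 := by linarith only [hm12]
    have h2 : (2 * m1) ^ 1 ≤ (2 * m1) ^ n := pow_le_pow_right₀ h1 (by omega)
    have h3 : (2 : ℝ) ≤ (Nr : ℝ) := by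
      rw [pow_one] at h2; linarith only [h2, hNr1, hm12]
    exact_mod_cast h3
  have hNrR : (2 : ℝ) ≤ (Nr : ℝ) := by exact_mod_cast hNr2
  set δ1 : ℝ := 1 / (2 * (Nr + 1)) with hδ1
  have hδ1p : 0 < δ1 := by positivity
  have hδ1l : δ1 ≤ 1 := by
    rw [hδ1, div_le_one (by positivity)]; linarith only [hNrR]
  refine ⟨Nr, δ1, hδ1p, hδ1l, ?_⟩
  intro R s κ _ b hR hsp hb hbase
  have hbnn : 0 ≤ ∑ p, b p ^ n := Finset.sum_nonneg fun p _ => pow_nonneg (hb p).le n
  -- strong induction on the number of balls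
  have key : ∀ k : ℕ, ∀ (ι : Type) [Fintype ι], Fintype.card ι = k → ∀ (r : ι → ℝ),
      (∀ i, 0 < r i ∧ r i ≤ s) → ∑ p, b p ^ n + ∑ i, r i ^ n < R ^ n →
      Packs (openBall n R) (Sum.elim b r) := by
    intro k
    induction k using Nat.strong_induction_on with
    | _ k ih =>
    intro ι _ hcard r hrs hsum
    by_cases hcase : ∃ (j : ℕ) (G : Finset ι), (1 / 2 : ℝ) ^ j * (Nr + 1) ≤ 1 ∧
        (∀ k ∈ G, (1 / 2 : ℝ) ^ (j + 1) * s < r k ∧ r k ≤ (1 / 2 : ℝ) ^ j * s) ∧ G.card = Nr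
    · obtain ⟨j, G, hj, hG, hGc⟩ := hcase
      set y : ℝ := (1 / 2 : ℝ) ^ j * s with hy
      have hyp : 0 < y := by positivity
      have hGy : ∀ k ∈ G, 1 / 2 * y < r k ∧ r k ≤ y := by
        intro k hk
        refine ⟨?_, (hG k hk).2⟩
        have := (hG k hk).1
        rw [pow_succ] at this
        rw [hy]; linarith only [this]
      set θ : ℝ := min ((R ^ n - (∑ p, b p ^ n + ∑ i, r i ^ n)) / 2) (y ^ n) with hθ
      have hθp : 0 < θ := lt_min (by linarith only [hsum]) (by positivity)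
      have hθ1 : θ ≤ (R ^ n - (∑ p, b p ^ n + ∑ i, r i ^ n)) / 2 := min_le_left _ _
      have hθ2 : θ ≤ y ^ n := min_le_right _ _
      set P : ℝ := ∑ i ∈ G, r i ^ n + θ with hP
      have hGnn : 0 ≤ ∑ i ∈ G, r i ^ n := Finset.sum_nonneg fun i _ => pow_nonneg (hrs i).1.le n
      have hPp : 0 < P := by rw [hP]; linarith only [hGnn, hθp]
      set ρ : ℝ := P ^ ((n : ℝ)⁻¹) with hρ
      have hρp : 0 < ρ := Real.rpow_pos_of_pos hPp _
      have hρn : ρ ^ n = P := Real.rpow_inv_natCast_pow hPp.le (by omega)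
      have hlow : m1 * y ≤ ρ := by
        have h1 : (m1 * y) ^ n ≤ ρ ^ n := by
          rw [hρn, hP]
          have h2 : ∑ i ∈ G, (1 / 2 * y) ^ n ≤ ∑ i ∈ G, r i ^ n :=
            Finset.sum_le_sum fun i hi => pow_le_pow_left₀ (by positivity) (hGy i hi).1.le n
          rw [Finset.sum_const, nsmul_eq_mul, hGc] at h2
          have h3 : (m1 * y) ^ n = (2 * m1) ^ n * (1 / 2 * y) ^ n := by
            rw [← mul_pow]; congr 1; ring
          have h4 : (2 * m1) ^ n * (1 / 2 * y) ^ n ≤ (Nr : ℝ) * (1 / 2 * y) ^ n :=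
            mul_le_mul_of_nonneg_right hNr1 (by positivity)
          linarith only [h2, h3, h4, hθp]
        exact le_of_pow_le_pow_left₀ (by omega) hρp.le h1
      have hup : ρ ≤ s := by
        have h1 : ρ ^ n ≤ ((Nr + 1) * y) ^ n := by
          rw [hρn, hP]
          have h2 : ∑ i ∈ G, r i ^ n ≤ ∑ i ∈ G, y ^ n :=
            Finset.sum_le_sum fun i hi => pow_le_pow_left₀ (hrs i).1.le (hGy i hi).2 n
          rw [Finset.sum_const, nsmul_eq_mul, hGc] at h2
          have h3 : ((Nr : ℝ) + 1) * y ^ n ≤ ((Nr + 1) * y) ^ n := by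
            have h31 : ((Nr : ℝ) + 1) ≤ ((Nr : ℝ) + 1) ^ n := by
              calc ((Nr : ℝ) + 1) = ((Nr : ℝ) + 1) ^ 1 := (pow_one _).symm
                _ ≤ ((Nr : ℝ) + 1) ^ n := pow_le_pow_right₀ (by linarith only [hNrR]) (by omega)
            have h32 : (((Nr : ℝ) + 1) * y) ^ n = ((Nr : ℝ) + 1) ^ n * y ^ n :=
              mul_pow ((Nr : ℝ) + 1) y n
            rw [h32]
            exact mul_le_mul_of_nonneg_right h31 (pow_nonneg hyp.le n)
          linarith only [h2, h3, hθ2]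
        have h4 : ρ ≤ (Nr + 1) * y := le_of_pow_le_pow_left₀ (by omega) (by positivity) h1
        have h5 : (Nr + 1) * y ≤ s := by
          rw [hy]
          calc ((Nr : ℝ) + 1) * ((1 / 2 : ℝ) ^ j * s) = ((1 / 2 : ℝ) ^ j * (Nr + 1)) * s := by ring
            _ ≤ 1 * s := mul_le_mul_of_nonneg_right hj hsp.le
            _ = s := one_mul s
        exact h4.trans h5
      -- the group packs the virtual ball
      have hpackG : Packs (openBall n ρ) (fun i : (G : Set ι) => r i) := by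
        have hm : 0 < ρ / y := div_pos hρp hyp
        have hm' : R1 ≤ ρ / y := by
          rw [le_div_iff₀ hyp]
          calc R1 * y ≤ m1 * y := mul_le_mul_of_nonneg_right hm1R hyp.le
            _ ≤ ρ := hlow
        have hmy : ρ / y * y = ρ := by field_simp
        have := packs_of_Fill hm hyp (hF1 _ hm') (G : Set ι) (fun i : (G : Set ι) => r i) ∅
          (fun i => ⟨(hrs i).1, (hGy i i.2).2⟩) (fun i _ => (hGy i i.2).1.le) (by simp) (by
            rw [hmy, hρn, hP]
            have h1 : ∑ i : (G : Set ι), r i ^ n = ∑ i ∈ G, r i ^ n := by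
              rw [← Finset.sum_coe_sort G]
              rfl
            rw [h1]; linarith only [hθp])
        rwa [hmy] at this
      refine h4_merge b r (G : Set ι) (ρ := ρ) ?_ hpackG
      -- the family with the virtual ball
      have hcompl : Fintype.card (↥((G : Set ι)ᶜ)) = k - Nr := by
        rw [Fintype.card_compl_set]
        simp [hcard, hGc]
      have hGk : Nr ≤ k := by
        rw [← hcard, ← hGc]; exact Finset.card_le_univ G
      refine ih (k - Nr + 1) (by omega) (Option (↥((G : Set ι)ᶜ))) (by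
        rw [Fintype.card_option, hcompl]) _ ?_ ?_
      · rintro (_ | i)
        · exact ⟨hρp, hup⟩
        · exact hrs i
      · rw [Fintype.sum_option]
        show ∑ p, b p ^ n + (ρ ^ n + ∑ i : ↥((G : Set ι)ᶜ), r i ^ n) < R ^ n
        have h1 : ∑ i : ↥((G : Set ι)ᶜ), r i ^ n = ∑ i ∈ Gᶜ, r i ^ n := by
          rw [← Finset.sum_coe_sort Gᶜ]
          refine Fintype.sum_equiv (Equiv.subtypeEquivRight ?_) _ _ ?_
          · intro x; simp
          · intro x; rfl
        rw [h1, hρn, hP]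
        have h2 := Finset.sum_add_sum_compl G (fun i => r i ^ n)
        linarith only [h2, hθ1, hθp, hsum]
    · push Not at hcase
      -- the least `j0` with `2^{-j0} (Nr + 1) ≤ 1`
      have hex : ∃ j : ℕ, (1 / 2 : ℝ) ^ j * (Nr + 1) ≤ 1 := by
        obtain ⟨j, hj⟩ := exists_pow_lt_of_lt_one (x := 1 / ((Nr : ℝ) + 1)) (y := 1 / 2)
          (by positivity) (by norm_num)
        refine ⟨j, ?_⟩
        rw [lt_div_iff₀ (by positivity)] at hj
        exact hj.le
      set j0 := Nat.find hex with hj0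
      have hj0s : (1 / 2 : ℝ) ^ j0 * (Nr + 1) ≤ 1 := Nat.find_spec hex
      have hj0p : j0 ≠ 0 := by
        intro h0
        rw [h0, pow_zero, one_mul] at hj0s
        linarith only [hj0s, hNrR]
      have hj0m : 1 < (1 / 2 : ℝ) ^ (j0 - 1) * (Nr + 1) := by
        have := Nat.find_min hex (m := j0 - 1) (by omega)
        push Not at this
        exact this
      have hδj : δ1 ≤ (1 / 2 : ℝ) ^ j0 := by
        have h1 : (1 / 2 : ℝ) ^ (j0 - 1) = 2 * (1 / 2 : ℝ) ^ j0 := by
          obtain ⟨i, hi⟩ := Nat.exists_eq_succ_of_ne_zero hj0p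
          rw [hi, Nat.succ_sub_one, pow_succ]; ring
        rw [h1] at hj0m
        rw [hδ1, div_le_iff₀ (by positivity)]
        linarith only [hj0m]
      set J : Finset ι := Finset.univ.filter fun i => r i ≤ (1 / 2 : ℝ) ^ j0 * s with hJ
      have hJsum : ∑ i ∈ J, r i ≤ 2 * Nr * s := by
        refine sum_small_le r s hsp Nr J (fun i _ => hrs i) ?_
        intro i hi j hj1 hj2 G hG
        by_contra hlt
        push Not at hlt
        obtain ⟨G', hG', hG'c⟩ := Finset.exists_subset_card_eq hlt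
        have hjj : j0 ≤ j := by
          by_contra hh
          push Not at hh
          have h1 : (1 / 2 : ℝ) ^ j0 ≤ (1 / 2 : ℝ) ^ (j + 1) :=
            pow_le_pow_of_le_one (by norm_num) (by norm_num) hh
          have h2 : r i ≤ (1 / 2 : ℝ) ^ j0 * s := by
            rw [hJ, Finset.mem_filter] at hi; exact hi.2
          have h3 : (1 / 2 : ℝ) ^ j0 * s ≤ (1 / 2 : ℝ) ^ (j + 1) * s :=
            mul_le_mul_of_nonneg_right h1 hsp.le
          linarith only [h2, h3, hj1]
        have hj : (1 / 2 : ℝ) ^ j * (Nr + 1) ≤ 1 := by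
          have h1 : (1 / 2 : ℝ) ^ j ≤ (1 / 2 : ℝ) ^ j0 :=
            pow_le_pow_of_le_one (by norm_num) (by norm_num) hjj
          have h2 : (1 / 2 : ℝ) ^ j * ((Nr : ℝ) + 1) ≤ (1 / 2 : ℝ) ^ j0 * (Nr + 1) :=
            mul_le_mul_of_nonneg_right h1 (by positivity)
          linarith only [h2, hj0s]
        exact hcase j G' hj (fun k hk => hG k (hG' hk)) hG'c
      exact hbase ι r J hrs (by
          intro i hi
          have h1 : (1 / 2 : ℝ) ^ j0 * s < r i := by
            by_contra hh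
            push Not at hh
            exact hi (by rw [hJ, Finset.mem_filter]; exact ⟨Finset.mem_univ i, hh⟩)
          have h2 : δ1 * s ≤ (1 / 2 : ℝ) ^ j0 * s := mul_le_mul_of_nonneg_right hδj hsp.le
          exact h2.trans h1.le) hJsum hsum
  intro ι _ r hr hsum
  exact key (Fintype.card ι) ι rfl r hr hsum

end Vale.Agent.P209.Strong
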