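import Vale.Agent.P209.Strong.D3a

namespace Vale.Agent.P209.Strong

open MeasureTheory

namespace HM

/-- block sum, split off one coordinate -/
theorem bsum_succ {n : ℕ} {k : ℕ} (j : Fin n) (hj : k ≤ (j : ℕ)) (a : Fin n → ℝ) :
    bsum k (j + 1) a = bsum k j a + a j := by
  unfold bsum
  have h : ∀ i : Fin n, (if k ≤ (i : ℕ) ∧ (i : ℕ) < (j : ℕ) + 1 then a i else 0) =
      (if k ≤ (i : ℕ) ∧ (i : ℕ) < (j : ℕ) then a i else 0) + (if i = j then a i else 0) := by
    intro i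
    by_cases h1 : i = j
    · subst h1
      have h2 : ¬ (k ≤ (i : ℕ) ∧ (i : ℕ) < (i : ℕ)) := by omega
      have h3 : k ≤ (i : ℕ) ∧ (i : ℕ) < (i : ℕ) + 1 := by omega
      rw [if_neg h2, if_pos h3, if_pos rfl]; ring
    · have h1' : (i : ℕ) ≠ (j : ℕ) := fun h => h1 (Fin.ext h)
      rw [if_neg h1, add_zero]
      by_cases h2 : k ≤ (i : ℕ) ∧ (i : ℕ) < (j : ℕ)
      · rw [if_pos h2, if_pos (by omega)]
      · rw [if_neg h2, if_neg (by omega)]
  rw [Finset.sum_congr rfl fun i _ => h i, Finset.sum_add_distrib]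
  simp

theorem bsum_split {n : ℕ} {k m j : ℕ} (h1 : k ≤ m) (h2 : m ≤ j) (a : Fin n → ℝ) :
    bsum k j a = bsum k m a + bsum m j a := by
  unfold bsum
  rw [← Finset.sum_add_distrib]
  refine Finset.sum_congr rfl fun i _ => ?_
  by_cases h3 : (i : ℕ) < m
  · have h4 : ¬ (m ≤ (i : ℕ) ∧ (i : ℕ) < j) := by omega
    rw [if_neg h4, add_zero]
    by_cases h5 : k ≤ (i : ℕ) ∧ (i : ℕ) < m
    · rw [if_pos h5, if_pos (by omega)]
    · rw [if_neg h5, if_neg (by omega)]
  · have h4 : ¬ (k ≤ (i : ℕ) ∧ (i : ℕ) < m) := by omega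
    rw [if_neg h4, zero_add]
    by_cases h5 : m ≤ (i : ℕ) ∧ (i : ℕ) < j
    · rw [if_pos h5, if_pos (by omega)]
    · rw [if_neg h5, if_neg (by omega)]

theorem bsum_self {n : ℕ} {k : ℕ} (a : Fin n → ℝ) : bsum k k a = 0 := by
  unfold bsum
  refine Finset.sum_eq_zero fun i _ => if_neg (by omega)

theorem bsum_nonneg {n : ℕ} {k j : ℕ} {a : Fin n → ℝ}
    (h : ∀ i : Fin n, k ≤ (i : ℕ) → (i : ℕ) < j → 0 < a i) : 0 ≤ bsum k j a := by
  unfold bsum
  refine Finset.sum_nonneg fun i _ => ?_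
  split_ifs with h1
  · exact (h i h1.1 h1.2).le
  · exact le_rfl

theorem bsum_congr {n : ℕ} {k j : ℕ} {a a' : Fin n → ℝ}
    (h : ∀ i : Fin n, k ≤ (i : ℕ) → (i : ℕ) < j → a i = a' i) : bsum k j a = bsum k j a' := by
  unfold bsum
  refine Finset.sum_congr rfl fun i _ => ?_
  split_ifs with h1
  · exact h i h1.1 h1.2
  · rfl

theorem bsum_lip {n : ℕ} {k j : ℕ} (a a' : Fin n → ℝ) :
    |bsum k j a - bsum k j a'| ≤ n * dist a a' := by
  unfold bsum
  rw [← Finset.sum_sub_distrib]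
  refine (Finset.abs_sum_le_sum_abs _ _).trans ?_
  have h : ∀ i ∈ (Finset.univ : Finset (Fin n)),
      |(if k ≤ (i : ℕ) ∧ (i : ℕ) < j then a i else 0) -
        (if k ≤ (i : ℕ) ∧ (i : ℕ) < j then a' i else 0)| ≤ dist a a' := by
    intro i _
    split_ifs with h1
    · rw [← Real.dist_eq]; exact dist_le_pi_dist a a' i
    · simp
  refine (Finset.sum_le_sum h).trans ?_
  simp

/-- the simplex block in terms of the full sum -/
theorem block_iff {n : ℕ} {k b : ℕ} (hb : 1 ≤ b) (hkb : k + b ≤ n) (y : Fin n → ℝ) (s : ℝ) :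
    (∀ j : Fin n, k ≤ (j : ℕ) → (j : ℕ) < k + b → 0 < y j ∧ y j < s - bsum k j y) ↔
      (∀ j : Fin n, k ≤ (j : ℕ) → (j : ℕ) < k + b → 0 < y j) ∧ bsum k (k + b) y < s := by
  constructor
  · intro h
    refine ⟨fun j h1 h2 => (h j h1 h2).1, ?_⟩
    have h3 := (h ⟨k + b - 1, by omega⟩ (by simp; omega) (by simp; omega)).2
    have h4 := bsum_succ (k := k) (⟨k + b - 1, by omega⟩ : Fin n) (by simp; omega) y
    simp only at h3 h4
    rw [show k + b - 1 + 1 = k + b by omega] at h4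
    linarith
  · rintro ⟨h1, h2⟩ j h3 h4
    refine ⟨h1 j h3 h4, ?_⟩
    have h5 := bsum_succ (k := k) j h3 y
    have h6 := bsum_split (k := k) (m := (j : ℕ) + 1) (j := k + b) (by omega) (by omega) y
    have h7 : 0 ≤ bsum ((j : ℕ) + 1) (k + b) y :=
      bsum_nonneg fun i h8 h9 => h1 i (by omega) h9
    linarith

/-- the permutation of the block -/
def fw (k b j : ℕ) : ℕ :=
  if k ≤ j ∧ j < k + b then (if j = k then k + b - 1 else if j = k + 1 then k + b - 2 else j - 2)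
  else j

def bw (k b j : ℕ) : ℕ :=
  if k ≤ j ∧ j < k + b then (if j = k + b - 1 then k else if j = k + b - 2 then k + 1 else j + 2)
  else j

theorem fw_lt {n k b j : ℕ} (hkb : k + b ≤ n) (hj : j < n) : fw k b j < n := by
  unfold fw; split_ifs <;> omega

theorem bw_lt {n k b j : ℕ} (hkb : k + b ≤ n) (hj : j < n) : bw k b j < n := by
  unfold bw; split_ifs <;> omega

theorem bw_fw {k b j : ℕ} (hb : 3 ≤ b) : bw k b (fw k b j) = j := by
  unfold fw
  split_ifs with h1 h2 h3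
  · unfold bw
    rw [if_pos (by omega), if_pos rfl]; omega
  · unfold bw
    rw [if_pos (by omega), if_neg (by omega), if_pos rfl]; omega
  · unfold bw
    rw [if_pos (by omega), if_neg (by omega), if_neg (by omega)]; omega
  · unfold bw
    rw [if_neg h1]

theorem fw_bw {k b j : ℕ} (hb : 3 ≤ b) : fw k b (bw k b j) = j := by
  unfold bw
  split_ifs with h1 h2 h3
  · unfold fw
    rw [if_pos (by omega), if_pos rfl]; omega
  · unfold fw
    rw [if_pos (by omega), if_neg (by omega), if_pos rfl]; omega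
  · unfold fw
    rw [if_pos (by omega), if_neg (by omega), if_neg (by omega)]; omega
  · unfold fw
    rw [if_neg h1]

def perm {n k b : ℕ} (hb : 3 ≤ b) (hkb : k + b ≤ n) : Equiv.Perm (Fin n) where
  toFun j := ⟨fw k b j, fw_lt hkb j.2⟩
  invFun j := ⟨bw k b j, bw_lt hkb j.2⟩
  left_inv j := by ext; exact bw_fw hb
  right_inv j := by ext; exact fw_bw hb

theorem bsum_perm {n k b : ℕ} (hb : 3 ≤ b) (hkb : k + b ≤ n) (a : Fin n → ℝ) :
    bsum k (k + b) (fun j => a ((perm hb hkb).symm j)) = bsum k (k + b) a := by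
  unfold bsum
  rw [← Equiv.sum_comp (perm hb hkb).symm
    (fun i : Fin n => if k ≤ (i : ℕ) ∧ (i : ℕ) < k + b then a i else 0)]
  refine Finset.sum_congr rfl fun i _ => ?_
  have h : (((perm hb hkb).symm i : Fin n) : ℕ) = bw k b i := rfl
  have h2 : (k ≤ (i : ℕ) ∧ (i : ℕ) < k + b) ↔ (k ≤ bw k b i ∧ bw k b i < k + b) := by
    unfold bw
    split_ifs <;> omega
  simp only [h]
  by_cases h3 : k ≤ (i : ℕ) ∧ (i : ℕ) < k + b
  · rw [if_pos h3, if_pos (h2.1 h3)]
  · rw [if_neg h3, if_neg (fun h4 => h3 (h2.2 h4))]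

theorem bsum_perm' {n k b : ℕ} (hb : 3 ≤ b) (hkb : k + b ≤ n) (a : Fin n → ℝ) :
    bsum k (k + b) (fun j => a (perm hb hkb j)) = bsum k (k + b) a := by
  rw [← bsum_perm hb hkb (fun j => a (perm hb hkb j))]
  simp

def pp {n k b : ℕ} (hb : 3 ≤ b) (hkb : k + b ≤ n) : Fin n := ⟨k + b - 2, by omega⟩
def q0 {n k b : ℕ} (hb : 3 ≤ b) (hkb : k + b ≤ n) : Fin n := ⟨k, by omega⟩
def q1 {n k b : ℕ} (hb : 3 ≤ b) (hkb : k + b ≤ n) : Fin n := ⟨k + 1, by omega⟩
def qe {n k b : ℕ} (hb : 3 ≤ b) (hkb : k + b ≤ n) : Fin n := ⟨k + b - 1, by omega⟩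

/-- the inverse of the coordinate change -/
noncomputable def gi {n k b : ℕ} (hb : 3 ≤ b) (hkb : k + b ≤ n) (σ : (Fin n → ℝ) → ℝ)
    (y : Fin n → ℝ) : Fin n → ℝ :=
  Function.update (fun j => y ((perm hb hkb).symm j)) (pp hb hkb) (σ y - bsum k (k + b) y)

theorem symm_val {n k b : ℕ} (hb : 3 ≤ b) (hkb : k + b ≤ n) (j : Fin n) :
    (((perm hb hkb).symm j : Fin n) : ℕ) = bw k b j := rfl

theorem perm_val {n k b : ℕ} (hb : 3 ≤ b) (hkb : k + b ≤ n) (j : Fin n) :
    ((perm hb hkb j : Fin n) : ℕ) = fw k b j := rfl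

theorem symm_out {n k b : ℕ} (hb : 3 ≤ b) (hkb : k + b ≤ n) (j : Fin n)
    (h : (j : ℕ) < k ∨ k + b ≤ (j : ℕ)) : (perm hb hkb).symm j = j := by
  apply Fin.ext
  rw [symm_val]; unfold bw
  rw [if_neg (by omega)]

theorem perm_out {n k b : ℕ} (hb : 3 ≤ b) (hkb : k + b ≤ n) (j : Fin n)
    (h : (j : ℕ) < k ∨ k + b ≤ (j : ℕ)) : perm hb hkb j = j := by
  apply Fin.ext
  rw [perm_val]; unfold fw
  rw [if_neg (by omega)]

theorem symm_block {n k b : ℕ} (hb : 3 ≤ b) (hkb : k + b ≤ n) (j : Fin n)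
    (h : k ≤ (j : ℕ) ∧ (j : ℕ) < k + b) : k ≤ (((perm hb hkb).symm j : Fin n) : ℕ) ∧
      (((perm hb hkb).symm j : Fin n) : ℕ) < k + b := by
  rw [symm_val]; unfold bw
  rw [if_pos h]
  split_ifs <;> omega

theorem perm_block {n k b : ℕ} (hb : 3 ≤ b) (hkb : k + b ≤ n) (j : Fin n)
    (h : k ≤ (j : ℕ) ∧ (j : ℕ) < k + b) : k ≤ ((perm hb hkb j : Fin n) : ℕ) ∧
      ((perm hb hkb j : Fin n) : ℕ) < k + b := by
  rw [perm_val]; unfold fw
  rw [if_pos h]
  split_ifs <;> omega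

theorem perm_q1 {n k b : ℕ} (hb : 3 ≤ b) (hkb : k + b ≤ n) :
    perm hb hkb (q1 hb hkb) = pp hb hkb := by
  apply Fin.ext
  rw [perm_val]
  show fw k b (k + 1) = k + b - 2
  unfold fw
  rw [if_pos (by omega), if_neg (by omega), if_pos rfl]

theorem symm_pp {n k b : ℕ} (hb : 3 ≤ b) (hkb : k + b ≤ n) :
    (perm hb hkb).symm (pp hb hkb) = q1 hb hkb := by
  rw [← perm_q1, Equiv.symm_apply_apply]

theorem perm_q0 {n k b : ℕ} (hb : 3 ≤ b) (hkb : k + b ≤ n) :
    perm hb hkb (q0 hb hkb) = qe hb hkb := by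
  apply Fin.ext
  rw [perm_val]
  show fw k b k = k + b - 1
  unfold fw
  rw [if_pos (by omega), if_pos rfl]

theorem symm_qe {n k b : ℕ} (hb : 3 ≤ b) (hkb : k + b ≤ n) :
    (perm hb hkb).symm (qe hb hkb) = q0 hb hkb := by
  rw [← perm_q0, Equiv.symm_apply_apply]

theorem gi_out {n k b : ℕ} (hb : 3 ≤ b) (hkb : k + b ≤ n) (σ : (Fin n → ℝ) → ℝ)
    (y : Fin n → ℝ) (i : Fin n) (h : (i : ℕ) < k ∨ k + b ≤ (i : ℕ)) :
    gi hb hkb σ y i = y i := by
  have h1 : i ≠ pp hb hkb := by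
    intro h2; subst h2; simp only [pp] at h; omega
  rw [gi, Function.update_of_ne h1, symm_out hb hkb i h]

theorem gi_pp {n k b : ℕ} (hb : 3 ≤ b) (hkb : k + b ≤ n) (σ : (Fin n → ℝ) → ℝ)
    (y : Fin n → ℝ) : gi hb hkb σ y (pp hb hkb) = σ y - bsum k (k + b) y := by
  rw [gi, Function.update_self]

theorem gi_ne {n k b : ℕ} (hb : 3 ≤ b) (hkb : k + b ≤ n) (σ : (Fin n → ℝ) → ℝ)
    (y : Fin n → ℝ) (i : Fin n) (h : i ≠ pp hb hkb) :
    gi hb hkb σ y i = y ((perm hb hkb).symm i) := by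
  rw [gi, Function.update_of_ne h]

theorem gi_qe {n k b : ℕ} (hb : 3 ≤ b) (hkb : k + b ≤ n) (σ : (Fin n → ℝ) → ℝ)
    (y : Fin n → ℝ) : gi hb hkb σ y (qe hb hkb) = y (q0 hb hkb) := by
  rw [gi_ne, symm_qe]
  intro h
  have := congrArg Fin.val h
  simp only [qe, pp] at this
  omega

theorem bsum_update {n k j : ℕ} (a : Fin n → ℝ) (p : Fin n) (hp : k ≤ (p : ℕ) ∧ (p : ℕ) < j)
    (x : ℝ) : bsum k j (Function.update a p x) = bsum k j a - a p + x := by
  unfold bsum
  have h : ∀ i : Fin n, (if k ≤ (i : ℕ) ∧ (i : ℕ) < j then Function.update a p x i else 0) =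
      (if k ≤ (i : ℕ) ∧ (i : ℕ) < j then a i else 0) + (if i = p then x - a p else 0) := by
    intro i
    by_cases h1 : i = p
    · subst h1
      rw [if_pos hp, if_pos hp, if_pos rfl, Function.update_self]; ring
    · rw [Function.update_of_ne h1, if_neg h1, add_zero]
  rw [Finset.sum_congr rfl fun i _ => h i, Finset.sum_add_distrib]
  simp only [Finset.sum_ite_eq', Finset.mem_univ, if_true]
  ring

theorem bsum_gi {n k b : ℕ} (hb : 3 ≤ b) (hkb : k + b ≤ n) (σ : (Fin n → ℝ) → ℝ)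
    (y : Fin n → ℝ) : bsum k (k + b) (gi hb hkb σ y) = σ y - y (q1 hb hkb) := by
  rw [gi, bsum_update _ _ (by simp only [pp]; omega), bsum_perm, symm_pp]
  ring

theorem bsum_gi' {n k b : ℕ} (hb : 3 ≤ b) (hkb : k + b ≤ n) (σ : (Fin n → ℝ) → ℝ)
    (y : Fin n → ℝ) : bsum k (k + b - 1) (gi hb hkb σ y) =
      σ y - y (q0 hb hkb) - y (q1 hb hkb) := by
  have h1 := bsum_succ (k := k) (qe hb hkb) (by simp only [qe]; omega) (gi hb hkb σ y)
  have h2 : ((qe hb hkb : Fin n) : ℕ) = k + b - 1 := rfl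
  rw [h2, show k + b - 1 + 1 = k + b by omega, bsum_gi, gi_qe] at h1
  linarith

theorem bsum_two {n k b : ℕ} (hb : 3 ≤ b) (hkb : k + b ≤ n) (y : Fin n → ℝ) :
    bsum k (k + 2) y = y (q0 hb hkb) + y (q1 hb hkb) := by
  have h1 := bsum_succ (k := k) (q1 hb hkb) (by simp only [q1]; omega) y
  have h2 := bsum_succ (k := k) (q0 hb hkb) (by simp only [q0]; omega) y
  have h3 : ((q1 hb hkb : Fin n) : ℕ) = k + 1 := rfl
  have h4 : ((q0 hb hkb : Fin n) : ℕ) = k := rfl
  rw [h3] at h1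
  rw [h4, bsum_self] at h2
  rw [show k + 2 = k + 1 + 1 by rfl, h1, h2]
  ring

theorem intAff_congr {n k : ℕ} {σ : (Fin n → ℝ) → ℝ} (h : IntAff k σ) {y y' : Fin n → ℝ}
    (hy : ∀ i : Fin n, (i : ℕ) < k → y i = y' i) : σ y = σ y' := by
  obtain ⟨s, m, h1, h2⟩ := h
  rw [h2, h2]
  congr 1
  refine Finset.sum_congr rfl fun j _ => ?_
  by_cases hj : (j : ℕ) < k
  · rw [hy j hj]
  · rw [h1 j (by omega)]; simp

theorem sigma_gi {n k b : ℕ} (hb : 3 ≤ b) (hkb : k + b ≤ n) {σ : (Fin n → ℝ) → ℝ}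
    (h : IntAff k σ) (y : Fin n → ℝ) : σ (gi hb hkb σ y) = σ y :=
  intAff_congr h fun i hi => gi_out hb hkb σ y i (Or.inl hi)

/-- linear version of the block sum -/
noncomputable def bL {n : ℕ} (k j : ℕ) : (Fin n → ℝ) →ₗ[ℝ] ℝ :=
  ∑ i : Fin n, if k ≤ (i : ℕ) ∧ (i : ℕ) < j then LinearMap.proj i else 0

theorem bL_apply {n : ℕ} (k j : ℕ) (a : Fin n → ℝ) : bL k j a = bsum k j a := by
  unfold bL bsum
  rw [LinearMap.sum_apply]
  refine Finset.sum_congr rfl fun i _ => ?_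
  split_ifs <;> simp

/-- linear part of the barycentric coordinate -/
noncomputable def eL {n : ℕ} (k b : ℕ) (m : Fin n → ℤ) : (Fin n → ℝ) →ₗ[ℝ] ℝ :=
  (∑ i : Fin n, (m i : ℝ) • LinearMap.proj i) - bL k (k + b)

theorem eL_apply {n : ℕ} (k b : ℕ) (m : Fin n → ℤ) (a : Fin n → ℝ) :
    eL k b m a = ∑ i, (m i : ℝ) * a i - bsum k (k + b) a := by
  unfold eL
  rw [LinearMap.sub_apply, bL_apply, LinearMap.sum_apply]
  simp

noncomputable def SL {n : ℕ} (k b : ℕ) (m : Fin n → ℤ) (p : Fin n) :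
    (Fin n → ℝ) →ₗ[ℝ] (Fin n → ℝ) :=
  LinearMap.pi fun j => if j = p then eL k b m else LinearMap.proj j

theorem SL_apply {n : ℕ} (k b : ℕ) (m : Fin n → ℤ) (p : Fin n) (a : Fin n → ℝ) :
    SL k b m p a = Function.update a p (eL k b m a) := by
  funext j
  unfold SL
  rw [LinearMap.pi_apply]
  by_cases h : j = p
  · subst h; simp
  · rw [if_neg h, Function.update_of_ne h]; simp

theorem SL_inv {n : ℕ} (k b : ℕ) (m : Fin n → ℤ) (p : Fin n)
    (hp : k ≤ (p : ℕ) ∧ (p : ℕ) < k + b) (hm : m p = 0) :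
    Function.Involutive (SL k b m p) := by
  intro a
  have h1 : ∑ i, (m i : ℝ) * Function.update a p (eL k b m a) i = ∑ i, (m i : ℝ) * a i := by
    refine Finset.sum_congr rfl fun i _ => ?_
    by_cases h : i = p
    · subst h; rw [hm]; simp
    · rw [Function.update_of_ne h]
  have h2 : eL k b m (Function.update a p (eL k b m a)) = a p := by
    rw [eL_apply, bsum_update _ _ hp, h1, eL_apply]; ring
  rw [SL_apply, SL_apply, h2, Function.update_idem]
  funext j
  by_cases h : j = p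
  · subst h
    rw [Function.update_self]
  · rw [Function.update_of_ne h]

theorem SL_int {n : ℕ} (k b : ℕ) (m : Fin n → ℤ) (p : Fin n) (a : Fin n → ℝ)
    (ha : ∀ i, ∃ z : ℤ, a i = z) (j : Fin n) : ∃ z : ℤ, SL k b m p a j = z := by
  rw [SL_apply]
  by_cases h : j = p
  · subst h
    rw [Function.update_self, eL_apply]
    choose z hz using ha
    refine ⟨∑ i, m i * z i - ∑ i : Fin n, (if k ≤ (i : ℕ) ∧ (i : ℕ) < k + b then z i else 0), ?_⟩
    unfold bsum
    push_cast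
    congr 1
    · exact Finset.sum_congr rfl fun i _ => by rw [hz]
    · refine Finset.sum_congr rfl fun i _ => ?_
      split_ifs
      · rw [hz]
      · rfl
  · rw [Function.update_of_ne h]; exact ha j

/-- new lower walls -/
noncomputable def lw {n k b : ℕ} (hb : 3 ≤ b) (hkb : k + b ≤ n) (σ : (Fin n → ℝ) → ℝ)
    (l : Fin n → (Fin n → ℝ) → ℝ) : Fin n → (Fin n → ℝ) → ℝ :=
  fun j a => if (j : ℕ) < k then l j a else if (j : ℕ) < k + b then 0 else l j (gi hb hkb σ a)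

/-- new upper walls -/
noncomputable def uw {n k b : ℕ} (hb : 3 ≤ b) (hkb : k + b ≤ n) (σ : (Fin n → ℝ) → ℝ) (c' : ℝ)
    (u : Fin n → (Fin n → ℝ) → ℝ) : Fin n → (Fin n → ℝ) → ℝ :=
  fun j a => if (j : ℕ) < k then u j a else if (j : ℕ) < k + 2 then σ a - c' - bsum k j a
    else if (j : ℕ) < k + b then σ a - bsum k (k + 2) a - bsum (k + 2) j a
    else u j (gi hb hkb σ a)

theorem exists_symm {n k b : ℕ} (hb : 3 ≤ b) (hkb : k + b ≤ n) (i : Fin n)
    (h1 : k ≤ (i : ℕ)) (h2 : (i : ℕ) < k + b) (h3 : i ≠ q1 hb hkb) :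
    ∃ i' : Fin n, k ≤ (i' : ℕ) ∧ (i' : ℕ) < k + b ∧ i' ≠ pp hb hkb ∧
      (perm hb hkb).symm i' = i := by
  refine ⟨perm hb hkb i, (perm_block hb hkb i ⟨h1, h2⟩).1, (perm_block hb hkb i ⟨h1, h2⟩).2, ?_,
    Equiv.symm_apply_apply _ _⟩
  intro h
  rw [← perm_q1 hb hkb] at h
  exact h3 ((perm hb hkb).injective h)

theorem symm_ne {n k b : ℕ} (hb : 3 ≤ b) (hkb : k + b ≤ n) (i : Fin n)
    (h3 : i ≠ pp hb hkb) : (perm hb hkb).symm i ≠ q1 hb hkb := by
  intro h
  rw [← symm_pp hb hkb] at h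
  exact h3 ((perm hb hkb).symm.injective h)

theorem key {n k b : ℕ} (hb : 3 ≤ b) (hkb : k + b ≤ n) {c L R c' : ℝ}
    {l u : Fin n → (Fin n → ℝ) → ℝ} {σ : (Fin n → ℝ) → ℝ} (h : Geo1 c L R l u k b σ) (j : ℕ)
    (hj : k + b ≤ j) (y : Fin n → ℝ) :
    Pre (lw hb hkb σ l) (uw hb hkb σ c' u) j y ↔
      Pre l u j (gi hb hkb σ y) ∧ c' < bsum k (k + b - 1) (gi hb hkb σ y) := by
  set z := gi hb hkb σ y with hz
  have e1 : ∀ i : Fin n, (i : ℕ) < k → l i z = l i y := fun i hi =>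
    h.wl.dep i z y fun i' hi' => gi_out hb hkb σ y i' (Or.inl (lt_trans hi' hi))
  have e2 : ∀ i : Fin n, (i : ℕ) < k → u i z = u i y := fun i hi =>
    h.wu.dep i z y fun i' hi' => gi_out hb hkb σ y i' (Or.inl (lt_trans hi' hi))
  have e3 : σ z = σ y := sigma_gi hb hkb h.int y
  have e4 : bsum k (k + b - 1) z = σ y - y (q0 hb hkb) - y (q1 hb hkb) := bsum_gi' hb hkb σ y
  have e5 : bsum k (k + b) z = σ y - y (q1 hb hkb) := bsum_gi hb hkb σ y
  have e6 : bsum k (k + 2) y = y (q0 hb hkb) + y (q1 hb hkb) := bsum_two hb hkb y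
  have e7 : bsum k (k + b) y = bsum k (k + 2) y + bsum (k + 2) (k + b) y :=
    bsum_split (by omega) (by omega) y
  -- the block condition for `z`
  have B1 : (∀ i : Fin n, k ≤ (i : ℕ) → (i : ℕ) < k + b → l i z < z i ∧ z i < u i z) ↔
      (∀ i : Fin n, k ≤ (i : ℕ) → (i : ℕ) < k + b → 0 < z i) ∧ bsum k (k + b) z < σ z := by
    rw [← block_iff (by omega) hkb z (σ z)]
    refine forall_congr' fun i => forall_congr' fun h1 => forall_congr' fun h2 => ?_
    rw [(h.sim i h1 h2).1 z, (h.sim i h1 h2).2 z]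
  have B2 : (∀ i : Fin n, k ≤ (i : ℕ) → (i : ℕ) < k + b → 0 < z i) ↔
      (∀ i : Fin n, k ≤ (i : ℕ) → (i : ℕ) < k + b → i ≠ q1 hb hkb → 0 < y i) ∧
        bsum k (k + b) y < σ y := by
    constructor
    · intro h1
      constructor
      · intro i h2 h3 h4
        obtain ⟨i', h5, h6, h7, h8⟩ := exists_symm hb hkb i h2 h3 h4
        have := h1 i' h5 h6
        rwa [hz, gi_ne hb hkb σ y i' h7, h8] at this
      · have := h1 (pp hb hkb) (by simp only [pp]; omega) (by simp only [pp]; omega)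
        rw [hz, gi_pp] at this
        linarith
    · rintro ⟨h1, h2⟩ i h3 h4
      by_cases h5 : i = pp hb hkb
      · rw [h5, hz, gi_pp]; linarith
      · rw [hz, gi_ne hb hkb σ y i h5]
        have h6 := symm_block hb hkb i ⟨h3, h4⟩
        exact h1 _ h6.1 h6.2 (symm_ne hb hkb i h5)
  -- the new block conditions for `y`
  have C1 : (∀ i : Fin n, k ≤ (i : ℕ) → (i : ℕ) < k + 2 →
      0 < y i ∧ y i < (σ y - c') - bsum k i y) ↔
      (∀ i : Fin n, k ≤ (i : ℕ) → (i : ℕ) < k + 2 → 0 < y i) ∧ bsum k (k + 2) y < σ y - c' :=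
    block_iff (by omega) (by omega) y _
  have C2 : (∀ i : Fin n, k + 2 ≤ (i : ℕ) → (i : ℕ) < k + 2 + (b - 2) →
      0 < y i ∧ y i < (σ y - bsum k (k + 2) y) - bsum (k + 2) i y) ↔
      (∀ i : Fin n, k + 2 ≤ (i : ℕ) → (i : ℕ) < k + 2 + (b - 2) → 0 < y i) ∧
        bsum (k + 2) (k + 2 + (b - 2)) y < σ y - bsum k (k + 2) y :=
    block_iff (by omega) (by omega) y _
  rw [show k + 2 + (b - 2) = k + b by omega] at C2
  -- the value of the new walls
  have L1 : ∀ i : Fin n, (i : ℕ) < k → lw hb hkb σ l i y = l i y := fun i hi => by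
    unfold lw; rw [if_pos hi]
  have L2 : ∀ i : Fin n, k ≤ (i : ℕ) → (i : ℕ) < k + b → lw hb hkb σ l i y = 0 :=
    fun i hi hi' => by
      unfold lw; rw [if_neg (by omega), if_pos hi']
  have L3 : ∀ i : Fin n, k + b ≤ (i : ℕ) → lw hb hkb σ l i y = l i z := fun i hi => by
    unfold lw; rw [if_neg (by omega), if_neg (by omega)]
  have U1 : ∀ i : Fin n, (i : ℕ) < k → uw hb hkb σ c' u i y = u i y := fun i hi => by
    unfold uw; rw [if_pos hi]
  have U2 : ∀ i : Fin n, k ≤ (i : ℕ) → (i : ℕ) < k + 2 →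
      uw hb hkb σ c' u i y = (σ y - c') - bsum k i y :=
    fun i hi hi' => by
      unfold uw; rw [if_neg (by omega), if_pos hi']
  have U3 : ∀ i : Fin n, k + 2 ≤ (i : ℕ) → (i : ℕ) < k + b →
      uw hb hkb σ c' u i y = (σ y - bsum k (k + 2) y) - bsum (k + 2) i y :=
    fun i hi hi' => by
      unfold uw; rw [if_neg (by omega), if_neg (by omega), if_pos hi']
  have U4 : ∀ i : Fin n, k + b ≤ (i : ℕ) → uw hb hkb σ c' u i y = u i z := fun i hi => by
    unfold uw; rw [if_neg (by omega), if_neg (by omega), if_neg (by omega)]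
  constructor
  · intro hP
    have D1 := C1.1 fun i h1 h2 => by
      have := hP i (by omega)
      rwa [L2 i h1 (by omega), U2 i h1 h2] at this
    have D2 := C2.1 fun i h1 h2 => by
      have := hP i (by omega)
      rwa [L2 i (by omega) (by omega), U3 i h1 h2] at this
    have hpos : ∀ i : Fin n, k ≤ (i : ℕ) → (i : ℕ) < k + b → 0 < y i := by
      intro i h1 h2
      by_cases h3 : (i : ℕ) < k + 2
      · exact D1.1 i h1 h3
      · exact D2.1 i (by omega) h2
    have hq1 : 0 < y (q1 hb hkb) :=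
      hpos _ (by simp only [q1]; omega) (by simp only [q1]; omega)
    have D3 := B1.2 ⟨B2.2 ⟨fun i h1 h2 _ => hpos i h1 h2, by linarith [D2.2]⟩, by
      rw [e5, e3]; linarith⟩
    refine ⟨fun i hi => ?_, by rw [e4]; linarith [D1.2]⟩
    rcases lt_or_ge (i : ℕ) k with h1 | h1
    · have := hP i hi
      rw [L1 i h1, U1 i h1] at this
      rw [e1 i h1, e2 i h1, hz, gi_out hb hkb σ y i (Or.inl h1)]
      exact this
    · rcases lt_or_ge (i : ℕ) (k + b) with h2 | h2
      · exact D3 i h1 h2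
      · have := hP i hi
        rw [L3 i h2, U4 i h2] at this
        rw [hz, gi_out hb hkb σ y i (Or.inr h2), ← hz]
        exact this
  · rintro ⟨hP, hc⟩
    have D1 := B1.1 fun i h1 h2 => hP i (by omega)
    have D2 := B2.1 D1.1
    have hq1 : 0 < y (q1 hb hkb) := by
      have := D1.2
      rw [e5, e3] at this
      linarith
    have hpos : ∀ i : Fin n, k ≤ (i : ℕ) → (i : ℕ) < k + b → 0 < y i := by
      intro i h1 h2
      by_cases h3 : i = q1 hb hkb
      · rw [h3]; exact hq1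
      · exact D2.1 i h1 h2 h3
    rw [e4] at hc
    have E1 := C1.2 ⟨fun i h1 h2 => hpos i h1 (by omega), by rw [e6]; linarith⟩
    have E2 := C2.2 ⟨fun i h1 h2 => hpos i (by omega) h2, by linarith [D2.2]⟩
    intro i hi
    rcases lt_or_ge (i : ℕ) k with h1 | h1
    · have := hP i hi
      rw [e1 i h1, e2 i h1, hz, gi_out hb hkb σ y i (Or.inl h1)] at this
      rw [L1 i h1, U1 i h1]
      exact this
    · rcases lt_or_ge (i : ℕ) (k + b) with h2 | h2
      · rw [L2 i h1 h2]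
        rcases lt_or_ge (i : ℕ) (k + 2) with h3 | h3
        · rw [U2 i h1 h3]; exact E1 i h1 h3
        · rw [U3 i h3 h2]; exact E2 i h3 h2
      · have := hP i hi
        rw [hz, gi_out hb hkb σ y i (Or.inr h2), ← hz] at this
        rw [L3 i h2, U4 i h2]
        exact this

theorem gi_lip {n k b : ℕ} (hb : 3 ≤ b) (hkb : k + b ≤ n) {σ : (Fin n → ℝ) → ℝ} {L : ℝ}
    (hL : 0 ≤ L) (hσ : ∀ y y', |σ y - σ y'| ≤ L * dist y y') (y y' : Fin n → ℝ) :
    dist (gi hb hkb σ y) (gi hb hkb σ y') ≤ (L + n + 1) * dist y y' := by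
  have hd : 0 ≤ dist y y' := dist_nonneg
  have hn : (0 : ℝ) ≤ n := Nat.cast_nonneg n
  refine (dist_pi_le_iff (by positivity)).2 fun i => ?_
  by_cases h : i = pp hb hkb
  · subst h
    rw [gi_pp, gi_pp, Real.dist_eq]
    have h1 := hσ y y'
    have h2 := bsum_lip (k := k) (j := k + b) y y'
    have h3 : σ y - bsum k (k + b) y - (σ y' - bsum k (k + b) y') =
      (σ y - σ y') - (bsum k (k + b) y - bsum k (k + b) y') := by ring
    rw [h3]
    refine (abs_sub _ _).trans ?_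
    nlinarith
  · rw [gi_ne _ _ _ _ _ h, gi_ne _ _ _ _ _ h]
    refine (dist_le_pi_dist y y' _).trans ?_
    nlinarith

theorem gi_dep {n k b : ℕ} (hb : 3 ≤ b) (hkb : k + b ≤ n) {σ : (Fin n → ℝ) → ℝ}
    (h : IntAff k σ) {y y' : Fin n → ℝ} {j : Fin n} (hj : k + b ≤ (j : ℕ))
    (hy : ∀ i, i < j → y i = y' i) (i : Fin n) (hi : i < j) :
    gi hb hkb σ y i = gi hb hkb σ y' i := by
  have hlt : ∀ i : Fin n, (i : ℕ) < k + b → i < j := fun i hi => by
    show (i : ℕ) < (j : ℕ); omega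
  by_cases h1 : i = pp hb hkb
  · subst h1
    rw [gi_pp, gi_pp, intAff_congr h fun i hi => hy i (hlt i (by omega)),
      bsum_congr fun i _ hi => hy i (hlt i hi)]
  · rw [gi_ne _ _ _ _ _ h1, gi_ne _ _ _ _ _ h1]
    by_cases h2 : (i : ℕ) < k ∨ k + b ≤ (i : ℕ)
    · rw [symm_out hb hkb i h2]; exact hy i hi
    · exact hy _ (hlt _ (symm_block hb hkb i ⟨by omega, by omega⟩).2)

theorem sigma_lip {n k b : ℕ} (hb : 3 ≤ b) (hkb : k + b ≤ n) {c L R : ℝ}
    {l u : Fin n → (Fin n → ℝ) → ℝ} {σ : (Fin n → ℝ) → ℝ} (h : Geo1 c L R l u k b σ)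
    (y y' : Fin n → ℝ) : |σ y - σ y'| ≤ L * dist y y' := by
  have h1 := h.wu.lip (q0 hb hkb) y y'
  have h2 : ((q0 hb hkb : Fin n) : ℕ) = k := rfl
  rw [(h.sim (q0 hb hkb) (by omega) (by omega)).2, (h.sim (q0 hb hkb) (by omega) (by omega)).2,
    h2, bsum_self, bsum_self, sub_zero, sub_zero] at h1
  exact h1

theorem lw_walls {n k b : ℕ} (hb : 3 ≤ b) (hkb : k + b ≤ n) {c L R : ℝ} (hL : 0 ≤ L)
    {l u : Fin n → (Fin n → ℝ) → ℝ} {σ : (Fin n → ℝ) → ℝ} (h : Geo1 c L R l u k b σ) :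
    Walls ((L + 1) * (L + 2 * n + 2)) (lw hb hkb σ l) := by
  have hn : (0 : ℝ) ≤ n := Nat.cast_nonneg n
  constructor
  · intro j y y' hy
    unfold lw
    split_ifs with h1 h2
    · exact h.wl.dep j y y' hy
    · rfl
    · exact h.wl.dep j _ _ fun i hi => gi_dep hb hkb h.int (by omega) hy i hi
  · intro j y y'
    have hd : 0 ≤ dist y y' := dist_nonneg
    unfold lw
    split_ifs with h1 h2
    · refine (h.wl.lip j y y').trans (mul_le_mul_of_nonneg_right ?_ hd)
      nlinarith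
    · rw [sub_self, abs_zero]; positivity
    · refine (h.wl.lip j _ _).trans ?_
      refine (mul_le_mul_of_nonneg_left (gi_lip hb hkb hL (sigma_lip hb hkb h) y y') hL).trans ?_
      rw [← mul_assoc]
      refine mul_le_mul_of_nonneg_right ?_ hd
      nlinarith

theorem uw_walls {n k b : ℕ} (hb : 3 ≤ b) (hkb : k + b ≤ n) {c L R c' : ℝ} (hL : 0 ≤ L)
    {l u : Fin n → (Fin n → ℝ) → ℝ} {σ : (Fin n → ℝ) → ℝ} (h : Geo1 c L R l u k b σ) :
    Walls ((L + 1) * (L + 2 * n + 2)) (uw hb hkb σ c' u) := by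
  have hn : (0 : ℝ) ≤ n := Nat.cast_nonneg n
  constructor
  · intro j y y' hy
    have hlt : ∀ i : Fin n, (i : ℕ) < (j : ℕ) → y i = y' i := fun i hi => hy i hi
    unfold uw
    split_ifs with h1 h2 h3
    · exact h.wu.dep j y y' hy
    · rw [intAff_congr h.int fun i hi => hlt i (by omega), bsum_congr fun i _ hi => hlt i hi]
    · rw [intAff_congr h.int fun i hi => hlt i (by omega),
        bsum_congr (j := k + 2) fun i _ hi => hlt i (by omega),
        bsum_congr (k := k + 2) fun i _ hi => hlt i hi]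
    · exact h.wu.dep j _ _ fun i hi => gi_dep hb hkb h.int (by omega) hy i hi
  · intro j y y'
    have hd : 0 ≤ dist y y' := dist_nonneg
    have hσ := sigma_lip hb hkb h y y'
    unfold uw
    split_ifs with h1 h2 h3
    · refine (h.wu.lip j y y').trans (mul_le_mul_of_nonneg_right ?_ hd)
      nlinarith
    · have h4 := bsum_lip (k := k) (j := (j : ℕ)) y y'
      have h5 : σ y - c' - bsum k j y - (σ y' - c' - bsum k j y') =
        (σ y - σ y') - (bsum k j y - bsum k j y') := by ring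
      rw [h5]
      refine (abs_sub _ _).trans ?_
      have : (L + n) * dist y y' ≤ (L + 1) * (L + 2 * n + 2) * dist y y' :=
        mul_le_mul_of_nonneg_right (by nlinarith) hd
      linarith
    · have h4 := bsum_lip (k := k) (j := k + 2) y y'
      have h4' := bsum_lip (k := k + 2) (j := (j : ℕ)) y y'
      have h5 : σ y - bsum k (k + 2) y - bsum (k + 2) j y -
          (σ y' - bsum k (k + 2) y' - bsum (k + 2) j y') =
        (σ y - σ y') - (bsum k (k + 2) y - bsum k (k + 2) y') -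
          (bsum (k + 2) j y - bsum (k + 2) j y') := by ring
      rw [h5]
      refine (abs_sub _ _).trans ?_
      have h6 := abs_sub (σ y - σ y') (bsum k (k + 2) y - bsum k (k + 2) y')
      have : (L + 2 * n) * dist y y' ≤ (L + 1) * (L + 2 * n + 2) * dist y y' :=
        mul_le_mul_of_nonneg_right (by nlinarith) hd
      linarith
    · refine (h.wu.lip j _ _).trans ?_
      refine (mul_le_mul_of_nonneg_left (gi_lip hb hkb hL (sigma_lip hb hkb h) y y') hL).trans ?_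
      rw [← mul_assoc]
      refine mul_le_mul_of_nonneg_right ?_ hd
      nlinarith

theorem geo2 {n k b : ℕ} (hb : 3 ≤ b) (hkb : k + b ≤ n) {c L R c' : ℝ} (hc : 0 < c)
    (hR : 0 < R) (hL : 0 ≤ L)
    {l u : Fin n → (Fin n → ℝ) → ℝ} {σ : (Fin n → ℝ) → ℝ} (h : Geo1 c L R l u k b σ)
    (h1 : c / 4 * R ≤ c') (h2 : c' ≤ c / 2 * R) :
    Geo2 (c / 4) ((L + 1) * (L + 2 * n + 2)) R (lw hb hkb σ l) (uw hb hkb σ c' u) k (b - 2)
      (fun a => σ a - c') (fun a => σ a - bsum k (k + 2) a) := by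
  have hcR : 0 < c * R := mul_pos hc hR
  have hlow : ∀ (j : ℕ), j ≤ k → ∀ a, Pre (lw hb hkb σ l) (uw hb hkb σ c' u) j a →
      Pre l u j a := by
    intro j hj a ha i hi
    have := ha i hi
    unfold lw uw at this
    rw [if_pos (by omega), if_pos (by omega)] at this
    exact this
  refine ⟨lw_walls hb hkb hL h, uw_walls hb hkb hL h, by omega, ?_, ?_, ?_, ?_, ?_, ?_, ?_⟩
  · obtain ⟨s, m, h3, h4⟩ := h.int
    refine ⟨s - c', m, h3, fun a => ?_⟩
    show σ a - c' = _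
    rw [h4 a]; ring
  · obtain ⟨s, m, h3, h4⟩ := h.int
    refine ⟨s, fun j => m j - (if k ≤ (j : ℕ) ∧ (j : ℕ) < k + 2 then 1 else 0), ?_, fun a => ?_⟩
    · intro j hj
      show m j - (if k ≤ (j : ℕ) ∧ (j : ℕ) < k + 2 then 1 else 0) = 0
      rw [h3 j (by omega), if_neg (by omega), sub_zero]
    · show σ a - bsum k (k + 2) a = s + ∑ j : Fin n,
        ((m j - (if k ≤ (j : ℕ) ∧ (j : ℕ) < k + 2 then 1 else 0) : ℤ) : ℝ) * a j
      rw [h4 a]
      unfold bsum
      rw [add_sub_assoc, ← Finset.sum_sub_distrib]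
      congr 1
      refine Finset.sum_congr rfl fun j _ => ?_
      split_ifs <;> push_cast <;> ring
  · intro j hj hj'
    constructor
    · intro a; unfold lw; rw [if_neg (by omega), if_pos (by omega)]
    · intro a; unfold uw; rw [if_neg (by omega), if_pos (by omega)]
  · intro j hj hj'
    constructor
    · intro a; unfold lw; rw [if_neg (by omega), if_pos (by omega)]
    · intro a; unfold uw; rw [if_neg (by omega), if_neg (by omega), if_pos (by omega)]
  · intro j a hj ha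
    rcases hj with hj | hj
    · have h5 := h.fat j a (Or.inl hj) (hlow j hj.le a ha)
      unfold lw uw
      rw [if_pos hj, if_pos hj]
      exact ⟨by linarith, h5.2⟩
    · have h6 : k + b ≤ (j : ℕ) := by omega
      have h5 := h.fat j _ (Or.inr h6) ((key hb hkb h j h6 a).1 ha).1
      unfold lw uw
      rw [if_neg (by omega), if_neg (by omega), if_neg (by omega), if_neg (by omega),
        if_neg (by omega)]
      exact ⟨by linarith, h5.2⟩
  · intro a ha
    have h5 := h.size a (hlow k le_rfl a ha)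
    constructor
    · linarith
    · linarith
  · intro a ha
    have h5 := h.size a (hlow k le_rfl a fun i hi => ha i (by omega))
    have h6 := ha (q0 hb hkb) (by simp only [q0]; omega)
    have h7 := ha (q1 hb hkb) (by simp only [q1]; omega)
    have v0 : ((q0 hb hkb : Fin n) : ℕ) = k := rfl
    have v1 : ((q1 hb hkb : Fin n) : ℕ) = k + 1 := rfl
    unfold lw uw at h6 h7
    rw [v0, if_neg (by omega), if_pos (by omega), if_neg (by omega), if_pos (by omega),
      bsum_self] at h6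
    rw [v1, if_neg (by omega), if_pos (by omega), if_neg (by omega), if_pos (by omega)] at h7
    have h8 := bsum_succ (k := k) (q0 hb hkb) (by omega) a
    rw [v0, bsum_self] at h8
    have h9 := bsum_two hb hkb a
    constructor
    · show c / 4 * R ≤ σ a - bsum k (k + 2) a
      linarith
    · show σ a - bsum k (k + 2) a ≤ R
      linarith

end HM

/-- The coordinate change of the pairs scheme:
`(a_k, …, a_{k+b-1}) ↦ (a_{k+b-1}, σ a - ∑ a_i, a_k, …, a_{k+b-3})`. -/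
theorem Geo1.hmap {n : ℕ} (L : ℝ) (hL : 0 ≤ L) : ∃ L' : ℝ, 0 ≤ L' ∧
    ∀ (c R c' : ℝ) (l u : Fin n → (Fin n → ℝ) → ℝ) (k b : ℕ) (σ : (Fin n → ℝ) → ℝ), 0 < c →
      0 < R → 3 ≤ b → Geo1 c L R l u k b σ → c / 4 * R ≤ c' → c' ≤ c / 2 * R →
      ∃ (G : (Fin n → ℝ) ≃ₗ[ℝ] (Fin n → ℝ)) (v : Fin n → ℝ) (l' u' : Fin n → (Fin n → ℝ) → ℝ)
        (σ' : (Fin n → ℝ) → ℝ),
        (∀ i j, ∃ m : ℤ, G (Pi.single i 1) j = m) ∧
        (∀ i j, ∃ m : ℤ, G.symm (Pi.single i 1) j = m) ∧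
        Geo2 (c / 4) L' R l' u' k (b - 2) (fun a => σ a - c') σ' ∧
        (fun a => G a + v) '' (boxSet l u ∩ {a | c' < bsum k (k + b - 1) a}) = boxSet l' u' := by
  have hn : (0 : ℝ) ≤ n := Nat.cast_nonneg n
  refine ⟨(L + 1) * (L + 2 * n + 2), by positivity, ?_⟩
  intro c R c' l u k b σ hc hR hb h h1 h2
  have hkb := h.kb
  obtain ⟨s, m, hm, hs⟩ := h.int
  have hp0 : m (HM.pp hb hkb) = 0 := hm _ (by simp only [HM.pp]; omega)
  have hpb : k ≤ ((HM.pp hb hkb : Fin n) : ℕ) ∧ ((HM.pp hb hkb : Fin n) : ℕ) < k + b := by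
    simp only [HM.pp]; omega
  have hS := HM.SL_inv k b m (HM.pp hb hkb) hpb hp0
  let S : (Fin n → ℝ) ≃ₗ[ℝ] (Fin n → ℝ) := LinearEquiv.ofInvolutive _ hS
  let G : (Fin n → ℝ) ≃ₗ[ℝ] (Fin n → ℝ) :=
    S.trans (LinearEquiv.funCongrLeft ℝ ℝ (HM.perm hb hkb))
  have hG : ∀ a j, G a j = Function.update a (HM.pp hb hkb) (HM.eL k b m a)
      (HM.perm hb hkb j) := fun a j => by
    rw [← HM.SL_apply]; rfl
  have hG' : ∀ a, G.symm a = HM.SL k b m (HM.pp hb hkb) (fun j => a ((HM.perm hb hkb).symm j)) :=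
    fun a => rfl
  have hint : ∀ i j : Fin n, ∃ z : ℤ, (Pi.single i (1 : ℝ) : Fin n → ℝ) j = z := by
    intro i j
    by_cases hij : j = i
    · subst hij; exact ⟨1, by simp⟩
    · exact ⟨0, by simp [hij]⟩
  have hgi : ∀ a, (fun j => G a j + (Pi.single (HM.q1 hb hkb) s : Fin n → ℝ) j) =
      G a + Pi.single (HM.q1 hb hkb) s := fun a => rfl
  -- agreement of the coordinates before `k`
  have hlow : ∀ a, ∀ i : Fin n, (i : ℕ) < k →
      (G a + (Pi.single (HM.q1 hb hkb) s : Fin n → ℝ)) i = a i := by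
    intro a i hi
    have e1 : i ≠ HM.q1 hb hkb := by
      intro e; rw [e] at hi; simp only [HM.q1] at hi; omega
    have e2 : i ≠ HM.pp hb hkb := by
      intro e; rw [e] at hi; simp only [HM.pp] at hi; omega
    rw [Pi.add_apply, Pi.single_eq_of_ne e1, add_zero, hG, HM.perm_out hb hkb i (Or.inl hi),
      Function.update_of_ne e2]
  have hlin : ∀ a a' : Fin n → ℝ, (∀ i : Fin n, (i : ℕ) < k → a i = a' i) →
      ∑ i, (m i : ℝ) * a i = ∑ i, (m i : ℝ) * a' i := by
    intro a a' haa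
    have := HM.intAff_congr h.int haa
    rw [hs, hs] at this
    linarith
  have hbG : ∀ a, bsum k (k + b) (G a + (Pi.single (HM.q1 hb hkb) s : Fin n → ℝ)) =
      σ a - a (HM.pp hb hkb) := by
    intro a
    have e1 : (G a + (Pi.single (HM.q1 hb hkb) s : Fin n → ℝ)) =
        Function.update (G a) (HM.q1 hb hkb) (G a (HM.q1 hb hkb) + s) := by
      funext j
      by_cases hj : j = HM.q1 hb hkb
      · subst hj; simp
      · rw [Function.update_of_ne hj, Pi.add_apply, Pi.single_eq_of_ne hj, add_zero]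
    have e2 : bsum k (k + b) (G a) = bsum k (k + b)
        (Function.update a (HM.pp hb hkb) (HM.eL k b m a)) := by
      rw [show G a = fun j => Function.update a (HM.pp hb hkb) (HM.eL k b m a)
        (HM.perm hb hkb j) from funext (hG a), HM.bsum_perm']
    rw [e1, HM.bsum_update _ _ (by simp only [HM.q1]; omega), e2, HM.bsum_update _ _ hpb,
      HM.eL_apply, hs a]
    ring
  have hleft : ∀ a, HM.gi hb hkb σ (G a + Pi.single (HM.q1 hb hkb) s) = a := by
    intro a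
    funext j
    by_cases hj : j = HM.pp hb hkb
    · subst hj
      rw [HM.gi_pp, hbG, HM.intAff_congr h.int (hlow a)]
      ring
    · rw [HM.gi_ne _ _ _ _ _ hj, Pi.add_apply, Pi.single_eq_of_ne (HM.symm_ne hb hkb j hj),
        add_zero, hG, Equiv.apply_symm_apply, Function.update_of_ne hj]
  have hright : ∀ y, G (HM.gi hb hkb σ y) + Pi.single (HM.q1 hb hkb) s = y := by
    intro y
    funext j
    rw [Pi.add_apply, hG]
    by_cases hj : j = HM.q1 hb hkb
    · subst hj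
      rw [HM.perm_q1, Function.update_self, HM.eL_apply, HM.bsum_gi, Pi.single_eq_same,
        hlin _ y fun i hi => HM.gi_out hb hkb σ y i (Or.inl hi), hs y]
      ring
    · have e1 : HM.perm hb hkb j ≠ HM.pp hb hkb := by
        intro e
        rw [← HM.perm_q1 hb hkb] at e
        exact hj ((HM.perm hb hkb).injective e)
      rw [Function.update_of_ne e1, HM.gi_ne _ _ _ _ _ e1, Equiv.symm_apply_apply,
        Pi.single_eq_of_ne hj, add_zero]
  refine ⟨G, Pi.single (HM.q1 hb hkb) s, HM.lw hb hkb σ l, HM.uw hb hkb σ c' u,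
    fun a => σ a - bsum k (k + 2) a, ?_, ?_, HM.geo2 hb hkb hc hR hL h h1 h2, ?_⟩
  · intro i j
    rw [hG, ← HM.SL_apply]
    exact HM.SL_int k b m _ _ (hint i) _
  · intro i j
    rw [hG']
    exact HM.SL_int k b m _ _ (fun i' => hint i _) _
  · have hkey : ∀ y, (HM.gi hb hkb σ y ∈ boxSet l u ∩ {a | c' < bsum k (k + b - 1) a}) ↔
        y ∈ boxSet (HM.lw hb hkb σ l) (HM.uw hb hkb σ c' u) := by
      intro y
      have e1 := HM.key (c' := c') hb hkb h n hkb y
      constructor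
      · rintro ⟨e2, e3⟩ i
        exact (e1.2 ⟨fun i _ => e2 i, e3⟩) i i.2
      · intro e2
        have e3 := e1.1 fun i _ => e2 i
        exact ⟨fun i => e3.1 i i.2, e3.2⟩
    ext y
    constructor
    · rintro ⟨a, ha, rfl⟩
      refine (hkey _).1 ?_
      show HM.gi hb hkb σ (G a + Pi.single (HM.q1 hb hkb) s) ∈ _
      rw [hleft]
      exact ha
    · intro hy
      exact ⟨HM.gi hb hkb σ y, (hkey y).2 hy, hright y⟩

end Vale.Agent.P209.Strong
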