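import Vale.Agent.P209.Strong.D1
import Vale.Agent.P209.Strong.D3h

namespace Vale.Agent.P209.Strong

open MeasureTheory

theorem D3d_bsum_lip {n : ℕ} (k j : ℕ) (y y' : Fin n → ℝ) :
    |bsum k j y - bsum k j y'| ≤ n * dist y y' := by
  unfold bsum
  rw [← Finset.sum_sub_distrib]
  refine (Finset.abs_sum_le_sum_abs _ _).trans ?_
  refine (Finset.sum_le_card_nsmul _ _ (dist y y') fun i _ => ?_).trans (by simp)
  split_ifs
  · rw [← Real.dist_eq]
    exact dist_le_pi_dist y y' i
  · simp [dist_nonneg]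

theorem D3d_bsum_congr {n : ℕ} (k j : ℕ) {y y' : Fin n → ℝ}
    (h : ∀ i : Fin n, (i : ℕ) < j → y i = y' i) : bsum k j y = bsum k j y' := by
  unfold bsum
  refine Finset.sum_congr rfl fun i _ => ?_
  split_ifs with hi
  · exact h i hi.2
  · rfl

theorem D3d_bsum_succ {n : ℕ} (k : ℕ) (j : Fin n) (hj : k ≤ (j : ℕ)) (a : Fin n → ℝ) :
    bsum k (j + 1) a = bsum k j a + a j := by
  unfold bsum
  have key : ∀ i : Fin n, (if k ≤ (i : ℕ) ∧ (i : ℕ) < (j : ℕ) + 1 then a i else 0) =
      (if k ≤ (i : ℕ) ∧ (i : ℕ) < (j : ℕ) then a i else 0) + (if i = j then a j else 0) := by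
    intro i
    by_cases hij : i = j
    · subst hij
      rw [if_pos ⟨hj, Nat.lt_succ_self _⟩, if_neg (by omega), if_pos rfl, zero_add]
    · have h1 : (i : ℕ) ≠ (j : ℕ) := fun h => hij (Fin.ext h)
      rw [if_neg hij, add_zero]
      by_cases h2 : k ≤ (i : ℕ) ∧ (i : ℕ) < (j : ℕ)
      · rw [if_pos h2, if_pos ⟨h2.1, by omega⟩]
      · rw [if_neg h2, if_neg (by omega)]
  simp only [key]
  rw [Finset.sum_add_distrib, Finset.sum_ite_eq' Finset.univ j, if_pos (Finset.mem_univ j)]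

theorem D3d_bsum_self {n : ℕ} (k : ℕ) (a : Fin n → ℝ) : bsum k k a = 0 := by
  unfold bsum
  exact Finset.sum_eq_zero fun i _ => if_neg (by omega)

theorem D3d_bsum_mono {n : ℕ} (k : ℕ) {j j' : ℕ} (hjj : j ≤ j') (a : Fin n → ℝ)
    (h : ∀ i : Fin n, k ≤ (i : ℕ) → (i : ℕ) < j' → 0 ≤ a i) : bsum k j a ≤ bsum k j' a := by
  unfold bsum
  refine Finset.sum_le_sum fun i _ => ?_
  split_ifs with h1 h2 h2
  · exact le_rfl
  · exact absurd ⟨h1.1, by omega⟩ h2
  · exact h i h2.1 h2.2
  · exact le_rfl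

theorem D3d_bsum_nonneg {n : ℕ} (k j : ℕ) (a : Fin n → ℝ)
    (h : ∀ i : Fin n, k ≤ (i : ℕ) → (i : ℕ) < j → 0 ≤ a i) : 0 ≤ bsum k j a := by
  unfold bsum
  refine Finset.sum_nonneg fun i _ => ?_
  split_ifs with h1
  · exact h i h1.1 h1.2
  · exact le_rfl

theorem D3d_bsum_le {n : ℕ} (k m : ℕ) (hk : k < n) {A B : ℝ} (hA : 0 ≤ A) (hB : 0 ≤ B)
    (a : Fin n → ℝ) (h : ∀ i : Fin n, k ≤ (i : ℕ) → (i : ℕ) < m →
      a i ≤ if (i : ℕ) = k then A else B) : bsum k m a ≤ A + n * B := by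
  have h1 : ∀ i : Fin n, (if k ≤ (i : ℕ) ∧ (i : ℕ) < m then a i else 0) ≤
      (if i = (⟨k, hk⟩ : Fin n) then A else 0) + B := by
    intro i
    by_cases hik : (i : ℕ) = k
    · have h2 : i = (⟨k, hk⟩ : Fin n) := Fin.ext hik
      rw [if_pos h2]
      split_ifs with h3
      · have h4 := h i h3.1 h3.2
        rw [if_pos hik] at h4
        linarith
      · linarith
    · have h2 : i ≠ (⟨k, hk⟩ : Fin n) := fun h => hik (congrArg Fin.val h)
      rw [if_neg h2]
      split_ifs with h3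
      · have h4 := h i h3.1 h3.2
        rw [if_neg hik] at h4
        linarith
      · linarith
  unfold bsum
  refine (Finset.sum_le_sum fun i _ => h1 i).trans ?_
  rw [Finset.sum_add_distrib, Finset.sum_ite_eq' Finset.univ (⟨k, hk⟩ : Fin n),
    if_pos (Finset.mem_univ _)]
  simp

theorem D3d_walls_cont {n : ℕ} {L : ℝ} (hL : 0 ≤ L) {F : Fin n → (Fin n → ℝ) → ℝ}
    (h : Walls L F) (j : Fin n) : Continuous (F j) := by
  refine (LipschitzWith.of_dist_le_mul (K := ⟨L, hL⟩) fun x y => ?_).continuous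
  rw [Real.dist_eq]
  exact h.lip j x y

theorem D3d_meas {n : ℕ} {L : ℝ} (hL : 0 ≤ L) {l u : Fin n → (Fin n → ℝ) → ℝ}
    (hl : Walls L l) (hu : Walls L u) : MeasurableSet (boxSet l u) := by
  have h1 : boxSet l u = ⋂ j : Fin n, ({y | l j y < y j} ∩ {y | y j < u j y}) := by
    ext y
    simp [boxSet]
  rw [h1]
  refine MeasurableSet.iInter fun j => ?_
  have hc1 := (D3d_walls_cont hL hl j).measurable
  have hc2 := (D3d_walls_cont hL hu j).measurable
  exact (measurableSet_lt hc1 (measurable_pi_apply j)).inter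
    (measurableSet_lt (measurable_pi_apply j) hc2)

theorem D3d_bsum_cont {n : ℕ} (k m : ℕ) : Continuous fun a : Fin n → ℝ => bsum k m a := by
  unfold bsum
  refine continuous_finsetSum _ fun i _ => ?_
  split_ifs
  · exact continuous_apply i
  · exact continuous_const

/-- the upper wall after cutting -/
noncomputable def D3d_u {n : ℕ} (k m : ℕ) (c' : ℝ) (u : Fin n → (Fin n → ℝ) → ℝ) :
    Fin n → (Fin n → ℝ) → ℝ :=
  fun j a => if k ≤ (j : ℕ) ∧ (j : ℕ) < m then c' - bsum k j a else u j a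

theorem D3d_pre_u {n : ℕ} {c L R : ℝ} {l u : Fin n → (Fin n → ℝ) → ℝ} {k b : ℕ}
    {σ : (Fin n → ℝ) → ℝ} (h : Geo1 c L R l u k b σ) (hb : 1 ≤ b) {c' : ℝ} (hc' : c' ≤ c * R)
    {j : ℕ} {a : Fin n → ℝ} (hp : Pre l (D3d_u k (k + (b - 1)) c' u) j a) : Pre l u j a := by
  intro i hi
  have h1 := hp i hi
  refine ⟨h1.1, ?_⟩
  have h2 := h1.2
  unfold D3d_u at h2
  split_ifs at h2 with h3
  · have h4 : Pre l u k a := by
      intro i' hi'
      have h5 := hp i' (by omega)
      unfold D3d_u at h5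
      rw [if_neg (by omega)] at h5
      exact h5
    have h6 := (h.size a h4).1
    rw [(h.sim i h3.1 (by omega)).2 a]
    linarith
  · exact h2

theorem D3d_geo {n : ℕ} {c L R : ℝ} (hc : 0 < c) (hR : 0 < R) (hL : 0 ≤ L)
    {l u : Fin n → (Fin n → ℝ) → ℝ} {k b : ℕ}
    {σ : (Fin n → ℝ) → ℝ} (h : Geo1 c L R l u k b σ) (hb : 3 ≤ b) {c' : ℝ}
    (h0 : c / 4 * R ≤ c') (h1 : c' ≤ c / 2 * R) :
    Geo1 (c / 4) (L + n) R l (D3d_u k (k + (b - 1)) c' u) k (b - 1) (fun _ => c') := by
  have hcR : 0 < c * R := mul_pos hc hR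
  have hc'le : c' ≤ c * R := by linarith [h1]
  have hmono : ∀ y y' : Fin n → ℝ, L * dist y y' ≤ (L + n) * dist y y' := fun y y' =>
    mul_le_mul_of_nonneg_right (by linarith [Nat.cast_nonneg (α := ℝ) n]) dist_nonneg
  have hblock : ∀ (j : ℕ) (a : Fin n → ℝ), Pre l (D3d_u k (k + (b - 1)) c' u) j a →
      ∀ i : Fin n, k ≤ (i : ℕ) → (i : ℕ) < j → (i : ℕ) < k + (b - 1) → 0 ≤ a i := by
    intro j a hp i h2 h3 h4
    have h5 := (hp i h3).1
    rw [(h.sim i h2 (by omega)).1 a] at h5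
    exact h5.le
  refine ⟨⟨h.wl.dep, fun j y y' => (h.wl.lip j y y').trans (hmono y y')⟩, ⟨?_, ?_⟩, ?_, ?_, ?_,
    ?_, ?_⟩
  · intro j y y' hy
    unfold D3d_u
    split_ifs with h2
    · rw [D3d_bsum_congr k j (fun i hi => hy i (Fin.lt_def.2 hi))]
    · exact h.wu.dep j y y' hy
  · intro j y y'
    unfold D3d_u
    split_ifs with h2
    · have h3 := D3d_bsum_lip k j y y'
      have h4 : c' - bsum k j y - (c' - bsum k j y') = -(bsum k j y - bsum k j y') := by ring
      rw [h4, abs_neg]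
      refine h3.trans (mul_le_mul_of_nonneg_right (by linarith) dist_nonneg)
    · exact (h.wu.lip j y y').trans (hmono y y')
  · have := h.kb
    omega
  · exact ⟨c', fun _ => 0, fun _ _ => rfl, fun a => by simp⟩
  · intro j h2 h3
    refine ⟨(h.sim j h2 (by omega)).1, fun a => ?_⟩
    unfold D3d_u
    rw [if_pos ⟨h2, h3⟩]
  · intro j a hj hp
    have hp' := D3d_pre_u h (by omega) hc'le hp
    have h5 : D3d_u k (k + (b - 1)) c' u j a = u j a := by
      unfold D3d_u
      rw [if_neg (by omega)]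
    rw [h5]
    by_cases hj2 : (j : ℕ) < k ∨ k + b ≤ (j : ℕ)
    · have h6 := h.fat j a hj2 hp'
      exact ⟨by linarith [h6.1], h6.2⟩
    · have hjk : (j : ℕ) = k + (b - 1) := by omega
      have hs := h.size a (fun i hi => hp' i (by omega))
      have hsim := h.sim j (by omega) (by omega)
      rw [hsim.1 a, hsim.2 a]
      have h7 : 0 ≤ bsum k j a :=
        D3d_bsum_nonneg k j a fun i h8 h9 => hblock j a hp i h8 h9 (by omega)
      -- upper bound of the sum
      have hkb := h.kb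
      have hi : k + (b - 2) < n := by omega
      let i₀ : Fin n := ⟨k + (b - 2), hi⟩
      have h8 : bsum k j a ≤ c' := by
        have h9 := (hp i₀ (by change k + (b - 2) < (j : ℕ); omega)).2
        unfold D3d_u at h9
        rw [if_pos (by change k ≤ k + (b - 2) ∧ k + (b - 2) < k + (b - 1); omega)] at h9
        have h10 := D3d_bsum_succ k i₀ (by change k ≤ k + (b - 2); omega) a
        have h11 : ((i₀ : ℕ) + 1) = (j : ℕ) := by
          change k + (b - 2) + 1 = (j : ℕ)
          omega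
        rw [h11] at h10
        linarith
      constructor
      · linarith [hs.1]
      · linarith [hs.2]
  · intro a hp
    have hp' : Pre l u k a := D3d_pre_u h (by omega) hc'le hp
    have hs := h.size a hp'
    exact ⟨by linarith, by linarith [hs.1, hs.2]⟩

theorem D3d_U_eq {n : ℕ} {c L R : ℝ}
    {l u : Fin n → (Fin n → ℝ) → ℝ} {k b : ℕ}
    {σ : (Fin n → ℝ) → ℝ} (h : Geo1 c L R l u k b σ) (hb : 3 ≤ b) {c' : ℝ}
    (hc' : c' ≤ c * R) :
    boxSet l u ∩ {a | bsum k (k + (b - 1)) a < c'} =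
      boxSet l (D3d_u k (k + (b - 1)) c' u) := by
  have hkb := h.kb
  ext a
  constructor
  · rintro ⟨ha, hs⟩ j
    refine ⟨(ha j).1, ?_⟩
    unfold D3d_u
    split_ifs with h1
    · have h2 := D3d_bsum_succ k j h1.1 a
      have h3 : bsum k ((j : ℕ) + 1) a ≤ bsum k (k + (b - 1)) a := by
        refine D3d_bsum_mono k (by omega) a fun i h4 h5 => ?_
        have h6 := (ha i).1
        rw [(h.sim i h4 (by omega)).1 a] at h6
        exact h6.le
      have h4 : bsum k (k + (b - 1)) a < c' := hs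
      linarith
    · exact (ha j).2
  · intro ha
    have h1 : Pre l u n a := D3d_pre_u h (by omega) hc' (fun i _ => ha i)
    refine ⟨fun j => h1 j j.2, ?_⟩
    have hi : k + (b - 2) < n := by omega
    let i₀ : Fin n := ⟨k + (b - 2), hi⟩
    have h9 := (ha i₀).2
    unfold D3d_u at h9
    rw [if_pos (by change k ≤ k + (b - 2) ∧ k + (b - 2) < k + (b - 1); omega)] at h9
    have h10 := D3d_bsum_succ k i₀ (by change k ≤ k + (b - 2); omega) a
    have h11 : ((i₀ : ℕ) + 1) = k + (b - 1) := by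
      change k + (b - 2) + 1 = k + (b - 1)
      omega
    rw [h11] at h10
    change bsum k (k + (b - 1)) a < c'
    linarith

/-- the walls of the sub-box -/
noncomputable def D3d_wl {n : ℕ} (k : ℕ) (A : ℝ) (l : Fin n → (Fin n → ℝ) → ℝ) :
    Fin n → (Fin n → ℝ) → ℝ :=
  fun j a => if (j : ℕ) = k then A else l j a

/-- the walls of the sub-box -/
noncomputable def D3d_wu {n : ℕ} (k m : ℕ) (A B : ℝ) (u : Fin n → (Fin n → ℝ) → ℝ) :
    Fin n → (Fin n → ℝ) → ℝ :=
  fun j a => if (j : ℕ) = k then A else if k ≤ (j : ℕ) ∧ (j : ℕ) < m then B else u j a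

theorem D3d_pre_W {n : ℕ} {c L R : ℝ} (hc : 0 < c) (hR : 0 < R)
    {l u : Fin n → (Fin n → ℝ) → ℝ} {k b : ℕ}
    {σ : (Fin n → ℝ) → ℝ} (h : Geo1 c L R l u k b σ) (hb : 3 ≤ b)
    {j : ℕ} {a : Fin n → ℝ} (hp : Pre (D3d_wl k (c * R / 4) l)
      (D3d_wu k (k + b) (5 * (c * R) / 16) (c * R / (16 * n)) u) j a) :
    Pre l u j a ∧ (∀ i : Fin n, k ≤ (i : ℕ) → (i : ℕ) < j → (i : ℕ) < k + b → 0 ≤ a i) ∧
      ∀ m, m ≤ j → m ≤ k + b → bsum k m a ≤ 3 * (c * R) / 8 := by
  have hkb := h.kb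
  have hcR : 0 < c * R := mul_pos hc hR
  have hn : (0 : ℝ) < n := by
    have : 0 < n := by omega
    exact_mod_cast this
  have hlow : ∀ i : Fin n, (i : ℕ) < j → l i a < a i := by
    intro i hi
    have h1 := (hp i hi).1
    unfold D3d_wl at h1
    split_ifs at h1 with h2
    · rw [(h.sim i (by omega) (by omega)).1 a]
      linarith
    · exact h1
  have hnn : ∀ i : Fin n, k ≤ (i : ℕ) → (i : ℕ) < j → (i : ℕ) < k + b → 0 ≤ a i := by
    intro i h1 h2 h3
    have h4 := hlow i h2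
    rw [(h.sim i h1 h3).1 a] at h4
    exact h4.le
  have hsum : ∀ m, m ≤ j → m ≤ k + b → bsum k m a ≤ 3 * (c * R) / 8 := by
    intro m hm1 hm2
    have h1 := D3d_bsum_le (n := n) k m (by omega) (A := 5 * (c * R) / 16)
      (B := c * R / (16 * n)) (by positivity) (by positivity) a ?_
    · refine h1.trans (le_of_eq ?_)
      field_simp
      ring
    · intro i h2 h3
      have h4 := (hp i (by omega)).2
      unfold D3d_wu at h4
      by_cases hik : (i : ℕ) = k
      · rw [if_pos hik] at h4 ⊢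
        exact h4.le
      · rw [if_neg hik, if_pos ⟨h2, by omega⟩] at h4
        rw [if_neg hik]
        exact h4.le
  refine ⟨fun i hi => ⟨hlow i hi, ?_⟩, hnn, hsum⟩
  by_cases hblk : k ≤ (i : ℕ) ∧ (i : ℕ) < k + b
  · have h4 : Pre l u k a := by
      intro i' hi'
      have h5 := hp i' (by omega)
      unfold D3d_wl D3d_wu at h5
      rw [if_neg (by omega), if_neg (by omega), if_neg (by omega)] at h5
      exact h5
    have h6 := (h.size a h4).1
    rw [(h.sim i hblk.1 hblk.2).2 a]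
    have h7 := D3d_bsum_succ k i hblk.1 a
    have h8 := hsum ((i : ℕ) + 1) (by omega) (by omega)
    linarith
  · have h5 := (hp i hi).2
    unfold D3d_wu at h5
    rw [if_neg (by omega), if_neg hblk] at h5
    exact h5

theorem D3d_W_vol {n : ℕ} {c L R : ℝ} (hc : 0 < c) (hR : 0 < R) (hL : 0 ≤ L)
    {l u : Fin n → (Fin n → ℝ) → ℝ} {k b : ℕ}
    {σ : (Fin n → ℝ) → ℝ} (h : Geo1 c L R l u k b σ) (hb : 3 ≤ b) :
    MeasurableSet (boxSet (D3d_wl k (c * R / 4) l)
      (D3d_wu k (k + b) (5 * (c * R) / 16) (c * R / (16 * n)) u)) ∧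
    (c / (16 * n) * R) ^ n ≤ (volume (boxSet (D3d_wl k (c * R / 4) l)
      (D3d_wu k (k + b) (5 * (c * R) / 16) (c * R / (16 * n)) u))).toReal ∧
    volume (boxSet (D3d_wl k (c * R / 4) l)
      (D3d_wu k (k + b) (5 * (c * R) / 16) (c * R / (16 * n)) u)) ≠ ⊤ := by
  have hkb := h.kb
  have hcR : 0 < c * R := mul_pos hc hR
  have hn1 : 1 ≤ n := by omega
  have hn : (1 : ℝ) ≤ n := by exact_mod_cast hn1
  have hwl : Walls L (D3d_wl k (c * R / 4) l) := by
    refine ⟨fun j y y' hy => ?_, fun j y y' => ?_⟩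
    · unfold D3d_wl
      split_ifs
      · rfl
      · exact h.wl.dep j y y' hy
    · unfold D3d_wl
      split_ifs
      · rw [sub_self, abs_zero]
        positivity
      · exact h.wl.lip j y y'
  have hwu : Walls L (D3d_wu k (k + b) (5 * (c * R) / 16) (c * R / (16 * n)) u) := by
    refine ⟨fun j y y' hy => ?_, fun j y y' => ?_⟩
    · unfold D3d_wu
      split_ifs
      · rfl
      · rfl
      · exact h.wu.dep j y y' hy
    · unfold D3d_wu
      split_ifs
      · rw [sub_self, abs_zero]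
        positivity
      · rw [sub_self, abs_zero]
        positivity
      · exact h.wu.lip j y y'
  refine ⟨D3d_meas hL hwl hwu, ?_⟩
  have hsmall : c / (16 * n) * R ≤ c * R / 16 := by
    rw [div_mul_eq_mul_div]
    exact div_le_div_of_nonneg_left hcR.le (by norm_num) (by linarith)
  refine volume_pre_ge n (c := c / (16 * n)) (by positivity) hR hL hwl hwu ?_
  intro j a hp
  obtain ⟨hp', -, -⟩ := D3d_pre_W hc hR h hb hp
  by_cases hj : (j : ℕ) = k
  · have hs := h.size a (fun i hi => hp' i (by omega))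
    unfold D3d_wl D3d_wu
    rw [if_pos hj, if_pos hj]
    constructor
    · linarith
    · linarith [hs.1, hs.2]
  · by_cases hj2 : k ≤ (j : ℕ) ∧ (j : ℕ) < k + b
    · have hs := h.size a (fun i hi => hp' i (by omega))
      unfold D3d_wl D3d_wu
      rw [if_neg hj, if_neg hj, if_pos hj2, (h.sim j hj2.1 hj2.2).1 a]
      have h3 : c * R / (16 * n) = c / (16 * n) * R := by ring
      rw [h3]
      constructor
      · linarith
      · linarith [hs.1, hs.2]
    · have hf := h.fat j a (by omega) hp'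
      unfold D3d_wl D3d_wu
      rw [if_neg hj, if_neg hj, if_neg hj2]
      constructor
      · linarith [hf.1]
      · exact hf.2

theorem D3d_big {n : ℕ} {c L R : ℝ} (hc : 0 < c) (hR : 0 < R) (hL : 0 ≤ L)
    {l u : Fin n → (Fin n → ℝ) → ℝ} {k b : ℕ}
    {σ : (Fin n → ℝ) → ℝ} (h : Geo1 c L R l u k b σ) (hb : 3 ≤ b)
    (hfin : volume (boxSet l u) ≠ ⊤) (hRb : 1 < c / (16 * n) * R) :
    (volume (boxSet l u ∩ {a | bsum k (k + (b - 1)) a < c / 4 * R})).toReal +
      1 / (n.factorial : ℝ) <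
      (volume (boxSet l u ∩ {a | bsum k (k + (b - 1)) a < c / 2 * R})).toReal := by
  have hkb := h.kb
  have hcR : 0 < c * R := mul_pos hc hR
  obtain ⟨hWm, hWv, hWf⟩ := D3d_W_vol hc hR hL h hb
  set W := boxSet (D3d_wl k (c * R / 4) l)
      (D3d_wu k (k + b) (5 * (c * R) / 16) (c * R / (16 * n)) u) with hW
  have hWsub : ∀ a ∈ W, a ∈ boxSet l u ∧ c * R / 4 < bsum k (k + (b - 1)) a ∧
      bsum k (k + (b - 1)) a < c / 2 * R := by
    intro a ha
    have hp : Pre (D3d_wl k (c * R / 4) l)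
      (D3d_wu k (k + b) (5 * (c * R) / 16) (c * R / (16 * n)) u) n a := fun i _ => ha i
    obtain ⟨h1, h2, h3⟩ := D3d_pre_W hc hR h hb hp
    refine ⟨fun j => h1 j j.2, ?_, ?_⟩
    · have hkn : k < n := by omega
      let i₀ : Fin n := ⟨k, hkn⟩
      have h4 := (ha i₀).1
      unfold D3d_wl at h4
      rw [if_pos (show (i₀ : ℕ) = k from rfl)] at h4
      have h5 := D3d_bsum_succ k i₀ (le_refl k) a
      have h6 : bsum k (i₀ : ℕ) a = 0 := D3d_bsum_self k a
      have h7 : bsum k ((i₀ : ℕ) + 1) a ≤ bsum k (k + (b - 1)) a := by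
        refine D3d_bsum_mono k ?_ a fun i h8 h9 => h2 i h8 i.2 (by omega)
        change k + 1 ≤ k + (b - 1)
        omega
      linarith
    · have h4 := h3 (k + (b - 1)) (by omega) (by omega)
      linarith
  have hdisj : Disjoint (boxSet l u ∩ {a | bsum k (k + (b - 1)) a < c / 4 * R}) W := by
    rw [Set.disjoint_left]
    rintro a ⟨-, ha⟩ haW
    have h1 := (hWsub a haW).2.1
    have h2 : bsum k (k + (b - 1)) a < c / 4 * R := ha
    linarith
  have hsub : (boxSet l u ∩ {a | bsum k (k + (b - 1)) a < c / 4 * R}) ∪ W ⊆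
      boxSet l u ∩ {a | bsum k (k + (b - 1)) a < c / 2 * R} := by
    rintro a (⟨ha1, ha2⟩ | ha)
    · have h2 : bsum k (k + (b - 1)) a < c / 4 * R := ha2
      refine ⟨ha1, ?_⟩
      change bsum k (k + (b - 1)) a < c / 2 * R
      linarith
    · exact ⟨(hWsub a ha).1, (hWsub a ha).2.2⟩
  have hf1 : volume (boxSet l u ∩ {a | bsum k (k + (b - 1)) a < c / 2 * R}) ≠ ⊤ :=
    ne_top_of_le_ne_top hfin (measure_mono Set.inter_subset_left)
  have hf0 : volume (boxSet l u ∩ {a | bsum k (k + (b - 1)) a < c / 4 * R}) ≠ ⊤ :=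
    ne_top_of_le_ne_top hfin (measure_mono Set.inter_subset_left)
  have h1 : (volume (boxSet l u ∩ {a | bsum k (k + (b - 1)) a < c / 4 * R})).toReal +
      (volume W).toReal ≤
      (volume (boxSet l u ∩ {a | bsum k (k + (b - 1)) a < c / 2 * R})).toReal := by
    rw [← ENNReal.toReal_add hf0 hWf, ← measure_union hdisj hWm]
    exact ENNReal.toReal_mono hf1 (measure_mono hsub)
  have hn0 : n ≠ 0 := by omega
  have h2 : 1 < (c / (16 * n) * R) ^ n := one_lt_pow₀ hRb hn0
  have h3 : 1 / (n.factorial : ℝ) ≤ 1 := by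
    rw [div_le_one (by positivity)]
    exact_mod_cast Nat.one_le_iff_ne_zero.2 (Nat.factorial_ne_zero n)
  linarith

/-- the pairs scheme -/
theorem S1_step (n b : ℕ) (hn : 2 ≤ n) (hb : 3 ≤ b) (h1 : S1 n (b - 1)) (h2 : S2 n (b - 2)) :
    S1 n b := by
  intro c L δ N hc hL hδ hδ1 hN
  obtain ⟨L', hL', hmap⟩ := Geo1.hmap (n := n) L hL
  have hnn : (0 : ℝ) < n := by
    have : 0 < n := by omega
    exact_mod_cast this
  obtain ⟨R1, hR1, hF1⟩ := h1 (c / 4) (L + n) δ N (by positivity) (by positivity) hδ hδ1 hN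
  obtain ⟨R2, hR2, hF2⟩ := h2 (c / 4) L' δ N (by positivity) hL' hδ hδ1 hN
  refine ⟨max (max R1 R2) (16 * n / c + 1), by positivity, ?_⟩
  intro R hR l u k σ hG
  have hRR1 : R1 ≤ R := (le_max_left _ _).trans ((le_max_left _ _).trans hR)
  have hRR2 : R2 ≤ R := (le_max_right _ _).trans ((le_max_left _ _).trans hR)
  have hRR3 : 16 * n / c + 1 ≤ R := (le_max_right _ _).trans hR
  have hR0 : 0 < R := lt_of_lt_of_le hR1 hRR1
  have hcR : 0 < c * R := mul_pos hc hR0
  have hkb := hG.kb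
  obtain ⟨-, hfin⟩ := Geo1.volume_ge hc hL hR0 hG
  have hmeas : MeasurableSet (boxSet l u) := D3d_meas hL hG.wl hG.wu
  have hRb : 1 < c / (16 * n) * R := by
    have h3 : 16 * n / c < R := by linarith
    rw [div_lt_iff₀ hc] at h3
    rw [div_mul_eq_mul_div, lt_div_iff₀ (by positivity)]
    linarith
  have hnull : ∀ s : ℝ, volume {a : Fin n → ℝ | bsum k (k + (b - 1)) a = s} = 0 := by
    intro s
    have h3 := volume_affine_zero (n := n)
      (fun i => if k ≤ (i : ℕ) ∧ (i : ℕ) < k + (b - 1) then 1 else 0) ?_ s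
    · have h4 : {a : Fin n → ℝ | bsum k (k + (b - 1)) a = s} = {a : Fin n → ℝ |
          ∑ i : Fin n, (if k ≤ (i : ℕ) ∧ (i : ℕ) < k + (b - 1) then (1 : ℝ) else 0) * a i = s} := by
        ext a
        have h5 : bsum k (k + (b - 1)) a =
            ∑ i : Fin n, (if k ≤ (i : ℕ) ∧ (i : ℕ) < k + (b - 1) then (1 : ℝ) else 0) * a i := by
          unfold bsum
          refine Finset.sum_congr rfl fun i _ => ?_
          split_ifs
          · rw [one_mul]
          · rw [zero_mul]
        change bsum k (k + (b - 1)) a = s ↔ _ = s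
        rw [h5]
      rw [h4]
      exact h3
    · intro h4
      have h5 := congrFun h4 (⟨k, by omega⟩ : Fin n)
      simp only [Pi.zero_apply] at h5
      rw [if_pos (by omega)] at h5
      exact one_ne_zero h5
  refine Fill.split (by omega) hδ1 hfin
    (fun c' => boxSet l u ∩ {a | bsum k (k + (b - 1)) a < c'})
    (fun c' => boxSet l u ∩ {a | c' < bsum k (k + (b - 1)) a})
    (c₀ := c / 4 * R) (c₁ := c / 2 * R) (by linarith)
    (fun c' _ _ => Set.inter_subset_left) (fun c' _ _ => Set.inter_subset_left)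
    ?_ ?_ ?_ (D3d_big hc hR0 hL hG hb hfin hRb) ?_ ?_
  · intro c' _ _
    rw [Set.disjoint_left]
    rintro a ⟨-, ha⟩ ⟨-, ha'⟩
    exact lt_asymm (show bsum k (k + (b - 1)) a < c' from ha) ha'
  · intro c' _ _
    have hf1 : volume (boxSet l u ∩ {a | bsum k (k + (b - 1)) a < c'}) ≠ ⊤ :=
      ne_top_of_le_ne_top hfin (measure_mono Set.inter_subset_left)
    have hf2 : volume (boxSet l u ∩ {a | c' < bsum k (k + (b - 1)) a}) ≠ ⊤ :=
      ne_top_of_le_ne_top hfin (measure_mono Set.inter_subset_left)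
    rw [← ENNReal.toReal_add hf1 hf2]
    refine ENNReal.toReal_mono (ENNReal.add_ne_top.2 ⟨hf1, hf2⟩) ?_
    have hcov : boxSet l u ⊆ ((boxSet l u ∩ {a | bsum k (k + (b - 1)) a < c'}) ∪
        (boxSet l u ∩ {a | c' < bsum k (k + (b - 1)) a})) ∪
        {a | bsum k (k + (b - 1)) a = c'} := by
      intro a ha
      rcases lt_trichotomy (bsum k (k + (b - 1)) a) c' with h3 | h3 | h3
      · exact Or.inl (Or.inl ⟨ha, h3⟩)
      · exact Or.inr h3
      · exact Or.inl (Or.inr ⟨ha, h3⟩)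
    refine (measure_mono hcov).trans ((measure_union_le _ _).trans ?_)
    rw [hnull c', add_zero]
    exact measure_union_le _ _
  · have h3 := volume_lt_continuous hfin hmeas (f := fun a => bsum k (k + (b - 1)) a)
      (g := fun _ => 1) (D3d_bsum_cont k _).measurable measurable_const
      (fun _ _ => one_pos) (fun c' => by
        refine measure_mono_null Set.inter_subset_right ?_
        simp only [mul_one]
        exact hnull c')
    simp only [mul_one] at h3
    exact h3.continuousOn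
  · intro c' h3 h4
    rw [D3d_U_eq hG hb (by linarith)]
    exact hF1 R hRR1 l _ k _ (D3d_geo hc hR0 hL hG hb h3 h4)
  · intro c' h3 h4
    obtain ⟨G, v, l', u', σ', hG1, hG2, hG3, hG4⟩ :=
      hmap c R c' l u k b σ hc hR0 hb hG h3 h4
    refine Fill.image G hG1 hG2 v ?_
    have h5 : k + (b - 1) = k + b - 1 := by omega
    rw [h5, hG4]
    exact hF2 R hRR2 l' u' k _ σ' hG3

end Vale.Agent.P209.Strong
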