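import Vale.Agent.P209.Strong.D3a

set_option linter.all false

namespace Vale.Agent.P209.Strong

open MeasureTheory

/-- lower walls of a cell. -/
noncomputable def d3cL {n : ℕ} (l : Fin n → (Fin n → ℝ) → ℝ) (i j : Fin n) (α : ℝ)
    (τ g : (Fin n → ℝ) → ℝ) : Fin n → (Fin n → ℝ) → ℝ :=
  fun m => if m = i then fun a => α * τ a else if m = j then g else l m

/-- upper walls of a cell. -/
noncomputable def d3cU {n : ℕ} (u : Fin n → (Fin n → ℝ) → ℝ) (i : Fin n) (β : ℝ)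
    (τ : (Fin n → ℝ) → ℝ) : Fin n → (Fin n → ℝ) → ℝ :=
  fun m => if m = i then fun a => β * τ a else u m

section d3c

variable {n b : ℕ} {c L R : ℝ} {l u : Fin n → (Fin n → ℝ) → ℝ} {k : ℕ}
  {τ σ : (Fin n → ℝ) → ℝ} {i j : Fin n} {α β : ℝ} {g : (Fin n → ℝ) → ℝ}

theorem d3c_ui (h : Geo2 c L R l u k b τ σ) (hi : (i : ℕ) = k) (a : Fin n → ℝ) :
    l i a = 0 ∧ u i a = τ a := by
  obtain ⟨h1, h2⟩ := h.simτ i (by omega) (by omega)
  refine ⟨h1 a, ?_⟩
  rw [h2 a]
  have : bsum k (i : ℕ) a = 0 := by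
    unfold bsum
    refine Finset.sum_eq_zero fun m _ => ?_
    rw [if_neg (by omega)]
  rw [this, sub_zero]

theorem d3c_uj (h : Geo2 c L R l u k b τ σ) (hi : (i : ℕ) = k) (hj : (j : ℕ) = k + 1)
    (a : Fin n → ℝ) : l j a = 0 ∧ u j a = τ a - a i := by
  obtain ⟨h1, h2⟩ := h.simτ j (by omega) (by omega)
  refine ⟨h1 a, ?_⟩
  rw [h2 a]
  have : bsum k (j : ℕ) a = a i := by
    unfold bsum
    rw [Finset.sum_eq_single i]
    · rw [if_pos (by omega)]
    · intro m _ hm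
      rw [if_neg]
      intro hm2
      exact hm (Fin.ext (by omega))
    · intro hh
      exact absurd (Finset.mem_univ i) hh
  rw [this]

theorem d3c_pre (hR : 0 < R) (hc : 0 < c) (h : Geo2 c L R l u k b τ σ) (hi : (i : ℕ) = k)
    (hj : (j : ℕ) = k + 1) (hα : 0 ≤ α) (hβ : β ≤ 1)
    (hg3 : ∀ a, Pre l u j a → a i < β * τ a → 0 ≤ g a ∧ g a + τ a / 10 ≤ τ a - a i)
    {m : ℕ} {a : Fin n → ℝ} (hp : Pre (d3cL l i j α τ g) (d3cU u i β τ) m a) : Pre l u m a := by
  have hij : j ≠ i := fun e => by rw [e] at hj; omega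
  -- the coordinates before k
  have h0 : ∀ x : Fin n, (x : ℕ) < m → x ≠ i → x ≠ j → l x a < a x ∧ a x < u x a := by
    intro x hx hxi hxj
    have := hp x hx
    simp only [d3cL, d3cU, if_neg hxi, if_neg hxj] at this
    exact this
  have h1 : k < m → Pre l u k a := by
    intro hkm x hx
    exact h0 x (by omega) (fun e => by rw [e] at hx; omega) (fun e => by rw [e] at hx; omega)
  have h2 : k < m → (l i a < a i ∧ a i < u i a) ∧ a i < β * τ a := by
    intro hkm
    have hτ := (h.sizeτ a (h1 hkm)).1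
    have hτ0 : 0 < τ a := (mul_pos hc hR).trans_le hτ
    have := hp i (by omega)
    simp only [d3cL, d3cU, if_true] at this
    obtain ⟨e1, e2⟩ := d3c_ui h hi a
    rw [e1, e2]
    have h3 : 0 ≤ α * τ a := mul_nonneg hα hτ0.le
    have h4 : β * τ a ≤ 1 * τ a := mul_le_mul_of_nonneg_right hβ hτ0.le
    exact ⟨⟨by linarith, by linarith⟩, this.2⟩
  intro x hx
  by_cases hxi : x = i
  · rw [hxi]
    exact (h2 (by rw [hxi] at hx; omega)).1
  · by_cases hxj : x = j
    · rw [hxj]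
      rw [hxj] at hx
      have hkm : k < m := by omega
      have hpre : Pre l u j a := by
        intro y hy
        by_cases hyi : y = i
        · rw [hyi]
          exact (h2 hkm).1
        · exact h1 hkm y (by
            have : (y : ℕ) ≠ (i : ℕ) := fun e => hyi (Fin.ext e)
            omega)
      have h3 := hg3 a hpre (h2 hkm).2
      have := hp j hx
      simp only [d3cL, d3cU, if_neg hij, if_true] at this
      refine ⟨?_, this.2⟩
      rw [(d3c_uj h hi hj a).1]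
      linarith
    · exact h0 x hx hxi hxj

theorem d3c_box (hR : 0 < R) (hc : 0 < c) (h : Geo2 c L R l u k b τ σ) (hi : (i : ℕ) = k)
    (hj : (j : ℕ) = k + 1) (hα : 0 ≤ α) (hβ : β ≤ 1)
    (hg3 : ∀ a, Pre l u j a → a i < β * τ a → 0 ≤ g a ∧ g a + τ a / 10 ≤ τ a - a i) :
    boxSet (d3cL l i j α τ g) (d3cU u i β τ) =
      boxSet l u ∩ {a | α * τ a < a i ∧ a i < β * τ a ∧ g a < a j} := by
  have hij : j ≠ i := fun e => by rw [e] at hj; omega
  ext a
  constructor
  · intro ha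
    have hp : Pre (d3cL l i j α τ g) (d3cU u i β τ) n a := fun x _ => ha x
    have hp' := d3c_pre hR hc h hi hj hα hβ hg3 hp
    refine ⟨fun x => hp' x x.2, ?_⟩
    have hai := ha i
    have haj := ha j
    simp only [d3cL, d3cU, if_true] at hai
    simp only [d3cL, d3cU, if_neg hij, if_true] at haj
    exact ⟨hai.1, hai.2, haj.1⟩
  · rintro ⟨ha, h1, h2, h3⟩ x
    by_cases hxi : x = i
    · rw [hxi]
      simp only [d3cL, d3cU, if_true]
      exact ⟨h1, h2⟩
    · by_cases hxj : x = j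
      · rw [hxj]
        simp only [d3cL, d3cU, if_neg hij, if_true]
        exact ⟨h3, (ha j).2⟩
      · simp only [d3cL, d3cU, if_neg hxi, if_neg hxj]
        exact ha x

theorem d3c_geo (hR : 0 < R) (hc : 0 < c) (hL : 0 ≤ L) (h : Geo2 c L R l u k b τ σ)
    (hi : (i : ℕ) = k) (hj : (j : ℕ) = k + 1) {ρ : ℝ} (hρ : 0 ≤ ρ) (hρ1 : ρ ≤ 1 / 10)
    (hα : 0 ≤ α) (hαβ : α + ρ ≤ β) (hβ : β ≤ 1)
    (hg : ∀ y y', (∀ m, m < j → y m = y' m) → g y = g y')
    (hg2 : ∀ y y', |g y - g y'| ≤ L * dist y y')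
    (hg3 : ∀ a, Pre l u j a → a i < β * τ a → 0 ≤ g a ∧ g a + τ a / 10 ≤ τ a - a i) :
    Geo1 (c * ρ) L R (d3cL l i j α τ g) (d3cU u i β τ) (k + 2) b σ := by
  have hij : j ≠ i := fun e => by rw [e] at hj; omega
  have hτdep : ∀ y y' : Fin n → ℝ, (∀ m, m < i → y m = y' m) → τ y = τ y' := by
    intro y y' hy
    rw [← (d3c_ui h hi y).2, ← (d3c_ui h hi y').2]
    exact h.wu.dep i y y' hy
  have hτlip : ∀ y y' : Fin n → ℝ, |τ y - τ y'| ≤ L * dist y y' := by
    intro y y'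
    rw [← (d3c_ui h hi y).2, ← (d3c_ui h hi y').2]
    exact h.wu.lip i y y'
  have hscal : ∀ γ : ℝ, 0 ≤ γ → γ ≤ 1 → ∀ y y' : Fin n → ℝ,
      |γ * τ y - γ * τ y'| ≤ L * dist y y' := by
    intro γ h0 h1 y y'
    rw [← mul_sub, abs_mul, abs_of_nonneg h0]
    calc γ * |τ y - τ y'| ≤ 1 * |τ y - τ y'| := mul_le_mul_of_nonneg_right h1 (abs_nonneg _)
      _ ≤ L * dist y y' := by rw [one_mul]; exact hτlip y y'
  have hα1 : α ≤ 1 := by linarith
  have hβ0 : 0 ≤ β := by linarith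
  have hρc : c * ρ * R ≤ c * R / 10 := by
    have : c * ρ * R = (c * R) * ρ := by ring
    rw [this, div_eq_mul_one_div]
    exact mul_le_mul_of_nonneg_left hρ1 (mul_pos hc hR).le
  have hcR := mul_pos hc hR
  have hpre : ∀ {m : ℕ} {a : Fin n → ℝ}, Pre (d3cL l i j α τ g) (d3cU u i β τ) m a →
      Pre l u m a := fun hp => d3c_pre hR hc h hi hj hα hβ hg3 hp
  refine ⟨⟨fun m y y' hy => ?_, fun m y y' => ?_⟩, ⟨fun m y y' hy => ?_, fun m y y' => ?_⟩, h.kb,
    h.intσ, fun m h1 h2 => ?_, fun m a hm hp => ?_, fun a hp => ?_⟩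
  · by_cases hmi : m = i
    · simp only [d3cL, if_pos hmi]
      rw [hτdep y y' (fun x hx => hy x (by rw [hmi]; exact hx))]
    · by_cases hmj : m = j
      · simp only [d3cL, if_neg hmi, if_pos hmj]
        exact hg y y' (fun x hx => hy x (by rw [hmj]; exact hx))
      · simp only [d3cL, if_neg hmi, if_neg hmj]
        exact h.wl.dep m y y' hy
  · by_cases hmi : m = i
    · simp only [d3cL, if_pos hmi]
      exact hscal α hα hα1 y y'
    · by_cases hmj : m = j
      · simp only [d3cL, if_neg hmi, if_pos hmj]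
        exact hg2 y y'
      · simp only [d3cL, if_neg hmi, if_neg hmj]
        exact h.wl.lip m y y'
  · by_cases hmi : m = i
    · simp only [d3cU, if_pos hmi]
      rw [hτdep y y' (fun x hx => hy x (by rw [hmi]; exact hx))]
    · simp only [d3cU, if_neg hmi]
      exact h.wu.dep m y y' hy
  · by_cases hmi : m = i
    · simp only [d3cU, if_pos hmi]
      exact hscal β hβ0 hβ y y'
    · simp only [d3cU, if_neg hmi]
      exact h.wu.lip m y y'
  · have hmi : m ≠ i := fun e => by rw [e] at h1; omega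
    have hmj : m ≠ j := fun e => by rw [e] at h1; omega
    simp only [d3cL, d3cU, if_neg hmi, if_neg hmj]
    exact h.simσ m h1 h2
  · have hp' := hpre hp
    by_cases hmi : m = i
    · rw [hmi] at hp' ⊢
      simp only [d3cL, d3cU, if_true]
      rw [hi] at hp'
      obtain ⟨s1, s2⟩ := h.sizeτ a hp'
      have hτ0 : 0 < τ a := hcR.trans_le s1
      have e1 : β * τ a - α * τ a = (β - α) * τ a := by ring
      rw [e1]
      constructor
      · calc c * ρ * R = ρ * (c * R) := by ring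
          _ ≤ (β - α) * τ a := mul_le_mul (by linarith) s1 hcR.le (by linarith)
      · calc (β - α) * τ a ≤ 1 * τ a := mul_le_mul_of_nonneg_right (by linarith) hτ0.le
          _ ≤ R := by linarith
    · by_cases hmj : m = j
      · rw [hmj] at hp' hp ⊢
        simp only [d3cL, d3cU, if_neg hij, if_true]
        have hpk : Pre l u k a := fun x hx => hp' x (by omega)
        obtain ⟨s1, s2⟩ := h.sizeτ a hpk
        have hpi := hp i (by omega)
        simp only [d3cL, d3cU, if_true] at hpi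
        have h3 := hg3 a hp' hpi.2
        have hpi' := hp' i (by omega)
        rw [(d3c_ui h hi a).1] at hpi'
        rw [(d3c_uj h hi hj a).2]
        constructor <;> linarith
      · simp only [d3cL, d3cU, if_neg hmi, if_neg hmj]
        have hmk : (m : ℕ) ≠ k := fun e => hmi (Fin.ext (by omega))
        have hmk1 : (m : ℕ) ≠ k + 1 := fun e => hmj (Fin.ext (by omega))
        obtain ⟨s1, s2⟩ := h.fat m a (by omega) hp'
        constructor <;> linarith
  · obtain ⟨s1, s2⟩ := h.sizeσ a (hpre hp)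
    constructor <;> linarith

end d3c

/-- A cell in the triangle of the form `α τ < a_k < β τ`, `g < a_{k+1} (< τ - a_k)` is filled
(`i, j` are the indices `k`, `k + 1`). -/
theorem Geo2.cell_fill {n b : ℕ} (hn : 2 ≤ n) (hS : S1 n b) (c L δ N : ℝ) (hc : 0 < c)
    (hL : 0 ≤ L) (hδ : 0 < δ) (hδ1 : δ ≤ 1) (hN : 0 ≤ N) : ∃ R0 : ℝ, 0 < R0 ∧ ∀ R, R0 ≤ R →
    ∀ (l u : Fin n → (Fin n → ℝ) → ℝ) (k : ℕ) (τ σ : (Fin n → ℝ) → ℝ), Geo2 c L R l u k b τ σ →
      ∀ (i j : Fin n), (i : ℕ) = k → (j : ℕ) = k + 1 → ∀ (β : ℝ) (g : (Fin n → ℝ) → ℝ),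
        1 / 5 ≤ β → β ≤ 1 → (∀ y y', (∀ m, m < j → y m = y' m) → g y = g y') →
        (∀ y y', |g y - g y'| ≤ L * dist y y') →
        (∀ a, Pre l u j a → a i < β * τ a → 0 ≤ g a ∧ g a + τ a / 10 ≤ τ a - a i) →
        Fill δ N (boxSet l u ∩ {a | a i < β * τ a ∧ g a < a j}) := by
  obtain ⟨R0, hR0, hR0'⟩ := hS (c * (1 / 10)) L δ N (by positivity) hL hδ hδ1 hN
  refine ⟨R0, hR0, fun R hR l u k τ σ h i j hi hj β g hβ5 hβ hg hg2 hg3 => ?_⟩
  have hRp : 0 < R := hR0.trans_le hR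
  have h1 := hR0' R hR _ _ _ _ (d3c_geo (α := 0) hRp hc hL h hi hj (by norm_num) le_rfl le_rfl
    (by linarith) hβ hg hg2 hg3)
  rw [d3c_box hRp hc h hi hj le_rfl hβ hg3] at h1
  convert h1 using 1
  ext a
  constructor
  · rintro ⟨ha, h2, h3⟩
    refine ⟨ha, ?_, h2, h3⟩
    have := (ha i).1
    rw [(d3c_ui h hi a).1] at this
    rw [zero_mul]
    exact this
  · rintro ⟨ha, _, h2, h3⟩
    exact ⟨ha, h2, h3⟩

/-- Lower bound for the volume of such a cell. -/
theorem Geo2.cell_volume {n b : ℕ} {c L R : ℝ} (hc : 0 < c) (hL : 0 ≤ L) (hR : 0 < R)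
    {l u : Fin n → (Fin n → ℝ) → ℝ} {k : ℕ} {τ σ : (Fin n → ℝ) → ℝ}
    (h : Geo2 c L R l u k b τ σ) {i j : Fin n} (hi : (i : ℕ) = k) (hj : (j : ℕ) = k + 1)
    {α β : ℝ} {g : (Fin n → ℝ) → ℝ} (hα : 0 ≤ α) (hαβ : α + 1 / 100 ≤ β) (hβ : β ≤ 1)
    (hg : ∀ y y', (∀ m, m < j → y m = y' m) → g y = g y')
    (hg2 : ∀ y y', |g y - g y'| ≤ L * dist y y')
    (hg3 : ∀ a, Pre l u j a → a i < β * τ a → 0 ≤ g a ∧ g a + τ a / 10 ≤ τ a - a i) :
    (c / (100 * (n + 1)) * R) ^ n ≤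
      (volume (boxSet l u ∩ {a | α * τ a ≤ a i ∧ a i < β * τ a ∧ g a < a j})).toReal := by
  have h1 := (d3c_geo (α := α) hR hc hL h hi hj (ρ := 1 / 100) (by norm_num) (by norm_num) hα
    hαβ hβ hg hg2 hg3).volume_ge (by positivity) hL hR
  have h2 := (d3c_geo (α := 0) hR hc hL h hi hj (ρ := 1 / 100) (by norm_num) (by norm_num) le_rfl
    (by linarith) hβ hg hg2 hg3).volume_ge (by positivity) hL hR
  rw [d3c_box hR hc h hi hj hα hβ hg3] at h1
  rw [d3c_box hR hc h hi hj le_rfl hβ hg3] at h2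
  have e1 : c / (100 * (n + 1)) * R = c * (1 / 100) / (n + 1) * R := by
    field_simp
  rw [e1]
  refine h1.1.trans (ENNReal.toReal_mono ?_ (measure_mono ?_))
  · refine ne_top_of_le_ne_top h2.2 (measure_mono ?_)
    rintro a ⟨ha, _, h3, h4⟩
    refine ⟨ha, ?_, h3, h4⟩
    have := (ha i).1
    rw [(d3c_ui h hi a).1] at this
    rw [zero_mul]
    exact this
  · rintro a ⟨ha, h3, h4, h5⟩
    exact ⟨ha, h3.le, h4, h5⟩

end Vale.Agent.P209.Strong
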