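import Vale.Agent.P209.Strong.D3a

namespace Vale.Agent.P209.Strong

open MeasureTheory

section rot

variable {n : ℕ}

/-- linear part of the rotation -/
noncomputable def rotG (m : Fin n → ℤ) (p q : Fin n) (a : Fin n → ℝ) : Fin n → ℝ := fun j =>
  if j = p then a q else if j = q then (∑ i, (m i : ℝ) * a i) - a p - a q else a j

/-- linear part of the inverse rotation -/
noncomputable def rotI (m : Fin n → ℤ) (p q : Fin n) (a : Fin n → ℝ) : Fin n → ℝ := fun j =>
  if j = p then (∑ i, (m i : ℝ) * a i) - a p - a q else if j = q then a p else a j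

theorem rot_sum {m : Fin n → ℤ} {p q : Fin n} (hp : m p = 0) (hq : m q = 0) {a a' : Fin n → ℝ}
    (h : ∀ j, j ≠ p → j ≠ q → a j = a' j) :
    ∑ i, (m i : ℝ) * a i = ∑ i, (m i : ℝ) * a' i := by
  refine Finset.sum_congr rfl fun i _ => ?_
  by_cases h1 : i = p
  · subst h1; simp [hp]
  · by_cases h2 : i = q
    · subst h2; simp [hq]
    · rw [h i h1 h2]

theorem rotG_sum {m : Fin n → ℤ} {p q : Fin n} (hp : m p = 0) (hq : m q = 0) (a : Fin n → ℝ) :
    ∑ i, (m i : ℝ) * rotG m p q a i = ∑ i, (m i : ℝ) * a i :=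
  rot_sum hp hq fun j h1 h2 => by simp [rotG, h1, h2]

theorem rotI_sum {m : Fin n → ℤ} {p q : Fin n} (hp : m p = 0) (hq : m q = 0) (a : Fin n → ℝ) :
    ∑ i, (m i : ℝ) * rotI m p q a i = ∑ i, (m i : ℝ) * a i :=
  rot_sum hp hq fun j h1 h2 => by simp [rotI, h1, h2]

/-- the rotation as a linear equivalence -/
noncomputable def rotE (m : Fin n → ℤ) (p q : Fin n) (hpq : p ≠ q) (hp : m p = 0) (hq : m q = 0) :
    (Fin n → ℝ) ≃ₗ[ℝ] (Fin n → ℝ) where
  toFun := rotG m p q
  invFun := rotI m p q
  map_add' a b := by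
    funext j
    simp only [rotG, Pi.add_apply, mul_add, Finset.sum_add_distrib]
    split_ifs <;> ring
  map_smul' r a := by
    funext j
    simp only [rotG, Pi.smul_apply, smul_eq_mul, RingHom.id_apply]
    have : ∑ i, (m i : ℝ) * (r * a i) = r * ∑ i, (m i : ℝ) * a i := by
      rw [Finset.mul_sum]; exact Finset.sum_congr rfl fun i _ => by ring
    rw [this]
    split_ifs <;> ring
  left_inv a := by
    funext j
    by_cases h1 : j = p
    · subst h1
      show (if j = j then _ else _) = _
      rw [if_pos rfl, rotG_sum hp hq]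
      simp [rotG, hpq.symm]
    · by_cases h2 : j = q
      · subst h2
        simp [rotI, rotG, h1]
      · simp [rotI, rotG, h1, h2]
  right_inv a := by
    funext j
    by_cases h1 : j = p
    · subst h1
      simp [rotI, rotG, hpq.symm]
    · by_cases h2 : j = q
      · subst h2
        show (if j = p then _ else if j = j then _ else _) = _
        rw [if_neg h1, if_pos rfl, rotI_sum hp hq]
        simp only [rotI, if_true, if_neg h1]
        ring
      · simp [rotI, rotG, h1, h2]

theorem rot_single (m : Fin n → ℤ) (i : Fin n) :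
    ∑ k, (m k : ℝ) * (Pi.single i (1 : ℝ) : Fin n → ℝ) k = m i := by
  simp [Pi.single_apply]

theorem rot_single_int (i j : Fin n) : ∃ z : ℤ, (Pi.single i (1 : ℝ) : Fin n → ℝ) j = z := by
  by_cases h : j = i
  · subst h; exact ⟨1, by simp⟩
  · exact ⟨0, by simp [h]⟩

theorem rotG_int (m : Fin n → ℤ) (p q i j : Fin n) : ∃ z : ℤ, rotG m p q (Pi.single i 1) j = z := by
  obtain ⟨z1, h1⟩ := rot_single_int i p
  obtain ⟨z2, h2⟩ := rot_single_int i q
  obtain ⟨z3, h3⟩ := rot_single_int i j
  simp only [rotG, rot_single, h1, h2, h3]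
  split_ifs
  · exact ⟨z2, rfl⟩
  · exact ⟨m i - z1 - z2, by push_cast; ring⟩
  · exact ⟨z3, rfl⟩

theorem rotI_int (m : Fin n → ℤ) (p q i j : Fin n) : ∃ z : ℤ, rotI m p q (Pi.single i 1) j = z := by
  obtain ⟨z1, h1⟩ := rot_single_int i p
  obtain ⟨z2, h2⟩ := rot_single_int i q
  obtain ⟨z3, h3⟩ := rot_single_int i j
  simp only [rotI, rot_single, h1, h2, h3]
  split_ifs
  · exact ⟨m i - z1 - z2, by push_cast; ring⟩
  · exact ⟨z1, rfl⟩
  · exact ⟨z3, rfl⟩

end rot

/-- The rotation `(a_k, a_{k+1}) ↦ (a_{k+1}, τ a - a_k - a_{k+1})` of the triangle. -/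
theorem Geo2.rot {n : ℕ} {c L R : ℝ} (hL : 0 ≤ L) {l u : Fin n → (Fin n → ℝ) → ℝ} {k b : ℕ}
    {τ σ : (Fin n → ℝ) → ℝ} (h : Geo2 c L R l u k b τ σ) :
    ∃ (G : (Fin n → ℝ) ≃ₗ[ℝ] (Fin n → ℝ)) (v : Fin n → ℝ) (l' u' : Fin n → (Fin n → ℝ) → ℝ)
      (σ' : (Fin n → ℝ) → ℝ),
      (∀ i j, ∃ m : ℤ, G (Pi.single i 1) j = m) ∧
      (∀ i j, ∃ m : ℤ, G.symm (Pi.single i 1) j = m) ∧
      Geo2 c (L * (L + 2)) R l' u' k b τ σ' ∧
      (fun a => G a + v) '' boxSet l u = boxSet l' u' ∧
      (∀ (a : Fin n → ℝ) (j : Fin n), ((j : ℕ) < k ∨ k + 2 ≤ (j : ℕ)) → (G a + v) j = a j) ∧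
      (∀ (a : Fin n → ℝ) (i j : Fin n), (i : ℕ) = k → (j : ℕ) = k + 1 →
        (G a + v) i = a j ∧ (G a + v) j = τ a - a i - a j) := by
  classical
  obtain ⟨s, m, hm0, hτ⟩ := h.intτ
  obtain ⟨s', m', hm0', hσ⟩ := h.intσ
  have hkb := h.kb
  set p : Fin n := ⟨k, by omega⟩ with hp
  set q : Fin n := ⟨k + 1, by omega⟩ with hq
  have hpv : (p : ℕ) = k := rfl
  have hqv : (q : ℕ) = k + 1 := rfl
  have hpq : p ≠ q := by
    intro e
    have := congrArg Fin.val e
    simp [hp, hq] at this
  have hmp : m p = 0 := hm0 p le_rfl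
  have hmq : m q = 0 := hm0 q (by rw [hqv]; omega)
  have ne_iff : ∀ j : Fin n, ((j : ℕ) < k ∨ k + 2 ≤ (j : ℕ)) ↔ (j ≠ p ∧ j ≠ q) := by
    intro j
    rw [Ne, Ne, Fin.ext_iff, Fin.ext_iff, hpv, hqv]
    omega
  -- `τ` only depends on the coordinates before `k`
  have τdep : ∀ a a' : Fin n → ℝ, (∀ j, j ≠ p → j ≠ q → a j = a' j) → τ a = τ a' := by
    intro a a' haa
    rw [hτ, hτ, rot_sum hmp hmq haa]
  -- values of the walls of the triangle
  have hbp : ∀ a : Fin n → ℝ, bsum k (p : ℕ) a = 0 := by
    intro a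
    unfold bsum
    refine Finset.sum_eq_zero fun i _ => ?_
    rw [if_neg]
    rw [hpv]; omega
  have hbq : ∀ a : Fin n → ℝ, bsum k (q : ℕ) a = a p := by
    intro a
    unfold bsum
    rw [Finset.sum_eq_single p]
    · rw [if_pos ⟨le_rfl, by rw [hpv, hqv]; omega⟩]
    · intro i _ hi
      rw [if_neg]
      rw [hqv]
      intro hh
      exact hi (Fin.ext (by rw [hpv]; omega))
    · intro hh; exact absurd (Finset.mem_univ _) hh
  have lp : ∀ a, l p a = 0 := (h.simτ p le_rfl (by rw [hpv]; omega)).1
  have lq : ∀ a, l q a = 0 := (h.simτ q (by rw [hqv]; omega) (by rw [hqv]; omega)).1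
  have up : ∀ a, u p a = τ a := fun a => by
    rw [(h.simτ p le_rfl (by rw [hpv]; omega)).2 a, hbp, sub_zero]
  have uq : ∀ a, u q a = τ a - a p := fun a => by
    rw [(h.simτ q (by rw [hqv]; omega) (by rw [hqv]; omega)).2 a, hbq]
  -- the inverse map
  set H : (Fin n → ℝ) → (Fin n → ℝ) := fun a j =>
    if j = p then τ a - a p - a q else if j = q then a p else a j with hH
  have Hp : ∀ a, H a p = τ a - a p - a q := fun a => by simp [hH]
  have Hq : ∀ a, H a q = a p := fun a => by simp [hH, hpq.symm]
  have Hj : ∀ a j, j ≠ p → j ≠ q → H a j = a j := fun a j h1 h2 => by simp [hH, h1, h2]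
  have Hτ : ∀ a, τ (H a) = τ a := fun a => τdep _ _ fun j h1 h2 => Hj a j h1 h2
  set G := rotE m p q hpq hmp hmq with hG
  set v : Fin n → ℝ := Pi.single q s with hv
  have vp : v p = 0 := by simp [hv, hpq]
  have vq : v q = s := by simp [hv]
  have vj : ∀ j, j ≠ q → v j = 0 := fun j hj => by simp [hv, hj]
  have Gp : ∀ a, (G a + v) p = a q := fun a => by
    show rotG m p q a p + v p = _
    rw [vp]; simp [rotG]
  have Gq : ∀ a, (G a + v) q = τ a - a p - a q := fun a => by
    show rotG m p q a q + v q = _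
    rw [vq, hτ]
    simp only [rotG, if_neg hpq.symm, if_true]
    ring
  have Gj : ∀ a j, j ≠ p → j ≠ q → (G a + v) j = a j := fun a j h1 h2 => by
    show rotG m p q a j + v j = _
    rw [vj j h2]; simp [rotG, h1, h2]
  have Gτ : ∀ a, τ (G a + v) = τ a := fun a => τdep _ _ fun j h1 h2 => Gj a j h1 h2
  have HG : ∀ a, H (G a + v) = a := by
    intro a
    funext j
    by_cases h1 : j = p
    · rw [h1, Hp, Gτ, Gp, Gq]; ring
    · by_cases h2 : j = q
      · rw [h2, Hq, Gp]
      · rw [Hj _ _ h1 h2, Gj _ _ h1 h2]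
  have GH : ∀ a, G (H a) + v = a := by
    intro a
    funext j
    by_cases h1 : j = p
    · rw [h1, Gp, Hq]
    · by_cases h2 : j = q
      · rw [h2, Gq, Hτ, Hp, Hq]; ring
      · rw [Gj _ _ h1 h2, Hj _ _ h1 h2]
  -- `H` is Lipschitz
  have Hlip : ∀ y y', dist (H y) (H y') ≤ (L + 2) * dist y y' := by
    intro y y'
    have hd : 0 ≤ dist y y' := dist_nonneg
    rw [dist_pi_le_iff (by positivity)]
    have hc : ∀ j, |y j - y' j| ≤ dist y y' := fun j => by
      rw [← Real.dist_eq]; exact dist_le_pi_dist y y' j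
    intro j
    rw [Real.dist_eq]
    by_cases h1 : j = p
    · subst h1
      rw [Hp, Hp]
      have e1 : |τ y - τ y'| ≤ L * dist y y' := by
        rw [← up y, ← up y']; exact h.wu.lip p y y'
      have e2 := abs_le.1 e1
      have e3 := abs_le.1 (hc p)
      have e4 := abs_le.1 (hc q)
      rw [abs_le]
      constructor <;> nlinarith [e2.1, e2.2, e3.1, e3.2, e4.1, e4.2]
    · by_cases h2 : j = q
      · subst h2
        rw [Hq, Hq]
        have := hc p
        nlinarith
      · rw [Hj _ _ h1 h2, Hj _ _ h1 h2]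
        have := hc j
        nlinarith
  -- new walls
  set l' : Fin n → (Fin n → ℝ) → ℝ := fun j a => if j = p ∨ j = q then l j a else l j (H a) with hl'
  set u' : Fin n → (Fin n → ℝ) → ℝ := fun j a => if j = p ∨ j = q then u j a else u j (H a) with hu'
  have walls : ∀ F : Fin n → (Fin n → ℝ) → ℝ, Walls L F →
      Walls (L * (L + 2)) (fun j a => if j = p ∨ j = q then F j a else F j (H a)) := by
    intro F hF
    refine ⟨?_, ?_⟩
    · intro j y y' hyy
      by_cases h1 : j = p ∨ j = q
      · simp only [if_pos h1]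
        exact hF.dep j y y' hyy
      · simp only [if_neg h1]
        refine hF.dep j _ _ fun i hi => ?_
        push Not at h1
        have hj := (ne_iff j).2 h1
        have hij : (i : ℕ) < (j : ℕ) := hi
        by_cases h2 : i = p
        · have hkj : k + 2 ≤ (j : ℕ) := by
            rw [h2, hpv] at hij
            omega
          rw [h2, Hp, Hp]
          have e1 : y p = y' p := hyy p (by
            show (p : ℕ) < (j : ℕ)
            rw [hpv]; omega)
          have e2 : y q = y' q := hyy q (by
            show (q : ℕ) < (j : ℕ)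
            rw [hqv]; omega)
          have e3 : τ y = τ y' := by
            rw [hτ, hτ]
            congr 1
            refine Finset.sum_congr rfl fun i' _ => ?_
            by_cases h3 : k ≤ (i' : ℕ)
            · rw [hm0 i' h3]; simp
            · rw [hyy i' (by
                show (i' : ℕ) < (j : ℕ)
                omega)]
          rw [e1, e2, e3]
        · by_cases h3 : i = q
          · have hkj : k + 2 ≤ (j : ℕ) := by
              rw [h3, hqv] at hij
              omega
            rw [h3, Hq, Hq]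
            exact hyy p (by
              show (p : ℕ) < (j : ℕ)
              rw [hpv]; omega)
          · rw [Hj _ _ h2 h3, Hj _ _ h2 h3]
            exact hyy i hi
    · intro j y y'
      have hd : 0 ≤ dist y y' := dist_nonneg
      by_cases h1 : j = p ∨ j = q
      · simp only [if_pos h1]
        refine (hF.lip j y y').trans ?_
        have : L ≤ L * (L + 2) := by nlinarith
        exact mul_le_mul_of_nonneg_right this hd
      · simp only [if_neg h1]
        refine (hF.lip j _ _).trans ?_
        rw [mul_assoc]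
        exact mul_le_mul_of_nonneg_left (Hlip y y') hL
  have l'j : ∀ j a, j ≠ p → j ≠ q → l' j a = l j (H a) := fun j a h1 h2 => by
    simp [hl', h1, h2]
  have u'j : ∀ j a, j ≠ p → j ≠ q → u' j a = u j (H a) := fun j a h1 h2 => by
    simp [hu', h1, h2]
  have l'p : ∀ a, l' p a = 0 := fun a => by simp [hl', lp]
  have l'q : ∀ a, l' q a = 0 := fun a => by simp [hl', lq]
  have u'p : ∀ a, u' p a = τ a := fun a => by simp [hu', up]
  have u'q : ∀ a, u' q a = τ a - a p := fun a => by simp [hu', uq]
  have pre : ∀ (J : ℕ) (a : Fin n → ℝ), (J ≤ k ∨ k + 2 ≤ J) → Pre l' u' J a → Pre l u J (H a) := by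
    intro J a hJ hpre i hi
    by_cases h1 : i = p
    · have hJ2 : k + 2 ≤ J := by
        rw [h1, hpv] at hi
        omega
      have e1 := hpre p (by rw [hpv]; omega)
      have e2 := hpre q (by rw [hqv]; omega)
      rw [l'p, u'p] at e1
      rw [l'q, u'q] at e2
      rw [h1, lp, up, Hτ, Hp]
      constructor <;> linarith [e1.1, e1.2, e2.1, e2.2]
    · by_cases h2 : i = q
      · have hJ2 : k + 2 ≤ J := by
          rw [h2, hqv] at hi
          omega
        have e1 := hpre p (by rw [hpv]; omega)
        have e2 := hpre q (by rw [hqv]; omega)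
        rw [l'p, u'p] at e1
        rw [l'q, u'q] at e2
        rw [h2, lq, uq, Hτ, Hp, Hq]
        constructor <;> linarith [e1.1, e1.2, e2.1, e2.2]
      · have e := hpre i hi
        rw [l'j _ _ h1 h2, u'j _ _ h1 h2] at e
        rw [Hj _ _ h1 h2]
        exact e
  refine ⟨G, v, l', u', fun a => σ (H a), fun i j => rotG_int m p q i j, fun i j =>
    rotI_int m p q i j, ?_, ?_, ?_, ?_⟩
  · refine ⟨walls l h.wl, walls u h.wu, h.kb, h.intτ, ?_, ?_, ?_, ?_, ?_, ?_⟩
    · refine ⟨s' + m' p * s, fun j => (if j = p then m' q - m' p else if j = q then -m' p else m' j) +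
        m' p * m j, ?_, ?_⟩
      · intro j hj
        have h1 : j ≠ p := by
          intro e; rw [e, hpv] at hj; omega
        have h2 : j ≠ q := by
          intro e; rw [e, hqv] at hj; omega
        show (if j = p then m' q - m' p else if j = q then -m' p else m' j) + m' p * m j = 0
        rw [if_neg h1, if_neg h2, hm0' j hj, hm0 j (by omega)]
        simp
      · intro a
        show σ (H a) = s' + m' p * s + ∑ j, (((if j = p then m' q - m' p else if j = q then -m' p
          else m' j) + m' p * m j : ℤ) : ℝ) * a j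
        rw [hσ]
        have split : ∀ f : Fin n → ℝ, ∑ j, f j = f p + f q +
            ∑ j ∈ (Finset.univ.erase p).erase q, f j := by
          intro f
          rw [← Finset.add_sum_erase _ f (Finset.mem_univ p),
            ← Finset.add_sum_erase _ f (Finset.mem_erase.2 ⟨hpq.symm, Finset.mem_univ q⟩)]
          ring
        have e1 : ∑ j, (m' j : ℝ) * H a j = m' p * (τ a - a p - a q) + m' q * a p +
            ∑ j ∈ (Finset.univ.erase p).erase q, (m' j : ℝ) * a j := by
          rw [split, Hp, Hq]
          congr 1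
          refine Finset.sum_congr rfl fun j hj => ?_
          rw [Finset.mem_erase, Finset.mem_erase] at hj
          rw [Hj _ _ hj.2.1 hj.1]
        have e2 : ∑ j, (((if j = p then m' q - m' p else if j = q then -m' p else m' j) +
            m' p * m j : ℤ) : ℝ) * a j = ((m' q : ℝ) - m' p) * a p + (-m' p) * a q +
            ∑ j ∈ (Finset.univ.erase p).erase q, (m' j : ℝ) * a j +
              m' p * ∑ j, (m j : ℝ) * a j := by
          rw [Finset.mul_sum]
          have e3 : ∀ j, (((if j = p then m' q - m' p else if j = q then -m' p else m' j) +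
            m' p * m j : ℤ) : ℝ) * a j =
            (((if j = p then m' q - m' p else if j = q then -m' p else m' j) : ℤ) : ℝ) * a j +
              m' p * ((m j : ℝ) * a j) := by
            intro j
            push_cast
            ring
          rw [Finset.sum_congr rfl fun j _ => e3 j, Finset.sum_add_distrib]
          congr 1
          rw [split]
          congr 1
          · simp [hpq.symm]
          · refine Finset.sum_congr rfl fun j hj => ?_
            rw [Finset.mem_erase, Finset.mem_erase] at hj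
            rw [if_neg hj.2.1, if_neg hj.1]
        rw [e1, e2, hτ]
        ring
    · intro j hj1 hj2
      by_cases h1 : j = p
      · rw [h1]
        exact ⟨l'p, fun a => by rw [u'p, hbp, sub_zero]⟩
      · have h2 : j = q := by
          by_contra h2
          have := (ne_iff j).2 ⟨h1, h2⟩
          omega
        rw [h2]
        exact ⟨l'q, fun a => by rw [u'q, hbq]⟩
    · intro j hj1 hj2
      have hne := (ne_iff j).1 (Or.inr hj1)
      obtain ⟨e1, e2⟩ := h.simσ j hj1 hj2
      refine ⟨fun a => by rw [l'j _ _ hne.1 hne.2, e1], fun a => ?_⟩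
      rw [u'j _ _ hne.1 hne.2, e2]
      congr 1
      unfold bsum
      refine Finset.sum_congr rfl fun i _ => ?_
      by_cases hi : k + 2 ≤ (i : ℕ) ∧ (i : ℕ) < (j : ℕ)
      · rw [if_pos hi, if_pos hi]
        have := (ne_iff i).1 (Or.inr hi.1)
        exact Hj _ _ this.1 this.2
      · rw [if_neg hi, if_neg hi]
    · intro j a hj hpre
      have hne := (ne_iff j).1 (by omega)
      have := h.fat j (H a) hj (pre j a (by omega) hpre)
      rw [l'j _ _ hne.1 hne.2, u'j _ _ hne.1 hne.2]
      exact this
    · intro a hpre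
      have := h.sizeτ (H a) (pre k a (Or.inl le_rfl) hpre)
      rwa [Hτ] at this
    · intro a hpre
      exact h.sizeσ (H a) (pre (k + 2) a (Or.inr le_rfl) hpre)
  · apply Set.Subset.antisymm
    · rintro _ ⟨a, ha, rfl⟩
      have ap := ha p
      have aq := ha q
      rw [lp, up] at ap
      rw [lq, uq] at aq
      intro j
      show l' j (G a + v) < (G a + v) j ∧ (G a + v) j < u' j (G a + v)
      by_cases h1 : j = p
      · rw [h1, l'p, u'p, Gτ, Gp]
        constructor <;> linarith [ap.1, ap.2, aq.1, aq.2]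
      · by_cases h2 : j = q
        · rw [h2, l'q, u'q, Gτ, Gp, Gq]
          constructor <;> linarith [ap.1, ap.2, aq.1, aq.2]
        · rw [l'j _ _ h1 h2, u'j _ _ h1 h2, HG, Gj _ _ h1 h2]
          exact ha j
    · intro a ha
      refine ⟨H a, ?_, GH a⟩
      intro j
      exact pre n a (Or.inr (by omega)) (fun i _ => ha i) j j.2
  · intro a j hj
    have := (ne_iff j).1 hj
    exact Gj a j this.1 this.2
  · intro a i j hi hj
    have e1 : i = p := Fin.ext hi
    have e2 : j = q := Fin.ext hj
    rw [e1, e2]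
    exact ⟨Gp a, Gq a⟩

end Vale.Agent.P209.Strong
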