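import Vale.Agent.P209.Strong.D1
import Vale.Agent.P209.Strong.D3r
import Vale.Agent.P209.Strong.D3c

set_option linter.all false

namespace Vale.Agent.P209.Strong

open MeasureTheory

theorem d3s_congr {n k : ℕ} {σ : (Fin n → ℝ) → ℝ} (h : IntAff k σ) {a a' : Fin n → ℝ}
    (ha : ∀ m : Fin n, (m : ℕ) < k → a m = a' m) : σ a = σ a' := by
  obtain ⟨s, m, hm, hσ⟩ := h
  rw [hσ, hσ]
  congr 1
  refine Finset.sum_congr rfl fun j _ => ?_
  rcases lt_or_ge (j : ℕ) k with hj | hj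
  · rw [ha j hj]
  · rw [hm j hj]; simp

theorem d3s_bsum {n k : ℕ} {i : Fin n} (hi : (i : ℕ) = k) (a : Fin n → ℝ) :
    bsum k k a = 0 ∧ bsum k (k + 1) a = a i := by
  unfold bsum
  constructor
  · exact Finset.sum_eq_zero fun m _ => if_neg (by omega)
  · rw [Finset.sum_eq_single i]
    · rw [if_pos (by omega)]
    · intro m _ hm
      rw [if_neg]
      intro h
      exact hm (Fin.ext (by omega))
    · intro h; exact absurd (Finset.mem_univ _) h

section

variable {n b k : ℕ} {c L R : ℝ} {l u : Fin n → (Fin n → ℝ) → ℝ} {τ σ : (Fin n → ℝ) → ℝ}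

theorem Geo2.d3s_walls (h : Geo2 c L R l u k b τ σ) {i j : Fin n} (hi : (i : ℕ) = k)
    (hj : (j : ℕ) = k + 1) : (∀ a, l i a = 0) ∧ (∀ a, u i a = τ a) ∧ (∀ a, l j a = 0) ∧
      ∀ a, u j a = τ a - a i := by
  obtain ⟨h1, h2⟩ := h.simτ i (by omega) (by omega)
  obtain ⟨h3, h4⟩ := h.simτ j (by omega) (by omega)
  refine ⟨h1, fun a => ?_, h3, fun a => ?_⟩
  · rw [h2, hi, (d3s_bsum hi a).1, sub_zero]
  · rw [h4, hj, (d3s_bsum hi a).2]

theorem Geo2.d3s_lip (h : Geo2 c L R l u k b τ σ) (y y' : Fin n → ℝ) :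
    |τ y - τ y'| ≤ L * dist y y' := by
  have hkb := h.kb
  obtain ⟨-, h2, -, -⟩ := h.d3s_walls (i := ⟨k, by omega⟩) (j := ⟨k + 1, by omega⟩) rfl rfl
  rw [← h2, ← h2]
  exact h.wu.lip _ y y'

theorem Geo2.d3s_mono {L' : ℝ} (h : Geo2 c L R l u k b τ σ) (hL : L ≤ L') :
    Geo2 c L' R l u k b τ σ where
  wl := ⟨h.wl.dep, fun j y y' => (h.wl.lip j y y').trans
    (mul_le_mul_of_nonneg_right hL dist_nonneg)⟩
  wu := ⟨h.wu.dep, fun j y y' => (h.wu.lip j y y').trans
    (mul_le_mul_of_nonneg_right hL dist_nonneg)⟩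
  kb := h.kb
  intτ := h.intτ
  intσ := h.intσ
  simτ := h.simτ
  simσ := h.simσ
  fat := h.fat
  sizeτ := h.sizeτ
  sizeσ := h.sizeσ

theorem d3s_bdd (hl : Walls L l) (hu : Walls L u) : volume (boxSet l u) ≠ ⊤ := by
  have key : ∀ m ≤ n, ∃ B : ℝ, 0 ≤ B ∧ ∀ a ∈ boxSet l u, ∀ i : Fin n, (i : ℕ) < m → |a i| ≤ B := by
    intro m
    induction m with
    | zero => intro _; exact ⟨0, le_rfl, fun a _ i hi => by omega⟩
    | succ m ih =>
      intro hm
      obtain ⟨B, hB, hb⟩ := ih (by omega)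
      set j : Fin n := ⟨m, by omega⟩ with hj
      refine ⟨B + |l j 0| + |u j 0| + |L| * B, by positivity, fun a ha i hi => ?_⟩
      rcases Nat.lt_succ_iff_lt_or_eq.1 hi with h | h
      · have := hb a ha i h
        have h1 : 0 ≤ |l j 0| + |u j 0| + |L| * B := by positivity
        linarith
      · have hij : i = j := Fin.ext h
        rw [hij]
        set a' : Fin n → ℝ := fun i => if (i : ℕ) < m then a i else 0 with ha'
        have hd : dist a' 0 ≤ B := by
          rw [dist_pi_le_iff hB]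
          intro x
          simp only [ha', Pi.zero_apply, Real.dist_eq, sub_zero]
          split_ifs with hx
          · exact hb a ha x hx
          · simpa using hB
        have hLd : L * dist a' 0 ≤ |L| * B :=
          (mul_le_mul_of_nonneg_right (le_abs_self L) dist_nonneg).trans
            (mul_le_mul_of_nonneg_left hd (abs_nonneg L))
        have hdep : ∀ i, i < j → a i = a' i := by
          intro x hx
          have hx' : (x : ℕ) < m := hx
          simp only [ha', if_pos hx']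
        have h1 : l j a = l j a' := hl.dep j a a' hdep
        have h2 : u j a = u j a' := hu.dep j a a' hdep
        have h3 := (hl.lip j a' 0).trans hLd
        have h4 := (hu.lip j a' 0).trans hLd
        have h5 := ha j
        rw [h1, h2] at h5
        rw [abs_le] at h3 h4 ⊢
        have h6 := neg_abs_le (l j 0)
        have h7 := le_abs_self (u j 0)
        have h8 := abs_nonneg (l j 0)
        have h9 := abs_nonneg (u j 0)
        constructor <;> linarith [h5.1, h5.2, h3.1, h3.2, h4.1, h4.2]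
  obtain ⟨B, hB, hb⟩ := key n le_rfl
  have h1 : boxSet l u ⊆ Metric.closedBall 0 B := by
    intro a ha
    rw [Metric.mem_closedBall, dist_pi_le_iff hB]
    intro i
    simpa using hb a ha i i.2
  exact (Metric.isBounded_closedBall.subset h1).measure_lt_top.ne

theorem d3s_cont {F : (Fin n → ℝ) → ℝ} (hF : ∀ y y', |F y - F y'| ≤ L * dist y y') :
    Continuous F := by
  have h1 : LipschitzWith L.toNNReal F := by
    refine LipschitzWith.of_dist_le_mul fun y y' => ?_
    rw [Real.dist_eq]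
    exact (hF y y').trans (mul_le_mul_of_nonneg_right (Real.le_coe_toNNReal L) dist_nonneg)
  exact h1.continuous

theorem d3s_meas (hl : Walls L l) (hu : Walls L u) : MeasurableSet (boxSet l u) := by
  have e : boxSet l u = ⋂ j, ({y | l j y < y j} ∩ {y | y j < u j y}) := by
    ext y
    simp only [boxSet, Set.mem_setOf_eq, Set.mem_iInter, Set.mem_inter_iff]
  rw [e]
  refine MeasurableSet.iInter fun j => ?_
  exact (measurableSet_lt (d3s_cont (hl.lip j)).measurable (measurable_pi_apply j)).inter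
    (measurableSet_lt (measurable_pi_apply j) (d3s_cont (hu.lip j)).measurable)

end

theorem d3s_det {n : ℕ} (G : (Fin n → ℝ) ≃ₗ[ℝ] (Fin n → ℝ))
    (hG : ∀ i j, ∃ m : ℤ, G (Pi.single i 1) j = m) :
    ∃ d : ℤ, LinearMap.det (G : (Fin n → ℝ) →ₗ[ℝ] (Fin n → ℝ)) = d := by
  choose M hM using hG
  refine ⟨(Matrix.of fun j i => M i j).det, ?_⟩
  rw [← LinearMap.det_toMatrix', Int.cast_det]
  congr 1
  ext j i
  simp [LinearMap.toMatrix'_apply, hM]

theorem d3s_volume {n : ℕ} (G : (Fin n → ℝ) ≃ₗ[ℝ] (Fin n → ℝ))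
    (hG : ∀ i j, ∃ m : ℤ, G (Pi.single i 1) j = m)
    (hG' : ∀ i j, ∃ m : ℤ, G.symm (Pi.single i 1) j = m) (v : Fin n → ℝ)
    (S : Set (Fin n → ℝ)) : volume ((fun a => G a + v) '' S) = volume S := by
  obtain ⟨d, hd⟩ := d3s_det G hG
  obtain ⟨d', hd'⟩ := d3s_det G.symm hG'
  have h1 : LinearMap.det (G : (Fin n → ℝ) →ₗ[ℝ] (Fin n → ℝ)) *
      LinearMap.det (G.symm : (Fin n → ℝ) →ₗ[ℝ] (Fin n → ℝ)) = 1 := by
    rw [← LinearMap.det_comp]
    simp
  rw [hd, hd'] at h1
  have h2 : d * d' = 1 := by exact_mod_cast h1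
  have h3 : |(d : ℝ)| = 1 := by
    rcases Int.isUnit_iff.1 (IsUnit.of_mul_eq_one _ h2) with h | h <;> simp [h]
  have e : (fun a => G a + v) '' S = (fun x => x + v) '' (G '' S) := by
    rw [Set.image_image]
  rw [e, Set.image_add_right, measure_preimage_add_right]
  have h4 := Measure.addHaar_image_linearMap (volume : Measure (Fin n → ℝ))
    (G : (Fin n → ℝ) →ₗ[ℝ] (Fin n → ℝ)) S
  rw [hd, h3] at h4
  simpa using h4

theorem d3s_null {n k : ℕ} {τ : (Fin n → ℝ) → ℝ} (h : IntAff k τ) {i j : Fin n}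
    (hi : k ≤ (i : ℕ)) (hj : k ≤ (j : ℕ)) (hij : i ≠ j) {p q : ℝ} (hpq : p ≠ 0 ∨ q ≠ 0) (t : ℝ) :
    volume {a : Fin n → ℝ | p * a i + q * a j = t * τ a} = 0 := by
  obtain ⟨s, m, hm, hσ⟩ := h
  have e : {a : Fin n → ℝ | p * a i + q * a j = t * τ a} = {a | ∑ x, ((if x = i then p else 0) +
      (if x = j then q else 0) - t * m x) * a x = t * s} := by
    ext a
    simp only [Set.mem_setOf_eq]
    have h1 : ∑ x, ((if x = i then p else 0) + (if x = j then q else 0) - t * m x) * a x =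
        p * a i + q * a j - t * ∑ x, (m x : ℝ) * a x := by
      simp only [sub_mul, add_mul, Finset.sum_sub_distrib, Finset.sum_add_distrib, ite_mul,
        zero_mul, Finset.sum_ite_eq', Finset.mem_univ, if_true, Finset.mul_sum, mul_assoc]
    rw [h1, hσ, mul_add]
    constructor <;> intro h <;> linarith
  rw [e]
  refine volume_affine_zero _ ?_ _
  intro h0
  rcases hpq with h | h
  · have := congrFun h0 i
    simp [hij, hm i hi] at this
    exact h this
  · have := congrFun h0 j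
    simp [hij.symm, hm j hj] at this
    exact h this

section

variable {n b k : ℕ} {c L R : ℝ} {l u : Fin n → (Fin n → ℝ) → ℝ} {τ σ : (Fin n → ℝ) → ℝ}

/-- In the box, the three barycentric coordinates are positive. -/
theorem Geo2.d3s_pos (h : Geo2 c L R l u k b τ σ) {i j : Fin n} (hi : (i : ℕ) = k)
    (hj : (j : ℕ) = k + 1) {a : Fin n → ℝ} (ha : Pre l u j a) : 0 < a i ∧ a i < τ a := by
  obtain ⟨h1, h2, h3, h4⟩ := h.d3s_walls hi hj
  have h5 := ha i (by omega)
  rw [h1, h2] at h5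
  exact h5

theorem d3s_pre {j : ℕ} {a : Fin n → ℝ} (ha : a ∈ boxSet l u) : Pre l u j a := fun m _ => ha m

/-- conditions for the first type of cells -/
theorem Geo2.d3s_condA (h : Geo2 c L R l u k b τ σ) {i j : Fin n} (hi : (i : ℕ) = k)
    (hj : (j : ℕ) = k + 1) {β γ : ℝ} (hβ : β ≤ 2 / 5) (hγ0 : 0 ≤ γ) (hγ : γ ≤ 2 / 5) :
    (∀ y y' : Fin n → ℝ, (∀ m, m < j → y m = y' m) → γ * τ y = γ * τ y') ∧
    (∀ y y', |γ * τ y - γ * τ y'| ≤ L * dist y y') ∧
    (∀ a, Pre l u j a → a i < β * τ a → 0 ≤ γ * τ a ∧ γ * τ a + τ a / 10 ≤ τ a - a i) := by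
  refine ⟨fun y y' hy => ?_, fun y y' => ?_, fun a ha hβa => ?_⟩
  · rw [d3s_congr h.intτ (a := y) (a' := y') fun m hm => hy m (by
      rw [Fin.lt_def]; omega)]
  · rw [← mul_sub, abs_mul, abs_of_nonneg hγ0]
    have h1 := h.d3s_lip y y'
    have h2 := abs_nonneg (τ y - τ y')
    nlinarith
  · obtain ⟨h1, h2⟩ := h.d3s_pos hi hj ha
    have h3 : 0 < τ a := h1.trans h2
    exact ⟨by positivity, by nlinarith⟩

/-- conditions for the second type of cells -/
theorem Geo2.d3s_condB (h : Geo2 c L R l u k b τ σ) {L₀ : ℝ}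
    (hL0 : ∀ y y', |τ y - τ y'| ≤ L₀ * dist y y') (hLL : L₀ + 1 ≤ L) {i j : Fin n}
    (hi : (i : ℕ) = k) (hj : (j : ℕ) = k + 1) {β γ : ℝ} (hβ0 : 0 ≤ β) (hβ : β ≤ 2 / 5)
    (hγ0 : 0 ≤ γ) (hγ : γ ≤ 2 / 5) :
    (∀ y y' : Fin n → ℝ, (∀ m, m < j → y m = y' m) →
      min (β * τ y) (τ y - y i - γ * τ y) = min (β * τ y') (τ y' - y' i - γ * τ y')) ∧
    (∀ y y', |min (β * τ y) (τ y - y i - γ * τ y) - min (β * τ y') (τ y' - y' i - γ * τ y')| ≤
      L * dist y y') ∧
    (∀ a, Pre l u j a → a i < 2 / 5 * τ a → 0 ≤ min (β * τ a) (τ a - a i - γ * τ a) ∧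
      min (β * τ a) (τ a - a i - γ * τ a) + τ a / 10 ≤ τ a - a i) := by
  refine ⟨fun y y' hy => ?_, fun y y' => ?_, fun a ha hβa => ?_⟩
  · rw [d3s_congr h.intτ (a := y) (a' := y') fun m hm => hy m (by
      rw [Fin.lt_def]; omega), hy i (by rw [Fin.lt_def]; omega)]
  · refine (abs_min_sub_min_le_max _ _ _ _).trans (max_le ?_ ?_)
    · rw [← mul_sub, abs_mul, abs_of_nonneg hβ0]
      have h1 := hL0 y y'
      have h2 := abs_nonneg (τ y - τ y')
      have h3 : 0 ≤ dist y y' := dist_nonneg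
      nlinarith
    · have h1 := hL0 y y'
      have h2 := abs_nonneg (τ y - τ y')
      have h3 : |y i - y' i| ≤ dist y y' := by
        rw [← Real.dist_eq]; exact dist_le_pi_dist y y' i
      have e : τ y - y i - γ * τ y - (τ y' - y' i - γ * τ y') =
          (1 - γ) * (τ y - τ y') - (y i - y' i) := by ring
      rw [e]
      have h4 : |(1 - γ) * (τ y - τ y')| ≤ |τ y - τ y'| := by
        rw [abs_mul, abs_of_nonneg (by linarith : 0 ≤ 1 - γ)]
        nlinarith
      have h5 := abs_sub ((1 - γ) * (τ y - τ y')) (y i - y' i)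
      have h6 : 0 ≤ dist y y' := dist_nonneg
      nlinarith
  · obtain ⟨h1, h2⟩ := h.d3s_pos hi hj ha
    have h3 : 0 < τ a := h1.trans h2
    refine ⟨le_min (by positivity) (by nlinarith), ?_⟩
    have h4 := min_le_left (β * τ a) (τ a - a i - γ * τ a)
    nlinarith

end

/-- the pinwheel -/
theorem S2_of_S1 (n b : ℕ) (hn : 2 ≤ n) (h : S1 n b) : S2 n b := by
  intro c L δ N hc hL hδ hδ1 hN
  set Λ0 : ℝ := L + 1 with hΛ0
  set Λ1 : ℝ := Λ0 * (Λ0 + 2) with hΛ1
  set Λ2 : ℝ := Λ1 * (Λ1 + 2) with hΛ2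
  have hp0 : 1 ≤ Λ0 := by linarith
  have h01 : Λ0 + 1 ≤ Λ1 := by rw [hΛ1]; nlinarith
  have h12 : Λ1 + 1 ≤ Λ2 := by rw [hΛ2]; nlinarith
  obtain ⟨R0, hR0, hfill⟩ := Geo2.cell_fill hn h c Λ2 δ N hc (by linarith) hδ hδ1 hN
  have hK : 0 < c / (100 * ((n : ℝ) + 1)) := by positivity
  refine ⟨max R0 (2 / (c / (100 * ((n : ℝ) + 1)))), lt_max_of_lt_left hR0,
    fun R hR l u k τ σ hgeo => ?_⟩
  have hRR0 : R0 ≤ R := (le_max_left _ _).trans hR
  have hRpos : 0 < R := hR0.trans_le hRR0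
  have hbigR : 2 ≤ c / (100 * ((n : ℝ) + 1)) * R := by
    have := (le_max_right _ _).trans hR
    rw [div_le_iff₀ hK] at this
    linarith
  have hpow : 1 / (n.factorial : ℝ) < (c / (100 * ((n : ℝ) + 1)) * R) ^ n := by
    have h1 : 1 / (n.factorial : ℝ) ≤ 1 := by
      rw [div_le_one (by positivity)]
      exact_mod_cast n.factorial_pos
    have h2 : (1 : ℝ) < (c / (100 * ((n : ℝ) + 1)) * R) ^ n :=
      one_lt_pow₀ (by linarith) (by omega)
    linarith
  have hkb := hgeo.kb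
  set i : Fin n := ⟨k, by omega⟩ with hi'
  set j : Fin n := ⟨k + 1, by omega⟩ with hj'
  have hi : (i : ℕ) = k := rfl
  have hj : (j : ℕ) = k + 1 := rfl
  have hij : i ≠ j := by rw [Ne, Fin.ext_iff]; omega
  have hg0 : Geo2 c Λ0 R l u k b τ σ := hgeo.d3s_mono (by linarith)
  obtain ⟨G, v, l', u', σ', hG, hG', hg1, himg, hfix, hact⟩ := Geo2.rot (by linarith) hg0
  obtain ⟨G2, v2, l2, u2, σ2, hG2, hG2', hg2, himg2, hfix2, hact2⟩ := Geo2.rot (by linarith) hg1
  have hτ1 : ∀ a, τ (G a + v) = τ a := fun a =>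
    d3s_congr hgeo.intτ fun m hm => hfix a m (Or.inl hm)
  have hτ2 : ∀ a, τ (G2 a + v2) = τ a := fun a =>
    d3s_congr hgeo.intτ fun m hm => hfix2 a m (Or.inl hm)
  have hgA : Geo2 c Λ2 R l u k b τ σ := hg0.d3s_mono (by linarith)
  have hgB : Geo2 c Λ2 R l' u' k b τ σ' := hg1.d3s_mono (by linarith)
  -- the three fillings
  have F1 : ∀ γ γ' : ℝ, 1 / 3 ≤ γ → γ ≤ 2 / 5 → 1 / 3 ≤ γ' → γ' ≤ 2 / 5 →
      Fill δ N (boxSet l u ∩ {a | a i < γ' * τ a ∧ γ * τ a < a j}) := by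
    intro γ γ' h1 h2 h3 h4
    obtain ⟨q1, q2, q3⟩ := hgA.d3s_condA hi hj h4 (by linarith) h2
    exact hfill R hRR0 l u k τ σ hgA i j hi hj γ' (fun a => γ * τ a) (by linarith) (by linarith)
      q1 q2 q3
  have F2 : ∀ γ : ℝ, 1 / 3 ≤ γ → γ ≤ 2 / 5 →
      Fill δ N (boxSet l u ∩ {a | a j < γ * τ a ∧ 2 / 5 * τ a < τ a - a i - a j}) := by
    intro γ h1 h2
    obtain ⟨q1, q2, q3⟩ := hgB.d3s_condA hi hj h2 (by norm_num : (0:ℝ) ≤ 2 / 5) le_rfl
    have h3 := hfill R hRR0 l' u' k τ σ' hgB i j hi hj γ (fun a => 2 / 5 * τ a) (by linarith)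
      (by linarith) q1 q2 q3
    refine Fill.image G hG hG' v ?_
    have e : boxSet l u ∩ {a | a j < γ * τ a ∧ 2 / 5 * τ a < τ a - a i - a j} =
        boxSet l u ∩ (fun a => G a + v) ⁻¹' {a | a i < γ * τ a ∧ 2 / 5 * τ a < a j} := by
      ext a
      simp only [Set.mem_inter_iff, Set.mem_setOf_eq, Set.mem_preimage]
      rw [hτ1, (hact a i j hi hj).1, (hact a i j hi hj).2]
    rw [e, Set.image_inter_preimage, himg]
    exact h3
  have F0 : ∀ γ γ' : ℝ, 1 / 3 ≤ γ → γ ≤ 2 / 5 → 1 / 3 ≤ γ' → γ' ≤ 2 / 5 →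
      Fill δ N (boxSet l u ∩ {a | τ a - a i - a j < 2 / 5 * τ a ∧
        min (γ' * τ a) (τ a - (τ a - a i - a j) - γ * τ a) < a i}) := by
    intro γ γ' h1 h2 h3 h4
    obtain ⟨q1, q2, q3⟩ := hg2.d3s_condB (L₀ := Λ1) hg1.d3s_lip h12 hi hj (by linarith : 0 ≤ γ')
      h4 (by linarith : 0 ≤ γ) h2
    have h5 := hfill R hRR0 l2 u2 k τ σ2 hg2 i j hi hj (2 / 5)
      (fun a => min (γ' * τ a) (τ a - a i - γ * τ a)) (by norm_num) (by norm_num) q1 q2 q3
    refine Fill.image G hG hG' v ?_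
    have e : boxSet l u ∩ {a | τ a - a i - a j < 2 / 5 * τ a ∧
        min (γ' * τ a) (τ a - (τ a - a i - a j) - γ * τ a) < a i} =
        boxSet l u ∩ (fun a => G a + v) ⁻¹' ((fun a => G2 a + v2) ⁻¹'
          {a | a i < 2 / 5 * τ a ∧ min (γ' * τ a) (τ a - a i - γ * τ a) < a j}) := by
      ext a
      simp only [Set.mem_inter_iff, Set.mem_setOf_eq, Set.mem_preimage]
      rw [hτ2, hτ1, (hact2 _ i j hi hj).1, (hact2 _ i j hi hj).2, hτ1, (hact a i j hi hj).1,
        (hact a i j hi hj).2]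
      rw [show τ a - a j - (τ a - a i - a j) = a i by ring]
    rw [e, Set.image_inter_preimage, himg]
    refine Fill.image G2 hG2 hG2' v2 ?_
    rw [Set.image_inter_preimage, himg2]
    exact h5
  -- volumes
  have hfin : volume (boxSet l u) ≠ ⊤ := d3s_bdd hgeo.wl hgeo.wu
  have hmeas : MeasurableSet (boxSet l u) := d3s_meas hgeo.wl hgeo.wu
  have hτc : Continuous τ := d3s_cont hgeo.d3s_lip
  have hτm : Measurable τ := hτc.measurable
  have hai : Measurable fun a : Fin n → ℝ => a i := measurable_pi_apply i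
  have haj : Measurable fun a : Fin n → ℝ => a j := measurable_pi_apply j
  have hfin' : ∀ S : Set (Fin n → ℝ), S ⊆ boxSet l u → volume S ≠ ⊤ := fun S hS =>
    ((measure_mono hS).trans_lt hfin.lt_top).ne
  have hpos : ∀ a ∈ boxSet l u, 0 < a i ∧ a i < τ a := fun a ha =>
    hgeo.d3s_pos hi hj (d3s_pre ha)
  have hposj : ∀ a ∈ boxSet l u, 0 < a j ∧ a j < τ a - a i := by
    intro a ha
    obtain ⟨-, -, h3, h4⟩ := hgeo.d3s_walls hi hj
    have h5 := ha j
    rw [h3, h4] at h5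
    exact h5
  -- covering up to null sets
  have hcover : ∀ (S T Z U : Set (Fin n → ℝ)), U ⊆ boxSet l u → S ⊆ boxSet l u →
      T ⊆ boxSet l u → U ⊆ (S ∪ T) ∪ Z → volume Z = 0 →
      (volume U).toReal ≤ (volume S).toReal + (volume T).toReal := by
    intro S T Z U hU hS hT hc hZ
    have h1 : volume U ≤ volume S + volume T := by
      calc volume U ≤ volume ((S ∪ T) ∪ Z) := measure_mono hc
        _ ≤ volume (S ∪ T) + volume Z := measure_union_le _ _
        _ = volume (S ∪ T) := by rw [hZ, add_zero]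
        _ ≤ volume S + volume T := measure_union_le _ _
    rw [← ENNReal.toReal_add (hfin' S hS) (hfin' T hT)]
    exact ENNReal.toReal_mono (ENNReal.add_ne_top.2 ⟨hfin' S hS, hfin' T hT⟩) h1
  have nullj : ∀ t : ℝ, volume {a : Fin n → ℝ | a j = t * τ a} = 0 := by
    intro t
    have := d3s_null hgeo.intτ hi.ge (by omega : k ≤ (j : ℕ)) hij (p := 0) (q := 1)
      (Or.inr one_ne_zero) t
    simpa using this
  have nulli : ∀ t : ℝ, volume {a : Fin n → ℝ | a i = t * τ a} = 0 := by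
    intro t
    have := d3s_null hgeo.intτ hi.ge (by omega : k ≤ (j : ℕ)) hij (p := 1) (q := 0)
      (Or.inl one_ne_zero) t
    simpa using this
  have null0 : volume {a : Fin n → ℝ | τ a - a i - a j = 2 / 5 * τ a} = 0 := by
    have := d3s_null hgeo.intτ hi.ge (by omega : k ≤ (j : ℕ)) hij (p := 1) (q := 1)
      (Or.inl one_ne_zero) (3 / 5)
    refine measure_mono_null ?_ this
    intro a ha
    simp only [Set.mem_setOf_eq] at ha ⊢
    linarith
  -- the differences of volumes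
  have hdiff : ∀ (Ω₁ : Set (Fin n → ℝ)) (f : (Fin n → ℝ) → ℝ), Ω₁ ⊆ boxSet l u →
      MeasurableSet Ω₁ → Measurable f →
      (c / (100 * ((n : ℝ) + 1)) * R) ^ n ≤
        (volume (Ω₁ ∩ {a | 1 / 3 * τ a ≤ f a ∧ f a < 2 / 5 * τ a})).toReal →
      (volume (Ω₁ ∩ {a | f a < 1 / 3 * τ a})).toReal + 1 / (n.factorial : ℝ) <
        (volume (Ω₁ ∩ {a | f a < 2 / 5 * τ a})).toReal := by
    intro Ω₁ f hΩ hΩm hf hv
    have hd : Disjoint (Ω₁ ∩ {a | f a < 1 / 3 * τ a})
        (Ω₁ ∩ {a | 1 / 3 * τ a ≤ f a ∧ f a < 2 / 5 * τ a}) := by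
      rw [Set.disjoint_left]
      intro a h1 h2
      have h3 := h1.2
      have h4 := h2.2.1
      simp only [Set.mem_setOf_eq] at h3
      linarith
    have hm2 : MeasurableSet (Ω₁ ∩ {a | 1 / 3 * τ a ≤ f a ∧ f a < 2 / 5 * τ a}) :=
      hΩm.inter ((measurableSet_le (hτm.const_mul _) hf).inter
        (measurableSet_lt hf (hτm.const_mul _)))
    have h1 : volume (Ω₁ ∩ {a | f a < 1 / 3 * τ a}) +
        volume (Ω₁ ∩ {a | 1 / 3 * τ a ≤ f a ∧ f a < 2 / 5 * τ a}) ≤
        volume (Ω₁ ∩ {a | f a < 2 / 5 * τ a}) := by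
      rw [← measure_union hd hm2]
      refine measure_mono ?_
      rintro a (⟨h1, h2⟩ | ⟨h1, h2⟩)
      · refine ⟨h1, ?_⟩
        simp only [Set.mem_setOf_eq] at h2 ⊢
        have := hpos a (hΩ h1)
        linarith
      · exact ⟨h1, h2.2⟩
    have f1 := hfin' (Ω₁ ∩ {a | f a < 1 / 3 * τ a}) (Set.inter_subset_left.trans hΩ)
    have f2 := hfin' (Ω₁ ∩ {a | 1 / 3 * τ a ≤ f a ∧ f a < 2 / 5 * τ a})
      (Set.inter_subset_left.trans hΩ)
    have f3 := hfin' (Ω₁ ∩ {a | f a < 2 / 5 * τ a}) (Set.inter_subset_left.trans hΩ)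
    have h2 := ENNReal.toReal_mono f3 h1
    rw [ENNReal.toReal_add f1 f2] at h2
    linarith
  -- second split
  have FV : ∀ γ : ℝ, 1 / 3 ≤ γ → γ ≤ 2 / 5 → Fill δ N (boxSet l u ∩
      {a | γ * τ a < a j ∨ τ a - a i - a j < 2 / 5 * τ a}) := by
    intro γ hγ1 hγ2
    have hsub3 : boxSet l u ∩ {a | γ * τ a < a j} ⊆ boxSet l u := Set.inter_subset_left
    have hm3 : MeasurableSet (boxSet l u ∩ {a | γ * τ a < a j}) :=
      hmeas.inter (measurableSet_lt (hτm.const_mul _) haj)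
    have hre : ∀ γ' : ℝ, boxSet l u ∩ {a | a i < γ' * τ a ∧ γ * τ a < a j} =
        (boxSet l u ∩ {a | γ * τ a < a j}) ∩ {a | a i < γ' * τ a} := by
      intro γ'
      ext a
      simp only [Set.mem_inter_iff, Set.mem_setOf_eq]
      tauto
    refine Fill.split (by omega) hδ1 (hfin' _ Set.inter_subset_left)
      (fun γ' => boxSet l u ∩ {a | a i < γ' * τ a ∧ γ * τ a < a j})
      (fun γ' => boxSet l u ∩ {a | τ a - a i - a j < 2 / 5 * τ a ∧
        min (γ' * τ a) (τ a - (τ a - a i - a j) - γ * τ a) < a i})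
      (c₀ := 1 / 3) (c₁ := 2 / 5) (by norm_num) ?_ ?_ ?_ ?_ ?_ ?_ ?_ ?_
    · rintro γ' _ _ a ⟨h1, h2⟩
      exact ⟨h1, Or.inl h2.2⟩
    · rintro γ' _ _ a ⟨h1, h2⟩
      exact ⟨h1, Or.inr h2.1⟩
    · intro γ' _ _
      rw [Set.disjoint_left]
      rintro a ⟨h1, h2, h3⟩ ⟨-, h4, h5⟩
      rcases min_lt_iff.1 h5 with h6 | h6 <;> linarith
    · intro γ' hγ'1 hγ'2
      refine hcover _ _ ({a | a i = γ' * τ a} ∪ {a | a j = γ * τ a}) _ Set.inter_subset_left
        Set.inter_subset_left Set.inter_subset_left ?_ ?_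
      · rintro a ⟨h1, h2⟩
        have hp := hpos a h1
        have hpj := hposj a h1
        by_cases e1 : a i = γ' * τ a
        · exact Or.inr (Or.inl e1)
        by_cases e2 : a j = γ * τ a
        · exact Or.inr (Or.inr e2)
        left
        rcases lt_or_gt_of_ne e2 with h3 | h3
        · -- `a j < γ τ`
          right
          have h4 : τ a - a i - a j < 2 / 5 * τ a := by
            rcases h2 with h2 | h2
            · exact absurd h3 (not_lt.2 (le_of_lt h2))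
            · exact h2
          exact ⟨h1, h4, min_lt_of_right_lt (by linarith)⟩
        · rcases lt_or_gt_of_ne e1 with h4 | h4
          · exact Or.inl ⟨h1, h4, h3⟩
          · right
            refine ⟨h1, ?_, min_lt_of_left_lt h4⟩
            have h5 : 0 < τ a := hp.1.trans hp.2
            nlinarith
      · exact measure_union_null (nulli γ') (nullj γ)
    · have h1 := volume_lt_continuous (hfin' _ hsub3) hm3 hai hτm
        (fun a ha => (hpos a ha.1).1.trans (hpos a ha.1).2)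
        (fun t => measure_mono_null Set.inter_subset_right (nulli t))
      simp only [hre]
      exact h1.continuousOn
    · simp only [hre]
      refine hdiff _ (fun a => a i) hsub3 hm3 hai ?_
      obtain ⟨q1, q2, q3⟩ := hgA.d3s_condA hi hj (le_refl (2 / 5 : ℝ)) (by linarith) hγ2
      have h1 := Geo2.cell_volume hc (by linarith) hRpos hgA hi hj (α := 1 / 3) (β := 2 / 5)
        (g := fun a => γ * τ a) (by norm_num) (by norm_num) (by norm_num) q1 q2 q3
      refine h1.trans (le_of_eq ?_)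
      congr 2
      ext a
      simp only [Set.mem_inter_iff, Set.mem_setOf_eq]
      tauto
    · intro γ' h1 h2
      exact F1 γ γ' hγ1 hγ2 h1 h2
    · intro γ' h1 h2
      exact F0 γ γ' hγ1 hγ2 h1 h2
  -- first split
  have hsub4 : boxSet l u ∩ {a | 2 / 5 * τ a < τ a - a i - a j} ⊆ boxSet l u :=
    Set.inter_subset_left
  have hm4 : MeasurableSet (boxSet l u ∩ {a | 2 / 5 * τ a < τ a - a i - a j}) :=
    hmeas.inter (measurableSet_lt (hτm.const_mul _) ((hτm.sub hai).sub haj))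
  have hre2 : ∀ γ : ℝ, boxSet l u ∩ {a | a j < γ * τ a ∧ 2 / 5 * τ a < τ a - a i - a j} =
      (boxSet l u ∩ {a | 2 / 5 * τ a < τ a - a i - a j}) ∩ {a | a j < γ * τ a} := by
    intro γ
    ext a
    simp only [Set.mem_inter_iff, Set.mem_setOf_eq]
    tauto
  refine Fill.split (by omega) hδ1 hfin
    (fun γ => boxSet l u ∩ {a | a j < γ * τ a ∧ 2 / 5 * τ a < τ a - a i - a j})
    (fun γ => boxSet l u ∩ {a | γ * τ a < a j ∨ τ a - a i - a j < 2 / 5 * τ a})
    (c₀ := 1 / 3) (c₁ := 2 / 5) (by norm_num) ?_ ?_ ?_ ?_ ?_ ?_ ?_ ?_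
  · intro γ _ _
    exact Set.inter_subset_left
  · intro γ _ _
    exact Set.inter_subset_left
  · intro γ _ _
    rw [Set.disjoint_left]
    rintro a ⟨h1, h2, h3⟩ ⟨-, h4⟩
    rcases h4 with h4 | h4 <;> linarith
  · intro γ hγ1 hγ2
    refine hcover _ _ ({a | a j = γ * τ a} ∪ {a | τ a - a i - a j = 2 / 5 * τ a}) _ le_rfl
      Set.inter_subset_left Set.inter_subset_left ?_ ?_
    · intro a h1
      by_cases e1 : a j = γ * τ a
      · exact Or.inr (Or.inl e1)
      by_cases e2 : τ a - a i - a j = 2 / 5 * τ a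
      · exact Or.inr (Or.inr e2)
      left
      rcases lt_or_gt_of_ne e1 with h3 | h3
      · rcases lt_or_gt_of_ne e2 with h4 | h4
        · exact Or.inr ⟨h1, Or.inr h4⟩
        · exact Or.inl ⟨h1, h3, h4⟩
      · exact Or.inr ⟨h1, Or.inl h3⟩
    · exact measure_union_null (nullj γ) null0
  · have h1 := volume_lt_continuous (hfin' _ hsub4) hm4 haj hτm
      (fun a ha => (hpos a ha.1).1.trans (hpos a ha.1).2)
      (fun t => measure_mono_null Set.inter_subset_right (nullj t))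
    simp only [hre2]
    exact h1.continuousOn
  · simp only [hre2]
    refine hdiff _ (fun a => a j) hsub4 hm4 haj ?_
    obtain ⟨q1, q2, q3⟩ := hgB.d3s_condA hi hj (le_refl (2 / 5 : ℝ)) (by norm_num : (0:ℝ) ≤ 2 / 5)
      le_rfl
    have h1 := Geo2.cell_volume hc (by linarith) hRpos hgB hi hj (α := 1 / 3) (β := 2 / 5)
      (g := fun a => 2 / 5 * τ a) (by norm_num) (by norm_num) (by norm_num) q1 q2 q3
    refine h1.trans (le_of_eq ?_)
    have e : boxSet l u ∩ {a | 2 / 5 * τ a < τ a - a i - a j} ∩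
        {a | 1 / 3 * τ a ≤ a j ∧ a j < 2 / 5 * τ a} =
        boxSet l u ∩ (fun a => G a + v) ⁻¹' {a | 1 / 3 * τ a ≤ a i ∧ a i < 2 / 5 * τ a ∧
          2 / 5 * τ a < a j} := by
      ext a
      simp only [Set.mem_inter_iff, Set.mem_setOf_eq, Set.mem_preimage]
      rw [hτ1, (hact a i j hi hj).1, (hact a i j hi hj).2]
      tauto
    rw [e, ← d3s_volume G hG hG' v (boxSet l u ∩ (fun a => G a + v) ⁻¹' _),
      Set.image_inter_preimage, himg]
  · intro γ h1 h2
    exact F2 γ h1 h2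
  · intro γ h1 h2
    exact FV γ h1 h2

end Vale.Agent.P209.Strong
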