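import Vale.Agent.P209.Strong.D3b
import Vale.Agent.P209.Strong.D3s
import Vale.Agent.P209.Strong.D3d

namespace Vale.Agent.P209.Strong

open MeasureTheory

theorem S1_all (n : ℕ) (hn : 2 ≤ n) (b : ℕ) : S1 n b := by
  induction b using Nat.strong_induction_on with
  | _ b ih =>
    by_cases hb : b ≤ 1
    · exact S1_le_one n b hn hb
    · by_cases hb2 : b = 2
      · subst hb2
        exact S1_two n (S2_of_S1 n 0 hn (ih 0 (by omega)))
      · exact S1_step n b hn (by omega) (ih _ (by omega)) (S2_of_S1 n _ hn (ih _ (by omega)))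

theorem D3_bsum_lip {n : ℕ} (k j : ℕ) (y y' : Fin n → ℝ) :
    |bsum k j y - bsum k j y'| ≤ n * dist y y' := by
  unfold bsum
  rw [← Finset.sum_sub_distrib]
  refine (Finset.abs_sum_le_sum_abs _ _).trans ?_
  calc ∑ i : Fin n, |(if k ≤ (i : ℕ) ∧ (i : ℕ) < j then y i else 0) -
        (if k ≤ (i : ℕ) ∧ (i : ℕ) < j then y' i else 0)| ≤ ∑ _i : Fin n, dist y y' := by
        refine Finset.sum_le_sum fun i _ => ?_
        split_ifs
        · rw [← Real.dist_eq]
          exact dist_le_pi_dist y y' i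
        · simp
    _ = n * dist y y' := by
        rw [Finset.sum_const, Finset.card_univ, Fintype.card_fin, nsmul_eq_mul]

theorem D3_bsum_dep {n : ℕ} (k : ℕ) (j : Fin n) {y y' : Fin n → ℝ}
    (h : ∀ i, i < j → y i = y' i) : bsum k j y = bsum k j y' := by
  unfold bsum
  refine Finset.sum_congr rfl fun i _ => ?_
  split_ifs with hi
  · exact h i hi.2
  · rfl

theorem D3_boxSet_simplex {n : ℕ} (hn : 1 ≤ n) (R : ℝ) :
    boxSet (fun (_ : Fin n) (_ : Fin n → ℝ) => (0 : ℝ)) (fun j a => R - bsum 0 (j : ℕ) a) =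
      simplex n R := by
  have key : ∀ (j : Fin n) (a : Fin n → ℝ), bsum 0 (j : ℕ) a + a j =
      ∑ i : Fin n, if i ≤ j then a i else 0 := by
    intro j a
    have h1 : a j = ∑ i : Fin n, if i = j then a i else 0 := by simp
    conv_lhs => rw [h1]
    unfold bsum
    rw [← Finset.sum_add_distrib]
    refine Finset.sum_congr rfl fun i _ => ?_
    rcases lt_trichotomy i j with h | h | h
    · have h2 : (i : ℕ) < j := h
      rw [if_pos ⟨Nat.zero_le _, h2⟩, if_neg h.ne, if_pos h.le, add_zero]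
    · subst h
      simp
    · have h2 : ¬ (i : ℕ) < j := not_lt.2 (Fin.le_def.1 h.le)
      rw [if_neg (fun h3 => h2 h3.2), if_neg h.ne', if_neg (not_le.2 h), add_zero]
  ext a
  constructor
  · intro h
    refine ⟨fun j => (h j).1, ?_⟩
    have h1 := (h ⟨n - 1, by omega⟩).2
    have h2 := key ⟨n - 1, by omega⟩ a
    have h3 : ∑ i : Fin n, (if i ≤ (⟨n - 1, by omega⟩ : Fin n) then a i else 0) = ∑ i, a i :=
      Finset.sum_congr rfl fun i _ => by
        rw [if_pos]
        rw [Fin.le_def]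
        have := i.2
        simp only
        omega
    rw [h3] at h2
    simp only at h1 h2
    linarith
  · intro h j
    refine ⟨h.1 j, ?_⟩
    have h2 := key j a
    have h3 : ∑ i : Fin n, (if i ≤ j then a i else 0) ≤ ∑ i, a i :=
      Finset.sum_le_sum fun i _ => by
        split_ifs
        · exact le_rfl
        · exact (h.1 i).le
    have h4 := h.2
    show a j < R - bsum 0 (j : ℕ) a
    linarith

/-- Large simplices are filled. -/
theorem simplex_fill (n : ℕ) (hn : 2 ≤ n) (δ N : ℝ) (hδ : 0 < δ) (hδ1 : δ ≤ 1) (hN : 0 ≤ N) :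
    ∃ R0 : ℝ, 0 < R0 ∧ ∀ R, R0 ≤ R → Fill δ N (simplex n R) := by
  obtain ⟨R0, h0, h⟩ := S1_all n hn n 1 (n + 1) δ N one_pos (by positivity) hδ hδ1 hN
  refine ⟨R0, h0, fun R hR => ?_⟩
  rw [← D3_boxSet_simplex (by omega) R]
  refine h R hR _ _ 0 (fun _ => R) ?_
  exact
    { wl := ⟨fun j y y' _ => rfl, fun j y y' => by simp only [sub_self, abs_zero]; positivity⟩
      wu := ⟨fun j y y' hy => by
          show R - bsum 0 (j : ℕ) y = R - bsum 0 (j : ℕ) y'
          rw [D3_bsum_dep 0 j hy],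
        fun j y y' => by
          have h1 := D3_bsum_lip 0 (j : ℕ) y y'
          have h2 : (0 : ℝ) ≤ dist y y' := dist_nonneg
          rw [show R - bsum 0 (j : ℕ) y - (R - bsum 0 (j : ℕ) y') =
            -(bsum 0 (j : ℕ) y - bsum 0 (j : ℕ) y') by ring, abs_neg]
          linarith⟩
      kb := by omega
      int := ⟨R, fun _ => 0, fun _ _ => rfl, fun a => by simp⟩
      sim := fun j _ _ => ⟨fun _ => rfl, fun _ => rfl⟩
      fat := fun j a hj => by
        have := j.2
        omega
      size := fun a _ => ⟨by rw [one_mul], le_rfl⟩ }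

end Vale.Agent.P209.Strong
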