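import Vale.Agent.P209.Strong.Base

namespace Vale.Agent.P209.Strong

open MeasureTheory

theorem isOpen_simplex (n : ℕ) (R : ℝ) : IsOpen (simplex n R) := by
  have h : simplex n R = (⋂ j : Fin n, {a | 0 < a j}) ∩ {a | ∑ j, a j < R} := by
    ext a
    simp [simplex]
  rw [h]
  refine (isOpen_iInter_of_finite fun j => isOpen_lt continuous_const (continuous_apply j)).inter ?_
  exact isOpen_lt (continuous_finsetSum _ fun j _ => continuous_apply j) continuous_const

/-- The volume of the simplex, with values in `ℝ≥0∞`. -/
theorem volume_simplex_ofReal : ∀ (n : ℕ) (R : ℝ), 0 < R →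
    volume (simplex n R) = ENNReal.ofReal (R ^ n / (n.factorial : ℝ))
  | 0, R, hR => by
    have h : simplex 0 R = Set.univ := by
      ext a
      simp [simplex, hR]
    rw [h]
    simp [volume_pi]
  | n + 1, R, hR => by
    have ih := volume_simplex_ofReal n
    have hmp := volume_preserving_piFinSuccAbove (fun _ : Fin (n + 1) => ℝ) 0
    set T : Set (ℝ × (Fin n → ℝ)) := {p | 0 < p.1 ∧ p.2 ∈ simplex n (R - p.1)} with hTdef
    have hpre : simplex (n + 1) R =
        (MeasurableEquiv.piFinSuccAbove (fun _ : Fin (n + 1) => ℝ) 0) ⁻¹' T := by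
      ext a
      simp only [simplex, Set.mem_ofPred_eq, Set.mem_preimage, hTdef, Fin.forall_fin_succ,
        Fin.sum_univ_succ]
      constructor
      · rintro ⟨⟨h0, h1⟩, h2⟩
        exact ⟨h0, h1, by
          change ∑ j : Fin n, a (Fin.succ j) < R - a 0
          linarith⟩
      · rintro ⟨h0, h1, h2⟩
        change ∑ j : Fin n, a (Fin.succ j) < R - a 0 at h2
        exact ⟨⟨h0, h1⟩, by linarith⟩
    have hT : IsOpen T := by
      have h : T = {p | 0 < p.1} ∩ ((⋂ j : Fin n, {p : ℝ × (Fin n → ℝ) | 0 < p.2 j}) ∩
          {p | ∑ j, p.2 j < R - p.1}) := by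
        ext p
        simp [hTdef, simplex]
      rw [h]
      refine (isOpen_lt continuous_const continuous_fst).inter (IsOpen.inter ?_ ?_)
      · exact isOpen_iInter_of_finite fun j =>
          isOpen_lt continuous_const ((continuous_apply j).comp continuous_snd)
      · exact isOpen_lt (continuous_finsetSum _ fun j _ =>
          (continuous_apply j).comp continuous_snd) (continuous_const.sub continuous_fst)
    rw [hpre, hmp.measure_preimage hT.measurableSet.nullMeasurableSet,
      Measure.volume_eq_prod, Measure.prod_apply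
      hT.measurableSet]
    have hsl : ∀ t : ℝ, volume (Prod.mk t ⁻¹' T) =
        (Set.Ioo 0 R).indicator (fun t => ENNReal.ofReal ((R - t) ^ n / (n.factorial : ℝ))) t := by
      intro t
      by_cases ht : t ∈ Set.Ioo 0 R
      · rw [Set.indicator_of_mem ht]
        have h : Prod.mk t ⁻¹' T = simplex n (R - t) := by
          ext a
          simp [hTdef, ht.1]
        rw [h, ih (R - t) (sub_pos.mpr ht.2)]
      · rw [Set.indicator_of_notMem ht]
        have h : Prod.mk t ⁻¹' T = ∅ := by
          ext a
          simp only [Set.mem_preimage, hTdef, Set.mem_ofPred_eq, Set.mem_empty_iff_false, iff_false]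
          rintro ⟨h0, h1, h2⟩
          refine ht ⟨h0, ?_⟩
          have h3 : 0 ≤ ∑ j, a j := Finset.sum_nonneg fun j _ => (h1 j).le
          linarith
        rw [h, measure_empty]
    simp only [hsl]
    rw [lintegral_indicator measurableSet_Ioo, ← ofReal_integral_eq_lintegral_ofReal]
    · congr 1
      rw [← integral_Ioc_eq_integral_Ioo, ← intervalIntegral.integral_of_le hR.le,
        intervalIntegral.integral_div,
        intervalIntegral.integral_comp_sub_left (fun x => x ^ n) R, integral_pow, sub_self, sub_zero,
        zero_pow (by omega), sub_zero, Nat.factorial_succ]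
      push_cast
      field_simp
    · refine Integrable.mono_measure ?_ (Measure.restrict_mono Set.Ioo_subset_Icc_self le_rfl)
      exact (by fun_prop : Continuous fun t : ℝ => (R - t) ^ n / (n.factorial : ℝ)).integrableOn_Icc
    · refine (ae_restrict_iff' measurableSet_Ioo).mpr (Filter.Eventually.of_forall fun t ht => ?_)
      have : 0 ≤ R - t := sub_nonneg.mpr ht.2.le
      change (0 : ℝ) ≤ _
      positivity

theorem volume_simplex (n : ℕ) (R : ℝ) (hR : 0 < R) :
    (volume (simplex n R)).toReal = R ^ n / (n.factorial : ℝ) := by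
  rw [volume_simplex_ofReal n R hR, ENNReal.toReal_ofReal (by positivity)]

/-- Variant for `0 ≤ R` (then `n ≠ 0` is needed: `simplex 0 0 = ∅`). -/
theorem volume_simplex' (n : ℕ) (hn : n ≠ 0) (R : ℝ) (hR : 0 ≤ R) :
    (volume (simplex n R)).toReal = R ^ n / (n.factorial : ℝ) := by
  rcases hR.eq_or_lt with rfl | hR
  · have h : simplex n 0 = ∅ := by
      ext a
      simp only [simplex, Set.mem_ofPred_eq, Set.mem_empty_iff_false, iff_false]
      rintro ⟨h1, h2⟩
      exact absurd h2 (not_lt.mpr (Finset.sum_nonneg fun j _ => (h1 j).le))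
    rw [h, measure_empty, zero_pow hn]
    simp
  · exact volume_simplex n R hR

end Vale.Agent.P209.Strong
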