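import Vale.Agent.P209.Strong.A8
import Vale.Agent.P209.Strong.D3
import Vale.Agent.P209.Strong.E1a
import Vale.Agent.P209.Strong.E1b

set_option linter.all false

namespace Vale.Agent.P209.Strong

open Vale.Agent.P209 MeasureTheory

/-- `Fill` gives packings of balls after scaling. -/
theorem packs_of_Fill {n : ℕ} {δ N m y : ℝ} (hm : 0 < m) (hy : 0 < y)
    (hF : Fill δ N (simplex n m)) (ι : Type) [Fintype ι] (r : ι → ℝ) (J : Finset ι)
    (h1 : ∀ i, 0 < r i ∧ r i ≤ y) (h2 : ∀ i, i ∉ J → δ * y ≤ r i)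
    (h3 : ∑ i ∈ J, r i ≤ N * y) (h4 : ∑ i, r i ^ n < (m * y) ^ n) :
    Packs (openBall n (m * y)) r := by
  have hT : TPk (simplex n m) (fun i => r i / y) := by
    refine hF ι (fun i => r i / y) J (fun i => ⟨div_pos (h1 i).1 hy, ?_⟩) (fun i hi => ?_) ?_ ?_
    · rw [div_le_one hy]; exact (h1 i).2
    · rw [le_div_iff₀ hy]; exact h2 i hi
    · rw [← Finset.sum_div, div_le_iff₀ hy]; exact h3
    · rw [volume_simplex n m hm, ← Finset.sum_div]
      apply div_lt_div_of_pos_right _ (by positivity)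
      simp only [div_pow]
      rw [← Finset.sum_div, div_lt_iff₀ (by positivity), ← mul_pow]
      exact h4
  have hP := Packs.scale hy (packs_of_TPk hT)
  have e1 : (fun i => y * (r i / y)) = r := by
    funext i; field_simp
  rw [mul_comm m y]
  simpa only [e1] using hP

/-- Sum of the small radii, when all dyadic classes have few elements. -/
theorem sum_small_le {ι : Type} [Fintype ι] (r : ι → ℝ) (s : ℝ) (hs : 0 < s) (Nr : ℕ)
    (J : Finset ι) (h1 : ∀ i ∈ J, 0 < r i ∧ r i ≤ s)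
    (hc : ∀ i ∈ J, ∀ j : ℕ, (1 / 2 : ℝ) ^ (j + 1) * s < r i → r i ≤ (1 / 2 : ℝ) ^ j * s →
      ∀ G : Finset ι, (∀ k ∈ G, (1 / 2 : ℝ) ^ (j + 1) * s < r k ∧ r k ≤ (1 / 2 : ℝ) ^ j * s) →
        G.card < Nr) :
    ∑ i ∈ J, r i ≤ 2 * Nr * s := by
  classical
  have hlev : ∀ i : ι, ∃ j : ℕ, i ∈ J →
      (1 / 2 : ℝ) ^ (j + 1) * s < r i ∧ r i ≤ (1 / 2 : ℝ) ^ j * s := by
    intro i
    by_cases hi : i ∈ J
    · obtain ⟨j, hj1, hj2⟩ := exists_nat_pow_near_of_lt_one (x := r i / s) (y := (1 / 2 : ℝ))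
        (div_pos (h1 i hi).1 hs) ((div_le_one hs).2 (h1 i hi).2) (by norm_num) (by norm_num)
      refine ⟨j, fun _ => ⟨?_, ?_⟩⟩
      · exact (lt_div_iff₀ hs).1 hj1
      · exact (div_le_iff₀ hs).1 hj2
    · exact ⟨0, fun h => absurd h hi⟩
  choose lev hl using hlev
  set M := J.sup lev + 1 with hM
  have hmaps : ∀ i ∈ J, lev i ∈ Finset.range M := by
    intro i hi
    rw [Finset.mem_range]
    have := Finset.le_sup (f := lev) hi
    omega
  rw [← Finset.sum_fiberwise_of_maps_to hmaps]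
  have hfib : ∀ j ∈ Finset.range M, ∑ i ∈ J with lev i = j, r i ≤ Nr * s * (1 / 2 : ℝ) ^ j := by
    intro j _
    by_cases hne : (J.filter fun i => lev i = j).Nonempty
    · obtain ⟨i0, hi0⟩ := hne
      rw [Finset.mem_filter] at hi0
      have hl0 := hl i0 hi0.1
      rw [hi0.2] at hl0
      have hcard := hc i0 hi0.1 j hl0.1 hl0.2 (J.filter fun i => lev i = j) (by
        intro k hk
        rw [Finset.mem_filter] at hk
        have := hl k hk.1
        rwa [hk.2] at this)
      calc ∑ i ∈ J with lev i = j, r i ≤ ∑ i ∈ J with lev i = j, (1 / 2 : ℝ) ^ j * s := by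
            refine Finset.sum_le_sum fun k hk => ?_
            rw [Finset.mem_filter] at hk
            have := (hl k hk.1).2
            rwa [hk.2] at this
        _ = ((J.filter fun i => lev i = j).card : ℝ) * ((1 / 2 : ℝ) ^ j * s) := by
            rw [Finset.sum_const, nsmul_eq_mul]
        _ ≤ (Nr : ℝ) * ((1 / 2 : ℝ) ^ j * s) := by
            apply mul_le_mul_of_nonneg_right _ (by positivity)
            exact_mod_cast hcard.le
        _ = Nr * s * (1 / 2 : ℝ) ^ j := by ring
    · rw [Finset.not_nonempty_iff_eq_empty] at hne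
      rw [hne, Finset.sum_empty]
      positivity
  calc ∑ j ∈ Finset.range M, ∑ i ∈ J with lev i = j, r i
      ≤ ∑ j ∈ Finset.range M, Nr * s * (1 / 2 : ℝ) ^ j := Finset.sum_le_sum hfib
    _ = Nr * s * ∑ j ∈ Finset.range M, (1 / 2 : ℝ) ^ j := by rw [Finset.mul_sum]
    _ ≤ Nr * s * 2 := by
        apply mul_le_mul_of_nonneg_left (sum_geometric_two_le M) (by positivity)
    _ = 2 * Nr * s := by ring

/-- Strong packing stability of the ball, in every dimension. -/
theorem strong_stability (n : ℕ) (hn : 2 ≤ n) : ∃ ε : ℝ, 0 < ε ∧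
    ∀ (ι : Type) [Fintype ι] (R : ℝ) (r : ι → ℝ), 0 < R → (∀ i, 0 < r i ∧ r i ≤ ε * R) →
      ∑ i, r i ^ n < R ^ n → Packs (openBall n R) r := by
  classical
  obtain ⟨R1, hR1, hF1⟩ := simplex_fill n hn (1 / 2) 0 (by norm_num) (by norm_num) le_rfl
  set m1 : ℝ := max R1 2 with hm1
  have hm1R : R1 ≤ m1 := le_max_left _ _
  have hm12 : 2 ≤ m1 := le_max_right _ _
  set Nr : ℕ := ⌈(2 * m1) ^ n⌉₊ with hNr
  have hNr1 : (2 * m1) ^ n ≤ (Nr : ℝ) := Nat.le_ceil _
  have hNr2 : 2 ≤ Nr := by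
    have h1 : (1 : ℝ) ≤ 2 * m1 := by linarith
    have h2 : (2 * m1) ^ 1 ≤ (2 * m1) ^ n := pow_le_pow_right₀ h1 (by omega)
    have h3 : (2 : ℝ) ≤ (Nr : ℝ) := by
      rw [pow_one] at h2; linarith
    exact_mod_cast h3
  have hNrR : (2 : ℝ) ≤ (Nr : ℝ) := by exact_mod_cast hNr2
  set δ1 : ℝ := 1 / (2 * (Nr + 1)) with hδ1
  have hδ1p : 0 < δ1 := by positivity
  have hδ1l : δ1 ≤ 1 := by
    rw [hδ1, div_le_one (by positivity)]; linarith
  obtain ⟨R2, hR2, hF2⟩ := simplex_fill n hn δ1 (2 * Nr) hδ1p hδ1l (by positivity)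
  set m2 : ℝ := max R2 1 with hm2
  have hm2R : R2 ≤ m2 := le_max_left _ _
  have hm21 : 1 ≤ m2 := le_max_right _ _
  have hm2p : 0 < m2 := by linarith
  refine ⟨1 / m2, by positivity, ?_⟩
  -- strong induction on the number of balls
  have key : ∀ k : ℕ, ∀ (ι : Type) [Fintype ι], Fintype.card ι = k → ∀ (R : ℝ) (r : ι → ℝ), 0 < R →
      (∀ i, 0 < r i ∧ r i ≤ 1 / m2 * R) → ∑ i, r i ^ n < R ^ n → Packs (openBall n R) r := by
    intro k
    induction k using Nat.strong_induction_on with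
    | _ k ih =>
    intro ι _ hcard R r hR hr hsum
    set s : ℝ := R / m2 with hs
    have hsp : 0 < s := by positivity
    have hms : m2 * s = R := by rw [hs]; field_simp
    have hrs : ∀ i, 0 < r i ∧ r i ≤ s := by
      intro i
      refine ⟨(hr i).1, ?_⟩
      have := (hr i).2
      rw [hs]
      calc r i ≤ 1 / m2 * R := this
        _ = R / m2 := by ring
    by_cases hcase : ∃ (j : ℕ) (G : Finset ι), (1 / 2 : ℝ) ^ j * (Nr + 1) ≤ 1 ∧
        (∀ k ∈ G, (1 / 2 : ℝ) ^ (j + 1) * s < r k ∧ r k ≤ (1 / 2 : ℝ) ^ j * s) ∧ G.card = Nr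
    · obtain ⟨j, G, hj, hG, hGc⟩ := hcase
      set y : ℝ := (1 / 2 : ℝ) ^ j * s with hy
      have hyp : 0 < y := by positivity
      have hGy : ∀ k ∈ G, 1 / 2 * y < r k ∧ r k ≤ y := by
        intro k hk
        refine ⟨?_, (hG k hk).2⟩
        have := (hG k hk).1
        rw [pow_succ] at this
        rw [hy]; linarith
      set θ : ℝ := min ((R ^ n - ∑ i, r i ^ n) / 2) (y ^ n) with hθ
      have hθp : 0 < θ := lt_min (by linarith) (by positivity)
      have hθ1 : θ ≤ (R ^ n - ∑ i, r i ^ n) / 2 := min_le_left _ _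
      have hθ2 : θ ≤ y ^ n := min_le_right _ _
      set P : ℝ := ∑ i ∈ G, r i ^ n + θ with hP
      have hGnn : 0 ≤ ∑ i ∈ G, r i ^ n := Finset.sum_nonneg fun i _ => pow_nonneg (hrs i).1.le n
      have hPp : 0 < P := by rw [hP]; linarith
      set ρ : ℝ := P ^ ((n : ℝ)⁻¹) with hρ
      have hρp : 0 < ρ := Real.rpow_pos_of_pos hPp _
      have hρn : ρ ^ n = P := Real.rpow_inv_natCast_pow hPp.le (by omega)
      have hlow : m1 * y ≤ ρ := by
        have h1 : (m1 * y) ^ n ≤ ρ ^ n := by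
          rw [hρn, hP]
          have h2 : ∑ i ∈ G, (1 / 2 * y) ^ n ≤ ∑ i ∈ G, r i ^ n :=
            Finset.sum_le_sum fun i hi => pow_le_pow_left₀ (by positivity) (hGy i hi).1.le n
          rw [Finset.sum_const, nsmul_eq_mul, hGc] at h2
          have h3 : (m1 * y) ^ n = (2 * m1) ^ n * (1 / 2 * y) ^ n := by
            rw [← mul_pow]; congr 1; ring
          have h4 : (2 * m1) ^ n * (1 / 2 * y) ^ n ≤ (Nr : ℝ) * (1 / 2 * y) ^ n :=
            mul_le_mul_of_nonneg_right hNr1 (by positivity)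
          linarith
        exact le_of_pow_le_pow_left₀ (by omega) hρp.le h1
      have hup : ρ ≤ s := by
        have h1 : ρ ^ n ≤ ((Nr + 1) * y) ^ n := by
          rw [hρn, hP]
          have h2 : ∑ i ∈ G, r i ^ n ≤ ∑ i ∈ G, y ^ n :=
            Finset.sum_le_sum fun i hi => pow_le_pow_left₀ (hrs i).1.le (hGy i hi).2 n
          rw [Finset.sum_const, nsmul_eq_mul, hGc] at h2
          have h3 : ((Nr : ℝ) + 1) * y ^ n ≤ ((Nr + 1) * y) ^ n := by
            have h31 : ((Nr : ℝ) + 1) ≤ ((Nr : ℝ) + 1) ^ n := by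
              calc ((Nr : ℝ) + 1) = ((Nr : ℝ) + 1) ^ 1 := (pow_one _).symm
                _ ≤ ((Nr : ℝ) + 1) ^ n := pow_le_pow_right₀ (by linarith) (by omega)
            have h32 : (((Nr : ℝ) + 1) * y) ^ n = ((Nr : ℝ) + 1) ^ n * y ^ n :=
              mul_pow ((Nr : ℝ) + 1) y n
            rw [h32]
            exact mul_le_mul_of_nonneg_right h31 (pow_nonneg hyp.le n)
          nlinarith
        have h4 : ρ ≤ (Nr + 1) * y := le_of_pow_le_pow_left₀ (by omega) (by positivity) h1
        have h5 : (Nr + 1) * y ≤ s := by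
          rw [hy]
          calc ((Nr : ℝ) + 1) * ((1 / 2 : ℝ) ^ j * s) = ((1 / 2 : ℝ) ^ j * (Nr + 1)) * s := by ring
            _ ≤ 1 * s := mul_le_mul_of_nonneg_right hj hsp.le
            _ = s := one_mul s
        linarith
      -- the group packs the virtual ball
      have hpackG : Packs (openBall n ρ) (fun i : (G : Set ι) => r i) := by
        have hm : 0 < ρ / y := div_pos hρp hyp
        have hm' : R1 ≤ ρ / y := by
          rw [le_div_iff₀ hyp]
          calc R1 * y ≤ m1 * y := mul_le_mul_of_nonneg_right hm1R hyp.le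
            _ ≤ ρ := hlow
        have hmy : ρ / y * y = ρ := by field_simp
        have := packs_of_Fill hm hyp (hF1 _ hm') (G : Set ι) (fun i : (G : Set ι) => r i) ∅
          (fun i => ⟨(hrs i).1, (hGy i i.2).2⟩) (fun i _ => (hGy i i.2).1.le) (by simp) (by
            rw [hmy, hρn, hP]
            have h1 : ∑ i : (G : Set ι), r i ^ n = ∑ i ∈ G, r i ^ n := by
              rw [← Finset.sum_coe_sort G]
              rfl
            rw [h1]; linarith)
        rwa [hmy] at this
      refine Packs.merge (G : Set ι) (ρ := ρ) ?_ hpackG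
      -- the family with the virtual ball
      have hcompl : Fintype.card (↥((G : Set ι)ᶜ)) = k - Nr := by
        rw [Fintype.card_compl_set]
        simp [hcard, hGc]
      have hGk : Nr ≤ k := by
        rw [← hcard, ← hGc]; exact Finset.card_le_univ G
      refine ih (k - Nr + 1) (by omega) (Option (↥((G : Set ι)ᶜ))) (by
        rw [Fintype.card_option, hcompl]) R _ hR ?_ ?_
      · rintro (_ | i)
        · refine ⟨hρp, ?_⟩
          show ρ ≤ 1 / m2 * R
          have : 1 / m2 * R = s := by rw [hs]; ring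
          rw [this]; exact hup
        · exact hr i
      · rw [Fintype.sum_option]
        show ρ ^ n + ∑ i : ↥((G : Set ι)ᶜ), r i ^ n < R ^ n
        have h1 : ∑ i : ↥((G : Set ι)ᶜ), r i ^ n = ∑ i ∈ Gᶜ, r i ^ n := by
          rw [← Finset.sum_coe_sort Gᶜ]
          refine Fintype.sum_equiv (Equiv.subtypeEquivRight ?_) _ _ ?_
          · intro x; simp
          · intro x; rfl
        rw [h1, hρn, hP]
        have h2 := Finset.sum_add_sum_compl G (fun i => r i ^ n)
        linarith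
    · push Not at hcase
      -- the least `j0` with `2^{-j0} (Nr + 1) ≤ 1`
      have hex : ∃ j : ℕ, (1 / 2 : ℝ) ^ j * (Nr + 1) ≤ 1 := by
        obtain ⟨j, hj⟩ := exists_pow_lt_of_lt_one (x := 1 / ((Nr : ℝ) + 1)) (y := 1 / 2)
          (by positivity) (by norm_num)
        refine ⟨j, ?_⟩
        rw [lt_div_iff₀ (by positivity)] at hj
        exact hj.le
      set j0 := Nat.find hex with hj0
      have hj0s : (1 / 2 : ℝ) ^ j0 * (Nr + 1) ≤ 1 := Nat.find_spec hex
      have hj0p : j0 ≠ 0 := by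
        intro h0
        rw [h0, pow_zero, one_mul] at hj0s
        linarith
      have hj0m : 1 < (1 / 2 : ℝ) ^ (j0 - 1) * (Nr + 1) := by
        have := Nat.find_min hex (m := j0 - 1) (by omega)
        push Not at this
        exact this
      have hδj : δ1 ≤ (1 / 2 : ℝ) ^ j0 := by
        have h1 : (1 / 2 : ℝ) ^ (j0 - 1) = 2 * (1 / 2 : ℝ) ^ j0 := by
          obtain ⟨i, hi⟩ := Nat.exists_eq_succ_of_ne_zero hj0p
          rw [hi, Nat.succ_sub_one, pow_succ]; ring
        rw [h1] at hj0m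
        rw [hδ1, div_le_iff₀ (by positivity)]
        nlinarith
      set J : Finset ι := Finset.univ.filter fun i => r i ≤ (1 / 2 : ℝ) ^ j0 * s with hJ
      have hJsum : ∑ i ∈ J, r i ≤ 2 * Nr * s := by
        refine sum_small_le r s hsp Nr J (fun i _ => hrs i) ?_
        intro i hi j hj1 hj2 G hG
        by_contra hlt
        push Not at hlt
        obtain ⟨G', hG', hG'c⟩ := Finset.exists_subset_card_eq hlt
        have hjj : j0 ≤ j := by
          by_contra hh
          push Not at hh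
          have h1 : (1 / 2 : ℝ) ^ j0 ≤ (1 / 2 : ℝ) ^ (j + 1) :=
            pow_le_pow_of_le_one (by norm_num) (by norm_num) hh
          have h2 : r i ≤ (1 / 2 : ℝ) ^ j0 * s := by
            rw [hJ, Finset.mem_filter] at hi; exact hi.2
          have h3 : (1 / 2 : ℝ) ^ j0 * s ≤ (1 / 2 : ℝ) ^ (j + 1) * s :=
            mul_le_mul_of_nonneg_right h1 hsp.le
          linarith
        have hj : (1 / 2 : ℝ) ^ j * (Nr + 1) ≤ 1 := by
          have h1 : (1 / 2 : ℝ) ^ j ≤ (1 / 2 : ℝ) ^ j0 :=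
            pow_le_pow_of_le_one (by norm_num) (by norm_num) hjj
          have h2 : (1 / 2 : ℝ) ^ j * ((Nr : ℝ) + 1) ≤ (1 / 2 : ℝ) ^ j0 * (Nr + 1) :=
            mul_le_mul_of_nonneg_right h1 (by positivity)
          linarith
        exact hcase j G' hj (fun k hk => hG k (hG' hk)) hG'c
      have := packs_of_Fill hm2p hsp (hF2 m2 hm2R) ι r J hrs (by
          intro i hi
          have h1 : (1 / 2 : ℝ) ^ j0 * s < r i := by
            by_contra hh
            push Not at hh
            exact hi (by rw [hJ, Finset.mem_filter]; exact ⟨Finset.mem_univ i, hh⟩)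
          have h2 : δ1 * s ≤ (1 / 2 : ℝ) ^ j0 * s := mul_le_mul_of_nonneg_right hδj hsp.le
          linarith) hJsum (by rw [hms]; exact hsum)
      rwa [hms] at this
  intro ι _ R r hR hr hsum
  exact key (Fintype.card ι) ι rfl R r hR hr hsum

end Vale.Agent.P209.Strong
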