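import Vale.Agent.P209.Strong.Base
import Vale.Agent.P209.Torus

open scoped ContDiff

namespace Vale.Agent.P209.Strong

open Vale.Agent.P209

lemma a1_re (a b : ℝ) : ((a : ℂ) + (b : ℂ) * Complex.I).re = a := by simp

lemma a1_im (a b : ℝ) : ((a : ℂ) + (b : ℂ) * Complex.I).im = b := by simp

/-- a branch of the logarithm of a map without zeros on a disc, with its local form -/
lemma a1_log {τ : ℂ → ℂ} (hτ : ContDiff ℝ ∞ τ) {R : ℝ} (hR : 0 < R)
    (h0 : ∀ z, ‖z‖ < R → τ z ≠ 0) :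
    ∃ f : ℂ → ℂ, (∀ z, ‖z‖ < R → Complex.exp (f z) = τ z) ∧
      ∀ z₀, ‖z₀‖ < R → ∀ᶠ z in nhds z₀, f z = f z₀ + Complex.log (τ z / τ z₀) := by
  have hD : ∀ z : ℂ, z ∈ Metric.ball (0 : ℂ) R ↔ ‖z‖ < R := fun z => by simp
  have hsc : IsSimplyConnected (Metric.ball (0 : ℂ) R) := by
    have : ContractibleSpace (Metric.ball (0 : ℂ) R) :=
      (convex_ball (0 : ℂ) R).contractibleSpace ⟨0, by simpa using hR⟩
    exact SimplyConnectedSpace.ofContractible _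
  obtain ⟨f, hfc, hf⟩ := Complex.exists_continuousOn_eqOn_exp_comp hsc Metric.isOpen_ball
    (g := τ) hτ.continuous.continuousOn (by
      rintro ⟨z, hz, h⟩
      exact h0 z ((hD z).1 hz) h)
  have hf' : ∀ z, ‖z‖ < R → Complex.exp (f z) = τ z := fun z hz => hf ((hD z).2 hz)
  refine ⟨f, hf', fun z₀ hz₀ => ?_⟩
  have hc : ContinuousAt f z₀ := hfc.continuousAt (Metric.isOpen_ball.mem_nhds ((hD z₀).2 hz₀))
  have hc2 : ContinuousAt (fun z => |(f z - f z₀).im|) z₀ :=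
    (Complex.continuous_im.continuousAt.comp (hc.sub continuousAt_const)).abs
  have hev : ∀ᶠ z in nhds z₀, |(f z - f z₀).im| < Real.pi := by
    refine hc2.eventually (gt_mem_nhds ?_)
    simp [Real.pi_pos]
  filter_upwards [hev, Metric.isOpen_ball.mem_nhds ((hD z₀).2 hz₀)] with z hz hzD
  have h1 := abs_lt.1 hz
  have h2 : Complex.log (Complex.exp (f z - f z₀)) = f z - f z₀ :=
    Complex.log_exp h1.1 h1.2.le
  rw [Complex.exp_sub, hf' z ((hD z).1 hzD), hf' z₀ hz₀] at h2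
  rw [h2]
  ring

lemma a1_log_contDiffAt {τ : ℂ → ℂ} (hτ : ContDiff ℝ ∞ τ) {z₀ : ℂ} (h0 : τ z₀ ≠ 0) {f : ℂ → ℂ}
    (hf : ∀ᶠ z in nhds z₀, f z = f z₀ + Complex.log (τ z / τ z₀)) : ContDiffAt ℝ ∞ f z₀ := by
  refine ContDiffAt.congr_of_eventuallyEq ?_ hf
  refine contDiffAt_const.add ?_
  have h2 : ContDiffAt ℝ ∞ (fun w : ℂ => τ w / τ z₀) z₀ := hτ.contDiffAt.div_const _
  have h3 : ContDiffAt ℝ ∞ Complex.log ((fun w : ℂ => τ w / τ z₀) z₀) := by
    refine (Complex.contDiffAt_log ?_).restrict_scalars ℝ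
    show τ z₀ / τ z₀ ∈ Complex.slitPlane
    rw [div_self h0]
    simp
  exact ContDiffAt.comp (g := Complex.log) (f := fun w : ℂ => τ w / τ z₀) z₀ h3 h2

lemma a1_log_fderiv {τ : ℂ → ℂ} (hτ : ContDiff ℝ ∞ τ) {z₀ : ℂ} (h0 : τ z₀ ≠ 0) {f : ℂ → ℂ}
    (hf : ∀ᶠ z in nhds z₀, f z = f z₀ + Complex.log (τ z / τ z₀)) (v : ℂ) :
    (fderiv ℝ f z₀ v).im = ((τ z₀)⁻¹ * fderiv ℝ τ z₀ v).im := by
  have hd : HasFDerivAt τ (fderiv ℝ τ z₀) z₀ :=
    (hτ.contDiffAt.differentiableAt (by simp)).hasFDerivAt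
  have h1 : HasFDerivAt (fun z => (Complex.log (τ z / τ z₀)).im) _ z₀ :=
    HasFDerivAt.comp (g := fun w : ℂ => (Complex.log (w / τ z₀)).im) (f := τ) z₀
      (arg_hasFDerivAt (τ z₀) h0) hd
  have h2 : (fun z => (f z).im) =ᶠ[nhds z₀]
      fun z => (f z₀).im + (Complex.log (τ z / τ z₀)).im := by
    filter_upwards [hf] with z hz
    rw [hz, Complex.add_im]
  have h3 : HasFDerivAt (fun z => (f z).im) _ z₀ := (h1.const_add (f z₀).im).congr_of_eventuallyEq h2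
  have h4 : HasFDerivAt (fun z => (f z).im) (Complex.imCLM.comp (fderiv ℝ f z₀)) z₀ :=
    Complex.imCLM.hasFDerivAt.comp z₀
      ((a1_log_contDiffAt hτ h0 hf).differentiableAt (by simp)).hasFDerivAt
  have h5 := congrArg (fun L : ℂ →L[ℝ] ℝ => L v) (h4.unique h3)
  simpa using h5

/-- A1. Area preserving chart of a disc into `(0, ∞) × ℝ`, injective mod `ℤ` in the second
coordinate: first coordinate `π |τ z|²`, second coordinate a lift of `arg (τ z) / 2π`, where `τ` is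
the map of `exists_off_origin`. -/
theorem exists_plane_chart (r ε : ℝ) (hr : 0 ≤ r) (hε : 0 < ε) :
    ∃ (r' : ℝ) (ζ : ℂ → ℂ), r < Real.pi * r' ^ 2 ∧ 0 < r' ∧
      ContDiffOn ℝ ∞ ζ {z | ‖z‖ < r'} ∧
      (∀ z, ‖z‖ < r' → ∀ v w, om1 (fderiv ℝ ζ z v) (fderiv ℝ ζ z w) = om1 v w) ∧
      (∀ z, ‖z‖ < r' → 0 < (ζ z).re ∧ (ζ z).re ≤ Real.pi * ‖z‖ ^ 2 + ε) ∧
      (∀ z w, ‖z‖ < r' → ‖w‖ < r' → (ζ z).re = (ζ w).re →
        (∃ m : ℤ, (ζ z).im - (ζ w).im = m) → z = w) := by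
  have hpi := Real.pi_pos
  obtain ⟨r', hr'pos, hrr'⟩ : ∃ r' : ℝ, 0 < r' ∧ r < Real.pi * r' ^ 2 := by
    refine ⟨Real.sqrt (r / Real.pi) + 1, by positivity, ?_⟩
    have h1 : Real.sqrt (r / Real.pi) ^ 2 = r / Real.pi := Real.sq_sqrt (by positivity)
    have h2 : r / Real.pi < (Real.sqrt (r / Real.pi) + 1) ^ 2 := by
      nlinarith [Real.sqrt_nonneg (r / Real.pi)]
    rw [div_lt_iff₀ hpi] at h2
    linarith
  obtain ⟨ε1, hε1, hε1'⟩ : ∃ ε1 : ℝ, 0 < ε1 ∧ ∀ x, 0 ≤ x → x < r' →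
      Real.pi * (x + ε1) ^ 2 ≤ Real.pi * x ^ 2 + ε := by
    have h1 : 0 < Real.pi * (2 * r' + 1) := by positivity
    refine ⟨min 1 (ε / (Real.pi * (2 * r' + 1))), lt_min one_pos (div_pos hε h1), ?_⟩
    intro x hx hx'
    set e := min 1 (ε / (Real.pi * (2 * r' + 1))) with he
    have e0 : 0 < e := lt_min one_pos (div_pos hε h1)
    have e1 : e ≤ 1 := min_le_left _ _
    have e2 : e * (Real.pi * (2 * r' + 1)) ≤ ε := by
      have := min_le_right 1 (ε / (Real.pi * (2 * r' + 1)))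
      rwa [← he, le_div_iff₀ h1] at this
    have e3 : e * (2 * x + e) ≤ e * (2 * r' + 1) :=
      mul_le_mul_of_nonneg_left (by linarith) e0.le
    have e4 : Real.pi * (e * (2 * x + e)) ≤ Real.pi * (e * (2 * r' + 1)) :=
      mul_le_mul_of_nonneg_left e3 hpi.le
    nlinarith
  obtain ⟨τ, hτ, hτn, hτ0⟩ := exists_off_origin r' ε1 hε1
  have h0 : ∀ z, ‖z‖ < r' → τ z ≠ 0 := fun z hz => hτ0 z hz.le
  obtain ⟨f, hf, hfl⟩ := a1_log hτ.smooth hr'pos h0
  set ζ : ℂ → ℂ := fun z => ((Real.pi * Complex.normSq (τ z) : ℝ) : ℂ) +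
    (((f z).im / (2 * Real.pi) : ℝ) : ℂ) * Complex.I with hζ
  have hre : ∀ z, (ζ z).re = Real.pi * Complex.normSq (τ z) := fun z => a1_re _ _
  have him : ∀ z, (ζ z).im = (f z).im / (2 * Real.pi) := fun z => a1_im _ _
  have hfs : ∀ z, ‖z‖ < r' → ContDiffAt ℝ ∞ f z := fun z hz =>
    a1_log_contDiffAt hτ.smooth (h0 z hz) (hfl z hz)
  have hζs : ∀ z, ‖z‖ < r' → ContDiffAt ℝ ∞ ζ z := by
    intro z hz
    have h1 : ContDiffAt ℝ ∞ (fun z => ((Real.pi * Complex.normSq (τ z) : ℝ) : ℂ)) z :=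
      Complex.ofRealCLM.contDiff.contDiffAt.comp z
        (contDiffAt_const.mul (normSq_contDiff.contDiffAt.comp z hτ.smooth.contDiffAt))
    have h2 : ContDiffAt ℝ ∞ (fun z => (((f z).im / (2 * Real.pi) : ℝ) : ℂ)) z :=
      Complex.ofRealCLM.contDiff.contDiffAt.comp z
        ((Complex.imCLM.contDiff.contDiffAt.comp z (hfs z hz)).div_const _)
    exact h1.add (h2.mul contDiffAt_const)
  have hder : ∀ z, ‖z‖ < r' → ∀ v, fderiv ℝ ζ z v =
      ((2 * Real.pi * ((τ z).re * (fderiv ℝ τ z v).re + (τ z).im * (fderiv ℝ τ z v).im) : ℝ) : ℂ) +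
        ((((τ z)⁻¹ * fderiv ℝ τ z v).im / (2 * Real.pi) : ℝ) : ℂ) * Complex.I := by
    intro z hz v
    have hd : HasFDerivAt τ (fderiv ℝ τ z) z :=
      (hτ.smooth.contDiffAt.differentiableAt (by simp)).hasFDerivAt
    have hdf : HasFDerivAt f (fderiv ℝ f z) z :=
      ((hfs z hz).differentiableAt (by simp)).hasFDerivAt
    have h1 : HasFDerivAt (fun z => Real.pi * Complex.normSq (τ z)) _ z :=
      ((normSq_hasFDerivAt (τ z)).comp z hd).const_mul Real.pi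
    have h2 : HasFDerivAt (fun z => (f z).im / (2 * Real.pi)) ((2 * Real.pi)⁻¹ •
        (Complex.imCLM.comp (fderiv ℝ f z))) z := by
      have := (Complex.imCLM.hasFDerivAt.comp z hdf).mul_const (2 * Real.pi)⁻¹
      simpa [div_eq_mul_inv] using this
    have h3 : HasFDerivAt (fun z => ((Real.pi * Complex.normSq (τ z) : ℝ) : ℂ)) _ z :=
      Complex.ofRealCLM.hasFDerivAt.comp z h1
    have h4 : HasFDerivAt (fun z => (((f z).im / (2 * Real.pi) : ℝ) : ℂ)) _ z :=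
      Complex.ofRealCLM.hasFDerivAt.comp z h2
    have h5 : HasFDerivAt ζ _ z := h3.add (h4.mul_const Complex.I)
    rw [h5.fderiv]
    have h6 := a1_log_fderiv hτ.smooth (h0 z hz) (hfl z hz) v
    simp only [add_apply, smul_apply, ContinuousLinearMap.comp_apply, Complex.ofRealCLM_apply,
      Complex.imCLM_apply, Complex.reCLM_apply, smul_eq_mul, h6]
    push_cast
    ring
  refine ⟨r', ζ, hrr', hr'pos, fun z hz => (hζs z hz).contDiffWithinAt, ?_, ?_, ?_⟩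
  · intro z hz v w
    have h1 := om1_pair (τ z) (fderiv ℝ τ z v) (fderiv ℝ τ z w) (h0 z hz)
    rw [hder z hz, hder z hz, ← hτ.sympl z v w, ← h1]
    unfold om1
    rw [a1_re, a1_re, a1_im, a1_im]
    generalize ((τ z)⁻¹ * fderiv ℝ τ z v).im = α
    generalize ((τ z)⁻¹ * fderiv ℝ τ z w).im = β
    field_simp
  · intro z hz
    rw [hre]
    refine ⟨mul_pos hpi (Complex.normSq_pos.2 (h0 z hz)), ?_⟩
    rw [Complex.normSq_eq_norm_sq]
    refine le_trans ?_ (hε1' ‖z‖ (norm_nonneg _) hz)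
    exact mul_le_mul_of_nonneg_left
      (pow_le_pow_left₀ (norm_nonneg _) (hτn z) 2) hpi.le
  · intro z w hz hw h1 h2
    obtain ⟨m, hm⟩ := h2
    rw [hre, hre] at h1
    rw [him, him] at hm
    have h3 : Complex.normSq (τ z) = Complex.normSq (τ w) := mul_left_cancel₀ hpi.ne' h1
    rw [Complex.normSq_eq_norm_sq, Complex.normSq_eq_norm_sq] at h3
    have h4 : ‖τ z‖ = ‖τ w‖ := (sq_eq_sq₀ (norm_nonneg _) (norm_nonneg _)).1 h3
    rw [← hf z hz, ← hf w hw, Complex.norm_exp, Complex.norm_exp] at h4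
    have h5 : (f z).re = (f w).re := Real.exp_injective h4
    have h6 : f z = f w + m * (2 * Real.pi * Complex.I) := by
      apply Complex.ext
      · simp [h5]
      · simp
        have h7 : (f z).im - (f w).im = m * (2 * Real.pi) := by
          field_simp at hm
          linarith
        linarith
    refine hτ.inj ?_
    rw [← hf z hz, ← hf w hw]
    exact Complex.exp_eq_exp_iff_exists_int.2 ⟨m, h6⟩

end Vale.Agent.P209.Strong
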