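import Vale.Agent.P209.Strong.A9

namespace Vale.Agent.P209.Strong

open Vale.Agent.P209
open scoped ContDiff

/-- duality between the action part and the angle part -/
theorem a10_dual {n : ℕ} (L : (Fin n → ℝ) ≃ₗ[ℝ] (Fin n → ℝ)) (a b : Fin n → ℝ) :
    ∑ j, L a j * ∑ k, L.symm (Pi.single j 1) k * b k = ∑ k, a k * b k := by
  have h1 : ∀ k, ∑ j, L a j * L.symm (Pi.single j 1) k = a k := by
    intro k
    have h2 : L.symm (∑ j, L a j • (Pi.single j (1 : ℝ) : Fin n → ℝ)) = a := by
      have h3 : ∑ j, L a j • (Pi.single j (1 : ℝ) : Fin n → ℝ) = L a := by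
        rw [← pi_eq_sum_univ' (L a)]
      rw [h3, L.symm_apply_apply]
    rw [map_sum] at h2
    have h4 := congrFun h2 k
    rw [Finset.sum_apply] at h4
    rw [← h4]
    refine Finset.sum_congr rfl fun j _ => ?_
    rw [map_smul, Pi.smul_apply, smul_eq_mul]
  calc ∑ j, L a j * ∑ k, L.symm (Pi.single j 1) k * b k
      = ∑ k, (∑ j, L a j * L.symm (Pi.single j 1) k) * b k := by
        simp_rw [Finset.mul_sum, Finset.sum_mul]
        rw [Finset.sum_comm]
        exact Finset.sum_congr rfl fun _ _ => Finset.sum_congr rfl fun _ _ => by ring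
    _ = ∑ k, a k * b k := by simp_rw [h1]

/-- the linear part of the transformation of the toric target -/
noncomputable def a10Lin {n : ℕ} (L : (Fin n → ℝ) ≃ₗ[ℝ] (Fin n → ℝ)) :
    (Fin n → ℂ) →ₗ[ℝ] (Fin n → ℂ) where
  toFun w j := ⟨L (act w) j, ∑ k, L.symm (Pi.single j 1) k * (w k).im⟩
  map_add' w w' := by
    have h : act (w + w') = act w + act w' := by
      funext j; simp [act]
    funext j
    apply Complex.ext
    · simp [h]
    · simp [mul_add, Finset.sum_add_distrib]
  map_smul' c w := by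
    have h : act (c • w) = c • act w := by
      funext j; simp [act]
    funext j
    apply Complex.ext
    · simp [h]
    · simp only [Pi.smul_apply, Complex.real_smul, RingHom.id_apply, Complex.mul_im,
        Complex.ofReal_re, Complex.ofReal_im, zero_mul, add_zero, Finset.mul_sum]
      exact Finset.sum_congr rfl fun _ _ => by ring

theorem a10Lin_re {n : ℕ} (L : (Fin n → ℝ) ≃ₗ[ℝ] (Fin n → ℝ)) (w : Fin n → ℂ) (j : Fin n) :
    (a10Lin L w j).re = L (act w) j := rfl

theorem a10Lin_im {n : ℕ} (L : (Fin n → ℝ) ≃ₗ[ℝ] (Fin n → ℝ)) (w : Fin n → ℂ) (j : Fin n) :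
    (a10Lin L w j).im = ∑ k, L.symm (Pi.single j 1) k * (w k).im := rfl

theorem a10_omega {n : ℕ} (L : (Fin n → ℝ) ≃ₗ[ℝ] (Fin n → ℝ)) (p q : Fin n → ℂ) :
    omega (a10Lin L p) (a10Lin L q) = omega p q := by
  unfold omega
  simp only [a10Lin_re, a10Lin_im]
  rw [Finset.sum_sub_distrib, Finset.sum_sub_distrib]
  have h1 := a10_dual L (act p) (fun k => (q k).im)
  have h2 := a10_dual L (act q) (fun k => (p k).im)
  rw [h1]
  have h3 : ∑ j, (∑ k, L.symm (Pi.single j 1) k * (p k).im) * L (act q) j =
      ∑ j, L (act q) j * ∑ k, L.symm (Pi.single j 1) k * (p k).im :=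
    Finset.sum_congr rfl fun _ _ => mul_comm _ _
  rw [h3, h2]
  simp only [act]
  congr 1
  exact Finset.sum_congr rfl fun _ _ => mul_comm _ _

/-- A9d. Invariance under integral unimodular affine maps: `L` and its inverse have integer
matrices. (The angles are transformed by the inverse transpose.) -/
theorem TPk.image {n : ℕ} {ι : Type} {Ω : Set (Fin n → ℝ)} {r : ι → ℝ} (h : TPk Ω r)
    (L : (Fin n → ℝ) ≃ₗ[ℝ] (Fin n → ℝ))
    (hL : ∀ i j, ∃ m : ℤ, L (Pi.single i 1) j = m)
    (hL' : ∀ i j, ∃ m : ℤ, L.symm (Pi.single i 1) j = m) (v : Fin n → ℝ) :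
    TPk ((fun a => L a + v) '' Ω) r := by
  have _ := hL'
  obtain ⟨f, hf, hd⟩ := h
  let Φ : (Fin n → ℂ) →L[ℝ] (Fin n → ℂ) := LinearMap.toContinuousLinearMap (a10Lin L)
  have hΦ : ∀ w, Φ w = a10Lin L w := fun w => rfl
  let vc : Fin n → ℂ := fun j => (v j : ℂ)
  have hact : ∀ w, act (Φ w + vc) = L (act w) + v := by
    intro w
    funext j
    change (Φ w j + (v j : ℂ)).re = L (act w) j + v j
    rw [Complex.add_re, Complex.ofReal_re, hΦ, a10Lin_re]
  refine ⟨fun i z => Φ (f i z) + vc, fun i => ?_, ?_⟩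
  · obtain ⟨U, hU, hB, hs, hom, hact', hinj⟩ := hf i
    refine ⟨U, hU, hB, ?_, ?_, ?_, ?_⟩
    · exact (Φ.contDiff.comp_contDiffOn hs).add contDiffOn_const
    · intro z hz p q
      have hdf : DifferentiableAt ℝ (f i) z :=
        ((hs z hz).contDiffAt (hU.mem_nhds hz)).differentiableAt (by simp)
      have h1 : fderiv ℝ (fun z => Φ (f i z) + vc) z = Φ.comp (fderiv ℝ (f i) z) :=
        ((Φ.hasFDerivAt.comp z hdf.hasFDerivAt).add_const vc).fderiv
      rw [h1, ContinuousLinearMap.comp_apply, ContinuousLinearMap.comp_apply, hΦ, hΦ, a10_omega]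
      exact hom z hz p q
    · intro z hz
      rw [hact]
      exact ⟨_, hact' z hz, rfl⟩
    · intro z hz w hw hsame
      refine hinj z hz w hw fun k => ?_
      have hre : act (f i z) = act (f i w) := by
        have h1 : L (act (f i z)) + v = L (act (f i w)) + v := by
          rw [← hact, ← hact]
          funext j
          exact (hsame j).1
        exact L.injective (add_right_cancel h1)
      refine ⟨congrFun hre k, ?_⟩
      have him : ∀ j, ∃ m : ℤ,
          ∑ l, L.symm (Pi.single j 1) l * ((f i z l).im - (f i w l).im) = m := by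
        intro j
        obtain ⟨m, hm⟩ := (hsame j).2
        refine ⟨m, ?_⟩
        rw [← hm]
        change _ = (Φ (f i z) j + (v j : ℂ)).im - (Φ (f i w) j + (v j : ℂ)).im
        rw [Complex.add_im, Complex.add_im, Complex.ofReal_im, hΦ, hΦ, a10Lin_im, a10Lin_im,
          add_zero, add_zero, ← Finset.sum_sub_distrib]
        exact Finset.sum_congr rfl fun _ _ => by ring
      choose M hM using him
      choose A hA using hL
      refine ⟨∑ j, A k j * M j, ?_⟩
      have h2 := a10_dual L (Pi.single k 1) (fun l => (f i z l).im - (f i w l).im)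
      simp only [hM, hA] at h2
      push_cast
      rw [h2]
      simp [Pi.single_apply]
  · intro i j hij z hz w hw he
    rw [hact, hact] at he
    exact hd i j hij z hz w hw (L.injective (add_right_cancel he))

end Vale.Agent.P209.Strong
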