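import Vale.Agent.P209.Strong.Base
import Vale.Agent.P209.Twist

set_option linter.all false

open scoped ContDiff

namespace Vale.Agent.P209.Strong

open Vale.Agent.P209 Complex

/-- `∑_{k > j} π |P k|²` -/
noncomputable def tailSum {n : ℕ} (j : Fin n) (P : Fin n → ℂ) : ℝ :=
  ∑ k, if j < k then Real.pi * ‖P k‖ ^ 2 else 0

/-- One step of the construction: slot `j` is converted to action-angle coordinates by the plane
chart `ζ`, and sheared by `W`. The slots `i < j` are already in action-angle coordinates. -/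
noncomputable def stepMap {n : ℕ} (j : Fin n) (ζ : ℂ → ℂ) (W : (Fin n → ℝ) × ℝ → ℝ)
    (P : Fin n → ℂ) : Fin n → ℂ := fun i =>
  if i < j then
    P i - I * (((ζ (P j)).im * fderiv ℝ W (act P, tailSum j P) (Pi.single i 1, 0) : ℝ) : ℂ)
  else if i = j then
    ζ (P j) + ((W (act P, tailSum j P) : ℝ) : ℂ)
  else
    exp ((((-2 * Real.pi) * ((ζ (P j)).im * fderiv ℝ W (act P, tailSum j P) (0, 1)) : ℝ) : ℂ) * I)
      * P i

theorem A2_act_contDiff {n : ℕ} : ContDiff ℝ ∞ (act : (Fin n → ℂ) → (Fin n → ℝ)) := by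
  refine contDiff_pi.2 fun i => ?_
  exact Complex.reCLM.contDiff.comp (contDiff_apply ℝ ℂ i)

theorem A2_tailSum_contDiff {n : ℕ} (j : Fin n) : ContDiff ℝ ∞ (tailSum j) := by
  refine ContDiff.sum fun k _ => ?_
  by_cases h : j < k
  · simp only [h, if_true]
    exact contDiff_const.mul ((contDiff_norm_sq ℝ).comp (contDiff_apply ℝ ℂ k))
  · simp only [h, if_false]
    exact contDiff_const

/-- A2. The step map is smooth where `ζ` is. -/
theorem stepMap_contDiffOn {n : ℕ} (j : Fin n) {ζ : ℂ → ℂ} {r' : ℝ}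
    (hζ : ContDiffOn ℝ ∞ ζ {z | ‖z‖ < r'}) {W : (Fin n → ℝ) × ℝ → ℝ} (hW : ContDiff ℝ ∞ W) :
    ContDiffOn ℝ ∞ (stepMap j ζ W) {P | ‖P j‖ < r'} := by
  have hq : ContDiff ℝ ∞ (fun P : Fin n → ℂ => (act P, tailSum j P)) :=
    A2_act_contDiff.prodMk (A2_tailSum_contDiff j)
  have hWq : ContDiff ℝ ∞ (fun P : Fin n → ℂ => W (act P, tailSum j P)) := hW.comp hq
  have hD : ContDiff ℝ ∞ (fderiv ℝ W) := hW.fderiv_right (by simp)
  have hDv : ∀ v : (Fin n → ℝ) × ℝ,
      ContDiff ℝ ∞ (fun P : Fin n → ℂ => fderiv ℝ W (act P, tailSum j P) v) := by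
    intro v
    exact (hD.comp hq).clm_apply contDiff_const
  have hζ' : ContDiffOn ℝ ∞ (fun P : Fin n → ℂ => ζ (P j)) {P | ‖P j‖ < r'} :=
    hζ.comp (contDiff_apply ℝ ℂ j).contDiffOn (fun P hP => hP)
  have hζim : ContDiffOn ℝ ∞ (fun P : Fin n → ℂ => (ζ (P j)).im) {P | ‖P j‖ < r'} :=
    Complex.imCLM.contDiff.comp_contDiffOn hζ'
  have hof : ∀ {f : (Fin n → ℂ) → ℝ} {s : Set (Fin n → ℂ)}, ContDiffOn ℝ ∞ f s →
      ContDiffOn ℝ ∞ (fun P => ((f P : ℝ) : ℂ)) s := by
    intro f s hf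
    exact Complex.ofRealCLM.contDiff.comp_contDiffOn hf
  refine contDiffOn_pi.2 fun i => ?_
  have hPi : ContDiffOn ℝ ∞ (fun P : Fin n → ℂ => P i) {P | ‖P j‖ < r'} :=
    (contDiff_apply ℝ ℂ i).contDiffOn
  by_cases h1 : i < j
  · simp only [stepMap, h1, if_true]
    exact hPi.sub (contDiffOn_const.mul (hof (hζim.mul (hDv _).contDiffOn)))
  · by_cases h2 : i = j
    · simp only [stepMap, h1, if_false, h2, if_true]
      subst h2
      simp only [lt_irrefl, if_false]
      exact hζ'.add (hof hWq.contDiffOn)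
    · simp only [stepMap, h1, if_false, h2]
      exact (((hof (contDiffOn_const.mul (hζim.mul (hDv _).contDiffOn))).mul
        contDiffOn_const).cexp).mul hPi

end Vale.Agent.P209.Strong
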