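import Vale.Agent.P209.Strong.A2

set_option linter.all false

open scoped ContDiff

namespace Vale.Agent.P209.Strong

open Vale.Agent.P209 Complex

/-! ### Dependence of `W` -/

theorem A3_d1 {n : ℕ} {j : Fin n} {W : (Fin n → ℝ) × ℝ → ℝ} (hW : ContDiff ℝ ∞ W)
    (hdep : ∀ y y' x, (∀ i, i < j → y i = y' i) → W (y, x) = W (y', x))
    {i : Fin n} (hi : ¬ i < j) (p : (Fin n → ℝ) × ℝ) :
    fderiv ℝ W p (Pi.single i 1, 0) = 0 := by
  have h1 : HasFDerivAt W (fderiv ℝ W p) (p + (0 : ℝ) • ((Pi.single i 1, 0) : (Fin n → ℝ) × ℝ)) := by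
    rw [zero_smul, add_zero]
    exact (hW.differentiable (by simp) p).hasFDerivAt
  have h2 : HasDerivAt (fun t : ℝ => p + t • ((Pi.single i 1, 0) : (Fin n → ℝ) × ℝ))
      ((Pi.single i 1, 0) : (Fin n → ℝ) × ℝ) 0 := by
    simpa using ((hasDerivAt_id (0 : ℝ)).smul_const ((Pi.single i 1, 0) : (Fin n → ℝ) × ℝ)).const_add p
  have h3 := h1.comp_hasDerivAt (0 : ℝ) h2
  have h4 : (W ∘ fun t : ℝ => p + t • ((Pi.single i 1, 0) : (Fin n → ℝ) × ℝ)) = fun _ => W p := by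
    funext t
    show W (p.1 + t • Pi.single i 1, p.2 + t • 0) = W (p.1, p.2)
    rw [smul_zero, add_zero]
    refine hdep _ _ _ fun k hk => ?_
    have hne : k ≠ i := fun h => hi (h ▸ hk)
    simp [Pi.single_eq_of_ne hne]
  rw [h4] at h3
  exact h3.unique (hasDerivAt_const _ _)

theorem A3_d2 {n : ℕ} {j : Fin n} {W : (Fin n → ℝ) × ℝ → ℝ} (hW : ContDiff ℝ ∞ W)
    (hdep : ∀ y y' x, (∀ i, i < j → y i = y' i) → W (y, x) = W (y', x))
    {i : Fin n} (hi : ¬ i < j) (p w : (Fin n → ℝ) × ℝ) :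
    fderiv ℝ (fderiv ℝ W) p w (Pi.single i 1, 0) = 0 := by
  have hs : ContDiff ℝ ∞ (fderiv ℝ W) := hW.fderiv_right (by simp)
  have h1 : HasFDerivAt (fderiv ℝ W) (fderiv ℝ (fderiv ℝ W) p) p :=
    (hs.differentiable (by simp) p).hasFDerivAt
  have h2 := h1.clm_apply (hasFDerivAt_const ((Pi.single i 1, 0) : (Fin n → ℝ) × ℝ) p)
  have h3 : (fun q => fderiv ℝ W q ((Pi.single i 1, 0) : (Fin n → ℝ) × ℝ)) = fun _ => (0 : ℝ) := by
    funext q
    exact A3_d1 hW hdep hi q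
  rw [h3] at h2
  have h4 := h2.unique (hasFDerivAt_const (0 : ℝ) p)
  have h5 := congrArg (fun T : ((Fin n → ℝ) × ℝ) →L[ℝ] ℝ => T w) h4
  simpa using h5

theorem A3_lin {n : ℕ} {j : Fin n} (T : ((Fin n → ℝ) × ℝ) →L[ℝ] ℝ)
    (hT : ∀ i, ¬ i < j → T (Pi.single i 1, 0) = 0) (z : (Fin n → ℝ) × ℝ) :
    T z = ∑ i, (if i < j then z.1 i * T (Pi.single i 1, 0) else 0) + z.2 * T (0, 1) := by
  have h1 : z = ∑ i, z.1 i • ((Pi.single i 1, 0) : (Fin n → ℝ) × ℝ) + z.2 • ((0, 1) : (Fin n → ℝ) × ℝ) := by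
    ext k
    · simp [Prod.fst_sum, Finset.sum_apply, Pi.single_apply]
    · simp [Prod.snd_sum]
  conv_lhs => rw [h1]
  rw [map_add, map_sum, map_smul, smul_eq_mul]
  congr 1
  refine Finset.sum_congr rfl fun i _ => ?_
  rw [map_smul, smul_eq_mul]
  split_ifs with h
  · rfl
  · rw [hT i h, mul_zero]

/-! ### The derivative of `(act, tailSum)` -/

/-- the derivative of `tailSum j` -/
noncomputable def A3_X {n : ℕ} (j : Fin n) (P : Fin n → ℂ) : (Fin n → ℂ) →L[ℝ] ℝ :=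
  ∑ k, if j < k then (2 * Real.pi) • ((P k).re • (Complex.reCLM.comp (ContinuousLinearMap.proj k)) +
    (P k).im • (Complex.imCLM.comp (ContinuousLinearMap.proj k))) else 0

theorem A3_X_apply {n : ℕ} (j : Fin n) (P u : Fin n → ℂ) :
    A3_X j P u = ∑ k, if j < k then 2 * Real.pi * ((P k).re * (u k).re + (P k).im * (u k).im)
      else 0 := by
  unfold A3_X
  rw [ContinuousLinearMap.sum_apply]
  refine Finset.sum_congr rfl fun k _ => ?_
  split_ifs with h
  · simp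
    ring
  · simp

/-- the derivative of `act` -/
noncomputable def A3_A (n : ℕ) : (Fin n → ℂ) →L[ℝ] (Fin n → ℝ) :=
  ContinuousLinearMap.pi fun k => Complex.reCLM.comp (ContinuousLinearMap.proj k)

theorem A3_A_apply {n : ℕ} (u : Fin n → ℂ) (k : Fin n) : A3_A n u k = (u k).re := rfl

theorem A3_act {n : ℕ} (P : Fin n → ℂ) : HasFDerivAt act (A3_A n) P := by
  have : (act : (Fin n → ℂ) → _) = fun P => A3_A n P := rfl
  rw [this]
  exact (A3_A n).hasFDerivAt

theorem A3_tail {n : ℕ} (j : Fin n) (P : Fin n → ℂ) : HasFDerivAt (tailSum j) (A3_X j P) P := by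
  unfold tailSum A3_X
  refine HasFDerivAt.fun_sum fun k _ => ?_
  split_ifs with h
  · have h1 : HasFDerivAt (fun P : Fin n → ℂ => P k)
        (ContinuousLinearMap.proj k : (Fin n → ℂ) →L[ℝ] ℂ) P :=
      (ContinuousLinearMap.proj k : (Fin n → ℂ) →L[ℝ] ℂ).hasFDerivAt
    have h2 := (normSq_hasFDerivAt (P k)).comp P h1
    have h3 : HasFDerivAt (fun P : Fin n → ℂ => Real.pi * normSq (P k)) _ P := h2.const_mul Real.pi
    have h4 : (fun P : Fin n → ℂ => Real.pi * ‖P k‖ ^ 2) = fun P => Real.pi * normSq (P k) := by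
      funext P
      rw [Complex.normSq_eq_norm_sq]
    rw [h4]
    refine h3.congr_fderiv ?_
    ext u
    simp
    ring
  · exact hasFDerivAt_const _ _

theorem A3_q {n : ℕ} (j : Fin n) (P : Fin n → ℂ) :
    HasFDerivAt (fun P => (act P, tailSum j P)) ((A3_A n).prod (A3_X j P)) P :=
  (A3_act P).prodMk (A3_tail j P)

/-! ### Algebra in one slot -/

theorem A3_slot1 (u v : ℂ) (b b' : ℝ) :
    om1 (u - I * (b : ℂ)) (v - I * (b' : ℂ)) = om1 u v - u.re * b' + v.re * b := by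
  unfold om1
  simp
  ring

theorem A3_slot2 (u v : ℂ) (a a' : ℝ) :
    om1 (u + (a : ℂ)) (v + (a' : ℂ)) = om1 u v + a * v.im - a' * u.im := by
  unfold om1
  simp
  ring

theorem A3_slot3 (θ t t' : ℝ) (u v p : ℂ) :
    om1 (exp ((θ : ℂ) * I) * (u + (t : ℂ) * (I * p))) (exp ((θ : ℂ) * I) * (v + (t' : ℂ) * (I * p))) =
      om1 u v + t' * (p.re * u.re + p.im * u.im) - t * (p.re * v.re + p.im * v.im) := by
  rw [om1_rot, Complex.normSq_eq_norm_sq, Complex.norm_exp_ofReal_mul_I]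
  unfold om1
  simp
  ring

/-! ### The derivative of the step map -/

section Deriv

variable {n : ℕ} (j : Fin n) {ζ : ℂ → ℂ} {W : (Fin n → ℝ) × ℝ → ℝ} (P : Fin n → ℂ)

/-- the value of the derivative of `(ζ (P j)).im * fderiv ℝ W (q P) e` -/
noncomputable def A3_b (ζ : ℂ → ℂ) (W : (Fin n → ℝ) × ℝ → ℝ) (e : (Fin n → ℝ) × ℝ)
    (u : Fin n → ℂ) : ℝ :=
  (ζ (P j)).im * fderiv ℝ (fderiv ℝ W) (act P, tailSum j P) (A3_A n u, A3_X j P u) e +
    (fderiv ℝ ζ (P j) (u j)).im * fderiv ℝ W (act P, tailSum j P) e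

theorem A3_hb (hζ : DifferentiableAt ℝ ζ (P j)) (hW : ContDiff ℝ ∞ W) (e : (Fin n → ℝ) × ℝ) :
    ∃ B : (Fin n → ℂ) →L[ℝ] ℝ, HasFDerivAt
      (fun P : Fin n → ℂ => (ζ (P j)).im * fderiv ℝ W (act P, tailSum j P) e) B P ∧
      ∀ u, B u = A3_b j P ζ W e u := by
  have hs : ContDiff ℝ ∞ (fderiv ℝ W) := hW.fderiv_right (by simp)
  have h0 : HasFDerivAt (fun P : Fin n → ℂ => P j)
      (ContinuousLinearMap.proj j : (Fin n → ℂ) →L[ℝ] ℂ) P :=
    (ContinuousLinearMap.proj j : (Fin n → ℂ) →L[ℝ] ℂ).hasFDerivAt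
  have h1 : HasFDerivAt (fun P : Fin n → ℂ => ζ (P j)) _ P := hζ.hasFDerivAt.comp P h0
  have h2 : HasFDerivAt (fun P : Fin n → ℂ => (ζ (P j)).im) _ P :=
    Complex.imCLM.hasFDerivAt.comp P h1
  have h3 : HasFDerivAt (fun P : Fin n → ℂ => fderiv ℝ W (act P, tailSum j P)) _ P :=
    (hs.differentiable (by simp) _).hasFDerivAt.comp P (A3_q j P)
  have h4 : HasFDerivAt (fun P : Fin n → ℂ => fderiv ℝ W (act P, tailSum j P) e) _ P :=
    h3.clm_apply (hasFDerivAt_const e P)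
  have h5 := h2.mul h4
  refine ⟨_, h5, fun u => ?_⟩
  unfold A3_b
  simp
  ring

/-- the value of the derivative of the step map -/
noncomputable def A3_D (ζ : ℂ → ℂ) (W : (Fin n → ℝ) × ℝ → ℝ) (u : Fin n → ℂ) : Fin n → ℂ :=
  fun i =>
  if i < j then u i - I * ((A3_b j P ζ W (Pi.single i 1, 0) u : ℝ) : ℂ)
  else if i = j then fderiv ℝ ζ (P j) (u j) +
    ((fderiv ℝ W (act P, tailSum j P) (A3_A n u, A3_X j P u) : ℝ) : ℂ)
  else exp ((((-2 * Real.pi) * ((ζ (P j)).im * fderiv ℝ W (act P, tailSum j P) (0, 1)) : ℝ) : ℂ) * I)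
      * (u i + (((-2 * Real.pi) * A3_b j P ζ W (0, 1) u : ℝ) : ℂ) * (I * P i))

theorem A3_slot (hζ : DifferentiableAt ℝ ζ (P j)) (hW : ContDiff ℝ ∞ W) (i : Fin n) :
    ∃ B : (Fin n → ℂ) →L[ℝ] ℂ, HasFDerivAt (fun P => stepMap j ζ W P i) B P ∧
      ∀ u, B u = A3_D j P ζ W u i := by
  have hpr : ∀ k, HasFDerivAt (fun P : Fin n → ℂ => P k)
      (ContinuousLinearMap.proj k : (Fin n → ℂ) →L[ℝ] ℂ) P := fun k =>
    (ContinuousLinearMap.proj k : (Fin n → ℂ) →L[ℝ] ℂ).hasFDerivAt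
  unfold stepMap A3_D
  split_ifs with h1 h2
  · obtain ⟨B, hB, hBu⟩ := A3_hb j P hζ hW (Pi.single i 1, 0)
    have h3 : HasFDerivAt (fun P : Fin n → ℂ => (((ζ (P j)).im *
        fderiv ℝ W (act P, tailSum j P) (Pi.single i 1, 0) : ℝ) : ℂ)) (Complex.ofRealCLM.comp B) P :=
      Complex.ofRealCLM.hasFDerivAt.comp P hB
    have h4 := (hpr i).sub (h3.const_mul I)
    refine ⟨_, h4, fun u => ?_⟩
    rw [← hBu u]
    simp
  · have h3 : HasFDerivAt (fun P : Fin n → ℂ => ζ (P j)) _ P := hζ.hasFDerivAt.comp P (hpr j)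
    have h4 : HasFDerivAt (fun P : Fin n → ℂ => W (act P, tailSum j P)) _ P :=
      (hW.differentiable (by simp) _).hasFDerivAt.comp P (A3_q j P)
    have h5 : HasFDerivAt (fun P : Fin n → ℂ => ((W (act P, tailSum j P) : ℝ) : ℂ)) _ P :=
      Complex.ofRealCLM.hasFDerivAt.comp P h4
    refine ⟨_, h3.add h5, fun u => ?_⟩
    simp
  · obtain ⟨B, hB, hBu⟩ := A3_hb j P hζ hW (0, 1)
    have h3 : HasFDerivAt (fun P : Fin n → ℂ => (((-2 * Real.pi) * ((ζ (P j)).im *
        fderiv ℝ W (act P, tailSum j P) (0, 1)) : ℝ) : ℂ)) _ P :=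
      Complex.ofRealCLM.hasFDerivAt.comp P (hB.const_mul (-2 * Real.pi))
    have h4 := (h3.mul_const I).cexp.mul (hpr i)
    refine ⟨_, h4, fun u => ?_⟩
    rw [← hBu u]
    simp
    ring

theorem A3_fderiv (hζ : DifferentiableAt ℝ ζ (P j)) (hW : ContDiff ℝ ∞ W) (u : Fin n → ℂ) :
    fderiv ℝ (stepMap j ζ W) P u = A3_D j P ζ W u := by
  choose B hB hBu using A3_slot j P hζ hW
  have h1 : HasFDerivAt (stepMap j ζ W) (ContinuousLinearMap.pi B) P := hasFDerivAt_pi.2 hB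
  rw [h1.fderiv]
  funext i
  exact hBu i u

end Deriv

/-- A3. The step map is symplectic: here `W` only depends on the actions of the slots `i < j`. -/
theorem stepMap_sympl {n : ℕ} (j : Fin n) {ζ : ℂ → ℂ} {r' : ℝ}
    (hζ : ContDiffOn ℝ ∞ ζ {z | ‖z‖ < r'})
    (hs : ∀ z, ‖z‖ < r' → ∀ v w, om1 (fderiv ℝ ζ z v) (fderiv ℝ ζ z w) = om1 v w)
    {W : (Fin n → ℝ) × ℝ → ℝ} (hW : ContDiff ℝ ∞ W)
    (hdep : ∀ y y' x, (∀ i, i < j → y i = y' i) → W (y, x) = W (y', x))
    (P : Fin n → ℂ) (hP : ‖P j‖ < r') (u v : Fin n → ℂ) :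
    omega (fderiv ℝ (stepMap j ζ W) P u) (fderiv ℝ (stepMap j ζ W) P v) = omega u v := by
  have hd : DifferentiableAt ℝ ζ (P j) := by
    have ho : IsOpen {z : ℂ | ‖z‖ < r'} := isOpen_lt continuous_norm continuous_const
    exact (hζ.differentiableOn (by simp)).differentiableAt (ho.mem_nhds hP)
  rw [A3_fderiv j P hd hW, A3_fderiv j P hd hW]
  set q : (Fin n → ℝ) × ℝ := (act P, tailSum j P) with hq
  set qu : (Fin n → ℝ) × ℝ := (A3_A n u, A3_X j P u) with hqu
  set qv : (Fin n → ℝ) × ℝ := (A3_A n v, A3_X j P v) with hqv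
  set G := fderiv ℝ W q with hG
  set H := fderiv ℝ (fderiv ℝ W) q with hH
  set y : ℝ := (ζ (P j)).im with hy
  set au : ℝ := (fderiv ℝ ζ (P j) (u j)).im with hau
  set av : ℝ := (fderiv ℝ ζ (P j) (v j)).im with hav
  have hbu : ∀ e, A3_b j P ζ W e u = y * H qu e + au * G e := fun e => rfl
  have hbv : ∀ e, A3_b j P ζ W e v = y * H qv e + av * G e := fun e => rfl
  -- symmetry of the second derivative
  have hsymm : H qu qv = H qv qu := by
    have h1 : ContDiffAt ℝ ∞ W q := hW.contDiffAt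
    have h2 := h1.isSymmSndFDerivAt (by
      rw [minSmoothness_of_isRCLikeNormedField]
      exact WithTop.coe_le_coe.2 (le_top (a := (2 : ℕ∞))))
    exact h2 qu qv
  -- expansions
  have eG : ∀ z : (Fin n → ℝ) × ℝ, G z =
      ∑ i, (if i < j then z.1 i * G (Pi.single i 1, 0) else 0) + z.2 * G (0, 1) :=
    A3_lin G fun i hi => A3_d1 hW hdep hi q
  have eH : ∀ w z : (Fin n → ℝ) × ℝ, H w z =
      ∑ i, (if i < j then z.1 i * H w (Pi.single i 1, 0) else 0) + z.2 * H w (0, 1) := fun w =>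
    A3_lin (H w) fun i hi => A3_d2 hW hdep hi q w
  -- slots
  have key : ∀ i, om1 (A3_D j P ζ W u i) (A3_D j P ζ W v i) = om1 (u i) (v i) -
      (if i < j then (u i).re * (y * H qv (Pi.single i 1, 0) + av * G (Pi.single i 1, 0)) else 0) +
      (if i < j then (v i).re * (y * H qu (Pi.single i 1, 0) + au * G (Pi.single i 1, 0)) else 0) +
      (if i = j then G qu * av - G qv * au else 0) -
      (if j < i then 2 * Real.pi * ((P i).re * (u i).re + (P i).im * (u i).im) else 0) *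
        (y * H qv (0, 1) + av * G (0, 1)) +
      (if j < i then 2 * Real.pi * ((P i).re * (v i).re + (P i).im * (v i).im) else 0) *
        (y * H qu (0, 1) + au * G (0, 1)) := by
    intro i
    unfold A3_D
    rcases lt_trichotomy i j with h | h | h
    · have h2 : i ≠ j := h.ne
      have h3 : ¬ j < i := not_lt.2 h.le
      simp only [if_pos h, if_neg h2, if_neg h3]
      rw [A3_slot1, hbu, hbv]
      ring
    · subst h
      simp only [lt_irrefl, if_false, if_true]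
      rw [A3_slot2, hs (P i) hP]
      ring
    · have h2 : i ≠ j := h.ne'
      have h3 : ¬ i < j := not_lt.2 h.le
      simp only [if_pos h, if_neg h2, if_neg h3]
      rw [A3_slot3, hbu, hbv]
      ring
  have h1 : omega (A3_D j P ζ W u) (A3_D j P ζ W v) =
      ∑ i, om1 (A3_D j P ζ W u i) (A3_D j P ζ W v i) := rfl
  have h2 : omega u v = ∑ i, om1 (u i) (v i) := rfl
  rw [h1, h2]
  simp only [key, Finset.sum_add_distrib, Finset.sum_sub_distrib, ← Finset.sum_mul,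
    ← A3_X_apply, Finset.sum_ite_eq', Finset.mem_univ, if_true]
  -- the sums
  have s1 : ∑ i, (if i < j then (u i).re * (y * H qv (Pi.single i 1, 0) +
      av * G (Pi.single i 1, 0)) else 0) =
      y * (H qv qu - qu.2 * H qv (0, 1)) + av * (G qu - qu.2 * G (0, 1)) := by
    rw [eH qv qu, eG qu]
    simp only [add_sub_cancel_right, Finset.mul_sum, ← Finset.sum_add_distrib]
    refine Finset.sum_congr rfl fun i _ => ?_
    split_ifs with h
    · show (u i).re * _ = y * ((u i).re * _) + av * ((u i).re * _)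
      ring
    · simp
  have s2 : ∑ i, (if i < j then (v i).re * (y * H qu (Pi.single i 1, 0) +
      au * G (Pi.single i 1, 0)) else 0) =
      y * (H qu qv - qv.2 * H qu (0, 1)) + au * (G qv - qv.2 * G (0, 1)) := by
    rw [eH qu qv, eG qv]
    simp only [add_sub_cancel_right, Finset.mul_sum, ← Finset.sum_add_distrib]
    refine Finset.sum_congr rfl fun i _ => ?_
    split_ifs with h
    · show (v i).re * _ = y * ((v i).re * _) + au * ((v i).re * _)
      ring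
    · simp
  rw [s1, s2, hsymm]
  have e1 : qu.2 = A3_X j P u := rfl
  have e2 : qv.2 = A3_X j P v := rfl
  rw [e1, e2]
  ring

end Vale.Agent.P209.Strong
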