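import Vale.Agent.P209.Strong.A1
import Vale.Agent.P209.Strong.A3

open scoped ContDiff

namespace Vale.Agent.P209.Strong

open Vale.Agent.P209 Complex

theorem stepMap_lt {n : ℕ} (j : Fin n) (ζ : ℂ → ℂ) (W : (Fin n → ℝ) × ℝ → ℝ)
    (P : Fin n → ℂ) (i : Fin n) (h : i < j) : stepMap j ζ W P i =
      P i - I * (((ζ (P j)).im * fderiv ℝ W (act P, tailSum j P) (Pi.single i 1, 0) : ℝ) : ℂ) := by
  rw [stepMap, if_pos h]

theorem stepMap_self {n : ℕ} (j : Fin n) (ζ : ℂ → ℂ) (W : (Fin n → ℝ) × ℝ → ℝ)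
    (P : Fin n → ℂ) : stepMap j ζ W P j = ζ (P j) + ((W (act P, tailSum j P) : ℝ) : ℂ) := by
  rw [stepMap, if_neg (lt_irrefl j), if_pos rfl]

theorem stepMap_gt {n : ℕ} (j : Fin n) (ζ : ℂ → ℂ) (W : (Fin n → ℝ) × ℝ → ℝ)
    (P : Fin n → ℂ) (i : Fin n) (h : j < i) : stepMap j ζ W P i =
      exp ((((-2 * Real.pi) * ((ζ (P j)).im * fderiv ℝ W (act P, tailSum j P) (0, 1)) : ℝ) : ℂ) * I)
      * P i := by
  rw [stepMap, if_neg (not_lt.2 h.le), if_neg h.ne']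

theorem stepMap_re_lt {n : ℕ} (j : Fin n) (ζ : ℂ → ℂ) (W : (Fin n → ℝ) × ℝ → ℝ)
    (P : Fin n → ℂ) (i : Fin n) (h : i < j) : (stepMap j ζ W P i).re = (P i).re := by
  rw [stepMap_lt j ζ W P i h]
  simp

theorem stepMap_im_lt {n : ℕ} (j : Fin n) (ζ : ℂ → ℂ) (W : (Fin n → ℝ) × ℝ → ℝ)
    (P : Fin n → ℂ) (i : Fin n) (h : i < j) : (stepMap j ζ W P i).im =
      (P i).im - (ζ (P j)).im * fderiv ℝ W (act P, tailSum j P) (Pi.single i 1, 0) := by
  rw [stepMap_lt j ζ W P i h]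
  simp only [sub_im, I_mul_im, ofReal_re]

theorem stepMap_norm_gt {n : ℕ} (j : Fin n) (ζ : ℂ → ℂ) (W : (Fin n → ℝ) × ℝ → ℝ)
    (P : Fin n → ℂ) (i : Fin n) (h : j < i) : ‖stepMap j ζ W P i‖ = ‖P i‖ := by
  rw [stepMap_gt j ζ W P i h, norm_mul, norm_exp_ofReal_mul_I, one_mul]

theorem tailSum_congr {n : ℕ} (j : Fin n) {P Q : Fin n → ℂ} (h : ∀ k, j < k → ‖P k‖ = ‖Q k‖) :
    tailSum j P = tailSum j Q := by
  rw [tailSum, tailSum]
  refine Finset.sum_congr rfl fun k _ => ?_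
  split_ifs with hk
  · rw [h k hk]
  · rfl

theorem W_congr {n : ℕ} (j : Fin n) {W : (Fin n → ℝ) × ℝ → ℝ}
    (hdep : ∀ y y' x, (∀ i, i < j → y i = y' i) → W (y, x) = W (y', x)) {y y' : Fin n → ℝ}
    (x : ℝ) (h : ∀ i, i < j → y i = y' i) : fderiv ℝ W (y, x) = fderiv ℝ W (y', x) := by
  have h1 : (fun p : (Fin n → ℝ) × ℝ => W (p + (y' - y, 0))) = W := by
    funext p
    obtain ⟨p1, p2⟩ := p
    show W (p1 + (y' - y), p2 + 0) = W (p1, p2)
    rw [add_zero]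
    refine hdep _ _ _ fun i hi => ?_
    show p1 i + (y' i - y i) = p1 i
    rw [h i hi]
    ring
  have h2 := fderiv_comp_add_right (𝕜 := ℝ) (f := W) (x := (y, x)) (y' - y, (0 : ℝ))
  rw [h1] at h2
  rw [h2]
  congr 1
  ext <;> simp

/-- The relation used for injectivity. -/
def RelJ {n : ℕ} (m : ℕ) (P Q : Fin n → ℂ) : Prop :=
  ∀ i : Fin n, (i.val < m → (P i).re = (Q i).re ∧ ∃ k : ℤ, (P i).im - (Q i).im = k) ∧
    (m ≤ i.val → P i = Q i)

theorem relJ_step {n : ℕ} (j : Fin n) {ζ : ℂ → ℂ} {r' : ℝ}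
    (hinj : ∀ z w, ‖z‖ < r' → ‖w‖ < r' → (ζ z).re = (ζ w).re →
        (∃ m : ℤ, (ζ z).im - (ζ w).im = m) → z = w)
    {W : (Fin n → ℝ) × ℝ → ℝ}
    (hdep : ∀ y y' x, (∀ i, i < j → y i = y' i) → W (y, x) = W (y', x))
    {P Q : Fin n → ℂ} (hP : ‖P j‖ < r') (hQ : ‖Q j‖ < r')
    (h : RelJ (j.val + 1) (stepMap j ζ W P) (stepMap j ζ W Q)) : RelJ j.val P Q := by
  have hgt : ∀ k, j < k → stepMap j ζ W P k = stepMap j ζ W Q k := fun k hk =>
    (h k).2 (Nat.succ_le_of_lt (Fin.lt_def.1 hk))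
  have hts : tailSum j P = tailSum j Q := by
    refine tailSum_congr j fun k hk => ?_
    rw [← stepMap_norm_gt j ζ W P k hk, ← stepMap_norm_gt j ζ W Q k hk, hgt k hk]
  have hact : ∀ i, i < j → act P i = act Q i := by
    intro i hi
    have h1 := ((h i).1 (Nat.lt_succ_of_lt (Fin.lt_def.1 hi))).1
    rw [stepMap_re_lt j ζ W P i hi, stepMap_re_lt j ζ W Q i hi] at h1
    exact h1
  have hW : W (act P, tailSum j P) = W (act Q, tailSum j Q) := by
    rw [hts]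
    exact hdep _ _ _ hact
  have hD : fderiv ℝ W (act P, tailSum j P) = fderiv ℝ W (act Q, tailSum j Q) := by
    rw [hts]
    exact W_congr j hdep _ hact
  have hj : P j = Q j := by
    have h1 := (h j).1 (Nat.lt_succ_self _)
    rw [stepMap_self, stepMap_self, hW] at h1
    simp only [add_re, add_im, ofReal_re, ofReal_im, add_zero, add_left_inj] at h1
    exact hinj _ _ hP hQ h1.1 h1.2
  intro i
  refine ⟨fun hi => ?_, fun hi => ?_⟩
  · have hi' : i < j := Fin.lt_def.2 hi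
    refine ⟨hact i hi', ?_⟩
    obtain ⟨k, hk⟩ := ((h i).1 (Nat.lt_succ_of_lt hi)).2
    refine ⟨k, ?_⟩
    rw [stepMap_im_lt j ζ W P i hi', stepMap_im_lt j ζ W Q i hi', hD, hj] at hk
    rw [← hk]
    ring
  · rcases eq_or_lt_of_le (Fin.le_def.2 hi : j ≤ i) with hij | hij
    · rw [← hij]
      exact hj
    · have h1 := hgt i hij
      rw [stepMap_gt j ζ W P i hij, stepMap_gt j ζ W Q i hij, hD, hj] at h1
      exact mul_left_cancel₀ (exp_ne_zero _) h1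

/-- Composition of the first `m` step maps. -/
noncomputable def stepF {n : ℕ} (ζ : ℂ → ℂ) (W : Fin n → (Fin n → ℝ) × ℝ → ℝ) :
    ℕ → (Fin n → ℂ) → (Fin n → ℂ)
  | 0 => fun z => z
  | m + 1 => fun z => if h : m < n then stepMap ⟨m, h⟩ ζ (W ⟨m, h⟩) (stepF ζ W m z)
      else stepF ζ W m z

theorem stepF_succ {n : ℕ} (ζ : ℂ → ℂ) (W : Fin n → (Fin n → ℝ) × ℝ → ℝ) {m : ℕ} (h : m < n)
    (z : Fin n → ℂ) :
    stepF ζ W (m + 1) z = stepMap ⟨m, h⟩ ζ (W ⟨m, h⟩) (stepF ζ W m z) := by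
  simp only [stepF, dif_pos h]

theorem stepF_norm {n : ℕ} (ζ : ℂ → ℂ) (W : Fin n → (Fin n → ℝ) × ℝ → ℝ) (m : ℕ) :
    m ≤ n → ∀ (z : Fin n → ℂ) (k : Fin n), m ≤ k.val → ‖stepF ζ W m z k‖ = ‖z k‖ := by
  induction m with
  | zero => intro _ z k _; rfl
  | succ m ih =>
    intro hm z k hk
    rw [stepF_succ ζ W hm, stepMap_norm_gt _ _ _ _ _ (Fin.lt_def.2 (by show m < k.val; omega))]
    exact ih (Nat.le_of_succ_le hm) z k (Nat.le_of_succ_le hk)

theorem stepF_re {n : ℕ} (ζ : ℂ → ℂ) (W : Fin n → (Fin n → ℝ) × ℝ → ℝ) (m d : ℕ) :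
    m + d ≤ n → ∀ (z : Fin n → ℂ) (k : Fin n), k.val < m →
      (stepF ζ W (m + d) z k).re = (stepF ζ W m z k).re := by
  induction d with
  | zero => intro _ z k _; rfl
  | succ d ih =>
    intro hm z k hk
    rw [← add_assoc, stepF_succ ζ W (by omega : m + d < n),
      stepMap_re_lt _ _ _ _ _ (Fin.lt_def.2 (by show k.val < m + d; omega))]
    exact ih (by omega) z k hk

/-- A4. Realization for smooth `W`: composition of the `n` step maps. -/
theorem exists_smooth_realization {n : ℕ} (r ε : ℝ) (hr : 0 ≤ r) (hε : 0 < ε)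
    (W : Fin n → (Fin n → ℝ) × ℝ → ℝ) (hW : ∀ j, ContDiff ℝ ∞ (W j))
    (hdep : ∀ j y y' x, (∀ i, i < j → y i = y' i) → W j (y, x) = W j (y', x)) :
    ∃ (U : Set (Fin n → ℂ)) (f : (Fin n → ℂ) → (Fin n → ℂ)), IsOpen U ∧ closedBall n r ⊆ U ∧
      ContDiffOn ℝ ∞ f U ∧
      (∀ z ∈ U, ∀ v w : Fin n → ℂ, omega (fderiv ℝ f z v) (fderiv ℝ f z w) = omega v w) ∧
      (∀ z ∈ U, ∀ w ∈ U, SameMod (f z) (f w) → z = w) ∧
      (∀ z ∈ U, ∀ j, 0 ≤ act (f z) j - W j (act (f z), tailSum j z) ∧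
        act (f z) j - W j (act (f z), tailSum j z) ≤ Real.pi * ‖z j‖ ^ 2 + ε) := by
  obtain ⟨r', ζ, hr', hr'0, hζ, hsym, hrange, hinj⟩ := exists_plane_chart r ε hr hε
  set U : Set (Fin n → ℂ) := {z | ∀ k, ‖z k‖ < r'} with hU
  have hUo : IsOpen U := by
    rw [hU, Set.ofPred_forall]
    exact isOpen_iInter_of_finite fun k => isOpen_lt (by fun_prop) continuous_const
  have hslot : ∀ j : Fin n, IsOpen {P : Fin n → ℂ | ‖P j‖ < r'} := fun j =>
    isOpen_lt (by fun_prop) continuous_const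
  have hmaps : ∀ (m : ℕ) (hm : m < n), ∀ z ∈ U, ‖stepF ζ W m z ⟨m, hm⟩‖ < r' := by
    intro m hm z hz
    rw [stepF_norm ζ W m hm.le z ⟨m, hm⟩ le_rfl]
    exact hz _
  have hsmooth : ∀ m, m ≤ n → ContDiffOn ℝ ∞ (stepF ζ W m) U := by
    intro m
    induction m with
    | zero => intro _; exact contDiffOn_id
    | succ m ih =>
      intro hm
      have h1 : Set.EqOn (stepF ζ W (m + 1))
          (stepMap ⟨m, hm⟩ ζ (W ⟨m, hm⟩) ∘ stepF ζ W m) U := fun z _ => stepF_succ ζ W hm z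
      refine ContDiffOn.congr ?_ h1
      exact (stepMap_contDiffOn ⟨m, hm⟩ hζ (hW _)).comp (ih (Nat.le_of_succ_le hm))
        fun z hz => hmaps m hm z hz
  have hdiff : ∀ m, m ≤ n → ∀ z ∈ U, DifferentiableAt ℝ (stepF ζ W m) z := fun m hm z hz =>
    ((hsmooth m hm).contDiffAt (hUo.mem_nhds hz)).differentiableAt (by simp)
  have homega : ∀ m, m ≤ n → ∀ z ∈ U, ∀ v w : Fin n → ℂ,
      omega (fderiv ℝ (stepF ζ W m) z v) (fderiv ℝ (stepF ζ W m) z w) = omega v w := by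
    intro m
    induction m with
    | zero =>
      intro _ z _ v w
      show omega (fderiv ℝ (fun z => z) z v) (fderiv ℝ (fun z => z) z w) = omega v w
      rw [fderiv_fun_id]
      rfl
    | succ m ih =>
      intro hm z hz v w
      have h1 : stepF ζ W (m + 1) = stepMap ⟨m, hm⟩ ζ (W ⟨m, hm⟩) ∘ stepF ζ W m :=
        funext fun z => stepF_succ ζ W hm z
      have h2 : DifferentiableAt ℝ (stepMap ⟨m, hm⟩ ζ (W ⟨m, hm⟩)) (stepF ζ W m z) :=
        ((stepMap_contDiffOn ⟨m, hm⟩ hζ (hW _)).contDiffAt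
          ((hslot _).mem_nhds (hmaps m hm z hz))).differentiableAt (by simp)
      rw [h1, fderiv_comp z h2 (hdiff m (Nat.le_of_succ_le hm) z hz)]
      show omega (fderiv ℝ (stepMap ⟨m, hm⟩ ζ (W ⟨m, hm⟩)) (stepF ζ W m z)
          (fderiv ℝ (stepF ζ W m) z v)) (fderiv ℝ (stepMap ⟨m, hm⟩ ζ (W ⟨m, hm⟩)) (stepF ζ W m z)
          (fderiv ℝ (stepF ζ W m) z w)) = omega v w
      rw [stepMap_sympl ⟨m, hm⟩ hζ hsym (hW _) (hdep _) _ (hmaps m hm z hz)]
      exact ih (Nat.le_of_succ_le hm) z hz v w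
  have hback : ∀ m, m ≤ n → ∀ z ∈ U, ∀ w ∈ U, RelJ m (stepF ζ W m z) (stepF ζ W m w) → z = w := by
    intro m
    induction m with
    | zero =>
      intro _ z _ w _ h
      exact funext fun i => (h i).2 (Nat.zero_le _)
    | succ m ih =>
      intro hm z hz w hw h
      refine ih (Nat.le_of_succ_le hm) z hz w hw ?_
      rw [stepF_succ ζ W hm, stepF_succ ζ W hm] at h
      exact relJ_step ⟨m, hm⟩ hinj (hdep _) (hmaps m hm z hz) (hmaps m hm w hw) h
  refine ⟨U, stepF ζ W n, hUo, ?_, hsmooth n le_rfl, homega n le_rfl, ?_, ?_⟩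
  · intro z hz k
    have h1 : Real.pi * ‖z k‖ ^ 2 ≤ r := by
      refine le_trans ?_ hz
      exact mul_le_mul_of_nonneg_left
        (Finset.single_le_sum (f := fun j => ‖z j‖ ^ 2) (fun j _ => sq_nonneg _)
          (Finset.mem_univ k)) Real.pi_pos.le
    have h2 : Real.pi * ‖z k‖ ^ 2 < Real.pi * r' ^ 2 := lt_of_le_of_lt h1 hr'
    have h3 : ‖z k‖ ^ 2 < r' ^ 2 := lt_of_mul_lt_mul_left h2 Real.pi_pos.le
    exact lt_of_pow_lt_pow_left₀ 2 hr'0.le h3
  · intro z hz w hw h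
    exact hback n le_rfl z hz w hw fun i => ⟨fun _ => h i, fun hi => absurd hi (not_le.2 i.2)⟩
  · intro z hz j
    have h1 : ∀ i, i < j → act (stepF ζ W n z) i = act (stepF ζ W j.val z) i := by
      intro i hi
      obtain ⟨d, hd⟩ := Nat.exists_eq_add_of_le j.2.le
      have h2 := stepF_re ζ W j.val d (by omega) z i (Fin.lt_def.1 hi)
      rw [← hd] at h2
      exact h2
    have h3 : act (stepF ζ W n z) j = (stepF ζ W (j.val + 1) z j).re := by
      obtain ⟨d, hd⟩ := Nat.exists_eq_add_of_le (Nat.succ_le_of_lt j.2)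
      have h2 := stepF_re ζ W (j.val + 1) d (by omega) z j (Nat.lt_succ_self _)
      have hd' : j.val + 1 + d = n := hd.symm
      rw [hd'] at h2
      exact h2
    have h4 : stepF ζ W (j.val + 1) z j = ζ (stepF ζ W j.val z j) +
        ((W j (act (stepF ζ W j.val z), tailSum j (stepF ζ W j.val z)) : ℝ) : ℂ) := by
      rw [stepF_succ ζ W j.2]
      exact stepMap_self j ζ (W j) _
    have h5 : tailSum j (stepF ζ W j.val z) = tailSum j z :=
      tailSum_congr j fun k hk => stepF_norm ζ W j.val j.2.le z k (Fin.lt_def.1 hk).le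
    have h6 : act (stepF ζ W n z) j - W j (act (stepF ζ W n z), tailSum j z) =
        (ζ (stepF ζ W j.val z j)).re := by
      rw [h3, h4, h5, add_re, ofReal_re, hdep j _ _ (tailSum j z) h1]
      ring
    have h7 : ‖stepF ζ W j.val z j‖ = ‖z j‖ := stepF_norm ζ W j.val j.2.le z j le_rfl
    have h8 : ‖stepF ζ W j.val z j‖ < r' := by
      rw [h7]
      exact hz j
    have h9 := hrange _ h8
    rw [h7] at h9
    rw [h6]
    exact ⟨h9.1.le, h9.2⟩

end Vale.Agent.P209.Strong
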