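import Vale.Agent.P209.Strong.Base

open scoped ContDiff

namespace Vale.Agent.P209.Strong

open Vale.Agent.P209

/-- A5. Smooth approximation which keeps the dependence on the first coordinates only. -/
theorem exists_smooth_approx {n : ℕ} (W : Fin n → (Fin n → ℝ) → ℝ → ℝ)
    (hc : ∀ j, Continuous fun p : (Fin n → ℝ) × ℝ => W j p.1 p.2)
    (hdep : DepLt W) (ε : ℝ) (hε : 0 < ε) :
    ∃ V : Fin n → (Fin n → ℝ) × ℝ → ℝ, (∀ j, ContDiff ℝ ∞ (V j)) ∧
      (∀ j y y' x, (∀ i, i < j → y i = y' i) → V j (y, x) = V j (y', x)) ∧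
      (∀ j p, |V j p - W j p.1 p.2| ≤ ε) := by
  have h := fun j => (hc j).exists_contDiff_approx (⊤ : ℕ∞) (ε := fun _ => ε) continuous_const
    (fun _ => hε)
  choose g hg1 hg2 _ using h
  refine ⟨fun j p => g j (fun i => if i < j then p.1 i else 0, p.2), fun j => ?_, ?_, ?_⟩
  · refine (hg1 j).comp (ContDiff.prodMk (contDiff_pi.2 fun i => ?_) contDiff_snd)
    by_cases hi : i < j
    · simp only [if_pos hi]
      exact (contDiff_apply ℝ ℝ i).comp contDiff_fst
    · simp only [if_neg hi]
      exact contDiff_const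
  · intro j y y' x hy
    have : (fun i => if i < j then y i else 0) = (fun i => if i < j then y' i else 0) := by
      funext i
      by_cases hi : i < j
      · rw [if_pos hi, if_pos hi, hy i hi]
      · rw [if_neg hi, if_neg hi]
    simp only [this]
  · intro j p
    have h1 := (hg2 j (fun i => if i < j then p.1 i else 0, p.2)).le
    rw [Real.dist_eq] at h1
    have h2 : W j (fun i => if i < j then p.1 i else 0) = W j p.1 :=
      hdep j _ _ fun i hi => if_pos hi
    simp only [h2] at h1
    exact h1

end Vale.Agent.P209.Strong
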