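import Vale.Agent.P209.Strong.Base

namespace Vale.Agent.P209.Strong

open Vale.Agent.P209

/-- Pairs `(a, x)` which satisfy the inequalities of `KK` up to `ε`, with the parameter `ε`. -/
def A6set {n : ℕ} (W : Fin n → (Fin n → ℝ) → ℝ → ℝ) (r : ℝ) :
    Set (ℝ × (Fin n → ℝ) × (ℕ → ℝ)) :=
  {p | (0 ≤ p.1 ∧ p.1 ≤ 1) ∧ p.2.2 0 ≤ r + p.1 ∧ (∀ j, 0 ≤ p.2.2 j) ∧ (∀ j, n ≤ j → p.2.2 j = 0) ∧
    ∀ j : Fin n, W j p.2.1 (p.2.2 (j + 1)) - p.1 ≤ p.2.1 j ∧
      p.2.1 j ≤ W j p.2.1 (p.2.2 (j + 1)) + (p.2.2 j - p.2.2 (j + 1)) + p.1}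

theorem A6_isClosed {n : ℕ} (W : Fin n → (Fin n → ℝ) → ℝ → ℝ)
    (hc : ∀ j, Continuous fun p : (Fin n → ℝ) × ℝ => W j p.1 p.2) (r : ℝ) :
    IsClosed (A6set W r) := by
  have h1 : ∀ k : ℕ, Continuous fun p : ℝ × (Fin n → ℝ) × (ℕ → ℝ) => p.2.2 k := fun k => by
    fun_prop
  have h2 : ∀ j : Fin n, Continuous fun p : ℝ × (Fin n → ℝ) × (ℕ → ℝ) => p.2.1 j := fun j => by
    fun_prop
  have h3 : ∀ j : Fin n, Continuous fun p : ℝ × (Fin n → ℝ) × (ℕ → ℝ) =>
      W j p.2.1 (p.2.2 (j + 1)) := fun j =>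
    (hc j).comp ((continuous_fst.comp continuous_snd).prodMk (h1 _))
  have h4 : Continuous fun p : ℝ × (Fin n → ℝ) × (ℕ → ℝ) => p.1 := continuous_fst
  have c1 : IsClosed {p : ℝ × (Fin n → ℝ) × (ℕ → ℝ) | ∀ j, 0 ≤ p.2.2 j} := by
    simp only [Set.ofPred_forall]
    exact isClosed_iInter fun j => isClosed_le continuous_const (h1 j)
  have c2 : IsClosed {p : ℝ × (Fin n → ℝ) × (ℕ → ℝ) | ∀ j, n ≤ j → p.2.2 j = 0} := by
    simp only [Set.ofPred_forall]
    exact isClosed_iInter fun j => isClosed_iInter fun _ => isClosed_eq (h1 j) continuous_const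
  have c3 : IsClosed {p : ℝ × (Fin n → ℝ) × (ℕ → ℝ) | ∀ j : Fin n,
      W j p.2.1 (p.2.2 (j + 1)) - p.1 ≤ p.2.1 j ∧
      p.2.1 j ≤ W j p.2.1 (p.2.2 (j + 1)) + (p.2.2 j - p.2.2 (j + 1)) + p.1} := by
    simp only [Set.ofPred_forall]
    exact isClosed_iInter fun j => (isClosed_le ((h3 j).sub h4) (h2 j)).inter
      (isClosed_le (h2 j) (((h3 j).add ((h1 _).sub (h1 _))).add h4))
  exact ((isClosed_le continuous_const h4).inter (isClosed_le h4 continuous_const)).inter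
    ((isClosed_le (h1 0) (continuous_const.add h4)).inter (c1.inter (c2.inter c3)))

theorem A6_x_le {n : ℕ} {W : Fin n → (Fin n → ℝ) → ℝ → ℝ} {r : ℝ}
    {p : ℝ × (Fin n → ℝ) × (ℕ → ℝ)} (hp : p ∈ A6set W r) (j : ℕ) :
    p.2.2 j ≤ |r| + 1 + 2 * n := by
  obtain ⟨⟨e0, e1⟩, hr, h0, hn, h⟩ := hp
  have key : ∀ j : ℕ, j ≤ n → p.2.2 j ≤ |r| + 1 + 2 * j := by
    intro j
    induction j with
    | zero =>
      intro _
      have := le_abs_self r
      push_cast
      linarith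
    | succ j ih =>
      intro hj
      have h1 := ih (by omega)
      have h2 := h ⟨j, by omega⟩
      simp only at h2
      push_cast
      linarith [h2.1, h2.2]
  by_cases hj : j ≤ n
  · have h1 := key j hj
    have h2 : (j : ℝ) ≤ n := by exact_mod_cast hj
    linarith
  · rw [hn j (by omega)]
    positivity

theorem A6_a_le {n : ℕ} {W : Fin n → (Fin n → ℝ) → ℝ → ℝ}
    (hc : ∀ j, Continuous fun p : (Fin n → ℝ) × ℝ => W j p.1 p.2)
    (hdep : DepLt W) (r : ℝ) (k : ℕ) : ∃ B : ℝ, 0 ≤ B ∧ ∀ p ∈ A6set W r, ∀ i : Fin n,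
      (i : ℕ) < k → |p.2.1 i| ≤ B := by
  induction k with
  | zero => exact ⟨0, le_rfl, fun p _ i hi => absurd hi (by omega)⟩
  | succ k ih =>
    obtain ⟨B, hB0, hB⟩ := ih
    by_cases hk : k < n
    · set R : ℝ := |r| + 1 + 2 * n with hR
      have hR0 : 0 ≤ R := by positivity
      set j : Fin n := ⟨k, hk⟩ with hj
      obtain ⟨B', hB'⟩ := (((isCompact_Icc (a := fun _ : Fin n => -B)
        (b := fun _ : Fin n => B)).prod (isCompact_Icc (a := (0 : ℝ)) (b := R)))).exists_bound_of_continuousOn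
        (hc j).continuousOn
      refine ⟨max B (B' + R + 1), le_max_of_le_left hB0, fun p hp i hi => ?_⟩
      by_cases hik : (i : ℕ) < k
      · exact le_max_of_le_left (hB p hp i hik)
      · have hij : i = j := Fin.ext (by simp only [hj]; omega)
        rw [hij]
        refine le_max_of_le_right ?_
        set y : Fin n → ℝ := fun i => if (i : ℕ) < k then p.2.1 i else 0 with hy
        have hW : W j p.2.1 (p.2.2 (j + 1)) = W j y (p.2.2 (j + 1)) := by
          rw [hdep j p.2.1 y (fun l hl => by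
            have : (l : ℕ) < k := by
              have := Fin.lt_def.mp hl
              simp only [hj] at this
              exact this
            simp [hy, this])]
        have hx := A6_x_le hp
        obtain ⟨⟨e0, e1⟩, hr, h0, hn, h⟩ := hp
        have hmem : (y, p.2.2 (j + 1)) ∈ Set.Icc (fun _ : Fin n => -B) (fun _ : Fin n => B) ×ˢ
            Set.Icc (0 : ℝ) R := by
          refine ⟨⟨fun l => ?_, fun l => ?_⟩, h0 _, hx _⟩
          · simp only [hy]
            split_ifs with hl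
            · exact (abs_le.mp (hB p ⟨⟨e0, e1⟩, hr, h0, hn, h⟩ l hl)).1
            · linarith
          · simp only [hy]
            split_ifs with hl
            · exact (abs_le.mp (hB p ⟨⟨e0, e1⟩, hr, h0, hn, h⟩ l hl)).2
            · linarith
        have hb := hB' _ hmem
        simp only [Real.norm_eq_abs] at hb
        have h2 := h j
        rw [hW] at h2
        have h3 := abs_le.mp hb
        have h4 := hx j
        have h5 := h0 (j + 1)
        rw [abs_le]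
        constructor
        · linarith [h2.1]
        · linarith [h2.2]
    · exact ⟨B, hB0, fun p hp i _ => hB p hp i (lt_of_lt_of_le i.2 (not_lt.mp hk))⟩

theorem A6_isCompact {n : ℕ} (W : Fin n → (Fin n → ℝ) → ℝ → ℝ)
    (hc : ∀ j, Continuous fun p : (Fin n → ℝ) × ℝ => W j p.1 p.2)
    (hdep : DepLt W) (r : ℝ) : IsCompact (A6set W r) := by
  obtain ⟨B, hB0, hB⟩ := A6_a_le hc hdep r n
  refine IsCompact.of_isClosed_subset
    ((isCompact_Icc (a := (0 : ℝ)) (b := 1)).prod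
      ((isCompact_Icc (a := fun _ : Fin n => -B) (b := fun _ : Fin n => B)).prod
        (isCompact_univ_pi (fun _ : ℕ => isCompact_Icc (a := (0 : ℝ)) (b := |r| + 1 + 2 * n)))))
    (A6_isClosed W hc r) ?_
  intro p hp
  refine ⟨hp.1, ⟨fun l => ?_, fun l => ?_⟩, fun j _ => ⟨hp.2.2.1 j, A6_x_le hp j⟩⟩
  · exact (abs_le.mp (hB p hp l l.2)).1
  · exact (abs_le.mp (hB p hp l l.2)).2

theorem A6_mem {n : ℕ} {W : Fin n → (Fin n → ℝ) → ℝ → ℝ} {r ε : ℝ} (h0 : 0 ≤ ε) (h1 : ε ≤ 1)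
    {a : Fin n → ℝ} {x : ℕ → ℝ} (hr : x 0 ≤ r + ε) (hx : ∀ j, 0 ≤ x j) (hn : x n = 0)
    (h : ∀ j : Fin n, W j a (x (j + 1)) - ε ≤ a j ∧
        a j ≤ W j a (x (j + 1)) + (x j - x (j + 1)) + ε) :
    (ε, a, fun j => if j < n then x j else 0) ∈ A6set W r := by
  have hx' : ∀ j, j ≤ n → (if j < n then x j else 0) = x j := by
    intro j hj
    split_ifs with hjn
    · rfl
    · rw [show j = n by omega, hn]
  refine ⟨⟨h0, h1⟩, ?_, fun j => ?_, fun j hj => ?_, fun j => ?_⟩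
  · simp only
    rw [hx' 0 (by omega)]
    exact hr
  · simp only
    split_ifs
    · exact hx j
    · exact le_rfl
  · simp only
    rw [if_neg (by omega)]
  · have hj1 := hx' j (by omega)
    have hj2 := hx' (j + 1) (by omega)
    simp only [hj1, hj2]
    exact h j

/-- A6a. `KK W r` is compact. -/
theorem isCompact_KK {n : ℕ} (W : Fin n → (Fin n → ℝ) → ℝ → ℝ)
    (hc : ∀ j, Continuous fun p : (Fin n → ℝ) × ℝ => W j p.1 p.2)
    (hdep : DepLt W) (r : ℝ) : IsCompact (KK W r) := by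
  have h1 : IsCompact (A6set W r ∩ {p | p.1 = 0}) :=
    (A6_isCompact W hc hdep r).inter_right (isClosed_eq continuous_fst continuous_const)
  have h2 := h1.image (f := fun p : ℝ × (Fin n → ℝ) × (ℕ → ℝ) => p.2.1) (by fun_prop)
  convert h2 using 1
  ext a
  constructor
  · rintro ⟨x, hr, hx, hn, h⟩
    refine ⟨(0, a, fun j => if j < n then x j else 0), ⟨A6_mem le_rfl zero_le_one (by simpa using hr)
      hx hn (fun j => by simpa using h j), rfl⟩, rfl⟩
  · rintro ⟨⟨e, b, x⟩, ⟨⟨_, hr, hx, hn, h⟩, he⟩, rfl⟩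
    simp only [Set.mem_ofPred_eq] at he
    subst he
    refine ⟨x, by simpa using hr, hx, hn n le_rfl, fun j => by simpa using h j⟩

/-- A6b. Points which satisfy the inequalities of `KK` up to a small error are in a given open
neighbourhood of `KK`. -/
theorem exists_eps_KK {n : ℕ} (W : Fin n → (Fin n → ℝ) → ℝ → ℝ)
    (hc : ∀ j, Continuous fun p : (Fin n → ℝ) × ℝ => W j p.1 p.2)
    (hdep : DepLt W) (r : ℝ) {Ω : Set (Fin n → ℝ)} (hΩ : IsOpen Ω) (hK : KK W r ⊆ Ω) :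
    ∃ ε > 0, ∀ (a : Fin n → ℝ) (x : ℕ → ℝ), x 0 ≤ r + ε → (∀ j, 0 ≤ x j) → x n = 0 →
      (∀ j : Fin n, W j a (x (j + 1)) - ε ≤ a j ∧
        a j ≤ W j a (x (j + 1)) + (x j - x (j + 1)) + ε) → a ∈ Ω := by
  have hcl : IsClosed {p : ℝ × (Fin n → ℝ) × (ℕ → ℝ) | p.2.1 ∈ Ωᶜ} :=
    hΩ.isClosed_compl.preimage (by fun_prop)
  have h1 : IsCompact (A6set W r ∩ {p | p.2.1 ∈ Ωᶜ}) :=
    (A6_isCompact W hc hdep r).inter_right hcl
  by_cases hne : (A6set W r ∩ {p | p.2.1 ∈ Ωᶜ}).Nonempty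
  · obtain ⟨p, ⟨hp, hpΩ⟩, hmin⟩ := h1.exists_isMinOn hne
      (f := fun p : ℝ × (Fin n → ℝ) × (ℕ → ℝ) => p.1) (by fun_prop)
    have hp1 : 0 < p.1 := by
      refine lt_of_le_of_ne hp.1.1 fun h0 => hpΩ (hK ?_)
      obtain ⟨⟨_, _⟩, hr, hx, hn, h⟩ := hp
      rw [← h0] at hr h
      exact ⟨p.2.2, by simpa using hr, hx, hn n le_rfl, fun j => by simpa using h j⟩
    refine ⟨p.1 / 2, by positivity, fun a x hr hx hn h => ?_⟩
    by_contra ha
    have hmem := A6_mem (by positivity : 0 ≤ p.1 / 2) (by linarith [hp.1.2]) hr hx hn h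
    have := hmin (show _ ∈ A6set W r ∩ {p | p.2.1 ∈ Ωᶜ} from ⟨hmem, ha⟩)
    simp only [Set.mem_ofPred_eq] at this
    linarith
  · refine ⟨1, one_pos, fun a x hr hx hn h => ?_⟩
    by_contra ha
    exact hne ⟨_, A6_mem zero_le_one le_rfl hr hx hn h, ha⟩

end Vale.Agent.P209.Strong
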