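import Vale.Agent.P209.Strong.A4
import Vale.Agent.P209.Strong.A5
import Vale.Agent.P209.Strong.A6

namespace Vale.Agent.P209.Strong

open Vale.Agent.P209

/-- A7a. Symplectic realization of a single ball. -/
theorem exists_TEmb {n : ℕ} (W : Fin n → (Fin n → ℝ) → ℝ → ℝ)
    (hc : ∀ j, Continuous fun p : (Fin n → ℝ) × ℝ => W j p.1 p.2)
    (hdep : DepLt W) (r : ℝ) (hr : 0 ≤ r) {Ω : Set (Fin n → ℝ)} (hΩ : IsOpen Ω)
    (hK : KK W r ⊆ Ω) : ∃ f, TEmb r f Ω := by
  obtain ⟨ε, hε, hεΩ⟩ := exists_eps_KK W hc hdep r hΩ hK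
  obtain ⟨V, hVs, hVd, hVW⟩ := exists_smooth_approx W hc hdep (ε / 4) (by positivity)
  obtain ⟨U, f, hU, hBU, hf, hs, hi, hb⟩ :=
    exists_smooth_realization r (ε / 4) hr (by positivity) V hVs hVd
  have hcont : Continuous fun z : Fin n → ℂ => Real.pi * ∑ j, ‖z j‖ ^ 2 := by fun_prop
  refine ⟨f, U ∩ {z | Real.pi * ∑ j, ‖z j‖ ^ 2 < r + ε},
    hU.inter (isOpen_lt hcont continuous_const), ?_, hf.mono Set.inter_subset_left,
    fun z hz => hs z hz.1, ?_, fun z hz w hw => hi z hz.1 w hw.1⟩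
  · intro z hz
    refine ⟨hBU hz, ?_⟩
    have h1 : Real.pi * ∑ j, ‖z j‖ ^ 2 ≤ r := hz
    show Real.pi * ∑ j, ‖z j‖ ^ 2 < r + ε
    linarith
  · intro z hz
    have hx0 : ∀ k : Fin n, 0 ≤ Real.pi * ‖z k‖ ^ 2 := fun k => by positivity
    refine hεΩ (act (f z)) (fun j : ℕ => ∑ k : Fin n, if j ≤ k.val then Real.pi * ‖z k‖ ^ 2 else 0)
      ?_ ?_ ?_ ?_
    · have h1 : Real.pi * ∑ j, ‖z j‖ ^ 2 < r + ε := hz.2
      simp only [Nat.zero_le, if_true]
      rw [← Finset.mul_sum]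
      exact h1.le
    · intro j
      refine Finset.sum_nonneg fun k _ => ?_
      split_ifs
      · exact hx0 k
      · exact le_rfl
    · refine Finset.sum_eq_zero fun k _ => ?_
      rw [if_neg (by have := k.isLt; omega)]
    · intro j
      have htail : tailSum j z =
          ∑ k : Fin n, if (j : ℕ) + 1 ≤ k.val then Real.pi * ‖z k‖ ^ 2 else 0 := by
        unfold tailSum
        refine Finset.sum_congr rfl fun k _ => ?_
        by_cases h : j < k
        · have h' : (j : ℕ) + 1 ≤ k.val := by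
            have := Fin.lt_def.mp h
            omega
          rw [if_pos h, if_pos h']
        · have h' : ¬ (j : ℕ) + 1 ≤ k.val := by
            intro h'
            exact h (Fin.lt_def.mpr (by omega))
          rw [if_neg h, if_neg h']
      have hdiff : (∑ k : Fin n, if (j : ℕ) ≤ k.val then Real.pi * ‖z k‖ ^ 2 else 0) -
          (∑ k : Fin n, if (j : ℕ) + 1 ≤ k.val then Real.pi * ‖z k‖ ^ 2 else 0) =
          Real.pi * ‖z j‖ ^ 2 := by
        rw [← Finset.sum_sub_distrib]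
        rw [Finset.sum_eq_single j]
        · rw [if_pos le_rfl, if_neg (by omega), sub_zero]
        · intro k _ hk
          have hk' : (k : ℕ) ≠ j := fun h => hk (Fin.ext h)
          by_cases h : (j : ℕ) ≤ k.val
          · rw [if_pos h, if_pos (by omega), sub_self]
          · rw [if_neg h, if_neg (by omega), sub_self]
        · intro h
          exact absurd (Finset.mem_univ j) h
      have h1 := hb z hz.1 j
      have h2 := hVW j (act (f z), tailSum j z)
      rw [abs_le] at h2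
      rw [htail] at h1 h2
      dsimp only at h2 ⊢
      constructor
      · linarith [h1.1, h2.2]
      · rw [hdiff]
        linarith [h1.2, h2.1, h2.2]

/-- A7b. Symplectic realization. -/
theorem TPk_of_KK {n : ℕ} {ι : Type} [Finite ι] (W : ι → Fin n → (Fin n → ℝ) → ℝ → ℝ)
    (hc : ∀ i j, Continuous fun p : (Fin n → ℝ) × ℝ => W i j p.1 p.2)
    (hdep : ∀ i, DepLt (W i)) (r : ι → ℝ) (hr : ∀ i, 0 ≤ r i) {Ω : Set (Fin n → ℝ)}
    (hΩ : IsOpen Ω) (hK : ∀ i, KK (W i) (r i) ⊆ Ω)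
    (hd : ∀ i j, i ≠ j → Disjoint (KK (W i) (r i)) (KK (W j) (r j))) : TPk Ω r := by
  classical
  have hcomp : ∀ i, IsCompact (KK (W i) (r i)) := fun i => isCompact_KK (W i) (hc i) (hdep i) (r i)
  have hsep : ∀ i j, i ≠ j → ∃ A B : Set (Fin n → ℝ), IsOpen A ∧ IsOpen B ∧
      KK (W i) (r i) ⊆ A ∧ KK (W j) (r j) ⊆ B ∧ Disjoint A B := fun i j hij =>
    SeparatedNhds.of_isCompact_isCompact (hcomp i) (hcomp j) (hd i j hij)
  have hsep' : ∀ i j, ∃ A B : Set (Fin n → ℝ), IsOpen A ∧ IsOpen B ∧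
      KK (W i) (r i) ⊆ A ∧ (i ≠ j → KK (W j) (r j) ⊆ B ∧ Disjoint A B) := by
    intro i j
    by_cases hij : i = j
    · exact ⟨Set.univ, Set.univ, isOpen_univ, isOpen_univ, Set.subset_univ _,
        fun h => absurd hij h⟩
    · obtain ⟨A, B, hA, hB, h1, h2, h3⟩ := hsep i j hij
      exact ⟨A, B, hA, hB, h1, fun _ => ⟨h2, h3⟩⟩
  choose A B hA hB hKA hKB using hsep'
  -- the disjoint neighbourhoods
  let O : ι → Set (Fin n → ℝ) := fun i => Ω ∩ ⋂ j, (A i j ∩ (if i = j then Set.univ else B j i))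
  have hO : ∀ i, IsOpen (O i) := by
    intro i
    refine hΩ.inter (isOpen_iInter_of_finite fun j => (hA i j).inter ?_)
    split_ifs
    · exact isOpen_univ
    · exact hB j i
  have hKO : ∀ i, KK (W i) (r i) ⊆ O i := by
    intro i
    refine Set.subset_inter (hK i) (Set.subset_iInter fun j => Set.subset_inter (hKA i j) ?_)
    split_ifs with h
    · exact Set.subset_univ _
    · exact (hKB j i (fun h' => h h'.symm)).1
  have hOd : ∀ i j, i ≠ j → Disjoint (O i) (O j) := by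
    intro i j hij
    rw [Set.disjoint_left]
    rintro a ⟨_, ha⟩ ⟨_, ha'⟩
    have h1 : a ∈ A i j := (Set.mem_iInter.mp ha j).1
    have h2 := (Set.mem_iInter.mp ha' i).2
    rw [if_neg (fun h => hij h.symm)] at h2
    exact Set.disjoint_left.mp (hKB i j hij).2 h1 h2
  have hex : ∀ i, ∃ f, TEmb (r i) f (O i) := fun i =>
    exists_TEmb (W i) (hc i) (hdep i) (r i) (hr i) (hO i) (hKO i)
  choose f hf using hex
  refine ⟨f, fun i => ?_, fun i j hij z hz w hw heq => ?_⟩
  · obtain ⟨U, h1, h2, h3, h4, h5, h6⟩ := hf i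
    exact ⟨U, h1, h2, h3, h4, fun z hz => (h5 z hz).1, h6⟩
  · obtain ⟨U, h1, h2, h3, h4, h5, h6⟩ := hf i
    obtain ⟨U', h1', h2', h3', h4', h5', h6'⟩ := hf j
    have ha := h5 z (h2 hz)
    have hb := h5' w (h2' hw)
    rw [heq] at ha
    exact Set.disjoint_left.mp (hOd i j hij) ha hb

end Vale.Agent.P209.Strong
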