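import Vale.Agent.P209.Strong.Base
import Vale.Agent.P209.OpenEmb

open scoped ContDiff
open Complex

namespace Vale.Agent.P209.Strong

open Vale.Agent.P209

/-- action-angle coordinates of the plane -/
noncomputable def phiA (w : ℂ) : ℂ :=
  ((Real.sqrt (w.re / Real.pi) : ℝ) : ℂ) * exp (((2 * Real.pi * w.im : ℝ) : ℂ) * I)

theorem phiA_normSq {w : ℂ} (hw : 0 < w.re) : Real.pi * ‖phiA w‖ ^ 2 = w.re := by
  unfold phiA
  rw [norm_mul, Complex.norm_exp_ofReal_mul_I, mul_one, Complex.norm_real,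
    Real.norm_of_nonneg (Real.sqrt_nonneg _), Real.sq_sqrt (by positivity)]
  field_simp

theorem phiA_hasFDerivAt {w : ℂ} (hw : 0 < w.re) :
    HasFDerivAt phiA
      ((((2 * Real.pi * Real.sqrt (w.re / Real.pi))⁻¹ : ℝ) : ℂ) •
        (exp (((2 * Real.pi * w.im : ℝ) : ℂ) * I) • (Complex.ofRealCLM.comp Complex.reCLM)) +
        ((((2 * Real.pi * Real.sqrt (w.re / Real.pi)) : ℝ) : ℂ) *
          (exp (((2 * Real.pi * w.im : ℝ) : ℂ) * I)) * I) •
            (Complex.ofRealCLM.comp Complex.imCLM)) w := by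
  have hpos : 0 < w.re / Real.pi := by positivity
  have hre : HasFDerivAt (fun z : ℂ => z.re) Complex.reCLM w := Complex.reCLM.hasFDerivAt
  have him : HasFDerivAt (fun z : ℂ => z.im) Complex.imCLM w := Complex.imCLM.hasFDerivAt
  have h1 : HasFDerivAt (fun z : ℂ => z.re / Real.pi) (Real.pi⁻¹ • Complex.reCLM) w := by
    have := hre.mul_const Real.pi⁻¹
    simpa [div_eq_mul_inv] using this
  have h2 := (Real.hasDerivAt_sqrt hpos.ne').comp_hasFDerivAt w h1
  have h3 : HasFDerivAt (fun z : ℂ => ((Real.sqrt (z.re / Real.pi) : ℝ) : ℂ)) _ w :=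
    Complex.ofRealCLM.hasFDerivAt.comp w h2
  have h4 : HasFDerivAt (fun z : ℂ => 2 * Real.pi * z.im) ((2 * Real.pi) • Complex.imCLM) w := by
    exact him.const_mul (2 * Real.pi)
  have h5 : HasFDerivAt (fun z : ℂ => ((2 * Real.pi * z.im : ℝ) : ℂ)) _ w :=
    Complex.ofRealCLM.hasFDerivAt.comp w h4
  have h6 := (h5.mul_const I).cexp
  have h7 := h3.mul h6
  refine HasFDerivAt.congr_fderiv (f := phiA) h7 ?_
  have hs : (0 : ℝ) < Real.sqrt (w.re / Real.pi) := Real.sqrt_pos.2 hpos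
  ext v
  simp
  have hpi : (Real.pi : ℂ) ≠ 0 := by exact_mod_cast Real.pi_ne_zero
  have hsc : ((Real.sqrt (w.re / Real.pi) : ℝ) : ℂ) ≠ 0 := by exact_mod_cast hs.ne'
  field_simp
  ring

theorem phiA_sympl {w : ℂ} (hw : 0 < w.re) (v v' : ℂ) :
    om1 (fderiv ℝ phiA w v) (fderiv ℝ phiA w v') = om1 v v' := by
  rw [(phiA_hasFDerivAt hw).fderiv]
  have hpos : 0 < w.re / Real.pi := by positivity
  have hs : (0 : ℝ) < Real.sqrt (w.re / Real.pi) := Real.sqrt_pos.2 hpos
  set s : ℝ := Real.sqrt (w.re / Real.pi) with hsdef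
  set e : ℂ := exp (((2 * Real.pi * w.im : ℝ) : ℂ) * I) with hedef
  have he : normSq e = 1 := by
    rw [Complex.normSq_eq_norm_sq, hedef, Complex.norm_exp_ofReal_mul_I]; norm_num
  have key : ∀ x : ℂ, ((((2 * Real.pi * s)⁻¹ : ℝ) : ℂ) •
        (e • (Complex.ofRealCLM.comp Complex.reCLM)) +
        ((((2 * Real.pi * s) : ℝ) : ℂ) * e * I) •
            (Complex.ofRealCLM.comp Complex.imCLM)) x =
      e * (((((2 * Real.pi * s)⁻¹ * x.re : ℝ) : ℂ)) + ((2 * Real.pi * s * x.im : ℝ) : ℂ) * I) := by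
    intro x
    simp
    ring
  rw [key, key, om1_rot, he]
  unfold om1
  simp only [one_mul, Complex.add_re, Complex.add_im, Complex.ofReal_re, Complex.ofReal_im,
    Complex.mul_re, Complex.mul_im, Complex.I_re, Complex.I_im, mul_zero, mul_one, sub_zero,
    add_zero, zero_add]
  have h2 : (2 * Real.pi * s) ≠ 0 := by positivity
  field_simp

theorem phiA_contDiffAt {w : ℂ} (hw : 0 < w.re) : ContDiffAt ℝ ∞ phiA w := by
  have hpos : 0 < w.re / Real.pi := by positivity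
  have hre : ContDiff ℝ ∞ (fun z : ℂ => z.re) := Complex.reCLM.contDiff
  have him : ContDiff ℝ ∞ (fun z : ℂ => z.im) := Complex.imCLM.contDiff
  have h1 : ContDiffAt ℝ ∞ (fun z : ℂ => Real.sqrt (z.re / Real.pi)) w :=
    ContDiffAt.sqrt (hre.div_const _).contDiffAt hpos.ne'
  have h2 : ContDiffAt ℝ ∞ (fun z : ℂ => ((Real.sqrt (z.re / Real.pi) : ℝ) : ℂ)) w :=
    Complex.ofRealCLM.contDiff.contDiffAt.comp w h1
  have h3 : ContDiff ℝ ∞ (fun z : ℂ => exp (((2 * Real.pi * z.im : ℝ) : ℂ) * I)) := by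
    have h4 : ContDiff ℝ ∞ (fun z : ℂ => 2 * Real.pi * z.im) := contDiff_const.mul him
    exact Complex.contDiff_exp.comp ((Complex.ofRealCLM.contDiff.comp h4).mul contDiff_const)
  exact h2.mul h3.contDiffAt

theorem phiA_inj {w w' : ℂ} (hw : 0 < w.re) (hw' : 0 < w'.re) (h : phiA w = phiA w') :
    w.re = w'.re ∧ ∃ m : ℤ, w.im - w'.im = m := by
  have h1 : w.re = w'.re := by
    rw [← phiA_normSq hw, ← phiA_normSq hw', h]
  refine ⟨h1, ?_⟩
  have hpos : 0 < w.re / Real.pi := by positivity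
  have hs : (0 : ℝ) < Real.sqrt (w.re / Real.pi) := Real.sqrt_pos.2 hpos
  unfold phiA at h
  rw [← h1] at h
  have hsc : ((Real.sqrt (w.re / Real.pi) : ℝ) : ℂ) ≠ 0 := by exact_mod_cast hs.ne'
  have h2 := mul_left_cancel₀ hsc h
  rw [Complex.exp_eq_exp_iff_exists_int] at h2
  obtain ⟨m, hm⟩ := h2
  refine ⟨m, ?_⟩
  have hpi : (Real.pi : ℝ) ≠ 0 := Real.pi_ne_zero
  have h3 : ((2 * Real.pi * w.im : ℝ) : ℂ) * I =
      ((2 * Real.pi * w'.im + m * (2 * Real.pi) : ℝ) : ℂ) * I := by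
    rw [hm]; push_cast; ring
  have h4 := mul_right_cancel₀ Complex.I_ne_zero h3
  have h5 : (2 * Real.pi * w.im : ℝ) = 2 * Real.pi * w'.im + m * (2 * Real.pi) := by
    exact_mod_cast h4
  have h6 : (2 * Real.pi) * (w.im - w'.im - m) = 0 := by linarith
  rcases mul_eq_zero.1 h6 with h7 | h7
  · exact absurd h7 (by positivity)
  · linarith

/-- slotwise application -/
noncomputable def phiV {n : ℕ} (w : Fin n → ℂ) : Fin n → ℂ := fun j => phiA (w j)

theorem phiV_hasFDerivAt {n : ℕ} {w : Fin n → ℂ} (hw : ∀ j, 0 < (w j).re) :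
    HasFDerivAt (phiV (n := n))
      (ContinuousLinearMap.pi fun j =>
        (fderiv ℝ phiA (w j)).comp (ContinuousLinearMap.proj j)) w := by
  rw [hasFDerivAt_pi']
  intro j
  have h1 : HasFDerivAt phiA (fderiv ℝ phiA (w j)) (w j) :=
    (phiA_hasFDerivAt (hw j)).differentiableAt.hasFDerivAt
  have h2 : HasFDerivAt (fun w : Fin n → ℂ => w j) (ContinuousLinearMap.proj (R := ℝ) j) w :=
    (ContinuousLinearMap.proj (R := ℝ) (φ := fun _ : Fin n => ℂ) j).hasFDerivAt
  exact h1.comp w h2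

/-- A8. From toric packings of the simplex to packings of the ball:
`z j = √(a j / π) * exp (2 π i b j)`. -/
theorem packs_of_TPk {n : ℕ} {ι : Type} {R : ℝ} {r : ι → ℝ} (h : TPk (simplex n R) r) :
    Packs (openBall n R) r := by
  obtain ⟨f, hf, hdisj⟩ := h
  refine ⟨fun i z => phiV (f i z), ?_, ?_, ?_⟩
  · intro i
    obtain ⟨U, hU, hBU, hcd, hs, hact, hinj⟩ := hf i
    have hre : ∀ z ∈ U, ∀ j, 0 < (f i z j).re := fun z hz j => (hact z hz).1 j
    have hcdg : ContDiffOn ℝ ∞ (fun z => phiV (f i z)) U := by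
      rw [contDiffOn_pi]
      intro j z hz
      have h1 : ContDiffAt ℝ ∞ (f i) z := hcd.contDiffAt (hU.mem_nhds hz)
      have h2 : ContDiffAt ℝ ∞ (fun z => f i z j) z := (contDiffAt_pi.1 h1) j
      exact ((phiA_contDiffAt (hre z hz j)).comp z h2).contDiffWithinAt
    have hsg : ∀ z ∈ U, ∀ v w : Fin n → ℂ,
        omega (fderiv ℝ (fun z => phiV (f i z)) z v) (fderiv ℝ (fun z => phiV (f i z)) z w) =
          omega v w := by
      intro z hz v w
      have h1 : ContDiffAt ℝ ∞ (f i) z := hcd.contDiffAt (hU.mem_nhds hz)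
      have h2 : HasFDerivAt (f i) (fderiv ℝ (f i) z) z :=
        (h1.differentiableAt (by simp)).hasFDerivAt
      have h3 := (phiV_hasFDerivAt (hre z hz)).comp z h2
      have h4 : HasFDerivAt (fun z => phiV (f i z)) _ z := h3
      rw [h4.fderiv]
      rw [← hs z hz v w]
      unfold omega
      refine Finset.sum_congr rfl fun j _ => ?_
      have := phiA_sympl (hre z hz j) (fderiv ℝ (f i) z v j) (fderiv ℝ (f i) z w j)
      unfold om1 at this
      simpa using this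
    refine ⟨U, hU, hBU, hcdg, ?_, hsg⟩
    refine isOpenEmbedding_of_sympl hU hcdg ?_ hsg
    intro z hz w hw hzw
    refine hinj z hz w hw fun j => ?_
    exact phiA_inj (hre z hz j) (hre w hw j) (congrFun hzw j)
  · rintro i _ ⟨z, hz, rfl⟩
    obtain ⟨U, hU, hBU, hcd, hs, hact, hinj⟩ := hf i
    have hzU := hBU hz
    obtain ⟨h1, h2⟩ := hact z hzU
    show Real.pi * ∑ j, ‖phiV (f i z) j‖ ^ 2 < R
    rw [Finset.mul_sum]
    refine lt_of_eq_of_lt (Finset.sum_congr rfl fun j _ => ?_) h2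
    exact phiA_normSq (h1 j)
  · intro i j hij
    rw [Set.disjoint_left]
    rintro _ ⟨z, hz, rfl⟩ ⟨w, hw, hzw⟩
    obtain ⟨U, hU, hBU, hcd, hs, hact, hinj⟩ := hf i
    obtain ⟨U', hU', hBU', hcd', hs', hact', hinj'⟩ := hf j
    refine hdisj i j hij z hz w hw ?_
    funext k
    exact (phiA_inj ((hact' w (hBU' hw)).1 k) ((hact z (hBU hz)).1 k) (congrFun hzw k)).1.symm

end Vale.Agent.P209.Strong
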