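import Vale.Agent.P209.Strong.Base

namespace Vale.Agent.P209.Strong

open Vale.Agent.P209

/-- A9a -/
theorem TPk.mono {n : ℕ} {ι : Type} {Ω Ω' : Set (Fin n → ℝ)} {r : ι → ℝ} (h : TPk Ω r)
    (hs : Ω ⊆ Ω') : TPk Ω' r := by
  obtain ⟨f, hf, hd⟩ := h
  refine ⟨f, fun i => ?_, hd⟩
  obtain ⟨U, h1, h2, h3, h4, h5, h6⟩ := hf i
  exact ⟨U, h1, h2, h3, h4, fun z hz => hs (h5 z hz), h6⟩

/-- A9b -/
theorem TPk.comp_inj {n : ℕ} {ι κ : Type} {Ω : Set (Fin n → ℝ)} {r : ι → ℝ} (h : TPk Ω r)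
    (e : κ → ι) (he : Function.Injective e) : TPk Ω (fun k => r (e k)) := by
  obtain ⟨f, hf, hd⟩ := h
  exact ⟨fun k => f (e k), fun k => hf (e k), fun i j hij => hd _ _ (fun h => hij (he h))⟩

/-- A9c -/
theorem TPk.union {n : ℕ} {ι : Type} {Ω₁ Ω₂ Ω : Set (Fin n → ℝ)} {r : ι → ℝ} (S : Set ι)
    (h₁ : TPk Ω₁ (fun i : S => r i)) (h₂ : TPk Ω₂ (fun i : (Sᶜ : Set ι) => r i))
    (hd : Disjoint Ω₁ Ω₂) (hs₁ : Ω₁ ⊆ Ω) (hs₂ : Ω₂ ⊆ Ω) : TPk Ω r := by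
  classical
  obtain ⟨f₁, hf₁, hd₁⟩ := h₁
  obtain ⟨f₂, hf₂, hd₂⟩ := h₂
  have m1 : ∀ (i : S), ∀ z ∈ closedBall n (r i), act (f₁ i z) ∈ Ω₁ := by
    intro i z hz
    obtain ⟨U, h1, h2, h3, h4, h5, h6⟩ := hf₁ i
    exact h5 z (h2 hz)
  have m2 : ∀ (i : (Sᶜ : Set ι)), ∀ z ∈ closedBall n (r i), act (f₂ i z) ∈ Ω₂ := by
    intro i z hz
    obtain ⟨U, h1, h2, h3, h4, h5, h6⟩ := hf₂ i
    exact h5 z (h2 hz)
  refine ⟨fun i => if h : i ∈ S then f₁ ⟨i, h⟩ else f₂ ⟨i, h⟩, fun i => ?_, ?_⟩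
  · by_cases hi : i ∈ S
    · simp only [dif_pos hi]
      obtain ⟨U, h1, h2, h3, h4, h5, h6⟩ := hf₁ ⟨i, hi⟩
      exact ⟨U, h1, h2, h3, h4, fun z hz => hs₁ (h5 z hz), h6⟩
    · simp only [dif_neg hi]
      obtain ⟨U, h1, h2, h3, h4, h5, h6⟩ := hf₂ ⟨i, hi⟩
      exact ⟨U, h1, h2, h3, h4, fun z hz => hs₂ (h5 z hz), h6⟩
  · intro i j hij z hz w hw
    simp only
    by_cases hi : i ∈ S <;> by_cases hj : j ∈ S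
    · rw [dif_pos hi, dif_pos hj]
      exact hd₁ ⟨i, hi⟩ ⟨j, hj⟩ (fun h => hij (by simpa using h)) z hz w hw
    · rw [dif_pos hi, dif_neg hj]
      intro h
      exact Set.disjoint_left.1 hd (m1 ⟨i, hi⟩ z hz) (h ▸ m2 ⟨j, hj⟩ w hw)
    · rw [dif_neg hi, dif_pos hj]
      intro h
      exact Set.disjoint_left.1 hd (m1 ⟨j, hj⟩ w hw) (h ▸ m2 ⟨i, hi⟩ z hz)
    · rw [dif_neg hi, dif_neg hj]
      exact hd₂ ⟨i, hi⟩ ⟨j, hj⟩ (fun h => hij (by simpa using h)) z hz w hw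

end Vale.Agent.P209.Strong
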