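import Vale.Agent.P209.Strong.Base

/-!
# One-sided evolution (L-balls)

`q ≥ 1` is the exponent, `T` the length of the time interval, `m : ℝ → ℝ` the residual target,
`p` the peak time of the previous ball, `u ∈ [0, 1]` the size of the ball which is placed.
-/

namespace Vale.Agent.P209.Strong

/-- Start time of the level `x`. -/
noncomputable def Wf (q : ℕ) (T : ℝ) (m : ℝ → ℝ) (p x : ℝ) : ℝ :=
  sSup ((fun s : ℝ => max 0 (s * T -
    max 0 (m (s * T) + 2 * q * max 0 (s * T - p - 1) - x ^ q) / (2 * q))) '' Set.Icc 0 1)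

/-- Falling profile of the ball of size `u`: the largest `x ≤ u` with `t ≤ W x + (u - x)`. -/
noncomputable def cf (q : ℕ) (T : ℝ) (m : ℝ → ℝ) (p u t : ℝ) : ℝ :=
  sSup ((fun s : ℝ => max 0 (s * u -
    2 * max 0 (t - u - Wf q T m p (s * u) + s * u))) '' Set.Icc 0 1)

/-- Size of the slice at time `t` of the ball of size `u`. -/
noncomputable def vf (q : ℕ) (T : ℝ) (m : ℝ → ℝ) (p u t : ℝ) : ℝ :=
  min ((max 0 (m t)) ^ ((q : ℝ)⁻¹)) (cf q T m p u t)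

/-- Residual target after placing a ball of size `u`. -/
noncomputable def stepm (q : ℕ) (T : ℝ) (m : ℝ → ℝ) (p u : ℝ) : ℝ → ℝ :=
  fun t => max 0 (m t - cf q T m p u t ^ q)

/-- The evolution: residual target and last peak time, after placing the first `i` balls. -/
noncomputable def evo (q : ℕ) (T : ℝ) (a : ℝ → ℝ) (u : ℕ → ℝ) : ℕ → (ℝ → ℝ) × ℝ
  | 0 => (a, 0)
  | i + 1 => (stepm q T (evo q T a u i).1 (evo q T a u i).2 (u i),
      Wf q T (evo q T a u i).1 (evo q T a u i).2 (u i))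

/-- residual after the first `i` balls -/
noncomputable def eM (q : ℕ) (T : ℝ) (a : ℝ → ℝ) (u : ℕ → ℝ) (i : ℕ) : ℝ → ℝ := (evo q T a u i).1

/-- peak time of ball `i - 1` (for `i = 0`: zero). So the peak of ball `i` is `eP (i + 1)`. -/
noncomputable def eP (q : ℕ) (T : ℝ) (a : ℝ → ℝ) (u : ℕ → ℝ) (i : ℕ) : ℝ := (evo q T a u i).2

/-- slice size of ball `i` at time `t` -/
noncomputable def ev (q : ℕ) (T : ℝ) (a : ℝ → ℝ) (u : ℕ → ℝ) (i : ℕ) (t : ℝ) : ℝ :=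
  vf q T (eM q T a u i) (eP q T a u i) (u i) t

/-- start time of level `x` of ball `i` -/
noncomputable def eW (q : ℕ) (T : ℝ) (a : ℝ → ℝ) (u : ℕ → ℝ) (i : ℕ) (x : ℝ) : ℝ :=
  Wf q T (eM q T a u i) (eP q T a u i) x

/-- admissible targets -/
structure Target (q : ℕ) (T : ℝ) (a : ℝ → ℝ) : Prop where
  cont : Continuous a
  lo : ∀ t, 0 ≤ t → t ≤ T → 3 + 5 * q ≤ a t
  slow : ∀ t t', 0 ≤ t → t ≤ t' → t' ≤ T → t' ≤ t + 1 → a t - 1 / 8 * a t * (t' - t) ≤ a t'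

/-- invariant of the evolution -/
structure Inv (q : ℕ) (T : ℝ) (a m : ℝ → ℝ) (p : ℝ) : Prop where
  cont : Continuous m
  p0 : 0 ≤ p
  nn : ∀ t, 0 ≤ t → t ≤ T → 0 ≤ m t
  le : ∀ t, 0 ≤ t → t ≤ T → m t ≤ a t
  zero : ∀ t, 0 ≤ t → t < p → t ≤ T → m t = 0
  K : ∀ t t', p ≤ t → t ≤ t' → t' ≤ T → t' ≤ t + 1 →
    m t + (a t' - a t) + (t' - t) * (a t - m t) ≤ m t'
  eq : ∀ t, p + 1 ≤ t → t ≤ T → m t = a t

end Vale.Agent.P209.Strong
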