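import Vale.Agent.P209.Strong.B1a

namespace Vale.Agent.P209.Strong

/-! B1. Unconditional properties of `Wf` and `cf`. -/

theorem b1_div_nonneg (q : ℕ) (y : ℝ) : 0 ≤ max 0 y / (2 * (q : ℝ)) :=
  div_nonneg (le_max_left _ _) (by positivity)

theorem b1_W_term_le {q : ℕ} {T : ℝ} {m : ℝ → ℝ} {p x : ℝ} (hT : 0 ≤ T) {s : ℝ}
    (hs : s ∈ Set.Icc (0 : ℝ) 1) : max 0 (s * T -
      max 0 (m (s * T) + 2 * q * max 0 (s * T - p - 1) - x ^ q) / (2 * q)) ≤ T := by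
  have h1 := b1_div_nonneg q (m (s * T) + 2 * q * max 0 (s * T - p - 1) - x ^ q)
  have h2 : s * T ≤ T := by nlinarith [hs.1, hs.2]
  exact max_le hT (by linarith)

theorem b1_W_bdd {q : ℕ} {T : ℝ} {m : ℝ → ℝ} {p x : ℝ} (hT : 0 ≤ T) :
    BddAbove ((fun s : ℝ => max 0 (s * T -
    max 0 (m (s * T) + 2 * q * max 0 (s * T - p - 1) - x ^ q) / (2 * q))) '' Set.Icc 0 1) := by
  refine ⟨T, ?_⟩
  rintro _ ⟨s, hs, rfl⟩
  exact b1_W_term_le hT hs

theorem b1_nonempty (f : ℝ → ℝ) : (f '' Set.Icc 0 1).Nonempty :=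
  Set.Nonempty.image _ ⟨0, by simp⟩

theorem Wf_nonneg {q : ℕ} {T : ℝ} {m : ℝ → ℝ} {p x : ℝ} (hT : 0 ≤ T) : 0 ≤ Wf q T m p x := by
  unfold Wf
  refine le_csSup_of_le (b1_W_bdd hT) ⟨0, by simp, rfl⟩ (le_max_left _ _)

theorem Wf_le {q : ℕ} {T : ℝ} {m : ℝ → ℝ} {p x : ℝ} (hT : 0 ≤ T) : Wf q T m p x ≤ T := by
  unfold Wf
  refine csSup_le (b1_nonempty _) ?_
  rintro _ ⟨s, hs, rfl⟩
  exact b1_W_term_le hT hs

/-- every time `t ∈ [0, T]` gives a lower bound -/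
theorem le_Wf {q : ℕ} {T : ℝ} {m : ℝ → ℝ} {p x t : ℝ} (ht : 0 ≤ t) (htT : t ≤ T) :
    t - max 0 (m t + 2 * q * max 0 (t - p - 1) - x ^ q) / (2 * q) ≤ Wf q T m p x := by
  have hT : 0 ≤ T := ht.trans htT
  obtain ⟨s, hs, hst⟩ : ∃ s ∈ Set.Icc (0 : ℝ) 1, s * T = t := by
    rcases hT.eq_or_lt with h0 | h0
    · exact ⟨0, by simp, by rw [zero_mul]; linarith⟩
    · exact ⟨t / T, ⟨div_nonneg ht hT, (div_le_one h0).2 htT⟩, div_mul_cancel₀ t h0.ne'⟩
  unfold Wf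
  refine le_csSup_of_le (b1_W_bdd hT) ⟨s, hs, rfl⟩ ?_
  simp only [hst]
  exact le_max_right _ _

/-- upper bounds are checked on all `t ∈ [0, T]` -/
theorem Wf_le_of {q : ℕ} {T : ℝ} {m : ℝ → ℝ} {p x w : ℝ} (hT : 0 ≤ T) (hw : 0 ≤ w)
    (h : ∀ t, 0 ≤ t → t ≤ T →
      t - max 0 (m t + 2 * q * max 0 (t - p - 1) - x ^ q) / (2 * q) ≤ w) :
    Wf q T m p x ≤ w := by
  unfold Wf
  refine csSup_le (b1_nonempty _) ?_
  rintro _ ⟨s, hs, rfl⟩
  exact max_le hw (h (s * T) (mul_nonneg hs.1 hT) (by nlinarith [hs.1, hs.2]))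

theorem b1_term_mono {q : ℕ} {t A B : ℝ} (h : A ≤ B) :
    t - max 0 B / (2 * (q : ℝ)) ≤ t - max 0 A / (2 * (q : ℝ)) := by
  have : max 0 A / (2 * (q : ℝ)) ≤ max 0 B / (2 * (q : ℝ)) :=
    div_le_div_of_nonneg_right (max_le_max_left 0 h) (by positivity)
  linarith

theorem Wf_mono {q : ℕ} {T : ℝ} {m : ℝ → ℝ} {p x x' : ℝ} (hT : 0 ≤ T) (hx : 0 ≤ x)
    (hxx : x ≤ x') : Wf q T m p x ≤ Wf q T m p x' := by
  refine Wf_le_of hT (Wf_nonneg hT) fun t ht htT => ?_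
  refine le_trans (b1_term_mono ?_) (le_Wf ht htT)
  have := pow_le_pow_left₀ hx hxx q
  linarith

theorem b1_pow {x x' : ℝ} (hx : 0 ≤ x) (hxx : x ≤ x') (hx' : x' ≤ 1) (q : ℕ) :
    x' ^ q - x ^ q ≤ q * (x' - x) := by
  induction q with
  | zero => simp
  | succ q ih =>
    have h0 : 0 ≤ x' ^ q - x ^ q := sub_nonneg.2 (pow_le_pow_left₀ hx hxx q)
    have h1 : x ^ q ≤ 1 := pow_le_one₀ hx (hxx.trans hx')
    have h2 : x' ^ (q + 1) - x ^ (q + 1) = x' * (x' ^ q - x ^ q) + x ^ q * (x' - x) := by ring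
    rw [h2]
    push_cast
    have h3 : x' * (x' ^ q - x ^ q) ≤ 1 * (x' ^ q - x ^ q) := mul_le_mul_of_nonneg_right hx' h0
    have h4 : x ^ q * (x' - x) ≤ 1 * (x' - x) :=
      mul_le_mul_of_nonneg_right h1 (sub_nonneg.2 hxx)
    linarith

theorem Wf_lip {q : ℕ} (hq : 1 ≤ q) {T : ℝ} {m : ℝ → ℝ} {p x x' : ℝ} (hT : 0 ≤ T) (hx : 0 ≤ x)
    (hxx : x ≤ x') (hx' : x' ≤ 1) : Wf q T m p x' - Wf q T m p x ≤ (x' - x) / 2 := by
  have hW := Wf_nonneg (q := q) (m := m) (p := p) (x := x) hT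
  suffices h : Wf q T m p x' ≤ Wf q T m p x + (x' - x) / 2 by linarith
  refine Wf_le_of hT (by linarith) fun t ht htT => ?_
  have h1 := le_Wf (q := q) (m := m) (p := p) (x := x) ht htT
  have h2 := b1_pow hx hxx hx' q
  have hq0 : (0 : ℝ) < q := by exact_mod_cast hq
  set A := m t + 2 * q * max 0 (t - p - 1) with hA
  have h3 : max 0 (A - x ^ q) ≤ max 0 (A - x' ^ q) + q * (x' - x) := by
    refine max_le ?_ ?_
    · have := le_max_left (0 : ℝ) (A - x' ^ q)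
      have h4 : 0 ≤ (q : ℝ) * (x' - x) := mul_nonneg hq0.le (sub_nonneg.2 hxx)
      linarith
    · have := le_max_right (0 : ℝ) (A - x' ^ q)
      linarith
  have h4 : max 0 (A - x ^ q) / (2 * q) ≤ max 0 (A - x' ^ q) / (2 * q) + (x' - x) / 2 := by
    have h5 : (max 0 (A - x' ^ q) + q * (x' - x)) / (2 * q) =
        max 0 (A - x' ^ q) / (2 * q) + (x' - x) / 2 := by
      field_simp
    rw [← h5]
    exact div_le_div_of_nonneg_right h3 (by positivity)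
  linarith

theorem Wf_anti {q : ℕ} {T : ℝ} {m m' : ℝ → ℝ} {p p' x : ℝ} (hT : 0 ≤ T)
    (hm : ∀ t, 0 ≤ t → t ≤ T → m t ≤ m' t) (hp : p' ≤ p) :
    Wf q T m' p' x ≤ Wf q T m p x := by
  refine Wf_le_of hT (Wf_nonneg hT) fun t ht htT => ?_
  refine le_trans (b1_term_mono ?_) (le_Wf ht htT)
  have h1 := hm t ht htT
  have h2 : max 0 (t - p - 1) ≤ max 0 (t - p' - 1) := max_le_max_left 0 (by linarith)
  have h3 : 2 * (q : ℝ) * max 0 (t - p - 1) ≤ 2 * q * max 0 (t - p' - 1) :=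
    mul_le_mul_of_nonneg_left h2 (by positivity)
  linarith

theorem b1_c_term_le {q : ℕ} {T : ℝ} {m : ℝ → ℝ} {p u t : ℝ} (hu : 0 ≤ u) {s : ℝ}
    (hs : s ∈ Set.Icc (0 : ℝ) 1) : max 0 (s * u -
      2 * max 0 (t - u - Wf q T m p (s * u) + s * u)) ≤ u := by
  have h1 := le_max_left (0 : ℝ) (t - u - Wf q T m p (s * u) + s * u)
  have h2 : s * u ≤ u := by nlinarith [hs.1, hs.2]
  exact max_le hu (by linarith)

theorem b1_c_bdd {q : ℕ} {T : ℝ} {m : ℝ → ℝ} {p u t : ℝ} (hu : 0 ≤ u) :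
    BddAbove ((fun s : ℝ => max 0 (s * u -
      2 * max 0 (t - u - Wf q T m p (s * u) + s * u))) '' Set.Icc 0 1) := by
  refine ⟨u, ?_⟩
  rintro _ ⟨s, hs, rfl⟩
  exact b1_c_term_le hu hs

/-- every level `y ∈ [0, u]` gives a lower bound -/
theorem b1_le_cf {q : ℕ} {T : ℝ} {m : ℝ → ℝ} {p u t y : ℝ} (hy : 0 ≤ y) (hyu : y ≤ u) :
    y - 2 * max 0 (t - u - Wf q T m p y + y) ≤ cf q T m p u t := by
  have hu : 0 ≤ u := hy.trans hyu
  obtain ⟨s, hs, hst⟩ : ∃ s ∈ Set.Icc (0 : ℝ) 1, s * u = y := by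
    rcases hu.eq_or_lt with h0 | h0
    · exact ⟨0, by simp, by rw [zero_mul]; linarith⟩
    · exact ⟨y / u, ⟨div_nonneg hy hu, (div_le_one h0).2 hyu⟩, div_mul_cancel₀ y h0.ne'⟩
  unfold cf
  refine le_csSup_of_le (b1_c_bdd hu) ⟨s, hs, rfl⟩ ?_
  simp only [hst]
  exact le_max_right _ _

/-- upper bounds are checked on all `y ∈ [0, u]` -/
theorem b1_cf_le_of {q : ℕ} {T : ℝ} {m : ℝ → ℝ} {p u t w : ℝ} (hu : 0 ≤ u) (hw : 0 ≤ w)
    (h : ∀ y, 0 ≤ y → y ≤ u → y - 2 * max 0 (t - u - Wf q T m p y + y) ≤ w) :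
    cf q T m p u t ≤ w := by
  unfold cf
  refine csSup_le (b1_nonempty _) ?_
  rintro _ ⟨s, hs, rfl⟩
  exact max_le hw (h (s * u) (mul_nonneg hs.1 hu) (by nlinarith [hs.1, hs.2]))

theorem cf_nonneg {q : ℕ} {T : ℝ} {m : ℝ → ℝ} {p u t : ℝ} (hu : 0 ≤ u) : 0 ≤ cf q T m p u t := by
  unfold cf
  refine le_csSup_of_le (b1_c_bdd hu) ⟨0, by simp, rfl⟩ (le_max_left _ _)

theorem cf_le {q : ℕ} {T : ℝ} {m : ℝ → ℝ} {p u t : ℝ} (hu : 0 ≤ u) : cf q T m p u t ≤ u := by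
  unfold cf
  refine csSup_le (b1_nonempty _) ?_
  rintro _ ⟨s, hs, rfl⟩
  exact b1_c_term_le hu hs

theorem cf_anti {q : ℕ} {T : ℝ} {m m' : ℝ → ℝ} {p p' u t : ℝ} (hT : 0 ≤ T) (hu : 0 ≤ u)
    (hm : ∀ t, 0 ≤ t → t ≤ T → m t ≤ m' t) (hp : p' ≤ p) :
    cf q T m' p' u t ≤ cf q T m p u t := by
  refine b1_cf_le_of hu (cf_nonneg hu) fun y hy hyu => ?_
  refine le_trans ?_ (b1_le_cf hy hyu)
  have h1 := Wf_anti (q := q) (x := y) hT hm hp
  have h2 : max 0 (t - u - Wf q T m p y + y) ≤ max 0 (t - u - Wf q T m' p' y + y) :=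
    max_le_max_left 0 (by linarith)
  linarith

/-- `cf` is nonincreasing and 2-Lipschitz in `t` -/
theorem cf_antitone {q : ℕ} {T : ℝ} {m : ℝ → ℝ} {p u t t' : ℝ} (hu : 0 ≤ u) (h : t ≤ t') :
    cf q T m p u t' ≤ cf q T m p u t := by
  refine b1_cf_le_of hu (cf_nonneg hu) fun y hy hyu => ?_
  refine le_trans ?_ (b1_le_cf hy hyu)
  have h2 : max 0 (t - u - Wf q T m p y + y) ≤ max 0 (t' - u - Wf q T m p y + y) :=
    max_le_max_left 0 (by linarith)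
  linarith

theorem cf_lip {q : ℕ} {T : ℝ} {m : ℝ → ℝ} {p u t t' : ℝ} (hu : 0 ≤ u) (h : t ≤ t') :
    cf q T m p u t ≤ cf q T m p u t' + 2 * (t' - t) := by
  have h0 := cf_nonneg (q := q) (T := T) (m := m) (p := p) (t := t') hu
  refine b1_cf_le_of hu (by linarith) fun y hy hyu => ?_
  have h1 := b1_le_cf (q := q) (T := T) (m := m) (p := p) (t := t') hy hyu
  have h2 : max 0 (t' - u - Wf q T m p y + y) ≤
      max 0 (t - u - Wf q T m p y + y) + (t' - t) := by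
    refine max_le ?_ ?_
    · have := le_max_left (0 : ℝ) (t - u - Wf q T m p y + y)
      linarith
    · have := le_max_right (0 : ℝ) (t - u - Wf q T m p y + y)
      linarith
  linarith

/-- Characterization of `cf`. -/
theorem le_cf_iff {q : ℕ} (hq : 1 ≤ q) {T : ℝ} {m : ℝ → ℝ} {p u t x : ℝ} (hT : 0 ≤ T)
    (hu : u ≤ 1) (hx : 0 < x) (hxu : x ≤ u) :
    x ≤ cf q T m p u t ↔ t ≤ Wf q T m p x + (u - x) := by
  constructor
  · intro h
    by_contra hlt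
    rw [not_le] at hlt
    set d := t - (Wf q T m p x + (u - x)) with hd
    have hd0 : 0 < d := by linarith
    have h1 : cf q T m p u t ≤ max 0 (x - d) := by
      refine b1_cf_le_of (by linarith) (le_max_left _ _) fun y hy hyu => ?_
      refine le_trans ?_ (le_max_right _ _)
      have m0 := le_max_left (0 : ℝ) (t - u - Wf q T m p y + y)
      have m1 := le_max_right (0 : ℝ) (t - u - Wf q T m p y + y)
      rcases le_total x y with hxy | hxy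
      · have h2 := Wf_lip hq (m := m) (p := p) hT hx.le hxy (hyu.trans hu)
        linarith
      · have h2 := Wf_mono (q := q) (m := m) (p := p) hT hy hxy
        linarith
    have h2 : max 0 (x - d) < x := max_lt hx (by linarith)
    linarith
  · intro h
    have h1 := b1_le_cf (q := q) (T := T) (m := m) (p := p) (t := t) hx.le hxu
    rw [max_eq_left (by linarith)] at h1
    linarith

/-- Before the peak time `W u` the ball has not started to fall. -/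
theorem cf_eq_self {q : ℕ} {T : ℝ} {m : ℝ → ℝ} {p u t : ℝ} (hu : 0 ≤ u)
    (ht : t ≤ Wf q T m p u) : cf q T m p u t = u := by
  refine le_antisymm (cf_le hu) ?_
  have h1 := b1_le_cf (q := q) (T := T) (m := m) (p := p) (t := t) hu le_rfl
  rw [max_eq_left (by linarith)] at h1
  linarith

/-- After time `W 0 + u` the ball is dead. -/
theorem cf_eq_zero {q : ℕ} (hq : 1 ≤ q) {T : ℝ} {m : ℝ → ℝ} {p u t : ℝ} (hT : 0 ≤ T) (hu : 0 ≤ u)
    (hu1 : u ≤ 1) (ht : Wf q T m p 0 + u ≤ t) : cf q T m p u t = 0 := by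
  refine le_antisymm (b1_cf_le_of hu le_rfl fun y hy hyu => ?_) (cf_nonneg hu)
  have h1 := Wf_lip hq (m := m) (p := p) hT le_rfl hy (hyu.trans hu1)
  have m1 := le_max_right (0 : ℝ) (t - u - Wf q T m p y + y)
  linarith

/-- Speed of falling is at least one. -/
theorem cf_fall {q : ℕ} (hq : 1 ≤ q) {T : ℝ} {m : ℝ → ℝ} {p u t t' : ℝ} (hT : 0 ≤ T) (hu : 0 ≤ u)
    (hu1 : u ≤ 1) (ht : Wf q T m p u ≤ t) (h : t ≤ t') :
    cf q T m p u t' ≤ max 0 (cf q T m p u t - (t' - t)) := by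
  rcases le_or_gt (cf q T m p u t') 0 with h0 | h0
  · exact h0.trans (le_max_left _ _)
  · set x' := cf q T m p u t' with hx'
    have hx'u : x' ≤ u := cf_le hu
    have h1 : t' ≤ Wf q T m p x' + (u - x') :=
      (le_cf_iff hq hT hu1 h0 hx'u).1 le_rfl
    have h2 := Wf_mono (q := q) (m := m) (p := p) hT h0.le hx'u
    have hx0 : 0 < x' + (t' - t) := by linarith
    have hxu : x' + (t' - t) ≤ u := by linarith
    have h3 := Wf_mono (q := q) (m := m) (p := p) (x := x') (x' := x' + (t' - t)) hT h0.le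
      (by linarith)
    have h4 : x' + (t' - t) ≤ cf q T m p u t :=
      (le_cf_iff hq hT hu1 hx0 hxu).2 (by linarith)
    exact le_trans (by linarith) (le_max_right _ _)

end Vale.Agent.P209.Strong
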