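import Vale.Agent.P209.Strong.B0

namespace Vale.Agent.P209.Strong

/-! B1a. Continuity in parameters. -/

theorem Wf_continuous {Θ : Type} [TopologicalSpace Θ] (q : ℕ) {T : Θ → ℝ} {m : Θ → ℝ → ℝ}
    {p x : Θ → ℝ} (hT : Continuous T) (hm : Continuous fun z : Θ × ℝ => m z.1 z.2)
    (hp : Continuous p) (hx : Continuous x) :
    Continuous fun θ => Wf q (T θ) (m θ) (p θ) (x θ) := by
  have hT1 : Continuous fun z : Θ × ℝ => T z.1 := hT.comp continuous_fst
  have hp1 : Continuous fun z : Θ × ℝ => p z.1 := hp.comp continuous_fst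
  have hx1 : Continuous fun z : Θ × ℝ => x z.1 := hx.comp continuous_fst
  have hs : Continuous fun z : Θ × ℝ => z.2 * T z.1 := continuous_snd.mul hT1
  have hm1 : Continuous fun z : Θ × ℝ => m z.1 (z.2 * T z.1) :=
    hm.comp (continuous_fst.prodMk hs)
  have h1 : Continuous fun z : Θ × ℝ => max 0 (m z.1 (z.2 * T z.1) +
      2 * (q : ℝ) * max 0 (z.2 * T z.1 - p z.1 - 1) - x z.1 ^ q) :=
    continuous_const.max ((hm1.add (continuous_const.mul (continuous_const.max
      ((hs.sub hp1).sub continuous_const)))).sub (hx1.pow q))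
  have h2 : Continuous fun z : Θ × ℝ => max 0 (z.2 * T z.1 -
      max 0 (m z.1 (z.2 * T z.1) +
      2 * (q : ℝ) * max 0 (z.2 * T z.1 - p z.1 - 1) - x z.1 ^ q) / (2 * (q : ℝ))) :=
    continuous_const.max (hs.sub (h1.div_const _))
  exact (isCompact_Icc (a := (0 : ℝ)) (b := 1)).continuous_sSup
    (f := fun (θ : Θ) (s : ℝ) => max 0 (s * T θ -
      max 0 (m θ (s * T θ) + 2 * (q : ℝ) * max 0 (s * T θ - p θ - 1) - x θ ^ q) / (2 * (q : ℝ)))) h2

theorem cf_continuous {Θ : Type} [TopologicalSpace Θ] (q : ℕ) {T : Θ → ℝ} {m : Θ → ℝ → ℝ}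
    {p u t : Θ → ℝ} (hT : Continuous T) (hm : Continuous fun z : Θ × ℝ => m z.1 z.2)
    (hp : Continuous p) (hu : Continuous u) (ht : Continuous t) :
    Continuous fun θ => cf q (T θ) (m θ) (p θ) (u θ) (t θ) := by
  have hT1 : Continuous fun z : Θ × ℝ => T z.1 := hT.comp continuous_fst
  have hp1 : Continuous fun z : Θ × ℝ => p z.1 := hp.comp continuous_fst
  have hu1 : Continuous fun z : Θ × ℝ => u z.1 := hu.comp continuous_fst
  have ht1 : Continuous fun z : Θ × ℝ => t z.1 := ht.comp continuous_fst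
  have hs : Continuous fun z : Θ × ℝ => z.2 * u z.1 := continuous_snd.mul hu1
  have hm1 : Continuous fun w : (Θ × ℝ) × ℝ => m w.1.1 w.2 :=
    hm.comp ((continuous_fst.comp continuous_fst).prodMk continuous_snd)
  have hW : Continuous fun z : Θ × ℝ => Wf q (T z.1) (m z.1) (p z.1) (z.2 * u z.1) :=
    Wf_continuous (Θ := Θ × ℝ) q (m := fun z => m z.1) hT1 hm1 hp1 hs
  have h2 : Continuous fun z : Θ × ℝ => max 0 (z.2 * u z.1 -
      2 * max 0 (t z.1 - u z.1 - Wf q (T z.1) (m z.1) (p z.1) (z.2 * u z.1) + z.2 * u z.1)) :=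
    continuous_const.max (hs.sub (continuous_const.mul (continuous_const.max
      (((ht1.sub hu1).sub hW).add hs))))
  exact (isCompact_Icc (a := (0 : ℝ)) (b := 1)).continuous_sSup
    (f := fun (θ : Θ) (s : ℝ) => max 0 (s * u θ -
      2 * max 0 (t θ - u θ - Wf q (T θ) (m θ) (p θ) (s * u θ) + s * u θ))) h2

theorem vf_continuous {Θ : Type} [TopologicalSpace Θ] (q : ℕ) {T : Θ → ℝ} {m : Θ → ℝ → ℝ}
    {p u t : Θ → ℝ} (hT : Continuous T) (hm : Continuous fun z : Θ × ℝ => m z.1 z.2)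
    (hp : Continuous p) (hu : Continuous u) (ht : Continuous t) :
    Continuous fun θ => vf q (T θ) (m θ) (p θ) (u θ) (t θ) := by
  have h1 : Continuous fun θ => max 0 (m θ (t θ)) :=
    continuous_const.max (hm.comp (continuous_id.prodMk ht))
  exact (h1.rpow_const fun _ => Or.inr (inv_nonneg.2 (Nat.cast_nonneg q))).min
    (cf_continuous q hT hm hp hu ht)

end Vale.Agent.P209.Strong
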