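import Vale.Agent.P209.Strong.B1

namespace Vale.Agent.P209.Strong

/-! B2. Placing one ball: characterization of `Wf` and preservation of the invariant. -/

theorem Inv.init {q : ℕ} {T : ℝ} {a : ℝ → ℝ} (h : Target q T a) : Inv q T a a 0 := by
  refine ⟨h.cont, le_refl _, ?_, ?_, ?_, ?_, ?_⟩
  · intro t ht htT
    have h1 := h.lo t ht htT
    have hq : (0 : ℝ) ≤ q := Nat.cast_nonneg q
    linarith
  · intro t _ _
    exact le_refl _
  · intro t ht ht0
    exact absurd ht (not_le.mpr ht0)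
  · intro t t' _ _ _ _
    simp
  · intro t _ _
    rfl

/-- lower bound for the residual in a window of length one -/
private theorem Inv.aux {q : ℕ} {T : ℝ} {a m : ℝ → ℝ} {p : ℝ} (ha : Target q T a)
    (h : Inv q T a m p) {t t' : ℝ} (ht : p ≤ t) (htt : t ≤ t') (hT : t' ≤ T) (h1 : t' ≤ t + 1) :
    min (m t) 1 + (t' - t) * (1 + 2 * q) ≤ m t' + (t' - t) * min (m t) 1 := by
  have hq : (0 : ℝ) ≤ q := Nat.cast_nonneg q
  have hp0 := h.p0
  have ht0 : 0 ≤ t := le_trans hp0 ht
  have hK := h.K t t' ht htt hT h1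
  have hs := ha.slow t t' ht0 htt hT h1
  have hlo := ha.lo t ht0 (le_trans htt hT)
  have hd0 : 0 ≤ t' - t := sub_nonneg.mpr htt
  have hd1 : 0 ≤ 1 - (t' - t) := by linarith
  have hmin : min (m t) 1 ≤ m t := min_le_left _ _
  have e1 : 0 ≤ (1 - (t' - t)) * (m t - min (m t) 1) :=
    mul_nonneg hd1 (sub_nonneg.mpr hmin)
  have e2 : 0 ≤ (t' - t) * (a t - (3 + 5 * q)) := mul_nonneg hd0 (sub_nonneg.mpr hlo)
  have e3 : 0 ≤ (t' - t) * (q : ℝ) := mul_nonneg hd0 hq
  nlinarith

/-- growth of the residual -/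
theorem Inv.growth {q : ℕ} {T : ℝ} {a m : ℝ → ℝ} {p : ℝ} (ha : Target q T a)
    (h : Inv q T a m p) {t t' : ℝ} (ht : p ≤ t) (htt : t ≤ t') (hT : t' ≤ T) :
    min (m t) 1 + 2 * q * (t' - t) ≤ m t' + 2 * q * max 0 (t' - p - 1) := by
  have hq : (0 : ℝ) ≤ q := Nat.cast_nonneg q
  have hmin1 : min (m t) 1 ≤ 1 := min_le_right _ _
  have hd0 : 0 ≤ t' - t := sub_nonneg.mpr htt
  rcases le_or_gt t' (t + 1) with h1 | h1
  · have h2 := Inv.aux ha h ht htt hT h1
    have h3 : 0 ≤ 2 * (q : ℝ) * max 0 (t' - p - 1) :=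
      mul_nonneg (by positivity) (le_max_left _ _)
    have h4 : 0 ≤ (t' - t) * (1 - min (m t) 1) := mul_nonneg hd0 (sub_nonneg.mpr hmin1)
    nlinarith
  · have ht'0 : 0 ≤ t' := le_trans h.p0 (le_trans ht htt)
    have h2 : m t' = a t' := h.eq t' (by linarith) hT
    have h3 := ha.lo t' ht'0 hT
    have h4 : t' - t - 1 ≤ max 0 (t' - p - 1) := le_trans (by linarith) (le_max_right _ _)
    have h5 : 2 * (q : ℝ) * (t' - t - 1) ≤ 2 * (q : ℝ) * max 0 (t' - p - 1) :=
      mul_le_mul_of_nonneg_left h4 (by positivity)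
    rw [h2]
    nlinarith

theorem Inv.ge_min {q : ℕ} {T : ℝ} {a m : ℝ → ℝ} {p : ℝ} (ha : Target q T a)
    (h : Inv q T a m p) {t t' : ℝ} (ht : p ≤ t) (htt : t ≤ t') (hT : t' ≤ T) :
    min (m t) 1 ≤ m t' := by
  have hq : (0 : ℝ) ≤ q := Nat.cast_nonneg q
  have hmin1 : min (m t) 1 ≤ 1 := min_le_right _ _
  have hd0 : 0 ≤ t' - t := sub_nonneg.mpr htt
  rcases le_or_gt t' (t + 1) with h1 | h1
  · have h2 := Inv.aux ha h ht htt hT h1
    have h4 : 0 ≤ (t' - t) * (1 - min (m t) 1) := mul_nonneg hd0 (sub_nonneg.mpr hmin1)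
    have h5 : 0 ≤ (t' - t) * (q : ℝ) := mul_nonneg hd0 hq
    nlinarith
  · have ht'0 : 0 ≤ t' := le_trans h.p0 (le_trans ht htt)
    have h2 : m t' = a t' := h.eq t' (by linarith) hT
    have h3 := ha.lo t' ht'0 hT
    rw [h2]
    linarith

theorem Inv.Wf_le_iff {q : ℕ} (hq : 1 ≤ q) {T : ℝ} {a m : ℝ → ℝ} {p : ℝ} (ha : Target q T a)
    (h : Inv q T a m p) (hp : p ≤ T - 1) {x t : ℝ} (hx : 0 ≤ x) (hx1 : x ≤ 1) (ht : p ≤ t)
    (htT : t ≤ T) : Wf q T m p x ≤ t ↔ x ^ q ≤ m t := by
  have hp0 := h.p0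
  have hT0 : 0 ≤ T := by linarith
  have ht0 : 0 ≤ t := le_trans hp0 ht
  have hqr : (1 : ℝ) ≤ q := by exact_mod_cast hq
  have hq2 : (0 : ℝ) < 2 * q := by linarith
  have hxq1 : x ^ q ≤ 1 := pow_le_one₀ hx hx1
  constructor
  · intro hW
    rcases le_or_gt (p + 1) t with h1 | h1
    · rw [h.eq t h1 htT]
      have := ha.lo t ht0 htT
      linarith
    · -- continuity from the right
      have htlt : t < T := by linarith
      have key : ∀ s, t < s → s ≤ T → x ^ q ≤ m s + 2 * q * max 0 (s - p - 1) := by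
        intro s hs hsT
        have h2 := Vale.Agent.P209.Strong.le_Wf (q := q) (T := T) (m := m) (p := p) (x := x)
          (t := s) (by linarith) hsT
        by_contra hcon
        rw [not_le] at hcon
        rw [max_eq_left (by linarith : m s + 2 * q * max 0 (s - p - 1) - x ^ q ≤ 0)] at h2
        simp only [zero_div, sub_zero] at h2
        linarith
      have hc : Continuous (fun s => m s + 2 * q * max 0 (s - p - 1)) := by
        have := h.cont
        fun_prop
      have h3 : Filter.Tendsto (fun s => m s + 2 * q * max 0 (s - p - 1))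
          (nhdsWithin t (Set.Ioi t)) (nhds (m t + 2 * q * max 0 (t - p - 1))) :=
        (hc.tendsto t).mono_left nhdsWithin_le_nhds
      have h4 : x ^ q ≤ m t + 2 * q * max 0 (t - p - 1) := by
        refine ge_of_tendsto h3 ?_
        filter_upwards [Ioc_mem_nhdsGT htlt] with s hs
        exact key s hs.1 hs.2
      rw [max_eq_left (by linarith : t - p - 1 ≤ 0)] at h4
      simpa using h4
  · intro hm
    refine Wf_le_of hT0 ht0 ?_
    intro s hs0 hsT
    rcases le_or_gt s t with hst | hst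
    · have : 0 ≤ max 0 (m s + 2 * q * max 0 (s - p - 1) - x ^ q) / (2 * q) :=
        div_nonneg (le_max_left _ _) hq2.le
      linarith
    · have hg := Inv.growth ha h ht hst.le hsT
      have hmin : x ^ q ≤ min (m t) 1 := le_min hm hxq1
      have h5 : (s - t) * (2 * q) ≤ max 0 (m s + 2 * q * max 0 (s - p - 1) - x ^ q) := by
        refine le_trans ?_ (le_max_right _ _)
        linarith
      have h6 : s - t ≤ max 0 (m s + 2 * q * max 0 (s - p - 1) - x ^ q) / (2 * q) := by
        rw [le_div_iff₀ hq2]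
        exact h5
      linarith

theorem Inv.le_Wf {q : ℕ} (hq : 1 ≤ q) {T : ℝ} {a m : ℝ → ℝ} {p : ℝ} (ha : Target q T a)
    (h : Inv q T a m p) (hp : p ≤ T - 1) {x : ℝ} (hx : 0 ≤ x) : p ≤ Wf q T m p x := by
  have hp0 := h.p0
  have hT0 : 0 ≤ T := by linarith
  rcases hp0.eq_or_lt with h0 | h0
  · rw [← h0]
    exact Wf_nonneg hT0
  · have hmp : m p = 0 := by
      have h3 : Filter.Tendsto m (nhdsWithin p (Set.Iio p)) (nhds (m p)) :=
        (h.cont.tendsto p).mono_left nhdsWithin_le_nhds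
      have h4 : Filter.Tendsto m (nhdsWithin p (Set.Iio p)) (nhds 0) := by
        refine tendsto_const_nhds.congr' ?_
        filter_upwards [Ico_mem_nhdsLT h0] with s hs
        exact (h.zero s hs.1 hs.2 (by linarith [hs.2])).symm
      exact tendsto_nhds_unique h3 h4
    have h2 := Vale.Agent.P209.Strong.le_Wf (q := q) (T := T) (m := m) (p := p) (x := x)
      (t := p) hp0 (by linarith)
    have hxq : 0 ≤ x ^ q := pow_nonneg hx q
    have e1 : max 0 (p - p - 1) = (0 : ℝ) := max_eq_left (by linarith)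
    rw [hmp, e1, max_eq_left (by simpa using hxq : (0 : ℝ) + 2 * q * 0 - x ^ q ≤ 0)] at h2
    simpa using h2

theorem Inv.Wf_le_add {q : ℕ} (hq : 1 ≤ q) {T : ℝ} {a m : ℝ → ℝ} {p : ℝ} (ha : Target q T a)
    (h : Inv q T a m p) (hp : p ≤ T - 1) {x : ℝ} (hx : 0 ≤ x) (hx1 : x ≤ 1) :
    Wf q T m p x ≤ p + 1 := by
  have hp0 := h.p0
  have hqr : (0 : ℝ) ≤ q := Nat.cast_nonneg q
  rw [Inv.Wf_le_iff hq ha h hp hx hx1 (by linarith) (by linarith),
    h.eq (p + 1) le_rfl (by linarith)]
  have h1 := ha.lo (p + 1) (by linarith) (by linarith)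
  have h2 : x ^ q ≤ 1 := pow_le_one₀ hx hx1
  linarith

/-- The invariant is preserved. -/
theorem Inv.step {q : ℕ} (hq : 1 ≤ q) {T : ℝ} {a m : ℝ → ℝ} {p : ℝ} (ha : Target q T a)
    (h : Inv q T a m p) (hp : p ≤ T - 1) {u : ℝ} (hu : 0 ≤ u) (hu1 : u ≤ 1) :
    Inv q T a (stepm q T m p u) (Wf q T m p u) := by
  have hp0 := h.p0
  have hT0 : 0 ≤ T := by linarith
  have hqr : (0 : ℝ) ≤ q := Nat.cast_nonneg q
  have hq0 : q ≠ 0 := by omega
  have hpW : p ≤ Wf q T m p u := Inv.le_Wf hq ha h hp hu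
  have hcn : ∀ t, 0 ≤ cf q T m p u t := fun t => cf_nonneg hu
  have hcu : ∀ t, cf q T m p u t ≤ u := fun t => cf_le hu
  have hcq : ∀ t, 0 ≤ cf q T m p u t ^ q := fun t => pow_nonneg (hcn t) q
  -- after the peak time the residual is large
  have hbig : ∀ t, Wf q T m p u ≤ t → t ≤ T →
      stepm q T m p u t = m t - cf q T m p u t ^ q := by
    intro t ht htT
    have h1 : u ^ q ≤ m t := (Inv.Wf_le_iff hq ha h hp hu hu1 (le_trans hpW ht) htT).1 ht
    have h2 : cf q T m p u t ^ q ≤ u ^ q := pow_le_pow_left₀ (hcn t) (hcu t) q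
    exact max_eq_right (by linarith)
  refine ⟨?_, Wf_nonneg hT0, ?_, ?_, ?_, ?_, ?_⟩
  · -- continuity
    have hc : Continuous (cf q T m p u) := by
      have hL : LipschitzWith 2 (cf q T m p u) := by
        refine LipschitzWith.of_dist_le_mul ?_
        intro s t
        rw [Real.dist_eq, Real.dist_eq]
        rcases le_total s t with hst | hst
        · have h1 := cf_antitone (q := q) (T := T) (m := m) (p := p) hu hst
          have h2 := cf_lip (q := q) (T := T) (m := m) (p := p) hu hst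
          rw [abs_of_nonneg (by linarith), abs_of_nonpos (by linarith)]
          simp only [NNReal.coe_ofNat]
          linarith
        · have h1 := cf_antitone (q := q) (T := T) (m := m) (p := p) hu hst
          have h2 := cf_lip (q := q) (T := T) (m := m) (p := p) hu hst
          rw [abs_of_nonpos (by linarith), abs_of_nonneg (by linarith)]
          simp only [NNReal.coe_ofNat]
          linarith
      exact hL.continuous
    have hm := h.cont
    unfold stepm
    fun_prop
  · intro t _ _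
    exact le_max_left _ _
  · intro t ht htT
    refine max_le ?_ ?_
    · have := ha.lo t ht htT
      linarith
    · have h1 := h.le t ht htT
      have h2 := hcq t
      linarith
  · intro t ht htW htT
    have h1 : cf q T m p u t = u := cf_eq_self hu htW.le
    have h2 : m t ≤ u ^ q := by
      rcases lt_or_ge t p with h3 | h3
      · rw [h.zero t ht h3 htT]
        exact pow_nonneg hu q
      · by_contra hcon
        rw [not_le] at hcon
        exact absurd ((Inv.Wf_le_iff hq ha h hp hu hu1 h3 htT).2 hcon.le) (not_le.mpr htW)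
    change max 0 (m t - cf q T m p u t ^ q) = 0
    rw [h1]
    exact max_eq_left (by linarith)
  · intro t t' ht htt htT h1
    rw [hbig t ht (le_trans htt htT), hbig t' (le_trans ht htt) htT]
    have hK := h.K t t' (le_trans hpW ht) htt htT h1
    have hf := cf_fall (q := q) hq (T := T) (m := m) (p := p) hT0 hu hu1 ht htt
    have hd0 : 0 ≤ t' - t := sub_nonneg.mpr htt
    have hd1 : 0 ≤ 1 - (t' - t) := by linarith
    have hc0 := hcn t
    have hc1 : cf q T m p u t ≤ 1 := le_trans (hcu t) hu1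
    have e1 : cf q T m p u t' ≤ cf q T m p u t * (1 - (t' - t)) := by
      refine le_trans hf (max_le (mul_nonneg hc0 hd1) ?_)
      nlinarith
    have e2 : cf q T m p u t' ^ q ≤ cf q T m p u t ^ q * (1 - (t' - t)) ^ q := by
      rw [← mul_pow]
      exact pow_le_pow_left₀ (hcn t') e1 q
    have e3 : (1 - (t' - t)) ^ q ≤ 1 - (t' - t) := pow_le_of_le_one hd1 (by linarith) hq0
    have e4 : cf q T m p u t ^ q * (1 - (t' - t)) ^ q ≤
        cf q T m p u t ^ q * (1 - (t' - t)) := mul_le_mul_of_nonneg_left e3 (hcq t)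
    nlinarith
  · intro t ht htT
    have h0 : Wf q T m p 0 ≤ Wf q T m p u := Wf_mono hT0 le_rfl hu
    have h1 : cf q T m p u t = 0 := cf_eq_zero hq hT0 hu hu1 (by linarith)
    have h2 : m t = a t := h.eq t (by linarith) htT
    have h3 : 0 ≤ Wf q T m p u := Wf_nonneg hT0
    have h4 := ha.lo t (by linarith) htT
    change max 0 (m t - cf q T m p u t ^ q) = a t
    rw [h1, h2, zero_pow hq0, sub_zero]
    exact max_eq_right (by linarith)

end Vale.Agent.P209.Strong
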