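import Vale.Agent.P209.Strong.B2

namespace Vale.Agent.P209.Strong

/-! B3. Properties of the slice size `vf` of one ball. -/

set_option linter.unusedSectionVars false

open MeasureTheory in
/-- Layer cake for slices. -/
private theorem layer_cake {k : ℕ} {T u : ℝ} (hT : 0 ≤ T) (hu : 0 ≤ u) {v W : ℝ → ℝ}
    (hv : Continuous v) (hv0 : ∀ t, 0 ≤ v t) (hvu : ∀ t, v t ≤ u)
    (hW : ∀ x, 0 < x → x ≤ u → 0 ≤ W x ∧ W x + (u - x) ≤ T)
    (hiff : ∀ x t, 0 < x → x ≤ u → 0 ≤ t → t ≤ T → (x ≤ v t ↔ W x ≤ t ∧ t ≤ W x + (u - x))) :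
    ∫ t in (0 : ℝ)..T, v t ^ (k + 1) = u ^ (k + 2) / (k + 2) := by
  have hg : Continuous fun x : ℝ => (k + 1 : ℝ) * x ^ k := by fun_prop
  have hlc := lintegral_comp_eq_lintegral_meas_le_mul (volume.restrict (Set.Ioc 0 T))
    (f := v) (g := fun x : ℝ => (k + 1 : ℝ) * x ^ k) (Filter.Eventually.of_forall hv0)
    hv.measurable.aemeasurable (fun t _ => hg.intervalIntegrable _ _)
    (by
      filter_upwards [ae_restrict_mem measurableSet_Ioi] with x hx
      have : (0 : ℝ) < x := hx
      positivity)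
  have hL : ∀ t, ∫ x in (0 : ℝ)..v t, (k + 1 : ℝ) * x ^ k = v t ^ (k + 1) := by
    intro t
    rw [intervalIntegral.integral_const_mul, integral_pow]
    field_simp
    simp
  simp only [hL] at hlc
  have hint : IntegrableOn (fun t => v t ^ (k + 1)) (Set.Ioc 0 T) volume :=
    ((hv.pow _).integrableOn_Icc (a := 0) (b := T)).mono_set Set.Ioc_subset_Icc_self
  rw [← ofReal_integral_eq_lintegral_ofReal hint
    (Filter.Eventually.of_forall fun t => pow_nonneg (hv0 t) _),
    ← intervalIntegral.integral_of_le hT] at hlc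
  -- the right hand side
  have hmeas : ∀ x, 0 < x → x ≤ u → (volume.restrict (Set.Ioc 0 T)) {t | x ≤ v t} =
      ENNReal.ofReal (u - x) := by
    intro x hx hxu
    obtain ⟨h1, h2⟩ := hW x hx hxu
    have hms : MeasurableSet {t | x ≤ v t} := measurableSet_le measurable_const hv.measurable
    rw [Measure.restrict_apply hms]
    refine le_antisymm ?_ ?_
    · calc volume ({t | x ≤ v t} ∩ Set.Ioc 0 T) ≤ volume (Set.Icc (W x) (W x + (u - x))) := by
            refine measure_mono ?_
            rintro t ⟨ht1, ht2⟩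
            exact (hiff x t hx hxu ht2.1.le ht2.2).1 ht1
        _ = ENNReal.ofReal (u - x) := by
            rw [Real.volume_Icc]
            congr 1
            ring
    · calc ENNReal.ofReal (u - x) = volume (Set.Ioc (W x) (W x + (u - x))) := by
            rw [Real.volume_Ioc]
            congr 1
            ring
        _ ≤ volume ({t | x ≤ v t} ∩ Set.Ioc 0 T) := by
            refine measure_mono ?_
            rintro t ⟨ht1, ht2⟩
            have h3 : 0 < t := lt_of_le_of_lt h1 ht1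
            have h4 : t ≤ T := ht2.trans h2
            exact ⟨(hiff x t hx hxu h3.le h4).2 ⟨ht1.le, ht2⟩, h3, h4⟩
  have hR : ∫⁻ x in Set.Ioi (0 : ℝ), (volume.restrict (Set.Ioc 0 T)) {t | x ≤ v t} *
      ENNReal.ofReal ((k + 1 : ℝ) * x ^ k) =
      ∫⁻ x in Set.Ioc (0 : ℝ) u, ENNReal.ofReal ((u - x) * ((k + 1 : ℝ) * x ^ k)) := by
    rw [← lintegral_indicator measurableSet_Ioi, ← lintegral_indicator measurableSet_Ioc]
    congr 1
    funext x
    by_cases hx : 0 < x
    · by_cases hxu : x ≤ u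
      · rw [Set.indicator_of_mem (show x ∈ Set.Ioi 0 from hx),
          Set.indicator_of_mem (show x ∈ Set.Ioc 0 u from ⟨hx, hxu⟩), hmeas x hx hxu,
          ← ENNReal.ofReal_mul (by linarith)]
      · rw [Set.indicator_of_mem (show x ∈ Set.Ioi 0 from hx),
          Set.indicator_of_notMem (fun h' : x ∈ Set.Ioc 0 u => hxu h'.2)]
        have : {t | x ≤ v t} = ∅ := by
          ext t
          simp only [Set.mem_ofPred_eq, Set.mem_empty_iff_false, iff_false, not_le]
          exact lt_of_le_of_lt (hvu t) (not_le.1 hxu)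
        rw [this, measure_empty, zero_mul]
    · rw [Set.indicator_of_notMem (show x ∉ Set.Ioi 0 from hx),
          Set.indicator_of_notMem (fun h' : x ∈ Set.Ioc 0 u => hx h'.1)]
  rw [hR] at hlc
  have hint2 : IntegrableOn (fun x : ℝ => (u - x) * ((k + 1 : ℝ) * x ^ k)) (Set.Ioc 0 u) volume :=
    ((by fun_prop : Continuous fun x : ℝ => (u - x) * ((k + 1 : ℝ) * x ^ k)).integrableOn_Icc
      (a := 0) (b := u)).mono_set Set.Ioc_subset_Icc_self
  rw [← ofReal_integral_eq_lintegral_ofReal hint2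
    (by
      filter_upwards [ae_restrict_mem measurableSet_Ioc] with x hx
      have h1 : 0 < x := hx.1
      have h2 : 0 ≤ u - x := by linarith [hx.2]
      positivity), ← intervalIntegral.integral_of_le hu] at hlc
  have hval : ∫ x in (0 : ℝ)..u, (u - x) * ((k + 1 : ℝ) * x ^ k) = u ^ (k + 2) / (k + 2) := by
    have h1 : ∀ x : ℝ, (u - x) * ((k + 1 : ℝ) * x ^ k) =
        ((k + 1 : ℝ) * u) * x ^ k - (k + 1 : ℝ) * x ^ (k + 1) := by
      intro x
      ring
    simp only [h1]
    have hc1 : Continuous fun x : ℝ => (k + 1 : ℝ) * u * x ^ k := by fun_prop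
    have hc2 : Continuous fun x : ℝ => (k + 1 : ℝ) * x ^ (k + 1) := by fun_prop
    rw [intervalIntegral.integral_sub (hc1.intervalIntegrable _ _) (hc2.intervalIntegrable _ _),
      intervalIntegral.integral_const_mul, intervalIntegral.integral_const_mul, integral_pow,
      integral_pow]
    have h2 : (k : ℝ) + 1 ≠ 0 := by positivity
    have h3 : (k : ℝ) + 2 ≠ 0 := by positivity
    push_cast
    have h4 : (k : ℝ) + 1 + 1 ≠ 0 := by positivity
    rw [zero_pow (by omega), zero_pow (by omega)]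
    field_simp
    ring
  rw [hval] at hlc
  rw [ENNReal.ofReal_eq_ofReal_iff ?_ (by positivity)] at hlc
  · exact hlc
  · refine intervalIntegral.integral_nonneg hT fun t _ => pow_nonneg (hv0 t) _

section
variable {q : ℕ} (hq : 1 ≤ q) {T : ℝ} {a m : ℝ → ℝ} {p u : ℝ} (ha : Target q T a)
  (h : Inv q T a m p) (hp : p ≤ T - 1) (hu : 0 ≤ u) (hu1 : u ≤ 1)
include hq ha h hp hu hu1

theorem vf_nonneg (t : ℝ) : 0 ≤ vf q T m p u t :=
  le_min (Real.rpow_nonneg (le_max_left _ _) _) (cf_nonneg hu)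

theorem vf_le (t : ℝ) : vf q T m p u t ≤ u := (min_le_right _ _).trans (cf_le hu)

theorem le_vf_iff {x t : ℝ} (hx : 0 < x) (hxu : x ≤ u) (ht : 0 ≤ t) (htT : t ≤ T) :
    x ≤ vf q T m p u t ↔ Wf q T m p x ≤ t ∧ t ≤ Wf q T m p x + (u - x) := by
  have hT : 0 ≤ T := by linarith [h.p0]
  have hq0 : (0 : ℝ) < q := by exact_mod_cast (lt_of_lt_of_le one_pos hq)
  have hxq : 0 < x ^ q := pow_pos hx q
  rw [vf, le_min_iff, le_cf_iff hq hT hu1 hx hxu,
    Real.le_rpow_inv_iff_of_pos hx.le (le_max_left _ _) hq0, Real.rpow_natCast]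
  have hmax : x ^ q ≤ max 0 (m t) ↔ x ^ q ≤ m t := by
    rw [le_max_iff]
    constructor
    · rintro (h1 | h1)
      · exact absurd h1 (not_le.2 hxq)
      · exact h1
    · exact Or.inr
  rw [hmax]
  refine and_congr_left fun _ => ?_
  by_cases htp : p ≤ t
  · exact (h.Wf_le_iff hq ha hp hx.le (hxu.trans hu1) htp htT).symm
  · rw [not_le] at htp
    constructor
    · intro h1
      rw [h.zero t ht htp htT] at h1
      exact absurd h1 (not_le.2 hxq)
    · intro h1
      have := h.le_Wf hq ha hp hx.le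
      linarith

theorem stepm_eq {t : ℝ} (ht : 0 ≤ t) (htT : t ≤ T) :
    stepm q T m p u t = m t - vf q T m p u t ^ q := by
  have hm := h.nn t ht htT
  have hq0 : q ≠ 0 := by omega
  rw [stepm, vf, max_eq_right hm]
  have hr : (m t ^ ((q : ℝ)⁻¹)) ^ q = m t := Real.rpow_inv_natCast_pow hm hq0
  have hr0 : 0 ≤ m t ^ ((q : ℝ)⁻¹) := Real.rpow_nonneg hm _
  have hc0 : 0 ≤ cf q T m p u t := cf_nonneg hu
  rcases le_total (m t ^ ((q : ℝ)⁻¹)) (cf q T m p u t) with h1 | h1
  · rw [min_eq_left h1, hr, sub_self]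
    have h2 := pow_le_pow_left₀ hr0 h1 q
    rw [hr] at h2
    exact max_eq_left (by linarith)
  · rw [min_eq_right h1]
    have h2 := pow_le_pow_left₀ hc0 h1 q
    rw [hr] at h2
    exact max_eq_right (by linarith)

theorem vf_eq_cf {t : ℝ} (ht : Wf q T m p u ≤ t) (htT : t ≤ T) :
    vf q T m p u t = cf q T m p u t := by
  have hq0 : (0 : ℝ) < q := by exact_mod_cast (lt_of_lt_of_le one_pos hq)
  have hpW := h.le_Wf hq ha hp hu
  have h1 : u ^ q ≤ m t := (h.Wf_le_iff hq ha hp hu hu1 (hpW.trans ht) htT).1 ht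
  have hc0 : 0 ≤ cf q T m p u t := cf_nonneg hu
  rw [vf]
  refine min_eq_right ?_
  rw [Real.le_rpow_inv_iff_of_pos hc0 (le_max_left _ _) hq0, Real.rpow_natCast]
  exact ((pow_le_pow_left₀ hc0 (cf_le hu) q).trans h1).trans (le_max_right _ _)

theorem vf_support {t : ℝ} (ht : 0 ≤ t) (htT : t ≤ T) (hv : 0 < vf q T m p u t) :
    Wf q T m p u - 1 / 2 ≤ t ∧ t ≤ Wf q T m p u + 1 := by
  have hT : 0 ≤ T := by linarith [h.p0]
  have hle := vf_le hq ha h hp hu hu1 t
  obtain ⟨h1, h2⟩ := (le_vf_iff hq ha h hp hu hu1 hv hle ht htT).1 le_rfl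
  have h3 := Wf_lip (m := m) (p := p) hq hT hv.le hle hu1
  have h4 := Wf_mono (q := q) (m := m) (p := p) hT hv.le hle
  constructor
  · linarith
  · linarith

theorem vf_lower {t : ℝ} (ht : Wf q T m p u ≤ t) (htT : t ≤ T) :
    u - 2 * (t - Wf q T m p u) ≤ vf q T m p u t := by
  rw [vf_eq_cf hq ha h hp hu hu1 ht htT]
  have h1 := cf_lip (q := q) (T := T) (m := m) (p := p) hu ht
  rw [cf_eq_self (q := q) (T := T) (m := m) (p := p) hu (le_refl _)] at h1
  linarith

theorem vf_integral (hW : Wf q T m p u ≤ T - 1) :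
    ∫ t in (0 : ℝ)..T, vf q T m p u t ^ q = u ^ (q + 1) / (q + 1) := by
  have hT : 0 ≤ T := by linarith [h.p0]
  obtain ⟨k, rfl⟩ : ∃ k, q = k + 1 := ⟨q - 1, by omega⟩
  have hc : Continuous fun t : ℝ => vf (k + 1) T m p u t :=
    vf_continuous (Θ := ℝ) (k + 1) (T := fun _ => T) (m := fun _ => m) (p := fun _ => p)
      (u := fun _ => u) (t := fun t => t) continuous_const (h.cont.comp continuous_snd)
      continuous_const continuous_const continuous_id
  have := layer_cake (k := k) hT hu hc (vf_nonneg hq ha h hp hu hu1) (vf_le hq ha h hp hu hu1)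
    (W := Wf (k + 1) T m p) (fun x hx hxu => ⟨Wf_nonneg hT, by
      have h4 := Wf_mono (q := k + 1) (m := m) (p := p) hT hx.le hxu
      linarith⟩)
    (fun x t hx hxu ht htT => le_vf_iff hq ha h hp hu hu1 hx hxu ht htT)
  rw [this]
  push_cast
  congr 1
  ring

end

end Vale.Agent.P209.Strong
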