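import Vale.Agent.P209.Strong.B1

namespace Vale.Agent.P209.Strong

/-! B4a. Continuity and monotonicity of the evolution of a sequence of balls. -/

theorem eM_continuous {Θ : Type} [TopologicalSpace Θ] (q : ℕ) {T : Θ → ℝ} {a : Θ → ℝ → ℝ}
    {u : ℕ → Θ → ℝ} (hT : Continuous T) (ha : Continuous fun z : Θ × ℝ => a z.1 z.2)
    (hu : ∀ i, Continuous (u i)) (i : ℕ) :
    (Continuous fun z : Θ × ℝ => eM q (T z.1) (a z.1) (fun j => u j z.1) i z.2) ∧
    Continuous fun θ => eP q (T θ) (a θ) (fun j => u j θ) i := by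
  induction i with
  | zero => exact ⟨ha, continuous_const⟩
  | succ i ih =>
    obtain ⟨h1, h2⟩ := ih
    have hm : Continuous fun z : (Θ × ℝ) × ℝ =>
        (fun z : Θ × ℝ => eM q (T z.1) (a z.1) (fun j => u j z.1) i) z.1 z.2 :=
      h1.comp ((continuous_fst.comp continuous_fst).prodMk continuous_snd)
    refine ⟨?_, ?_⟩
    · have h3 : Continuous fun z : Θ × ℝ => cf q (T z.1)
          (eM q (T z.1) (a z.1) (fun j => u j z.1) i)
          (eP q (T z.1) (a z.1) (fun j => u j z.1) i) (u i z.1) z.2 :=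
        cf_continuous (Θ := Θ × ℝ) q (hT.comp continuous_fst) hm (h2.comp continuous_fst)
          ((hu i).comp continuous_fst) continuous_snd
      exact continuous_const.max (h1.sub (h3.pow q))
    · exact Wf_continuous q hT h1 h2 (hu i)

theorem ev_continuous {Θ : Type} [TopologicalSpace Θ] (q : ℕ) {T : Θ → ℝ} {a : Θ → ℝ → ℝ}
    {u : ℕ → Θ → ℝ} (hT : Continuous T) (ha : Continuous fun z : Θ × ℝ => a z.1 z.2)
    (hu : ∀ i, Continuous (u i)) (i : ℕ) :
    Continuous fun z : Θ × ℝ => ev q (T z.1) (a z.1) (fun j => u j z.1) i z.2 := by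
  obtain ⟨h1, h2⟩ := eM_continuous q hT ha hu i
  have hm : Continuous fun z : (Θ × ℝ) × ℝ =>
      (fun z : Θ × ℝ => eM q (T z.1) (a z.1) (fun j => u j z.1) i) z.1 z.2 :=
    h1.comp ((continuous_fst.comp continuous_fst).prodMk continuous_snd)
  exact vf_continuous (Θ := Θ × ℝ) q (hT.comp continuous_fst) hm (h2.comp continuous_fst)
    ((hu i).comp continuous_fst) continuous_snd

theorem eW_continuous {Θ : Type} [TopologicalSpace Θ] (q : ℕ) {T : Θ → ℝ} {a : Θ → ℝ → ℝ}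
    {u : ℕ → Θ → ℝ} (hT : Continuous T) (ha : Continuous fun z : Θ × ℝ => a z.1 z.2)
    (hu : ∀ i, Continuous (u i)) (i : ℕ) :
    Continuous fun z : Θ × ℝ => eW q (T z.1) (a z.1) (fun j => u j z.1) i z.2 := by
  obtain ⟨h1, h2⟩ := eM_continuous q hT ha hu i
  have hm : Continuous fun z : (Θ × ℝ) × ℝ =>
      (fun z : Θ × ℝ => eM q (T z.1) (a z.1) (fun j => u j z.1) i) z.1 z.2 :=
    h1.comp ((continuous_fst.comp continuous_fst).prodMk continuous_snd)
  exact Wf_continuous (Θ := Θ × ℝ) q (hT.comp continuous_fst) hm (h2.comp continuous_fst)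
    continuous_snd

/-- The evolution is order preserving (unconditionally). -/
theorem evo_mono {q : ℕ} {T : ℝ} (hT : 0 ≤ T) {a a' : ℝ → ℝ} {u : ℕ → ℝ}
    (hu : ∀ i, 0 ≤ u i) (h : ∀ t, 0 ≤ t → t ≤ T → a t ≤ a' t) (i : ℕ) :
    (∀ t, 0 ≤ t → t ≤ T → eM q T a u i t ≤ eM q T a' u i t) ∧
      eP q T a' u i ≤ eP q T a u i := by
  induction i with
  | zero => exact ⟨h, le_rfl⟩
  | succ i ih =>
    obtain ⟨h1, h2⟩ := ih
    refine ⟨fun t ht htT => ?_, Wf_anti hT h1 h2⟩
    refine max_le_max le_rfl (sub_le_sub (h1 t ht htT) ?_)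
    exact pow_le_pow_left₀ (cf_nonneg (hu i)) (cf_anti hT (hu i) h1 h2) q

end Vale.Agent.P209.Strong
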