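import Vale.Agent.P209.Strong.B3
import Vale.Agent.P209.Strong.B4a

namespace Vale.Agent.P209.Strong

/-! B4. The evolution of a sequence of balls. -/

section B4aux

lemma b4_eM_zero (q : ℕ) (T : ℝ) (a : ℝ → ℝ) (u : ℕ → ℝ) : eM q T a u 0 = a := rfl

lemma b4_eP_zero (q : ℕ) (T : ℝ) (a : ℝ → ℝ) (u : ℕ → ℝ) : eP q T a u 0 = 0 := rfl

lemma b4_eM_succ (q : ℕ) (T : ℝ) (a : ℝ → ℝ) (u : ℕ → ℝ) (i : ℕ) :
    eM q T a u (i + 1) = stepm q T (eM q T a u i) (eP q T a u i) (u i) := rfl

lemma b4_eP_succ (q : ℕ) (T : ℝ) (a : ℝ → ℝ) (u : ℕ → ℝ) (i : ℕ) :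
    eP q T a u (i + 1) = Wf q T (eM q T a u i) (eP q T a u i) (u i) := rfl

lemma b4_pow_sub (q : ℕ) {x y : ℝ} (hy : 0 ≤ y) (hyx : y ≤ x) (hx : x ≤ 1) :
    x ^ q - y ^ q ≤ q * (x - y) := by
  induction q with
  | zero => simp
  | succ q ih =>
    have h1 : 0 ≤ x ^ q - y ^ q := sub_nonneg.2 (pow_le_pow_left₀ hy hyx q)
    have h2 : y ^ q ≤ 1 := pow_le_one₀ hy (hyx.trans hx)
    have h3 : 0 ≤ y ^ q := pow_nonneg hy q
    have h4 : x ^ (q + 1) - y ^ (q + 1) = x * (x ^ q - y ^ q) + y ^ q * (x - y) := by ring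
    rw [h4]
    have h5 : x * (x ^ q - y ^ q) ≤ 1 * (x ^ q - y ^ q) := mul_le_mul_of_nonneg_right hx h1
    have h6 : y ^ q * (x - y) ≤ 1 * (x - y) :=
      mul_le_mul_of_nonneg_right h2 (sub_nonneg.2 hyx)
    push_cast
    linarith

lemma b4_pow_fall {q : ℕ} (hq : 1 ≤ q) {x y d : ℝ} (hx : 0 ≤ x) (hx1 : x ≤ 1) (hd : 0 ≤ d)
    (hd1 : d ≤ 1) (hy : 0 ≤ y) (h : y ≤ max 0 (x - d)) : y ^ q ≤ (1 - d) * x ^ q := by
  obtain ⟨r, rfl⟩ : ∃ r, q = r + 1 := ⟨q - 1, by omega⟩
  rcases le_total x d with hxd | hxd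
  · have : y = 0 := le_antisymm (h.trans (by rw [max_eq_left (by linarith)])) hy
    rw [this, zero_pow (by omega)]
    exact mul_nonneg (by linarith) (pow_nonneg hx _)
  · rw [max_eq_right (by linarith)] at h
    have h1 : y ^ r ≤ x ^ r := pow_le_pow_left₀ hy (by linarith) r
    have h2 : 0 ≤ x ^ r := pow_nonneg hx r
    calc y ^ (r + 1) = y ^ r * y := pow_succ _ _
      _ ≤ x ^ r * (x - d) := mul_le_mul h1 h hy h2
      _ ≤ x ^ r * (x - d * x) := by
          apply mul_le_mul_of_nonneg_left _ h2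
          nlinarith
      _ = (1 - d) * x ^ (r + 1) := by ring

end B4aux

section
variable {q : ℕ} (hq : 1 ≤ q) {T : ℝ} {a : ℝ → ℝ} {u : ℕ → ℝ} (ha : Target q T a)
  (hu : ∀ i, 0 ≤ u i ∧ u i ≤ 1)
include hq ha hu

theorem evo_inv {n : ℕ} (hP : ∀ i, i < n → eP q T a u i ≤ T - 1) :
    Inv q T a (eM q T a u n) (eP q T a u n) := by
  induction n with
  | zero => exact Inv.init ha
  | succ n ih =>
    exact Inv.step hq ha (ih fun i hi => hP i (by omega)) (hP n (by omega)) (hu n).1 (hu n).2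

theorem eP_mono {n : ℕ} (hP : ∀ i, i < n → eP q T a u i ≤ T - 1) {i j : ℕ} (hij : i ≤ j)
    (hj : j ≤ n) : eP q T a u i ≤ eP q T a u j := by
  induction j, hij using Nat.le_induction with
  | base => exact le_rfl
  | succ j hij ih =>
    refine (ih (by omega)).trans ?_
    rw [b4_eP_succ]
    exact Inv.le_Wf hq ha (evo_inv hq ha hu fun i hi => hP i (by omega)) (hP j (by omega)) (hu j).1

theorem eM_eq {n : ℕ} (hP : ∀ i, i < n → eP q T a u i ≤ T - 1) {t : ℝ} (ht : 0 ≤ t)
    (htT : t ≤ T) : eM q T a u n t = a t - ∑ j ∈ Finset.range n, ev q T a u j t ^ q := by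
  induction n with
  | zero => simp [b4_eM_zero]
  | succ n ih =>
    have hinv := evo_inv hq ha hu (n := n) fun i hi => hP i (by omega)
    rw [b4_eM_succ, stepm_eq hq ha hinv (hP n (by omega)) (hu n).1 (hu n).2 ht htT,
      ih fun i hi => hP i (by omega), Finset.sum_range_succ]
    simp only [ev]
    ring

/-- Tail balls at the beginning all have their peak at time `0`. -/
theorem eP_eq_zero {k : ℕ} (hT : 1 ≤ T) (h : ∑ j ∈ Finset.range k, u j ^ q + 1 ≤ a 0) {i : ℕ}
    (hi : i ≤ k) : eP q T a u i = 0 := by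
  have key : ∀ i, i ≤ k → (∀ j, j ≤ i → eP q T a u j = 0) ∧
      eM q T a u i 0 = a 0 - ∑ j ∈ Finset.range i, u j ^ q := by
    intro i
    induction i with
    | zero =>
      intro _
      refine ⟨fun j hj => ?_, by simp [b4_eM_zero]⟩
      obtain rfl : j = 0 := by omega
      exact b4_eP_zero _ _ _ _
    | succ i ih =>
      intro hik
      obtain ⟨h1, h2⟩ := ih (by omega)
      have hP : ∀ j, j < i → eP q T a u j ≤ T - 1 := by
        intro j hj
        rw [h1 j (by omega)]
        linarith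
      have hPi : eP q T a u i ≤ T - 1 := by rw [h1 i le_rfl]; linarith
      have hinv := evo_inv hq ha hu hP
      have hM : u i ^ q ≤ eM q T a u i 0 := by
        rw [h2]
        have e1 : ∑ j ∈ Finset.range i, u j ^ q ≤ ∑ j ∈ Finset.range k, u j ^ q :=
          Finset.sum_le_sum_of_subset_of_nonneg (Finset.range_mono (by omega))
            fun j _ _ => pow_nonneg (hu j).1 q
        have e2 : u i ^ q ≤ 1 := pow_le_one₀ (hu i).1 (hu i).2
        linarith
      have hW0 : Wf q T (eM q T a u i) (eP q T a u i) (u i) ≤ 0 :=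
        (Inv.Wf_le_iff hq ha hinv hPi (hu i).1 (hu i).2 (le_of_eq (h1 i le_rfl))
          (by linarith)).2 hM
      have hW1 : 0 ≤ Wf q T (eM q T a u i) (eP q T a u i) (u i) := Wf_nonneg (by linarith)
      refine ⟨fun j hj => ?_, ?_⟩
      · rcases Nat.lt_or_ge j (i + 1) with hj' | hj'
        · exact h1 j (by omega)
        · obtain rfl : j = i + 1 := by omega
          rw [b4_eP_succ]
          exact le_antisymm hW0 hW1
      · rw [b4_eM_succ, stepm_eq hq ha hinv hPi (hu i).1 (hu i).2 le_rfl (by linarith),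
          vf_eq_cf hq ha hinv hPi (hu i).1 (hu i).2 hW0 (by linarith),
          cf_eq_self (hu i).1 hW1, h2, Finset.sum_range_succ]
        ring
  exact (key i hi).1 i le_rfl

omit hq ha in
lemma b4_ev_nonneg (hq : 1 ≤ q) (ha : Target q T a) {n : ℕ}
    (hP : ∀ i, i < n → eP q T a u i ≤ T - 1) {j : ℕ} (hj : j < n) (t : ℝ) :
    0 ≤ ev q T a u j t :=
  vf_nonneg hq ha (evo_inv hq ha hu fun i hi => hP i (by omega)) (hP j hj) (hu j).1 (hu j).2 t

omit hq ha in
lemma b4_ev_le (hq : 1 ≤ q) (ha : Target q T a) {n : ℕ}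
    (hP : ∀ i, i < n → eP q T a u i ≤ T - 1) {j : ℕ} (hj : j < n) (t : ℝ) :
    ev q T a u j t ≤ u j :=
  vf_le hq ha (evo_inv hq ha hu fun i hi => hP i (by omega)) (hP j hj) (hu j).1 (hu j).2 t

omit hq ha in
lemma b4_ev_eq_cf (hq : 1 ≤ q) (ha : Target q T a) {n : ℕ}
    (hP : ∀ i, i < n → eP q T a u i ≤ T - 1) {j : ℕ} (hj : j < n) {t : ℝ}
    (ht : eP q T a u (j + 1) ≤ t) (htT : t ≤ T) :
    ev q T a u j t = cf q T (eM q T a u j) (eP q T a u j) (u j) t :=
  vf_eq_cf hq ha (evo_inv hq ha hu fun i hi => hP i (by omega)) (hP j hj) (hu j).1 (hu j).2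
    (by rwa [b4_eP_succ] at ht) htT

/-- A definite mass of balls has its peak in `[t - d, t]`. -/
theorem mass_window {n : ℕ} (hP : ∀ i, i < n → eP q T a u i ≤ T - 1) {t d : ℝ} (ht : 0 ≤ t)
    (htT : t ≤ T) (htn : t < eP q T a u n) (hd : 0 < d) (hd1 : d ≤ 1) :
    7 / 8 * d * a t - 1 ≤ ∑ j ∈ (Finset.range n).filter
      (fun j => t - d ≤ eP q T a u (j + 1) ∧ eP q T a u (j + 1) ≤ t), u j ^ q := by
  classical
  -- the index `i2`
  obtain ⟨i2, hi2n, hi2t, hi2s⟩ : ∃ i2, i2 < n ∧ eP q T a u i2 ≤ t ∧ t < eP q T a u (i2 + 1) := by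
    have hex : ∃ m, t < eP q T a u m := ⟨n, htn⟩
    have hm := Nat.find_spec hex
    have hmn : Nat.find hex ≤ n := Nat.find_min' hex htn
    have hm0 : Nat.find hex ≠ 0 := by
      intro h0
      rw [h0, b4_eP_zero] at hm
      linarith
    obtain ⟨i, hi⟩ : ∃ i, Nat.find hex = i + 1 := ⟨Nat.find hex - 1, by omega⟩
    refine ⟨i, by omega, ?_, by rwa [hi] at hm⟩
    have := Nat.find_min hex (m := i) (by omega)
    exact not_lt.1 this
  have hT0 : 0 ≤ T := ht.trans htT
  have hP2 : ∀ i, i < i2 → eP q T a u i ≤ T - 1 := fun i hi => hP i (by omega)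
  have hinv := evo_inv hq ha hu hP2
  have hat : 0 ≤ a t := by
    have := ha.lo t ht htT
    have h5 : (0 : ℝ) ≤ 5 * q := by positivity
    linarith
  have hM : eM q T a u i2 t < 1 := by
    have h1 : ¬ (u i2 ^ q ≤ eM q T a u i2 t) := by
      rw [← Inv.Wf_le_iff hq ha hinv (hP i2 hi2n) (hu i2).1 (hu i2).2 hi2t htT]
      rw [b4_eP_succ] at hi2s
      exact not_le.2 hi2s
    have h2 : u i2 ^ q ≤ 1 := pow_le_one₀ (hu i2).1 (hu i2).2
    linarith [not_le.1 h1]
  rw [eM_eq hq ha hu hP2 ht htT] at hM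
  -- split the sum
  set v : ℕ → ℝ → ℝ := fun j s => ev q T a u j s with hv
  have hvn : ∀ j, j < i2 → ∀ s, 0 ≤ v j s := fun j hj s =>
    b4_ev_nonneg hu hq ha hP2 hj s
  have hvu : ∀ j, j < i2 → ∀ s, v j s ≤ u j := fun j hj s =>
    b4_ev_le hu hq ha hP2 hj s
  have hPj : ∀ j, j < i2 → eP q T a u (j + 1) ≤ t := fun j hj =>
    (eP_mono hq ha hu (n := i2) hP2 (by omega) le_rfl).trans hi2t
  have hsplit := Finset.sum_filter_add_sum_filter_not (Finset.range i2)
    (fun j => t - d ≤ eP q T a u (j + 1)) (fun j => v j t ^ q)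
  -- window part
  have hwin : ∑ j ∈ (Finset.range i2).filter (fun j => t - d ≤ eP q T a u (j + 1)), v j t ^ q ≤
      ∑ j ∈ (Finset.range n).filter
      (fun j => t - d ≤ eP q T a u (j + 1) ∧ eP q T a u (j + 1) ≤ t), u j ^ q := by
    calc ∑ j ∈ (Finset.range i2).filter (fun j => t - d ≤ eP q T a u (j + 1)), v j t ^ q
        ≤ ∑ j ∈ (Finset.range i2).filter (fun j => t - d ≤ eP q T a u (j + 1)), u j ^ q := by
          refine Finset.sum_le_sum fun j hj => ?_
          rw [Finset.mem_filter, Finset.mem_range] at hj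
          exact pow_le_pow_left₀ (hvn j hj.1 t) (hvu j hj.1 t) q
      _ ≤ _ := by
          refine Finset.sum_le_sum_of_subset_of_nonneg ?_ fun j _ _ => pow_nonneg (hu j).1 q
          intro j hj
          rw [Finset.mem_filter, Finset.mem_range] at hj ⊢
          exact ⟨by omega, hj.2, hPj j hj.1⟩
  -- old part
  have hold : ∑ j ∈ (Finset.range i2).filter (fun j => ¬ (t - d ≤ eP q T a u (j + 1))),
      v j t ^ q ≤ (1 - 7 / 8 * d) * a t := by
    rcases lt_or_ge (t - d) 0 with htd | htd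
    · have hempty : (Finset.range i2).filter (fun j => ¬ (t - d ≤ eP q T a u (j + 1))) = ∅ := by
        rw [Finset.filter_eq_empty_iff]
        intro j _
        rw [not_not]
        have : 0 ≤ eP q T a u (j + 1) := by
          rw [b4_eP_succ]
          exact Wf_nonneg hT0
        linarith
      rw [hempty, Finset.sum_empty]
      exact mul_nonneg (by linarith) hat
    · have h1 : ∀ j ∈ (Finset.range i2).filter (fun j => ¬ (t - d ≤ eP q T a u (j + 1))),
          v j t ^ q ≤ (1 - d) * v j (t - d) ^ q := by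
        intro j hj
        rw [Finset.mem_filter, Finset.mem_range, not_le] at hj
        obtain ⟨hj1, hj2⟩ := hj
        have e1 : v j t = cf q T (eM q T a u j) (eP q T a u j) (u j) t :=
          b4_ev_eq_cf hu hq ha hP2 hj1 (hPj j hj1) htT
        have e2 : v j (t - d) = cf q T (eM q T a u j) (eP q T a u j) (u j) (t - d) :=
          b4_ev_eq_cf hu hq ha hP2 hj1 hj2.le (by linarith)
        have e3 := cf_fall (q := q) hq (T := T) (m := eM q T a u j) (p := eP q T a u j)
          (u := u j) (t := t - d) (t' := t) hT0 (hu j).1 (hu j).2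
          (by rw [← b4_eP_succ]; exact hj2.le) (by linarith)
        rw [← e1, ← e2] at e3
        have e4 : t - (t - d) = d := by ring
        rw [e4] at e3
        exact b4_pow_fall hq (hvn j hj1 _) ((hvu j hj1 _).trans (hu j).2) hd.le hd1
          (hvn j hj1 _) e3
      have h2 : ∑ j ∈ Finset.range i2, v j (t - d) ^ q ≤ a (t - d) := by
        have h3 := hinv.nn (t - d) htd (by linarith)
        rw [eM_eq hq ha hu hP2 htd (by linarith)] at h3
        linarith
      have h3 : ∑ j ∈ (Finset.range i2).filter (fun j => ¬ (t - d ≤ eP q T a u (j + 1))),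
          v j (t - d) ^ q ≤ ∑ j ∈ Finset.range i2, v j (t - d) ^ q :=
        Finset.sum_le_sum_of_subset_of_nonneg (Finset.filter_subset _ _)
          fun j hj _ => pow_nonneg (hvn j (Finset.mem_range.1 hj) _) q
      have h4 := ha.slow (t - d) t htd (by linarith) htT (by linarith)
      have h5 : 0 ≤ a (t - d) := by
        have := ha.lo (t - d) htd (by linarith)
        have h5 : (0 : ℝ) ≤ 5 * q := by positivity
        linarith
      have h6 : a (t - d) * (1 - d / 8) ≤ a t := by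
        have e4 : t - (t - d) = d := by ring
        rw [e4] at h4
        linarith
      calc ∑ j ∈ (Finset.range i2).filter (fun j => ¬ (t - d ≤ eP q T a u (j + 1))), v j t ^ q
          ≤ ∑ j ∈ (Finset.range i2).filter (fun j => ¬ (t - d ≤ eP q T a u (j + 1))),
            (1 - d) * v j (t - d) ^ q := Finset.sum_le_sum h1
        _ = (1 - d) * ∑ j ∈ (Finset.range i2).filter
            (fun j => ¬ (t - d ≤ eP q T a u (j + 1))), v j (t - d) ^ q := by
            rw [Finset.mul_sum]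
        _ ≤ (1 - d) * a (t - d) := mul_le_mul_of_nonneg_left (h3.trans h2) (by linarith)
        _ ≤ (1 - 7 / 8 * d) * (a (t - d) * (1 - d / 8)) := by
            nlinarith [mul_nonneg h5 (sq_nonneg d)]
        _ ≤ (1 - 7 / 8 * d) * a t := mul_le_mul_of_nonneg_left h6 (by linarith)
  have h7 : ∑ j ∈ Finset.range i2, ev q T a u j t ^ q = ∑ j ∈ Finset.range i2, v j t ^ q := rfl
  rw [h7, ← hsplit] at hM
  nlinarith

/-- Slope of the final residual after the last peak. -/
theorem eM_slope {n : ℕ} (hP : ∀ i, i < n → eP q T a u i ≤ T - 1) {t t' : ℝ}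
    (ht : eP q T a u n ≤ t) (htt : t ≤ t') (htT : t' ≤ T) :
    a t' - a t ≤ eM q T a u n t' - eM q T a u n t ∧
    eM q T a u n t' - eM q T a u n t ≤ a t' - a t + 2 * q * (t' - t) *
      (((Finset.range n).filter (fun j => 0 < u j ∧ eP q T a u n - 1 ≤ eP q T a u (j + 1))).card : ℝ) := by
  classical
  have hinv := evo_inv hq ha hu hP
  have ht0 : 0 ≤ t := hinv.p0.trans ht
  have hT0 : 0 ≤ T := ht0.trans (htt.trans htT)
  rw [eM_eq hq ha hu hP ht0 (htt.trans htT), eM_eq hq ha hu hP (ht0.trans htt) htT]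
  have hPj : ∀ j, j < n → eP q T a u (j + 1) ≤ t := fun j hj =>
    (eP_mono hq ha hu (n := n) hP (by omega) le_rfl).trans ht
  have hvn : ∀ j, j < n → ∀ s, 0 ≤ ev q T a u j s := fun j hj s => b4_ev_nonneg hu hq ha hP hj s
  have hvu : ∀ j, j < n → ∀ s, ev q T a u j s ≤ u j := fun j hj s => b4_ev_le hu hq ha hP hj s
  have e1 : ∀ j, j < n → ev q T a u j t = cf q T (eM q T a u j) (eP q T a u j) (u j) t :=
    fun j hj => b4_ev_eq_cf hu hq ha hP hj (hPj j hj) (htt.trans htT)
  have e2 : ∀ j, j < n → ev q T a u j t' = cf q T (eM q T a u j) (eP q T a u j) (u j) t' :=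
    fun j hj => b4_ev_eq_cf hu hq ha hP hj ((hPj j hj).trans htt) htT
  have hanti : ∀ j, j < n → ev q T a u j t' ≤ ev q T a u j t := by
    intro j hj
    rw [e1 j hj, e2 j hj]
    exact cf_antitone (hu j).1 htt
  have hlip : ∀ j, j < n → ev q T a u j t ≤ ev q T a u j t' + 2 * (t' - t) := by
    intro j hj
    rw [e1 j hj, e2 j hj]
    exact cf_lip (hu j).1 htt
  have hpow : ∑ j ∈ Finset.range n, ev q T a u j t' ^ q ≤
      ∑ j ∈ Finset.range n, ev q T a u j t ^ q :=
    Finset.sum_le_sum fun j hj =>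
      pow_le_pow_left₀ (hvn j (Finset.mem_range.1 hj) _) (hanti j (Finset.mem_range.1 hj)) q
  refine ⟨by linarith, ?_⟩
  have hterm : ∀ j ∈ Finset.range n, ev q T a u j t ^ q - ev q T a u j t' ^ q ≤
      if (0 < u j ∧ eP q T a u n - 1 ≤ eP q T a u (j + 1)) then 2 * q * (t' - t) else 0 := by
    intro j hj
    have hj := Finset.mem_range.1 hj
    rcases (hvn j hj t).eq_or_lt with h0 | h0
    · have h1 : ev q T a u j t' = 0 := le_antisymm (by rw [h0]; exact hanti j hj) (hvn j hj t')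
      rw [← h0, h1, sub_self]
      split_ifs
      · have : (0 : ℝ) ≤ q := by positivity
        have h3 : 0 ≤ t' - t := sub_nonneg.2 htt
        positivity
      · exact le_rfl
    · have h1 : 0 < u j := h0.trans_le (hvu j hj t)
      have h2 := vf_support hq ha (evo_inv hq ha hu fun i hi => hP i (by omega)) (hP j hj)
        (hu j).1 (hu j).2 ht0 (htt.trans htT) h0
      have h3 : eP q T a u n - 1 ≤ eP q T a u (j + 1) := by
        rw [b4_eP_succ]
        linarith [h2.2]
      rw [if_pos ⟨h1, h3⟩]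
      have h4 := b4_pow_sub q (hvn j hj t') (hanti j hj) ((hvu j hj t).trans (hu j).2)
      have h5 : (q : ℝ) * (ev q T a u j t - ev q T a u j t') ≤ q * (2 * (t' - t)) :=
        mul_le_mul_of_nonneg_left (by linarith [hlip j hj]) (by positivity)
      linarith
  have hsum := Finset.sum_le_sum hterm
  rw [Finset.sum_sub_distrib, ← Finset.sum_filter, Finset.sum_const, nsmul_eq_mul] at hsum
  linarith

end

end Vale.Agent.P209.Strong
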