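import Vale.Agent.P209.Strong.B5b

namespace Vale.Agent.P209.Strong

open MeasureTheory

/-! B5. The final residual is an admissible perturbation. -/

section
variable {q : ℕ} {δ ρ C η A0 T : ℝ} {A : ℝ → ℝ} {V1 V2 : ℝ} {u : ℕ → ℝ} {N NJ : ℕ}
  (H : HD q δ ρ C η A0 T A V1 V2 u N NJ)
include H

theorem b5_A0 : 8 ≤ η * A0 ∧ 0 < A0 := by
  have h1 := H.hA0
  have h2 : (1 : ℝ) ≤ q := by exact_mod_cast H.hq
  have h3 : 8 ≤ η * A0 := by linarith
  refine ⟨h3, ?_⟩
  by_contra h
  have := mul_nonpos_of_nonneg_of_nonpos H.hη.le (not_lt.1 h)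
  linarith

theorem b5_yr : 0 ≤ yr η C A0 := by
  have h1 := (b5_A0 H).2
  have h2 := H.hη
  unfold yr
  positivity

theorem b5_eta : η ≤ 1 / 128 := by
  have h1 := H.hη1
  have h2 := H.hC
  have h3 := H.hη
  nlinarith

theorem b5_M {t t' : ℝ} (h : t ≤ t') :
    (∫ s in (0 : ℝ)..t, A s) + A0 * (t' - t) ≤ ∫ s in (0 : ℝ)..t', A s ∧
    (∫ s in (0 : ℝ)..t', A s) ≤ (∫ s in (0 : ℝ)..t, A s) + C * A0 * (t' - t) := by
  have hi : ∀ x y : ℝ, IntervalIntegrable A volume x y := fun x y => H.cA.intervalIntegrable x y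
  have h1 := intervalIntegral.integral_add_adjacent_intervals (hi 0 t) (hi t t')
  have h2 : (∫ s in t..t', A0) ≤ ∫ s in t..t', A s :=
    intervalIntegral.integral_mono_on h (by simp) (hi t t') fun x _ => H.loA x
  have h3 : (∫ s in t..t', A s) ≤ ∫ s in t..t', C * A0 :=
    intervalIntegral.integral_mono_on h (hi t t') (by simp) fun x _ => H.hiA x
  rw [intervalIntegral.integral_const, smul_eq_mul] at h2 h3
  constructor <;> linarith

theorem b5_rev (s : ℝ) : ∫ x in (0 : ℝ)..s, A (T - x) = V1 + V2 - ∫ x in (0 : ℝ)..(T - s), A x := by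
  have hi : ∀ x y : ℝ, IntervalIntegrable A volume x y := fun x y => H.cA.intervalIntegrable x y
  rw [intervalIntegral.integral_comp_sub_left (fun x => A x) T, sub_zero, ← H.int,
    ← intervalIntegral.integral_add_adjacent_intervals (hi 0 (T - s)) (hi (T - s) T)]
  ring

theorem b5_chi (s : ℝ) :
    chi η C A0 (fun s => A (T - s)) V2 s = 1 - chi η C A0 A V1 (T - s) := by
  unfold chi
  rw [b5_rev H s]
  have h1 := hh_add_neg H ((∫ x in (0 : ℝ)..(T - s), A x) - V1)
  have h2 : V1 + V2 - (∫ x in (0 : ℝ)..(T - s), A x) - V2 =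
    -((∫ x in (0 : ℝ)..(T - s), A x) - V1) := by ring
  rw [h2]
  linarith

theorem b5_flat {e : ℝ → ℝ} (he : Dom η C A0 T A V1 e) {t : ℝ} (ht : 0 ≤ t) (htT : t ≤ T)
    (hM : V1 + yr η C A0 ≤ ∫ s in (0 : ℝ)..t, A s) :
    tgt η C A0 A V1 e t = η * A t := by
  have h1 := (b5_A0 H).2
  have h2 := b5_yr H
  have h3 := H.hC
  have h4 : e t = 0 := by
    refine he.supp t ht htT ?_
    nlinarith
  unfold tgt chi
  rw [hh_flat H (by linarith), h4, add_zero]

theorem b5_zero {e : ℝ → ℝ} (he : Dom η C A0 T A V1 e) {t : ℝ} (ht : 0 ≤ t) (htT : t ≤ T)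
    (htb : t ≤ eP q T (tgt η C A0 A V1 e) u N) : eM q T (tgt η C A0 A V1 e) u N t = 0 := by
  obtain ⟨hP, hb, -⟩ := half_peaks H he
  have hI := evo_inv H.hq (he.target H) H.hu (n := N) fun i hi => hP i hi.le
  set b := eP q T (tgt η C A0 A V1 e) u N with hbdef
  rcases lt_or_eq_of_le htb with h | h
  · exact hI.zero t ht h htT
  · -- continuity at `b`
    have hb0 : 0 < t := by
      by_contra hc
      have h0 : t = 0 := le_antisymm (not_lt.1 hc) ht
      rw [← h, h0, intervalIntegral.integral_same] at hb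
      have h1 := (b5_A0 H).2
      have h2 := b5_yr H
      have h3 := H.hC
      have h4 := H.hV1
      nlinarith [mul_pos (lt_of_lt_of_le one_pos h3) h1]
    have hc : Filter.Tendsto (eM q T (tgt η C A0 A V1 e) u N) (nhdsWithin t (Set.Iio t))
        (nhds (eM q T (tgt η C A0 A V1 e) u N t)) := hI.cont.continuousAt.tendsto.mono_left
      nhdsWithin_le_nhds
    have hz : Filter.Tendsto (eM q T (tgt η C A0 A V1 e) u N) (nhdsWithin t (Set.Iio t))
        (nhds 0) := by
      refine tendsto_const_nhds.congr' ?_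
      have : Set.Ioo 0 t ∈ nhdsWithin t (Set.Iio t) := Ioo_mem_nhdsLT hb0
      filter_upwards [this] with x hx
      exact (hI.zero x hx.1.le (hx.2.trans_le htb) (hx.2.le.trans htT)).symm
    exact tendsto_nhds_unique hc hz

theorem b5_b {e : ℝ → ℝ} (he : Dom η C A0 T A V1 e) :
    3 / 2 ≤ eP q T (tgt η C A0 A V1 e) u N ∧
      eP q T (tgt η C A0 A V1 e) u N + 1 ≤ T ∧
      ∀ t, eP q T (tgt η C A0 A V1 e) u N - 3 / 2 ≤ t → t ≤ T →
        tgt η C A0 A V1 e t = η * A t := by
  obtain ⟨hP, hb, -⟩ := half_peaks H he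
  set b := eP q T (tgt η C A0 A V1 e) u N with hbdef
  have h1 := (b5_A0 H).2
  have h2 := b5_yr H
  have h3 := H.hC
  have h4 := H.hV1
  have h5 : 0 < C * A0 := mul_pos (lt_of_lt_of_le one_pos h3) h1
  have hb32 : 3 / 2 ≤ b := by
    by_contra hc
    rw [not_le] at hc
    rcases le_total 0 b with h0 | h0
    · have h6 := (b5_M H h0).2
      rw [intervalIntegral.integral_same] at h6
      nlinarith
    · have h6 := (b5_M H h0).1
      rw [intervalIntegral.integral_same] at h6
      nlinarith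
  have hbT := hP N le_rfl
  refine ⟨hb32, by linarith, fun t ht htT => ?_⟩
  refine b5_flat H he (by linarith) htT ?_
  rcases le_total t b with h0 | h0
  · have h6 := (b5_M H h0).2
    nlinarith
  · have h6 := (b5_M H h0).1
    nlinarith

/-- volume of the balls whose peak is in the last unit of time -/
theorem b5_vol {e : ℝ → ℝ} (he : Dom η C A0 T A V1 e) {F : Finset ℕ} (hF : F ⊆ Finset.range N)
    (hFb : ∀ j ∈ F, eP q T (tgt η C A0 A V1 e) u N - 1 ≤ eP q T (tgt η C A0 A V1 e) u (j + 1))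
    (hFδ : ∀ j ∈ F, δ ≤ u j) :
    (F.card : ℝ) * (δ ^ (q + 1) / (q + 1)) ≤ 5 / 2 * (η * (C * A0)) := by
  classical
  obtain ⟨hP, -, -⟩ := half_peaks H he
  obtain ⟨hb1, hb2, hflat⟩ := b5_b H he
  have hT := he.target H
  have hA0 := (b5_A0 H).2
  have hmono := fun (j : ℕ) (hj : j < N) =>
    eP_mono H.hq hT H.hu (n := N) (fun i hi => hP i hi.le) (i := j + 1) (j := N) hj le_rfl
  have hI := evo_inv H.hq hT H.hu (n := N) fun i hi => hP i hi.le
  have heq := fun (t : ℝ) (h0 : 0 ≤ t) (h1 : t ≤ T) =>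
    eM_eq H.hq hT H.hu (n := N) (fun i hi => hP i hi.le) h0 h1
  have hinv : ∀ j, j < N → Inv q T (tgt η C A0 A V1 e) (eM q T (tgt η C A0 A V1 e) u j)
      (eP q T (tgt η C A0 A V1 e) u j) :=
    fun j hj => evo_inv H.hq hT H.hu (n := j) fun i hi => hP i (by omega)
  have hvnn : ∀ j, j < N → ∀ t, 0 ≤ ev q T (tgt η C A0 A V1 e) u j t := fun j hj t =>
    vf_nonneg H.hq hT (hinv j hj) (hP j hj.le) (H.hu j).1 (H.hu j).2 t
  have hcont : ∀ j, Continuous (ev q T (tgt η C A0 A V1 e) u j) := by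
    intro j
    have h1 := ev_continuous (Θ := Unit) q (T := fun _ => T) (a := fun _ => tgt η C A0 A V1 e)
      (u := fun i _ => u i) continuous_const (hT.cont.comp continuous_snd)
      (fun _ => continuous_const) j
    exact h1.comp (Continuous.prodMk continuous_const continuous_id : Continuous fun t : ℝ => ((), t))
  set b := eP q T (tgt η C A0 A V1 e) u N with hbdef
  set a := tgt η C A0 A V1 e with hadef
  have hq0 : q ≠ 0 := by have := H.hq; omega
  -- supports
  have hsupp : ∀ j ∈ F, ∀ t, 0 ≤ t → t ≤ T → (t < b - 3 / 2 ∨ b + 1 < t) →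
      ev q T a u j t ^ q = 0 := by
    intro j hj t h0 h1 h2
    have hjN := Finset.mem_range.1 (hF hj)
    have h3 : ev q T a u j t = 0 := by
      by_contra hne
      have hpos : 0 < vf q T (eM q T a u j) (eP q T a u j) (u j) t :=
        lt_of_le_of_ne (hvnn j hjN t) (Ne.symm hne)
      obtain ⟨h4, h5⟩ := vf_support H.hq hT (hinv j hjN) (hP j hjN.le) (H.hu j).1 (H.hu j).2 h0 h1
        hpos
      have h6 : Wf q T (eM q T a u j) (eP q T a u j) (u j) = eP q T a u (j + 1) := rfl
      rw [h6] at h4 h5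
      have h7 := hFb j hj
      have h8 := hmono j hjN
      rcases h2 with h2 | h2 <;> linarith
    rw [h3, zero_pow hq0]
  -- integrals
  have hint : ∀ j ∈ F, ∫ t in (0 : ℝ)..T, ev q T a u j t ^ q = u j ^ (q + 1) / (q + 1) := by
    intro j hj
    have hjN := Finset.mem_range.1 (hF hj)
    exact vf_integral H.hq hT (hinv j hjN) (hP j hjN.le) (H.hu j).1 (H.hu j).2 (hP (j + 1) hjN)
  have hSc : Continuous fun t => ∑ j ∈ F, ev q T a u j t ^ q :=
    continuous_finsetSum _ fun j _ => (hcont j).pow q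
  have hSi : ∀ x y : ℝ, IntervalIntegrable (fun t => ∑ j ∈ F, ev q T a u j t ^ q) volume x y :=
    fun x y => hSc.intervalIntegrable x y
  have hsum : ∫ t in (0 : ℝ)..T, ∑ j ∈ F, ev q T a u j t ^ q =
      ∑ j ∈ F, u j ^ (q + 1) / (q + 1) := by
    have hii : ∀ j ∈ F, IntervalIntegrable (fun t => ev q T a u j t ^ q) volume 0 T :=
      fun j _ => ((hcont j).pow q).intervalIntegrable _ _
    rw [intervalIntegral.integral_finset_sum hii]
    exact Finset.sum_congr rfl hint
  have hp1 : ∫ t in (0 : ℝ)..(b - 3 / 2), ∑ j ∈ F, ev q T a u j t ^ q ≤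
      ∫ t in (0 : ℝ)..(b - 3 / 2), (0 : ℝ) := by
    refine intervalIntegral.integral_mono_on_of_le_Ioo (by linarith) (hSi _ _) (by simp) ?_
    intro t ht
    exact (Finset.sum_eq_zero fun j hj => hsupp j hj t ht.1.le (by linarith [ht.2])
      (Or.inl ht.2)).le
  have hp3 : ∫ t in (b + 1)..T, ∑ j ∈ F, ev q T a u j t ^ q ≤ ∫ t in (b + 1)..T, (0 : ℝ) := by
    refine intervalIntegral.integral_mono_on_of_le_Ioo (by linarith) (hSi _ _) (by simp) ?_
    intro t ht
    exact (Finset.sum_eq_zero fun j hj => hsupp j hj t (by linarith [ht.1]) ht.2.le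
      (Or.inr ht.1)).le
  have hp2 : ∫ t in (b - 3 / 2)..(b + 1), ∑ j ∈ F, ev q T a u j t ^ q ≤
      ∫ t in (b - 3 / 2)..(b + 1), η * (C * A0) := by
    refine intervalIntegral.integral_mono_on (by linarith) (hSi _ _) (by simp) ?_
    intro t ht
    have h0 : 0 ≤ t := by linarith [ht.1]
    have h1 : t ≤ T := by linarith [ht.2]
    have h2 := heq t h0 h1
    have h3 := hI.nn t h0 h1
    have h4 : ∑ j ∈ F, ev q T a u j t ^ q ≤ ∑ j ∈ Finset.range N, ev q T a u j t ^ q :=
      Finset.sum_le_sum_of_subset_of_nonneg hF fun j hj _ =>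
        pow_nonneg (hvnn j (Finset.mem_range.1 hj) t) q
    have h5 := hflat t ht.1 h1
    have h6 := mul_le_mul_of_nonneg_left (H.hiA t) H.hη.le
    linarith
  have hsplit : ∫ t in (0 : ℝ)..T, ∑ j ∈ F, ev q T a u j t ^ q =
      (∫ t in (0 : ℝ)..(b - 3 / 2), ∑ j ∈ F, ev q T a u j t ^ q) +
      (∫ t in (b - 3 / 2)..(b + 1), ∑ j ∈ F, ev q T a u j t ^ q) +
      ∫ t in (b + 1)..T, ∑ j ∈ F, ev q T a u j t ^ q := by
    rw [intervalIntegral.integral_add_adjacent_intervals (hSi _ _) (hSi _ _),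
      intervalIntegral.integral_add_adjacent_intervals (hSi _ _) (hSi _ _)]
  rw [intervalIntegral.integral_const, smul_eq_mul] at hp2
  rw [intervalIntegral.integral_zero] at hp1 hp3
  have hlow : (F.card : ℝ) * (δ ^ (q + 1) / (q + 1)) ≤ ∑ j ∈ F, u j ^ (q + 1) / (q + 1) := by
    rw [← nsmul_eq_mul]
    refine Finset.card_nsmul_le_sum _ _ _ fun j hj => ?_
    exact div_le_div_of_nonneg_right (pow_le_pow_left₀ H.hδ.le (hFδ j hj) _) (by positivity)
  have h7 : b + 1 - (b - 3 / 2) = 5 / 2 := by ring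
  rw [h7] at hp2
  linarith

theorem b5_count {e : ℝ → ℝ} (he : Dom η C A0 T A V1 e) :
    2 * q * (((Finset.range N).filter (fun j => 0 < u j ∧
      eP q T (tgt η C A0 A V1 e) u N - 1 ≤ eP q T (tgt η C A0 A V1 e) u (j + 1))).card : ℝ) ≤
        A0 / 109 := by
  classical
  obtain ⟨hP, -, -⟩ := half_peaks H he
  obtain ⟨hb1, hb2, hflat⟩ := b5_b H he
  have hT := he.target H
  have hA0 := (b5_A0 H).2
  have hA8 := (b5_A0 H).1
  have hη := b5_eta H
  have hq1 : (1 : ℝ) ≤ q := by exact_mod_cast H.hq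
  set F := (Finset.range N).filter (fun j => 0 < u j ∧
      eP q T (tgt η C A0 A V1 e) u N - 1 ≤ eP q T (tgt η C A0 A V1 e) u (j + 1)) with hFdef
  by_cases hne : F = ∅
  · rw [hne]; simp; positivity
  obtain ⟨j0, hj0⟩ := Finset.nonempty_iff_ne_empty.2 hne
  have hex : ∃ j, j < N ∧
      eP q T (tgt η C A0 A V1 e) u N - 1 ≤ eP q T (tgt η C A0 A V1 e) u (j + 1) := by
    have h := Finset.mem_filter.1 hj0
    exact ⟨j0, Finset.mem_range.1 h.1, h.2.2⟩
  obtain ⟨hs1, hs2⟩ := Nat.find_spec hex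
  have hs3 : ∀ j, j < N →
      eP q T (tgt η C A0 A V1 e) u N - 1 ≤ eP q T (tgt η C A0 A V1 e) u (j + 1) →
      Nat.find hex ≤ j := fun j h1 h2 => Nat.find_min' hex ⟨h1, h2⟩
  set s := Nat.find hex with hsdef
  have hNJ : NJ ≤ s := by
    by_contra hc
    rw [not_le] at hc
    have h0 : eP q T (tgt η C A0 A V1 e) u (s + 1) = 0 := by
      refine eP_eq_zero H.hq hT H.hu (k := NJ) (by linarith) ?_ hc
      have h1 : ∑ j ∈ Finset.range NJ, u j ^ q ≤ ∑ j ∈ Finset.range NJ, u j := by
        refine Finset.sum_le_sum fun j _ => ?_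
        calc u j ^ q ≤ u j ^ 1 := pow_le_pow_of_le_one (H.hu j).1 (H.hu j).2 H.hq
          _ = u j := pow_one _
      have h2 := H.tail
      have h3 : (1 - η) * A 0 ≤ tgt η C A0 A V1 e 0 := by
        unfold tgt chi
        rw [intervalIntegral.integral_same, zero_sub]
        have h4 := hh_add_neg H V1
        have h5 : hh η C A0 V1 = η := by
          refine hh_flat H ?_
          have := H.hV1
          have := H.hC
          nlinarith
        have h6 : hh η C A0 (-V1) = 1 - η := by linarith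
        rw [h6]
        have h7 : 0 ≤ T := by linarith
        linarith [he.nn 0 le_rfl h7]
      have h4 : (1 - η) * A0 ≤ (1 - η) * A 0 :=
        mul_le_mul_of_nonneg_left (H.loA 0) (by linarith)
      nlinarith
    rw [h0] at hs2
    linarith
  have hcard : (F.card : ℝ) ≤
      (((Finset.range N).filter (fun i => s ≤ i ∧ 0 < u i)).card : ℝ) := by
    refine Nat.cast_le.2 (Finset.card_le_card ?_)
    intro j hj
    have h := Finset.mem_filter.1 hj
    exact Finset.mem_filter.2 ⟨h.1, hs3 j (Finset.mem_range.1 h.1) h.2.2, h.2.1⟩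
  have hsuf := H.suf s hNJ
  have hvol := b5_vol H he (F := (Finset.range N).filter (fun i => s ≤ i ∧ δ ≤ u i))
    (Finset.filter_subset _ _) (by
      intro j hj
      have h := Finset.mem_filter.1 hj
      refine hs2.trans ?_
      exact eP_mono H.hq hT H.hu (n := N) (fun i hi => hP i hi.le) (i := s + 1) (j := j + 1)
        (by omega) (Finset.mem_range.1 h.1)) (fun j hj => (Finset.mem_filter.1 hj).2.2)
  set n2 := (((Finset.range N).filter (fun i => s ≤ i ∧ δ ≤ u i)).card : ℝ) with hn2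
  have hn20 : 0 ≤ n2 := Nat.cast_nonneg _
  have hC := H.hC
  have hρ := H.hρ
  have hη0 := H.hη
  -- ρ n2 ≤ A0 / (480 q)
  have h1 : n2 * δ ^ (q + 1) ≤ 5 / 2 * (η * (C * A0)) * (q + 1) := by
    have h2 : n2 * (δ ^ (q + 1) / (q + 1)) * (q + 1) = n2 * δ ^ (q + 1) := by
      field_simp
    rw [← h2]
    exact mul_le_mul_of_nonneg_right hvol (by positivity)
  have h2 : n2 * (η * (1200 * q * (q + 1) * ρ * C)) ≤ n2 * δ ^ (q + 1) :=
    mul_le_mul_of_nonneg_left H.hη2 hn20
  have h3 : (η * C * (q + 1)) * (480 * q * (ρ * n2)) ≤ (η * C * (q + 1)) * A0 := by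
    have e1 : (η * C * (q + 1)) * (480 * q * (ρ * n2)) =
      2 / 5 * (n2 * (η * (1200 * q * (q + 1) * ρ * C))) := by ring
    have e2 : (η * C * (q + 1)) * A0 = 2 / 5 * (5 / 2 * (η * (C * A0)) * (q + 1)) := by ring
    rw [e1, e2]
    linarith
  have h4 : 480 * q * (ρ * n2) ≤ A0 := le_of_mul_le_mul_left h3 (by positivity)
  have h5 : (q : ℝ) * (A0 / (400 * q)) = A0 / 400 := by
    field_simp
  have h6 : (q : ℝ) * F.card ≤ q * (ρ * n2 + A0 / (400 * q)) :=
    mul_le_mul_of_nonneg_left (hcard.trans hsuf) (by linarith)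
  rw [mul_add, h5] at h6
  linarith

theorem b5_slope {e : ℝ → ℝ} (he : Dom η C A0 T A V1 e) {t t' : ℝ}
    (ht : eP q T (tgt η C A0 A V1 e) u N ≤ t) (htt : t ≤ t') (htT : t' ≤ T) :
    |eM q T (tgt η C A0 A V1 e) u N t' - eM q T (tgt η C A0 A V1 e) u N t| ≤
      A0 / 64 * (t' - t) := by
  obtain ⟨hP, -, -⟩ := half_peaks H he
  obtain ⟨hb1, hb2, hflat⟩ := b5_b H he
  have hT := he.target H
  have hA0 := (b5_A0 H).2
  have hη := b5_eta H
  obtain ⟨h1, h2⟩ := eM_slope H.hq hT H.hu (n := N) (fun i hi => hP i hi.le) ht htt htT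
  have h3 := b5_count H he
  rw [hflat t (by linarith) (by linarith), hflat t' (by linarith) htT] at h1 h2
  have h4 := H.lipA t' t
  rw [abs_of_nonneg (by linarith : (0 : ℝ) ≤ t' - t)] at h4
  have h5 : |η * A t' - η * A t| ≤ A0 / 256 * (t' - t) := by
    rw [← mul_sub, abs_mul, abs_of_pos H.hη]
    have h6 := mul_le_mul_of_nonneg_left h4 H.hη.le
    have h7 : 0 ≤ A0 / 256 * (t' - t) := mul_nonneg (by positivity) (by linarith)
    nlinarith
  have h6 : 2 * q * (t' - t) * (((Finset.range N).filter (fun j => 0 < u j ∧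
      eP q T (tgt η C A0 A V1 e) u N - 1 ≤ eP q T (tgt η C A0 A V1 e) u (j + 1))).card : ℝ) ≤
        A0 / 109 * (t' - t) := by
    have h7 := mul_le_mul_of_nonneg_right h3 (by linarith : (0 : ℝ) ≤ t' - t)
    linarith
  have h7 : 0 ≤ A0 * (t' - t) := mul_nonneg hA0.le (by linarith)
  rw [abs_le] at h5 ⊢
  constructor <;> linarith

/-- The final residual, as a function of reversed time, is an admissible perturbation for the
R-balls. -/
theorem half_dom {e : ℝ → ℝ} (he : Dom η C A0 T A V1 e) :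
    Dom η C A0 T (fun s => A (T - s)) V2
      (fun s => eM q T (tgt η C A0 A V1 e) u N (T - s)) := by
  obtain ⟨hP, hb, -⟩ := half_peaks H he
  obtain ⟨hb1, hb2, hflat⟩ := b5_b H he
  have hT := he.target H
  have hA0 := (b5_A0 H).2
  have hη := b5_eta H
  have hI := evo_inv H.hq hT H.hu (n := N) fun i hi => hP i hi.le
  have hbz : eM q T (tgt η C A0 A V1 e) u N (eP q T (tgt η C A0 A V1 e) u N) = 0 :=
    b5_zero H he (by linarith) (by linarith) le_rfl
  have hlip : ∀ t t', 0 ≤ t → t ≤ t' → t' ≤ T →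
      |eM q T (tgt η C A0 A V1 e) u N t' - eM q T (tgt η C A0 A V1 e) u N t| ≤
        A0 / 64 * (t' - t) := by
    intro t t' h0 h1 h2
    rcases le_total t' (eP q T (tgt η C A0 A V1 e) u N) with h3 | h3
    · rw [b5_zero H he h0 (h1.trans h2) (h1.trans h3), b5_zero H he (h0.trans h1) h2 h3, sub_zero,
        abs_zero]
      exact mul_nonneg (by positivity) (by linarith)
    · rcases le_total t (eP q T (tgt η C A0 A V1 e) u N) with h4 | h4
      · rw [b5_zero H he h0 (h1.trans h2) h4, ← hbz]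
        refine (b5_slope H he le_rfl h3 h2).trans ?_
        exact mul_le_mul_of_nonneg_left (by linarith) (by positivity)
      · exact b5_slope H he h4 h1 h2
  have hrev : ∫ s in (0 : ℝ)..T, eM q T (tgt η C A0 A V1 e) u N (T - s) =
      (∫ t in (0 : ℝ)..T, e t) + η * (V2 - V1) := by
    rw [intervalIntegral.integral_comp_sub_left (fun x => eM q T (tgt η C A0 A V1 e) u N x) T,
      sub_self, sub_zero]
    exact half_mass H he
  refine ⟨?_, ?_, ?_, ?_, ?_, ?_, ?_⟩
  · exact hI.cont.comp (by fun_prop)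
  · intro t h0 h1
    exact hI.nn (T - t) (by linarith) (by linarith)
  · intro s h0 h1
    rw [b5_chi H s, sub_sub_cancel]
    have hchi : 0 ≤ chi η C A0 A V1 (T - s) := H.hη.le.trans (le_max_left _ _)
    have hA : 0 ≤ A (T - s) := hA0.le.trans (H.loA _)
    rcases le_total (T - s) (eP q T (tgt η C A0 A V1 e) u N) with h3 | h3
    · rw [b5_zero H he (by linarith) (by linarith) h3]
      exact mul_nonneg hchi hA
    · have h4 := hI.le (T - s) (by linarith) (by linarith)
      have h5 : e (T - s) = 0 := by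
        refine he.supp _ (by linarith) (by linarith) ?_
        have h6 := (b5_M H h3).1
        have h7 := b5_yr H
        have h8 := H.hC
        have h9 : 0 ≤ A0 * (T - s - eP q T (tgt η C A0 A V1 e) u N) :=
          mul_nonneg hA0.le (by linarith)
        nlinarith
      unfold tgt at h4 ⊢
      rw [h5, add_zero] at h4
      exact h4
  · intro s s' h0 h1 h0' h1'
    rcases le_total s s' with h | h
    · have := hlip (T - s') (T - s) (by linarith) (by linarith) (by linarith)
      rw [abs_of_nonpos (by linarith : s - s' ≤ 0)]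
      refine this.trans (le_of_eq ?_)
      ring
    · have := hlip (T - s) (T - s') (by linarith) (by linarith) (by linarith)
      rw [abs_sub_comm, abs_of_nonneg (by linarith : 0 ≤ s - s')]
      refine this.trans (le_of_eq ?_)
      ring
  · intro s h0 h1 hs
    rw [b5_rev H s] at hs
    refine b5_zero H he (by linarith) (by linarith) ?_
    by_contra hc
    rw [not_le] at hc
    have h6 := (b5_M H hc.le).1
    have h7 : 0 < A0 * (T - s - eP q T (tgt η C A0 A V1 e) u N) :=
      mul_pos hA0 (by linarith)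
    linarith
  · rw [hrev]
    have := he.massLo
    linarith
  · rw [hrev]
    have := he.massHi
    linarith

end

end Vale.Agent.P209.Strong
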