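import Vale.Agent.P209.Strong.B4

set_option linter.all false

namespace Vale.Agent.P209.Strong

open MeasureTheory

/-! B5a. Half of the loop (definitions and the target): L-balls against the target `χ A + e`. -/

/-- cutoff in the mass coordinate -/
noncomputable def hh (η C A0 y : ℝ) : ℝ := max η (min (1 - η) (1 / 2 - η / (32 * C ^ 2) * y / A0))

/-- beyond `yr` the cutoff is constant -/
noncomputable def yr (η C A0 : ℝ) : ℝ := 16 * C ^ 2 / η * A0

/-- data for the half problem -/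
structure HD (q : ℕ) (δ ρ C η A0 T : ℝ) (A : ℝ → ℝ) (V1 V2 : ℝ) (u : ℕ → ℝ) (N NJ : ℕ) : Prop where
  hq : 1 ≤ q
  hδ : 0 < δ
  hδ1 : δ ≤ 1
  hρ : 1 ≤ ρ
  hC : 1 ≤ C
  hη : 0 < η
  hη1 : η * (128 * C) ≤ 1
  hη2 : η * (1200 * q * (q + 1) * ρ * C) ≤ δ ^ (q + 1)
  hA0 : 3 + 5 * q ≤ η * A0
  hT : 0 < T
  cA : Continuous A
  loA : ∀ t, A0 ≤ A t
  hiA : ∀ t, A t ≤ C * A0
  lipA : ∀ t t', |A t - A t'| ≤ A0 / 256 * |t - t'|
  hV1 : yr η C A0 + 7 * C * A0 ≤ V1
  hV2 : yr η C A0 + 7 * C * A0 ≤ V2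
  int : ∫ t in (0 : ℝ)..T, A t = V1 + V2
  hu : ∀ i, 0 ≤ u i ∧ u i ≤ 1
  vol : ∑ i ∈ Finset.range N, u i ^ (q + 1) / (q + 1) = V1
  hNJ : NJ ≤ N
  tail : ∑ i ∈ Finset.range NJ, u i ≤ A0 / 8
  suf : ∀ s, NJ ≤ s → (((Finset.range N).filter (fun i => s ≤ i ∧ 0 < u i)).card : ℝ) ≤
    ρ * (((Finset.range N).filter (fun i => s ≤ i ∧ δ ≤ u i)).card : ℝ) + A0 / (400 * q)

/-- the cutoff as a function of time -/
noncomputable def chi (η C A0 : ℝ) (A : ℝ → ℝ) (V1 t : ℝ) : ℝ :=
  hh η C A0 ((∫ s in (0 : ℝ)..t, A s) - V1)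

/-- the target of the L-balls -/
noncomputable def tgt (η C A0 : ℝ) (A : ℝ → ℝ) (V1 : ℝ) (e : ℝ → ℝ) (t : ℝ) : ℝ :=
  chi η C A0 A V1 t * A t + e t

/-- admissible perturbations, concentrated on the left -/
structure Dom (η C A0 T : ℝ) (A : ℝ → ℝ) (V1 : ℝ) (e : ℝ → ℝ) : Prop where
  cont : Continuous e
  nn : ∀ t, 0 ≤ t → t ≤ T → 0 ≤ e t
  le : ∀ t, 0 ≤ t → t ≤ T → e t ≤ (1 - chi η C A0 A V1 t) * A t
  lip : ∀ t t', 0 ≤ t → t ≤ T → 0 ≤ t' → t' ≤ T → |e t - e t'| ≤ A0 / 64 * |t - t'|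
  supp : ∀ t, 0 ≤ t → t ≤ T → V1 - (yr η C A0 + 2 * C * A0) ≤ (∫ s in (0 : ℝ)..t, A s) → e t = 0
  massLo : η * (V1 - (yr η C A0 + 4 * C * A0)) ≤ ∫ t in (0 : ℝ)..T, e t
  massHi : ∫ t in (0 : ℝ)..T, e t ≤ η * (V1 - (yr η C A0 + 3 * C * A0))

section
variable {q : ℕ} {δ ρ C η A0 T : ℝ} {A : ℝ → ℝ} {V1 V2 : ℝ} {u : ℕ → ℝ} {N NJ : ℕ}
  (H : HD q δ ρ C η A0 T A V1 V2 u N NJ)
include H

theorem b5a_A0pos : 0 < A0 := by
  have h1 := H.hA0
  have h2 := H.hη
  have h3 : (0 : ℝ) < 3 + 5 * q := by positivity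
  by_contra h
  push Not at h
  have : η * A0 ≤ 0 := mul_nonpos_of_nonneg_of_nonpos h2.le h
  linarith

theorem b5a_eta : η ≤ 1 / 128 := by
  have h1 := H.hη1
  have h2 := H.hη
  have h3 := H.hC
  nlinarith [mul_le_mul_of_nonneg_left h3 h2.le]

theorem hh_add_neg (y : ℝ) : hh η C A0 y + hh η C A0 (-y) = 1 := by
  have hη := b5a_eta H
  have hη0 := H.hη
  unfold hh
  set z := η / (32 * C ^ 2) * y / A0 with hz
  have e : η / (32 * C ^ 2) * (-y) / A0 = - z := by rw [hz]; ring
  rw [e]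
  simp only [max_def, min_def]
  split_ifs <;> linarith

theorem b5a_slope : 0 < η / (32 * C ^ 2) / A0 := by
  have := b5a_A0pos H
  have := H.hη
  have := H.hC
  positivity

theorem hh_flat {y : ℝ} (hy : yr η C A0 ≤ y) : hh η C A0 y = η := by
  have hA := b5a_A0pos H
  have hη0 := H.hη
  have hC := H.hC
  have hC0 : 0 < C := by linarith
  unfold hh
  apply max_eq_left
  refine (min_le_right _ _).trans ?_
  have h1 : η / (32 * C ^ 2) * yr η C A0 / A0 = 1 / 2 := by
    unfold yr
    field_simp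
    ring
  have h2 : η / (32 * C ^ 2) * yr η C A0 / A0 ≤ η / (32 * C ^ 2) * y / A0 := by
    gcongr
  linarith

theorem b5a_hh_ge (y : ℝ) : η ≤ hh η C A0 y := le_max_left _ _

theorem b5a_hh_le (y : ℝ) : hh η C A0 y ≤ 1 - η := by
  have hη := b5a_eta H
  exact max_le (by linarith) (min_le_left _ _)

theorem b5a_hh_cont : Continuous (hh η C A0) := by
  unfold hh
  fun_prop

theorem b5a_hh_anti {y y' : ℝ} (h : y ≤ y') : hh η C A0 y' ≤ hh η C A0 y := by
  have hs := b5a_slope H
  unfold hh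
  have : η / (32 * C ^ 2) * y / A0 ≤ η / (32 * C ^ 2) * y' / A0 := by
    have := mul_le_mul_of_nonneg_left h hs.le
    have e1 : η / (32 * C ^ 2) * y / A0 = η / (32 * C ^ 2) / A0 * y := by ring
    have e2 : η / (32 * C ^ 2) * y' / A0 = η / (32 * C ^ 2) / A0 * y' := by ring
    rw [e1, e2]
    exact this
  gcongr

theorem b5a_hh_lip {y y' : ℝ} (h : y ≤ y') :
    hh η C A0 y - hh η C A0 y' ≤ η / (32 * C ^ 2) / A0 * (y' - y) := by
  have hs := b5a_slope H
  unfold hh
  have e1 : η / (32 * C ^ 2) * y / A0 = η / (32 * C ^ 2) / A0 * y := by ring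
  have e2 : η / (32 * C ^ 2) * y' / A0 = η / (32 * C ^ 2) / A0 * y' := by ring
  rw [e1, e2]
  have h3 : η / (32 * C ^ 2) / A0 * y ≤ η / (32 * C ^ 2) / A0 * y' :=
    mul_le_mul_of_nonneg_left h hs.le
  set a := η / (32 * C ^ 2) / A0 * y with ha
  set b := η / (32 * C ^ 2) / A0 * y' with hb
  have h4 : η / (32 * C ^ 2) / A0 * (y' - y) = b - a := by rw [ha, hb]; ring
  rw [h4]
  simp only [max_def, min_def]
  split_ifs <;> linarith

/-- derivative of the mass -/
theorem b5a_deriv (t : ℝ) : HasDerivAt (fun t => (∫ s in (0 : ℝ)..t, A s) - V1) (A t) t := by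
  have := intervalIntegral.integral_hasDerivAt_right (H.cA.intervalIntegrable 0 t)
    (H.cA.stronglyMeasurableAtFilter _ _) H.cA.continuousAt
  exact this.sub_const V1

theorem b5a_mass_cont : Continuous fun t => (∫ s in (0 : ℝ)..t, A s) - V1 :=
  continuous_iff_continuousAt.2 fun t => (b5a_deriv H t).continuousAt

theorem b5a_chi_cont : Continuous (chi η C A0 A V1) :=
  (b5a_hh_cont H).comp (b5a_mass_cont H)

theorem b5a_mass_diff {t t' : ℝ} (h : t ≤ t') :
    A0 * (t' - t) ≤ (∫ s in (0 : ℝ)..t', A s) - (∫ s in (0 : ℝ)..t, A s) ∧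
      (∫ s in (0 : ℝ)..t', A s) - (∫ s in (0 : ℝ)..t, A s) ≤ C * A0 * (t' - t) := by
  rw [intervalIntegral.integral_interval_sub_left (H.cA.intervalIntegrable _ _)
    (H.cA.intervalIntegrable _ _)]
  constructor
  · have h1 : ∫ _s in t..t', A0 = A0 * (t' - t) := by
      rw [intervalIntegral.integral_const, smul_eq_mul]; ring
    rw [← h1]
    exact intervalIntegral.integral_mono_on h (by simp) (H.cA.intervalIntegrable _ _)
      fun x _ => H.loA x
  · have h1 : ∫ _s in t..t', C * A0 = C * A0 * (t' - t) := by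
      rw [intervalIntegral.integral_const, smul_eq_mul]; ring
    rw [← h1]
    exact intervalIntegral.integral_mono_on h (H.cA.intervalIntegrable _ _) (by simp)
      fun x _ => H.hiA x

/-- substitution in the mass coordinate -/
theorem integral_chi : ∫ t in (0 : ℝ)..T, chi η C A0 A V1 t * A t = V1 + η * (V2 - V1) := by
  have h1 : ∫ t in (0 : ℝ)..T, chi η C A0 A V1 t * A t = ∫ y in (-V1)..V2, hh η C A0 y := by
    have h2 := intervalIntegral.integral_comp_mul_deriv (a := 0) (b := T)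
      (f := fun t => (∫ s in (0 : ℝ)..t, A s) - V1) (f' := A) (g := hh η C A0)
      (fun x _ => b5a_deriv H x) H.cA.continuousOn (b5a_hh_cont H)
    have e0 : (∫ s in (0 : ℝ)..0, A s) - V1 = - V1 := by simp
    have e1 : (∫ s in (0 : ℝ)..T, A s) - V1 = V2 := by rw [H.int]; ring
    simp only [e0, e1] at h2
    exact h2
  have hc := b5a_hh_cont H
  have hii : ∀ a b : ℝ, IntervalIntegrable (hh η C A0) volume a b := fun a b =>
    hc.intervalIntegrable a b
  rw [h1, ← intervalIntegral.integral_add_adjacent_intervals (hii (-V1) V1) (hii V1 V2)]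
  have h3 : ∫ y in (-V1)..V1, hh η C A0 y = V1 := by
    have h4 : ∫ y in (-V1)..V1, hh η C A0 (-y) = ∫ y in (-V1)..V1, hh η C A0 y := by
      rw [intervalIntegral.integral_comp_neg]
      simp
    have h5 : ∫ y in (-V1)..V1, (hh η C A0 y + hh η C A0 (-y)) = 2 * V1 := by
      simp only [hh_add_neg H]
      rw [intervalIntegral.integral_const, smul_eq_mul]
      ring
    have h6 : IntervalIntegrable (fun y => hh η C A0 (-y)) volume (-V1) V1 :=
      (hc.comp continuous_neg).intervalIntegrable _ _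
    rw [intervalIntegral.integral_add (hii _ _) h6, h4] at h5
    linarith
  have hA := b5a_A0pos H
  have hC := H.hC
  have hCA : 0 ≤ 7 * C * A0 := by positivity
  have h6 : ∫ y in V1..V2, hh η C A0 y = η * (V2 - V1) := by
    have : ∫ y in V1..V2, hh η C A0 y = ∫ _y in V1..V2, η := by
      refine intervalIntegral.integral_congr fun y hy => ?_
      have h7 : min V1 V2 ≤ y := hy.1
      have h8 : yr η C A0 ≤ min V1 V2 := le_min (by linarith [H.hV1]) (by linarith [H.hV2])
      exact hh_flat H (h8.trans h7)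
    rw [this, intervalIntegral.integral_const, smul_eq_mul]
    ring
  rw [h3, h6]

theorem Dom.target {e : ℝ → ℝ} (he : Dom η C A0 T A V1 e) : Target q T (tgt η C A0 A V1 e) := by
  have hA := b5a_A0pos H
  have hη0 := H.hη
  have hη := b5a_eta H
  have hC := H.hC
  have hC0 : 0 < C := by linarith
  refine ⟨((b5a_chi_cont H).mul H.cA).add he.cont, ?_, ?_⟩
  · intro t h0 hT
    have h1 : η ≤ chi η C A0 A V1 t := b5a_hh_ge H _
    have h2 := H.loA t
    have h3 := he.nn t h0 hT
    have h4 : η * A0 ≤ chi η C A0 A V1 t * A t := mul_le_mul h1 h2 hA.le (hη0.le.trans h1)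
    have := H.hA0
    unfold tgt
    linarith
  · intro t t' h0 htt' hT _
    have htT : t ≤ T := htt'.trans hT
    have h0' : 0 ≤ t' := h0.trans htt'
    set x := chi η C A0 A V1 t with hx
    set x' := chi η C A0 A V1 t' with hx'
    have hxη : η ≤ x := b5a_hh_ge H _
    have hx0 : 0 < x := lt_of_lt_of_le hη0 hxη
    have hd : 0 ≤ t' - t := by linarith
    have hAt := H.loA t
    have hAt0 : 0 < A t := lt_of_lt_of_le hA hAt
    obtain ⟨m1, m2⟩ := b5a_mass_diff H htt'
    have hm0 : 0 ≤ A0 * (t' - t) := mul_nonneg hA.le hd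
    have hanti : x' ≤ x := b5a_hh_anti H (by linarith)
    have hlip : x - x' ≤ η / (32 * C ^ 2) / A0 * (C * A0 * (t' - t)) := by
      have h1 := b5a_hh_lip H (y := (∫ s in (0 : ℝ)..t, A s) - V1)
        (y' := (∫ s in (0 : ℝ)..t', A s) - V1) (by linarith)
      refine h1.trans ?_
      have hs := b5a_slope H
      exact mul_le_mul_of_nonneg_left (by linarith) hs.le
    have hlip2 : x - x' ≤ x / 32 * (t' - t) := by
      refine hlip.trans ?_
      have e1 : η / (32 * C ^ 2) / A0 * (C * A0 * (t' - t)) = η / (32 * C) * (t' - t) := by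
        field_simp
      rw [e1]
      refine mul_le_mul_of_nonneg_right ?_ hd
      rw [div_le_div_iff₀ (by positivity) (by norm_num)]
      nlinarith [mul_le_mul_of_nonneg_left hC hx0.le]
    have p1 : (x - x') * A t ≤ 1 / 32 * (x * A t) * (t' - t) := by
      have := mul_le_mul_of_nonneg_right hlip2 hAt0.le
      calc (x - x') * A t ≤ x / 32 * (t' - t) * A t := this
        _ = _ := by ring
    have p2 : x' * (A t - A t') ≤ 1 / 256 * (x * A t) * (t' - t) := by
      have h1 : A t - A t' ≤ A0 / 256 * (t' - t) := by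
        have := H.lipA t t'
        rw [abs_sub_comm t t', abs_of_nonneg hd] at this
        exact (le_abs_self _).trans this
      have hx'0 : 0 ≤ x' := hη0.le.trans (b5a_hh_ge H _)
      calc x' * (A t - A t') ≤ x' * (A0 / 256 * (t' - t)) := mul_le_mul_of_nonneg_left h1 hx'0
        _ ≤ x * (A t / 256 * (t' - t)) := by gcongr
        _ = _ := by ring
    have p3 : e t - e t' ≤ 1 / 32 * (x * A t) * (t' - t) := by
      have hr : 0 ≤ 1 / 32 * (x * A t) * (t' - t) := by positivity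
      by_cases het : e t = 0
      · have := he.nn t' h0' hT
        linarith
      · have hM : (∫ s in (0 : ℝ)..t, A s) < V1 - (yr η C A0 + 2 * C * A0) := by
          by_contra hcon
          exact het (he.supp t h0 htT (not_lt.1 hcon))
        have hxe : x = 1 - η := by
          have h1 := hh_add_neg H ((∫ s in (0 : ℝ)..t, A s) - V1)
          have hCA : 0 < 2 * C * A0 := by positivity
          have h2 := hh_flat H (y := -((∫ s in (0 : ℝ)..t, A s) - V1)) (by linarith)
          rw [h2] at h1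
          have : x = hh η C A0 ((∫ s in (0 : ℝ)..t, A s) - V1) := rfl
          rw [this]
          linarith
        have hx2 : 1 / 2 ≤ x := by rw [hxe]; linarith
        have h3 := he.lip t t' h0 htT h0' hT
        rw [abs_sub_comm t t', abs_of_nonneg hd] at h3
        have h4 : e t - e t' ≤ A0 / 64 * (t' - t) := (le_abs_self _).trans h3
        refine h4.trans ?_
        refine mul_le_mul_of_nonneg_right ?_ hd
        have h5 : 1 / 2 * A0 ≤ x * A t := mul_le_mul hx2 hAt hA.le hx0.le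
        linarith
    have p4 : 0 ≤ e t := he.nn t h0 htT
    have p5 : 0 ≤ (x * A t) * (t' - t) := by positivity
    have p6 : 0 ≤ e t * (t' - t) := mul_nonneg p4 hd
    show x * A t + e t - 1 / 8 * (x * A t + e t) * (t' - t) ≤ x' * A t' + e t'
    nlinarith

end

end Vale.Agent.P209.Strong
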