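import Vale.Agent.P209.Strong.B5a

namespace Vale.Agent.P209.Strong

open MeasureTheory

/-! B5b. Location of the last peak, mass and support of the final residual. -/

section
variable {q : ℕ} {δ ρ C η A0 T : ℝ} {A : ℝ → ℝ} {V1 V2 : ℝ} {u : ℕ → ℝ} {N NJ : ℕ}
  (H : HD q δ ρ C η A0 T A V1 V2 u N NJ)
include H

lemma b5b_A0 : 0 < A0 := by
  by_contra h
  have h1 := H.hA0
  have h2 := H.hη
  have h3 : (0 : ℝ) ≤ q := Nat.cast_nonneg q
  nlinarith

lemma b5b_M_sub (s t : ℝ) : (∫ x in (0 : ℝ)..t, A x) - (∫ x in (0 : ℝ)..s, A x) =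
    ∫ x in s..t, A x :=
  intervalIntegral.integral_interval_sub_left (H.cA.intervalIntegrable _ _)
    (H.cA.intervalIntegrable _ _)

lemma b5b_M_le {s t : ℝ} (h : s ≤ t) :
    (∫ x in (0 : ℝ)..t, A x) - (∫ x in (0 : ℝ)..s, A x) ≤ C * A0 * (t - s) := by
  rw [b5b_M_sub H]
  have h1 : ∫ x in s..t, A x ≤ ∫ _ in s..t, C * A0 :=
    intervalIntegral.integral_mono_on h (H.cA.intervalIntegrable _ _)
      intervalIntegrable_const fun x _ => H.hiA x
  rw [intervalIntegral.integral_const, smul_eq_mul] at h1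
  linarith

lemma b5b_M_ge {s t : ℝ} (h : s ≤ t) :
    A0 * (t - s) ≤ (∫ x in (0 : ℝ)..t, A x) - (∫ x in (0 : ℝ)..s, A x) := by
  rw [b5b_M_sub H]
  have h1 : ∫ _ in s..t, A0 ≤ ∫ x in s..t, A x :=
    intervalIntegral.integral_mono_on h intervalIntegrable_const
      (H.cA.intervalIntegrable _ _) fun x _ => H.loA x
  rw [intervalIntegral.integral_const, smul_eq_mul] at h1
  linarith

lemma b5b_M_zero : ∫ x in (0 : ℝ)..0, A x = 0 := by
  have _ := H
  simp

lemma b5b_CA0 : 0 < C * A0 := mul_pos (by linarith [H.hC]) (b5b_A0 H)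

lemma b5b_yr : 0 < yr η C A0 := by
  have h1 := b5b_A0 H
  have h2 := H.hC
  have h3 := H.hη
  unfold yr
  positivity

/-- monotonicity of the mass, contrapositive form -/
lemma b5b_lt_of_M {s t : ℝ} (h : (∫ x in (0 : ℝ)..s, A x) < ∫ x in (0 : ℝ)..t, A x) : s < t := by
  by_contra hc
  have h1 := b5b_M_ge H (not_lt.1 hc)
  have h2 := b5b_A0 H
  have h3 : 0 ≤ A0 * (s - t) := mul_nonneg h2.le (by linarith [not_lt.1 hc])
  linarith

lemma b5b_T : 2 ≤ T := by
  have h1 := b5b_M_le H H.hT.le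
  rw [b5b_M_zero H, H.int] at h1
  have h2 := H.hV1
  have h3 := H.hV2
  have h4 := b5b_yr H
  have h5 := b5b_CA0 H
  have h6 : C * A0 * 2 ≤ C * A0 * T := by linarith
  exact le_of_mul_le_mul_left h6 h5

lemma b5b_chi_cont : Continuous (chi η C A0 A V1) := by
  unfold chi hh
  have h1 : Continuous fun t => ∫ s in (0 : ℝ)..t, A s :=
    intervalIntegral.continuous_primitive (fun a b => H.cA.intervalIntegrable a b) 0
  fun_prop

lemma b5b_chi_ge (t : ℝ) : η ≤ chi η C A0 A V1 t := by
  have _ := H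
  exact le_max_left _ _

lemma b5b_tgt_ge {e : ℝ → ℝ} (he : Dom η C A0 T A V1 e) {t : ℝ} (ht : 0 ≤ t) (htT : t ≤ T) :
    η * A t ≤ tgt η C A0 A V1 e t := by
  unfold tgt
  have h1 := b5b_chi_ge H t
  have h2 := he.nn t ht htT
  have h3 : 0 ≤ A t := (b5b_A0 H).le.trans (H.loA t)
  have h4 := mul_le_mul_of_nonneg_right h1 h3
  linarith

/-- Far to the right the target is `η A`. -/
lemma b5b_tgt_eq {e : ℝ → ℝ} (he : Dom η C A0 T A V1 e) {t : ℝ} (ht : 0 ≤ t) (htT : t ≤ T)
    (hM : V1 + yr η C A0 ≤ ∫ s in (0 : ℝ)..t, A s) : tgt η C A0 A V1 e t = η * A t := by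
  unfold tgt chi
  rw [hh_flat H (by linarith), he.supp t ht htT (by
    have := b5b_yr H
    have := b5b_CA0 H
    linarith), add_zero]

lemma b5b_int_tgt {e : ℝ → ℝ} (he : Dom η C A0 T A V1 e) :
    ∫ t in (0 : ℝ)..T, tgt η C A0 A V1 e t =
      (∫ t in (0 : ℝ)..T, e t) + (V1 + η * (V2 - V1)) := by
  unfold tgt
  have h1 : IntervalIntegrable (fun t => chi η C A0 A V1 t * A t) volume 0 T :=
    ((b5b_chi_cont H).mul H.cA).intervalIntegrable _ _
  rw [intervalIntegral.integral_add h1 (he.cont.intervalIntegrable _ _), integral_chi H]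
  ring

/-- The mass of the residual. -/
lemma b5b_mass {e : ℝ → ℝ} (he : Dom η C A0 T A V1 e) {n : ℕ}
    (hP : ∀ i, i ≤ n → eP q T (tgt η C A0 A V1 e) u i ≤ T - 1) :
    ∫ t in (0 : ℝ)..T, eM q T (tgt η C A0 A V1 e) u n t =
      (∫ t in (0 : ℝ)..T, e t) + (V1 + η * (V2 - V1)) -
        ∑ j ∈ Finset.range n, u j ^ (q + 1) / (q + 1) := by
  have ha := Dom.target H he
  set a := tgt η C A0 A V1 e with hadef
  have hP' : ∀ i, i < n → eP q T a u i ≤ T - 1 := fun i hi => hP i hi.le
  have hc : ∀ j, Continuous fun t : ℝ => ev q T a u j t := fun j => by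
    have h := ev_continuous (Θ := Unit) q (T := fun _ => T) (a := fun _ => a)
      (u := fun j _ => u j) continuous_const (ha.cont.comp continuous_snd)
      (fun _ => continuous_const) j
    exact h.comp (Continuous.prodMk continuous_const continuous_id : Continuous fun t : ℝ => ((), t))
  have h1 : ∫ t in (0 : ℝ)..T, eM q T a u n t =
      ∫ t in (0 : ℝ)..T, (a t - ∑ j ∈ Finset.range n, ev q T a u j t ^ q) := by
    refine intervalIntegral.integral_congr fun t ht => ?_
    rw [Set.uIcc_of_le H.hT.le] at ht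
    exact eM_eq H.hq ha H.hu hP' ht.1 ht.2
  have hi : ∀ j, IntervalIntegrable (fun t => ev q T a u j t ^ q) volume 0 T := fun j =>
    ((hc j).pow q).intervalIntegrable _ _
  have hs : IntervalIntegrable (fun t => ∑ j ∈ Finset.range n, ev q T a u j t ^ q) volume 0 T :=
    (continuous_finsetSum _ fun j _ => (hc j).pow q).intervalIntegrable _ _
  rw [h1, intervalIntegral.integral_sub (ha.cont.intervalIntegrable _ _) hs,
    intervalIntegral.integral_finsetSum fun j _ => hi j, hadef, b5b_int_tgt H he]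
  congr 1
  refine Finset.sum_congr rfl fun j hj => ?_
  have hj' := Finset.mem_range.1 hj
  exact vf_integral H.hq ha (evo_inv H.hq ha H.hu fun i hi => hP' i (hi.trans hj'))
    (hP' j hj') (H.hu j).1 (H.hu j).2 (hP (j + 1) hj')

/-- All peaks are located on the left. -/
lemma b5b_peaks {e : ℝ → ℝ} (he : Dom η C A0 T A V1 e) (i : ℕ) (hi : i ≤ N) :
    ∀ j, j ≤ i → eP q T (tgt η C A0 A V1 e) u j ≤ T - 1 ∧
      (∫ s in (0 : ℝ)..(eP q T (tgt η C A0 A V1 e) u j), A s) ≤
        V1 + (yr η C A0 + 4 * C * A0) := by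
  have ha := Dom.target H he
  have hCA := b5b_CA0 H
  have hyr := b5b_yr H
  have hT2 := b5b_T H
  have hV1 := H.hV1
  have hV2 := H.hV2
  induction i with
  | zero =>
    intro j hj
    obtain rfl : j = 0 := by omega
    have h0 : eP q T (tgt η C A0 A V1 e) u 0 = 0 := rfl
    rw [h0, b5b_M_zero H]
    constructor <;> nlinarith
  | succ i ih =>
    have ih' := ih (by omega)
    intro j hj
    rcases Nat.lt_or_ge j (i + 1) with h | h
    · exact ih' j (by omega)
    obtain rfl : j = i + 1 := by omega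
    set a := tgt η C A0 A V1 e with hadef
    have hP' : ∀ j, j < i → eP q T a u j ≤ T - 1 := fun j hj => (ih' j hj.le).1
    have hinv := evo_inv H.hq ha H.hu hP'
    obtain ⟨hPi, hMi⟩ := ih' i le_rfl
    have h1 : eP q T a u (i + 1) ≤ eP q T a u i + 1 :=
      hinv.Wf_le_add H.hq ha hPi (H.hu i).1 (H.hu i).2
    have h2 := b5b_M_le H (s := eP q T a u i) (t := eP q T a u i + 2) (by linarith)
    have h3 : eP q T a u i + 2 < T := by
      apply b5b_lt_of_M H
      rw [H.int]
      nlinarith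
    have hPi1 : eP q T a u (i + 1) ≤ T - 1 := by linarith
    refine ⟨hPi1, ?_⟩
    have hP1 : ∀ j, j ≤ i + 1 → eP q T a u j ≤ T - 1 := fun j hj => by
      rcases Nat.lt_or_ge j (i + 1) with h | h
      · exact (ih' j (by omega)).1
      · obtain rfl : j = i + 1 := by omega
        exact hPi1
    have hmass := b5b_mass H he hP1
    have hinv1 := evo_inv H.hq ha H.hu (n := i + 1) fun j hj => hP1 j hj.le
    have hsum : ∑ j ∈ Finset.range (i + 1), u j ^ (q + 1) / ((q : ℝ) + 1) ≤ V1 := by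
      rw [← H.vol]
      refine Finset.sum_le_sum_of_subset_of_nonneg (Finset.range_subset_range.2 hi)
        fun j _ _ => ?_
      have := (H.hu j).1
      positivity
    have hlow : η * (V2 - (yr η C A0 + 4 * C * A0)) ≤
        ∫ t in (0 : ℝ)..T, eM q T a u (i + 1) t := by
      have h4 := he.massLo
      rw [← hadef] at hmass
      rw [hmass]
      nlinarith
    by_contra hcon
    rw [not_le] at hcon
    set p := eP q T a u (i + 1) with hp
    have hp0 : 0 ≤ p := hinv1.p0
    have hpT : p ≤ T := by linarith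
    have hup : ∫ t in (0 : ℝ)..T, eM q T a u (i + 1) t ≤
        η * (V1 + V2 - ∫ s in (0 : ℝ)..p, A s) := by
      rw [← intervalIntegral.integral_add_adjacent_intervals
        (hinv1.cont.intervalIntegrable 0 p) (hinv1.cont.intervalIntegrable p T)]
      have e1 : ∫ t in (0 : ℝ)..p, eM q T a u (i + 1) t = 0 := by
        have e2 : ∫ t in (0 : ℝ)..p, eM q T a u (i + 1) t ≤ ∫ _ in (0 : ℝ)..p, (0 : ℝ) := by
          refine intervalIntegral.integral_mono_on_of_le_Ioo hp0
            (hinv1.cont.intervalIntegrable 0 p) intervalIntegrable_const fun t ht => ?_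
          exact (hinv1.zero t ht.1.le ht.2 (by linarith [ht.2])).le
        have e3 : 0 ≤ ∫ t in (0 : ℝ)..p, eM q T a u (i + 1) t :=
          intervalIntegral.integral_nonneg hp0 fun t ht => hinv1.nn t ht.1 (ht.2.trans hpT)
        rw [intervalIntegral.integral_const, smul_zero] at e2
        exact le_antisymm e2 e3
      rw [e1, zero_add]
      have e4 : ∫ t in p..T, eM q T a u (i + 1) t ≤ ∫ t in p..T, η * A t := by
        refine intervalIntegral.integral_mono_on hpT (hinv1.cont.intervalIntegrable p T)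
          ((H.cA.const_mul η).intervalIntegrable p T) fun t ht => ?_
        have e5 : (∫ s in (0 : ℝ)..p, A s) ≤ ∫ s in (0 : ℝ)..t, A s := by
          have := b5b_M_ge H ht.1
          have h8 : 0 ≤ A0 * (t - p) := mul_nonneg (b5b_A0 H).le (by linarith [ht.1])
          linarith
        have e6 := b5b_tgt_eq H he (hp0.trans ht.1) ht.2 (by linarith)
        rw [← e6]
        exact hinv1.le t (hp0.trans ht.1) ht.2
      refine e4.trans (le_of_eq ?_)
      rw [intervalIntegral.integral_const_mul, ← b5b_M_sub H, H.int]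
    have h5 := H.hη
    have h6 : η * (V2 - (yr η C A0 + 4 * C * A0)) ≤ η * (V1 + V2 - ∫ s in (0 : ℝ)..p, A s) :=
      hlow.trans hup
    have h7 := le_of_mul_le_mul_left h6 h5
    linarith

theorem half_mass {e : ℝ → ℝ} (he : Dom η C A0 T A V1 e) :
    ∫ t in (0 : ℝ)..T, eM q T (tgt η C A0 A V1 e) u N t =
      (∫ t in (0 : ℝ)..T, e t) + η * (V2 - V1) := by
  rw [b5b_mass H he fun i hi => (b5b_peaks H he N le_rfl i hi).1, H.vol]
  ring

lemma b5b_lower {e : ℝ → ℝ} (he : Dom η C A0 T A V1 e) :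
    η * (V1 + V2 - ((∫ s in (0 : ℝ)..(eP q T (tgt η C A0 A V1 e) u N), A s) + C * A0)) ≤
      (∫ t in (0 : ℝ)..T, e t) + η * (V2 - V1) := by
  have ha := Dom.target H he
  have hP := fun i hi => (b5b_peaks H he N le_rfl i hi).1
  have hinv := evo_inv H.hq ha H.hu (n := N) fun j hj => hP j hj.le
  rw [← half_mass H he]
  set a := tgt η C A0 A V1 e with hadef
  set p := eP q T a u N with hp
  have hp0 : 0 ≤ p := hinv.p0
  have hpT : p + 1 ≤ T := by
    have : p ≤ T - 1 := hP N le_rfl
    linarith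
  have h1 := b5b_M_le H (s := p) (t := p + 1) (by linarith)
  rw [← intervalIntegral.integral_add_adjacent_intervals
    (hinv.cont.intervalIntegrable 0 (p + 1)) (hinv.cont.intervalIntegrable (p + 1) T)]
  have e1 : 0 ≤ ∫ t in (0 : ℝ)..(p + 1), eM q T a u N t :=
    intervalIntegral.integral_nonneg (by linarith) fun t ht => hinv.nn t ht.1 (ht.2.trans hpT)
  have e2 : ∫ t in (p + 1)..T, η * A t ≤ ∫ t in (p + 1)..T, eM q T a u N t := by
    refine intervalIntegral.integral_mono_on hpT ((H.cA.const_mul η).intervalIntegrable _ _)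
      (hinv.cont.intervalIntegrable _ _) fun t ht => ?_
    rw [hinv.eq t ht.1 ht.2]
    exact b5b_tgt_ge H he (by linarith [ht.1]) ht.2
  rw [intervalIntegral.integral_const_mul, ← b5b_M_sub H, H.int] at e2
  have h2 : η * (V1 + V2 - ((∫ s in (0 : ℝ)..p, A s) + C * A0)) ≤
      η * (V1 + V2 - ∫ x in (0 : ℝ)..(p + 1), A x) := by
    refine mul_le_mul_of_nonneg_left ?_ H.hη.le
    linarith
  linarith

/-- All peaks are before `T - 1`, and the last peak is located in a window. -/
theorem half_peaks {e : ℝ → ℝ} (he : Dom η C A0 T A V1 e) :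
    (∀ i, i ≤ N → eP q T (tgt η C A0 A V1 e) u i ≤ T - 1) ∧
    V1 + (yr η C A0 + 2 * C * A0) ≤ ∫ s in (0 : ℝ)..(eP q T (tgt η C A0 A V1 e) u N), A s ∧
    ((∫ t in (0 : ℝ)..T, e t) = η * (V1 - (yr η C A0 + 4 * C * A0)) →
      V1 + (yr η C A0 + 3 * C * A0) ≤ ∫ s in (0 : ℝ)..(eP q T (tgt η C A0 A V1 e) u N), A s) := by
  have h1 := b5b_lower H he
  have hη := H.hη
  refine ⟨fun i hi => (b5b_peaks H he N le_rfl i hi).1, ?_, fun hm => ?_⟩
  · have h2 := he.massHi
    have h3 : η * (V1 + V2 - ((∫ s in (0 : ℝ)..(eP q T (tgt η C A0 A V1 e) u N), A s) + C * A0)) ≤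
        η * (V2 - (yr η C A0 + 3 * C * A0)) := by linarith
    have h4 := le_of_mul_le_mul_left h3 hη
    linarith
  · have h3 : η * (V1 + V2 - ((∫ s in (0 : ℝ)..(eP q T (tgt η C A0 A V1 e) u N), A s) + C * A0)) ≤
        η * (V2 - (yr η C A0 + 4 * C * A0)) := by
      rw [hm] at h1
      linarith
    have h4 := le_of_mul_le_mul_left h3 hη
    linarith

theorem half_supp {e : ℝ → ℝ} (he : Dom η C A0 T A V1 e)
    (hm : (∫ t in (0 : ℝ)..T, e t) = η * (V1 - (yr η C A0 + 4 * C * A0)))
    {t : ℝ} (ht : 0 ≤ t) (htT : t ≤ T)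
    (hM : (∫ s in (0 : ℝ)..t, A s) ≤ V1 + (yr η C A0 + 3 * C * A0)) :
    eM q T (tgt η C A0 A V1 e) u N t = 0 := by
  have ha := Dom.target H he
  have hP := fun i hi => (b5b_peaks H he N le_rfl i hi).1
  have hinv := evo_inv H.hq ha H.hu (n := N) fun j hj => hP j hj.le
  have h1 := (half_peaks H he).2.2 hm
  set a := tgt η C A0 A V1 e with hadef
  set p := eP q T a u N with hp
  have hpT : p ≤ T := by
    have : p ≤ T - 1 := hP N le_rfl
    linarith
  have htp : t ≤ p := by
    by_contra hc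
    rw [not_le] at hc
    have h2 := b5b_M_ge H hc.le
    have h3 : 0 < A0 * (t - p) := mul_pos (b5b_A0 H) (by linarith)
    linarith
  rcases htp.lt_or_eq with h | h
  · exact hinv.zero t ht h htT
  · have hp0 : 0 < p := by
      apply b5b_lt_of_M H
      rw [b5b_M_zero H]
      have := b5b_yr H
      have := b5b_CA0 H
      have := H.hV1
      linarith
    rw [h]
    have hcl : IsClosed {s : ℝ | eM q T a u N s = 0} :=
      isClosed_eq hinv.cont continuous_const
    have hsub : Set.Ioo 0 p ⊆ {s : ℝ | eM q T a u N s = 0} := fun s hs =>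
      hinv.zero s hs.1.le hs.2 (hs.2.le.trans hpT)
    have h2 := hcl.closure_subset_iff.2 hsub
    rw [closure_Ioo hp0.ne] at h2
    exact h2 ⟨hp0.le, le_rfl⟩

end

end Vale.Agent.P209.Strong
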