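import Vale.Agent.P209.Strong.B5

namespace Vale.Agent.P209.Strong

open MeasureTheory

/-! B6. The loop map and its approximate fixed points. -/

/-- half of the loop, followed by time reversal -/
noncomputable def halfMap (q : ℕ) (C η A0 T : ℝ) (A : ℝ → ℝ) (V1 : ℝ) (u : ℕ → ℝ) (N : ℕ)
    (e : ℝ → ℝ) : ℝ → ℝ := fun s => eM q T (tgt η C A0 A V1 e) u N (T - s)

/-- the loop map -/
noncomputable def loopMap (q : ℕ) (C η A0 T : ℝ) (A : ℝ → ℝ) (V1 V2 : ℝ) (uL uR : ℕ → ℝ)
    (NL NR : ℕ) (e : ℝ → ℝ) : ℝ → ℝ :=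
  halfMap q C η A0 T (fun s => A (T - s)) V2 uR NR (halfMap q C η A0 T A V1 uL NL e)

/-- the initial perturbation -/
noncomputable def e0 (C η A0 : ℝ) (A : ℝ → ℝ) (V1 : ℝ) (t : ℝ) : ℝ :=
  η * A t * max 0 (min 1 (1 / 2 +
    (V1 - (∫ s in (0 : ℝ)..t, A s) - (yr η C A0 + 4 * C * A0)) / (C * A0)))

/-- the iteration -/
noncomputable def itr (q : ℕ) (C η A0 T : ℝ) (A : ℝ → ℝ) (V1 V2 : ℝ) (uL uR : ℕ → ℝ)
    (NL NR : ℕ) (κ : ℝ) : ℕ → ℝ → ℝ
  | 0 => e0 C η A0 A V1
  | k + 1 => fun t =>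
    (1 - κ) * loopMap q C η A0 T A V1 V2 uL uR NL NR (itr q C η A0 T A V1 V2 uL uR NL NR κ k) t +
      κ * e0 C η A0 A V1 t

/-- The exact class: mass exactly `η (V1 - yz)` and support in `M t ≤ V1 - y0`. -/
def DomE (C η A0 T : ℝ) (A : ℝ → ℝ) (V1 : ℝ) (e : ℝ → ℝ) : Prop :=
  Dom η C A0 T A V1 e ∧
  (∫ t in (0 : ℝ)..T, e t) = η * (V1 - (yr η C A0 + 4 * C * A0)) ∧
  ∀ t, 0 ≤ t → t ≤ T → V1 - (yr η C A0 + 3 * C * A0) ≤ (∫ s in (0 : ℝ)..t, A s) → e t = 0

/-- a ramp -/
noncomputable def rmp (a h m : ℝ) : ℝ := max 0 (min 1 (1 / 2 + (a - m) / h))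

theorem rmp_nonneg (a h m : ℝ) : 0 ≤ rmp a h m := le_max_left _ _

theorem rmp_le_one (a h m : ℝ) : rmp a h m ≤ 1 := max_le zero_le_one (min_le_left _ _)

theorem rmp_cont (a h : ℝ) : Continuous (rmp a h) := by
  unfold rmp
  fun_prop

theorem rmp_lip {a h : ℝ} (hh : 0 < h) (m m' : ℝ) :
    |rmp a h m - rmp a h m'| ≤ |m - m'| / h := by
  unfold rmp
  refine (abs_max_sub_max_le_max _ _ _ _).trans ?_
  rw [sub_self, abs_zero]
  refine max_le (by positivity) ?_
  refine (abs_min_sub_min_le_max _ _ _ _).trans ?_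
  rw [sub_self, abs_zero]
  refine max_le (by positivity) ?_
  have h1 : 1 / 2 + (a - m) / h - (1 / 2 + (a - m') / h) = -(m - m') / h := by
    field_simp
    ring
  rw [h1, abs_div, abs_neg, abs_of_pos hh]

theorem rmp_one {a h m : ℝ} (hh : 0 < h) (hm : m ≤ a - h / 2) : rmp a h m = 1 := by
  unfold rmp
  have h1 : 1 / 2 ≤ (a - m) / h := by
    rw [le_div_iff₀ hh]
    linarith
  rw [min_eq_left (by linarith), max_eq_right zero_le_one]

theorem rmp_zero {a h m : ℝ} (hh : 0 < h) (hm : a + h / 2 ≤ m) : rmp a h m = 0 := by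
  unfold rmp
  have h1 : (a - m) / h ≤ -(1 / 2) := by
    rw [div_le_iff₀ hh]
    linarith
  rw [max_eq_left]
  exact (min_le_right _ _).trans (by linarith)

theorem rmp_mid {a h m : ℝ} (hh : 0 < h) (h1 : a - h / 2 ≤ m) (h2 : m ≤ a + h / 2) :
    rmp a h m = 1 / 2 + (a - m) / h := by
  unfold rmp
  have h3 : (a - m) / h ≤ 1 / 2 := by
    rw [div_le_iff₀ hh]
    linarith
  have h4 : -(1 / 2) ≤ (a - m) / h := by
    rw [le_div_iff₀ hh]
    linarith
  rw [min_eq_right (by linarith), max_eq_right (by linarith)]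

theorem rmp_integral {a h V : ℝ} (hh : 0 < h) (ha : h / 2 ≤ a) (hV : a + h / 2 ≤ V) :
    ∫ m in (0 : ℝ)..V, rmp a h m = a := by
  have hii : ∀ x y : ℝ, IntervalIntegrable (rmp a h) volume x y := fun x y =>
    (rmp_cont a h).intervalIntegrable x y
  rw [← intervalIntegral.integral_add_adjacent_intervals (hii 0 (a - h / 2)) (hii (a - h / 2) V),
    ← intervalIntegral.integral_add_adjacent_intervals (hii (a - h / 2) (a + h / 2))
      (hii (a + h / 2) V)]
  have e1 : ∫ m in (0 : ℝ)..(a - h / 2), rmp a h m = a - h / 2 := by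
    have : ∫ m in (0 : ℝ)..(a - h / 2), rmp a h m = ∫ _m in (0 : ℝ)..(a - h / 2), (1 : ℝ) := by
      refine intervalIntegral.integral_congr fun y hy => ?_
      rw [Set.uIcc_of_le (by linarith)] at hy
      exact rmp_one hh hy.2
    rw [this, intervalIntegral.integral_const, smul_eq_mul]
    ring
  have e2 : ∫ m in (a - h / 2)..(a + h / 2), rmp a h m = h / 2 := by
    have : ∫ m in (a - h / 2)..(a + h / 2), rmp a h m =
        ∫ m in (a - h / 2)..(a + h / 2), ((1 / 2 + a / h) - m * (1 / h)) := by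
      refine intervalIntegral.integral_congr fun y hy => ?_
      rw [Set.uIcc_of_le (by linarith)] at hy
      show rmp a h y = _
      rw [rmp_mid hh hy.1 hy.2]
      field_simp
      ring
    have hc : Continuous fun m : ℝ => m * (1 / h) := by fun_prop
    rw [this, intervalIntegral.integral_sub intervalIntegrable_const
      (hc.intervalIntegrable _ _),
      intervalIntegral.integral_const, intervalIntegral.integral_mul_const, integral_id,
      smul_eq_mul]
    field_simp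
    ring
  have e3 : ∫ m in (a + h / 2)..V, rmp a h m = 0 := by
    have : ∫ m in (a + h / 2)..V, rmp a h m = ∫ _m in (a + h / 2)..V, (0 : ℝ) := by
      refine intervalIntegral.integral_congr fun y hy => ?_
      rw [Set.uIcc_of_le hV] at hy
      exact rmp_zero hh hy.1
    rw [this]
    simp
  rw [e1, e2, e3]
  ring

theorem e0_eq (C η A0 : ℝ) (A : ℝ → ℝ) (V1 t : ℝ) : e0 C η A0 A V1 t =
    η * A t * rmp (V1 - (yr η C A0 + 4 * C * A0)) (C * A0) (∫ s in (0 : ℝ)..t, A s) := by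
  unfold e0 rmp
  congr 5
  ring

section
variable {q : ℕ} {δ ρ C η A0 T : ℝ} {A : ℝ → ℝ} {V1 V2 : ℝ} {uL uR : ℕ → ℝ} {NL NR NJ : ℕ}
  (HL : HD q δ ρ C η A0 T A V1 V2 uL NL NJ)
  (HR : HD q δ ρ C η A0 T (fun s => A (T - s)) V2 V1 uR NR 0)
include HL

theorem b6_cont_M : Continuous fun t => ∫ s in (0 : ℝ)..t, A s := by
  have h := (b5a_mass_cont HL).add (continuous_const (y := V1))
  refine h.congr fun t => ?_
  exact sub_add_cancel _ _

theorem b6_lip_M (t t' : ℝ) :
    |(∫ s in (0 : ℝ)..t, A s) - ∫ s in (0 : ℝ)..t', A s| ≤ C * A0 * |t - t'| := by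
  have hA := b5a_A0pos HL
  rcases le_total t t' with h | h
  · have h1 := b5a_mass_diff HL h
    rw [abs_sub_comm, abs_of_nonneg, abs_sub_comm, abs_of_nonneg (by linarith : 0 ≤ t' - t)]
    · exact h1.2
    · have : 0 ≤ A0 * (t' - t) := mul_nonneg hA.le (by linarith)
      linarith [h1.1]
  · have h1 := b5a_mass_diff HL h
    rw [abs_of_nonneg, abs_of_nonneg (by linarith : 0 ≤ t - t')]
    · exact h1.2
    · have : 0 ≤ A0 * (t - t') := mul_nonneg hA.le (by linarith)
      linarith [h1.1]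

include HR

theorem e0_domE : DomE C η A0 T A V1 (e0 C η A0 A V1) := by
  have hA := b5a_A0pos HL
  have hC := HL.hC
  have hη := HL.hη
  have hη1 := b5a_eta HL
  have hCA : 0 < C * A0 := mul_pos (by linarith) hA
  have hyr : 0 ≤ yr η C A0 := b5_yr HL
  have hV1 := HL.hV1
  have hV2 := HL.hV2
  set a := V1 - (yr η C A0 + 4 * C * A0) with ha
  have heq : e0 C η A0 A V1 = fun t => η * A t * rmp a (C * A0) (∫ s in (0 : ℝ)..t, A s) :=
    funext fun t => e0_eq C η A0 A V1 t
  have hAt : ∀ t, 0 < A t := fun t => lt_of_lt_of_le hA (HL.loA t)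
  have hmass : (∫ t in (0 : ℝ)..T, e0 C η A0 A V1 t) = η * (V1 - (yr η C A0 + 4 * C * A0)) := by
    rw [heq]
    have h1 : ∫ t in (0 : ℝ)..T, η * A t * rmp a (C * A0) (∫ s in (0 : ℝ)..t, A s) =
        η * ∫ t in (0 : ℝ)..T, rmp a (C * A0) (∫ s in (0 : ℝ)..t, A s) * A t := by
      rw [← intervalIntegral.integral_const_mul]
      refine intervalIntegral.integral_congr fun t _ => ?_
      show η * A t * rmp a (C * A0) (∫ s in (0 : ℝ)..t, A s) =
        η * (rmp a (C * A0) (∫ s in (0 : ℝ)..t, A s) * A t)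
      ring
    have hd : ∀ t, HasDerivAt (fun t => ∫ s in (0 : ℝ)..t, A s) (A t) t := by
      intro t
      exact intervalIntegral.integral_hasDerivAt_right (HL.cA.intervalIntegrable 0 t)
        (HL.cA.stronglyMeasurableAtFilter _ _) HL.cA.continuousAt
    have h2 := intervalIntegral.integral_comp_mul_deriv (a := 0) (b := T)
      (f := fun t => ∫ s in (0 : ℝ)..t, A s) (f' := A) (g := rmp a (C * A0))
      (fun x _ => hd x) HL.cA.continuousOn (rmp_cont a (C * A0))
    have h3 : ∫ t in (0 : ℝ)..T, rmp a (C * A0) (∫ s in (0 : ℝ)..t, A s) * A t =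
        ∫ m in (0 : ℝ)..(V1 + V2), rmp a (C * A0) m := by
      have e0' : (∫ s in (0 : ℝ)..0, A s) = 0 := by simp
      simp only [e0', HL.int] at h2
      exact h2
    rw [h1, h3, rmp_integral hCA (by nlinarith) (by nlinarith)]
  have hzero : ∀ t, V1 - (yr η C A0 + 3 * C * A0) ≤ (∫ s in (0 : ℝ)..t, A s) →
      e0 C η A0 A V1 t = 0 := by
    intro t ht
    rw [e0_eq, rmp_zero hCA (by nlinarith), mul_zero]
  refine ⟨⟨?_, ?_, ?_, ?_, ?_, hmass.ge, ?_⟩, hmass, fun t _ _ h => hzero t h⟩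
  · rw [heq]
    have h1 := (rmp_cont a (C * A0)).comp (b6_cont_M HL)
    exact (continuous_const.mul HL.cA).mul h1
  · intro t _ _
    rw [e0_eq]
    exact mul_nonneg (mul_nonneg hη.le (hAt t).le) (rmp_nonneg _ _ _)
  · intro t _ _
    rw [e0_eq]
    have h1 : η ≤ 1 - chi η C A0 A V1 t := by
      have h2 := hh_add_neg HL ((∫ s in (0 : ℝ)..t, A s) - V1)
      have h3 := b5a_hh_ge HL (-((∫ s in (0 : ℝ)..t, A s) - V1))
      unfold chi
      linarith
    calc η * A t * rmp a (C * A0) (∫ s in (0 : ℝ)..t, A s) ≤ η * A t * 1 :=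
          mul_le_mul_of_nonneg_left (rmp_le_one _ _ _) (mul_nonneg hη.le (hAt t).le)
      _ = η * A t := mul_one _
      _ ≤ (1 - chi η C A0 A V1 t) * A t := mul_le_mul_of_nonneg_right h1 (hAt t).le
  · intro t t' _ _ _ _
    rw [e0_eq, e0_eq]
    set ν := rmp a (C * A0) (∫ s in (0 : ℝ)..t, A s) with hν
    set ν' := rmp a (C * A0) (∫ s in (0 : ℝ)..t', A s) with hν'
    have hνd : |ν - ν'| ≤ |t - t'| := by
      refine (rmp_lip hCA _ _).trans ?_
      rw [div_le_iff₀ hCA]
      refine (b6_lip_M HL t t').trans (le_of_eq ?_)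
      ring
    have hν1 : |ν| ≤ 1 := by
      rw [abs_of_nonneg (rmp_nonneg _ _ _)]
      exact rmp_le_one _ _ _
    have hA1 : |A t'| ≤ C * A0 := by
      rw [abs_of_pos (hAt t')]
      exact HL.hiA t'
    have h1 : η * A t * ν - η * A t' * ν' = η * ((A t - A t') * ν + A t' * (ν - ν')) := by ring
    rw [h1, abs_mul, abs_of_pos hη]
    have h2 : |(A t - A t') * ν + A t' * (ν - ν')| ≤ A0 / 256 * |t - t'| + C * A0 * |t - t'| := by
      refine (abs_add_le _ _).trans (add_le_add ?_ ?_)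
      · rw [abs_mul]
        calc |A t - A t'| * |ν| ≤ |A t - A t'| * 1 := mul_le_mul_of_nonneg_left hν1 (abs_nonneg _)
          _ = |A t - A t'| := mul_one _
          _ ≤ _ := HL.lipA t t'
      · rw [abs_mul]
        exact mul_le_mul hA1 hνd (abs_nonneg _) hCA.le
    have h3 := mul_le_mul_of_nonneg_left h2 hη.le
    refine h3.trans ?_
    have h4 : η * (C * A0) ≤ A0 / 128 := by
      have := HL.hη1
      nlinarith
    have h5 : η * (A0 / 256) ≤ A0 / 256 := by
      have : 0 < A0 / 256 := by positivity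
      nlinarith
    have h6 := mul_le_mul_of_nonneg_right h4 (abs_nonneg (t - t'))
    have h7 := mul_le_mul_of_nonneg_right h5 (abs_nonneg (t - t'))
    have h8 : 0 ≤ A0 * |t - t'| := mul_nonneg hA.le (abs_nonneg _)
    nlinarith
  · intro t _ _ ht
    refine hzero t ?_
    nlinarith
  · rw [hmass]
    refine mul_le_mul_of_nonneg_left ?_ hη.le
    nlinarith

theorem loopMap_mass {e : ℝ → ℝ} (he : Dom η C A0 T A V1 e) :
    Dom η C A0 T A V1 (loopMap q C η A0 T A V1 V2 uL uR NL NR e) ∧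
    ∫ t in (0 : ℝ)..T, loopMap q C η A0 T A V1 V2 uL uR NL NR e t = ∫ t in (0 : ℝ)..T, e t := by
  have h1 : Dom η C A0 T (fun s => A (T - s)) V2 (halfMap q C η A0 T A V1 uL NL e) :=
    half_dom HL he
  have hAA : (fun s => (fun s => A (T - s)) (T - s)) = A := by
    funext s
    show A (T - (T - s)) = A s
    rw [sub_sub_cancel]
  have h2 := half_dom HR h1
  rw [hAA] at h2
  refine ⟨h2, ?_⟩
  have h3 := half_mass HL he
  have h4 := half_mass HR h1
  have h5 : ∫ t in (0 : ℝ)..T, halfMap q C η A0 T A V1 uL NL e t =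
      ∫ t in (0 : ℝ)..T, eM q T (tgt η C A0 A V1 e) uL NL t := by
    unfold halfMap
    rw [intervalIntegral.integral_comp_sub_left
      (fun x => eM q T (tgt η C A0 A V1 e) uL NL x) T, sub_self, sub_zero]
  have h6 : ∫ t in (0 : ℝ)..T, loopMap q C η A0 T A V1 V2 uL uR NL NR e t =
      ∫ t in (0 : ℝ)..T, eM q T (tgt η C A0 (fun s => A (T - s)) V2
        (halfMap q C η A0 T A V1 uL NL e)) uR NR t := by
    unfold loopMap
    rw [show halfMap q C η A0 T (fun s => A (T - s)) V2 uR NR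
        (halfMap q C η A0 T A V1 uL NL e) = fun s => eM q T (tgt η C A0 (fun s => A (T - s)) V2
        (halfMap q C η A0 T A V1 uL NL e)) uR NR (T - s) from rfl]
    rw [intervalIntegral.integral_comp_sub_left
      (fun x => eM q T (tgt η C A0 (fun s => A (T - s)) V2
        (halfMap q C η A0 T A V1 uL NL e)) uR NR x) T, sub_self, sub_zero]
  rw [h6, h4, h5, h3]
  ring

theorem loopMap_domE {e : ℝ → ℝ} (he : DomE C η A0 T A V1 e) :
    DomE C η A0 T A V1 (loopMap q C η A0 T A V1 V2 uL uR NL NR e) := by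
  obtain ⟨he1, he2, he3⟩ := he
  have h1 : Dom η C A0 T (fun s => A (T - s)) V2 (halfMap q C η A0 T A V1 uL NL e) :=
    half_dom HL he1
  obtain ⟨h2, h3⟩ := loopMap_mass HL HR he1
  have h5 : ∫ t in (0 : ℝ)..T, halfMap q C η A0 T A V1 uL NL e t =
      ∫ t in (0 : ℝ)..T, eM q T (tgt η C A0 A V1 e) uL NL t := by
    unfold halfMap
    rw [intervalIntegral.integral_comp_sub_left
      (fun x => eM q T (tgt η C A0 A V1 e) uL NL x) T, sub_self, sub_zero]
  have h6 : ∫ t in (0 : ℝ)..T, halfMap q C η A0 T A V1 uL NL e t =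
      η * (V2 - (yr η C A0 + 4 * C * A0)) := by
    rw [h5, half_mass HL he1, he2]
    ring
  refine ⟨h2, h3.trans he2, fun t ht htT hM => ?_⟩
  have h7 := half_supp HR h1 h6 (t := T - t) (by linarith) (by linarith) (by
    rw [b5_rev HL (T - t), sub_sub_cancel]
    linarith)
  exact h7

theorem loopMap_mono {e e' : ℝ → ℝ} (h : ∀ t, 0 ≤ t → t ≤ T → e t ≤ e' t) {t : ℝ} (ht : 0 ≤ t)
    (htT : t ≤ T) : loopMap q C η A0 T A V1 V2 uL uR NL NR e t ≤
      loopMap q C η A0 T A V1 V2 uL uR NL NR e' t := by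
  have hT : 0 ≤ T := HL.hT.le
  have h1 : ∀ s, 0 ≤ s → s ≤ T → halfMap q C η A0 T A V1 uL NL e s ≤
      halfMap q C η A0 T A V1 uL NL e' s := by
    intro s hs hsT
    unfold halfMap
    refine (evo_mono hT (fun i => (HL.hu i).1) (fun t ht htT => ?_) NL).1 (T - s) (by linarith)
      (by linarith)
    unfold tgt
    have := h t ht htT
    linarith
  show eM q T (tgt η C A0 (fun s => A (T - s)) V2 (halfMap q C η A0 T A V1 uL NL e)) uR NR (T - t) ≤
    eM q T (tgt η C A0 (fun s => A (T - s)) V2 (halfMap q C η A0 T A V1 uL NL e')) uR NR (T - t)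
  refine (evo_mono hT (fun i => (HR.hu i).1) (fun s hs hsT => ?_) NR).1 (T - t) (by linarith)
    (by linarith)
  unfold tgt
  have := h1 s hs hsT
  linarith

theorem domE_max {e e' : ℝ → ℝ} (he : DomE C η A0 T A V1 e) (he' : DomE C η A0 T A V1 e') :
    Dom η C A0 T A V1 (fun t => max (e t) (e' t)) := by
  obtain ⟨d, dm, ds⟩ := he
  obtain ⟨d', dm', ds'⟩ := he'
  have hA := b5a_A0pos HL
  have hC := HL.hC
  have hη := HL.hη
  have hCA : 0 < C * A0 := mul_pos (by linarith) hA
  have hyr : 0 ≤ yr η C A0 := b5_yr HL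
  have hV1 := HL.hV1
  have hV2 := HL.hV2
  have hT := HL.hT
  have hcm : Continuous fun t => max (e t) (e' t) := d.cont.max d'.cont
  refine ⟨hcm, ?_, ?_, ?_, ?_, ?_, ?_⟩
  · intro t ht htT
    exact (d.nn t ht htT).trans (le_max_left _ _)
  · intro t ht htT
    exact max_le (d.le t ht htT) (d'.le t ht htT)
  · intro t t' h1 h2 h3 h4
    exact (abs_max_sub_max_le_max _ _ _ _).trans
      (max_le (d.lip t t' h1 h2 h3 h4) (d'.lip t t' h1 h2 h3 h4))
  · intro t ht htT hM
    show max (e t) (e' t) = 0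
    rw [d.supp t ht htT hM, d'.supp t ht htT hM, max_self]
  · rw [← dm]
    exact intervalIntegral.integral_mono_on hT.le (d.cont.intervalIntegrable _ _)
      (hcm.intervalIntegrable _ _) fun t _ => le_max_left _ _
  · -- the point `t0` with mass `V1 - y0`
    set y0 := yr η C A0 + 3 * C * A0 with hy0
    have hM0 : (∫ s in (0 : ℝ)..0, A s) = 0 := by simp
    have hy0V : 0 ≤ V1 - y0 := by
      rw [hy0]
      nlinarith
    have hivt := intermediate_value_Icc hT.le (b6_cont_M HL).continuousOn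
    have hmem : V1 - y0 ∈ Set.Icc (∫ s in (0 : ℝ)..0, A s) (∫ s in (0 : ℝ)..T, A s) := by
      rw [hM0, HL.int]
      refine ⟨hy0V, ?_⟩
      rw [hy0]
      nlinarith
    obtain ⟨t0, ⟨ht0, ht0T⟩, hMt0⟩ := hivt hmem
    simp only at hMt0
    have hii : ∀ x y : ℝ, IntervalIntegrable (fun t => max (e t) (e' t)) volume x y :=
      fun x y => hcm.intervalIntegrable x y
    rw [← intervalIntegral.integral_add_adjacent_intervals (hii 0 t0) (hii t0 T)]
    have e2 : ∫ t in t0..T, max (e t) (e' t) = 0 := by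
      have : ∫ t in t0..T, max (e t) (e' t) = ∫ _t in t0..T, (0 : ℝ) := by
        refine intervalIntegral.integral_congr fun t ht => ?_
        rw [Set.uIcc_of_le ht0T] at ht
        have h1 := (b5a_mass_diff HL ht.1).1
        have h2 : 0 ≤ A0 * (t - t0) := mul_nonneg hA.le (by linarith [ht.1])
        have h3 : V1 - y0 ≤ ∫ s in (0 : ℝ)..t, A s := by linarith
        show max (e t) (e' t) = 0
        rw [ds t (ht0.trans ht.1) ht.2 h3, ds' t (ht0.trans ht.1) ht.2 h3, max_self]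
      rw [this]
      simp
    have e1 : ∫ t in (0 : ℝ)..t0, max (e t) (e' t) ≤ ∫ t in (0 : ℝ)..t0, η * A t := by
      refine intervalIntegral.integral_mono_on ht0 (hii _ _)
        ((HL.cA.const_mul η).intervalIntegrable _ _) fun t ht => ?_
      have htT : t ≤ T := ht.2.trans ht0T
      have h1 := (b5a_mass_diff HL ht.2).1
      have h2 : 0 ≤ A0 * (t0 - t) := mul_nonneg hA.le (by linarith [ht.2])
      have h3 : (∫ s in (0 : ℝ)..t, A s) ≤ V1 - y0 := by linarith
      have h4 : 1 - chi η C A0 A V1 t = η := by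
        have h5 := hh_add_neg HL ((∫ s in (0 : ℝ)..t, A s) - V1)
        have h6 := hh_flat HL (y := -((∫ s in (0 : ℝ)..t, A s) - V1)) (by
          rw [hy0] at h3
          nlinarith)
        unfold chi
        linarith
      have h5 := d.le t ht.1 htT
      have h6 := d'.le t ht.1 htT
      rw [h4] at h5 h6
      exact max_le h5 h6
    rw [intervalIntegral.integral_const_mul, hMt0] at e1
    rw [e2, add_zero]
    exact e1

theorem domE_convex {e e' : ℝ → ℝ} (he : DomE C η A0 T A V1 e) (he' : DomE C η A0 T A V1 e')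
    {κ : ℝ} (hκ : 0 ≤ κ) (hκ1 : κ ≤ 1) :
    DomE C η A0 T A V1 (fun t => (1 - κ) * e t + κ * e' t) := by
  obtain ⟨d, dm, ds⟩ := he
  obtain ⟨d', dm', ds'⟩ := he'
  have hκ' : 0 ≤ 1 - κ := by linarith
  have hC := HL.hC
  have hA := b5a_A0pos HL
  have hη := HL.hη
  have hCA : 0 < C * A0 := mul_pos (by linarith) hA
  have hmass : (∫ t in (0 : ℝ)..T, ((1 - κ) * e t + κ * e' t)) =
      η * (V1 - (yr η C A0 + 4 * C * A0)) := by
    rw [intervalIntegral.integral_add ((d.cont.const_mul _).intervalIntegrable _ _)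
      ((d'.cont.const_mul _).intervalIntegrable _ _), intervalIntegral.integral_const_mul,
      intervalIntegral.integral_const_mul, dm, dm']
    ring
  refine ⟨⟨?_, ?_, ?_, ?_, ?_, hmass.ge, ?_⟩, hmass, ?_⟩
  · exact (d.cont.const_mul _).add (d'.cont.const_mul _)
  · intro t ht htT
    have h1 := mul_nonneg hκ' (d.nn t ht htT)
    have h2 := mul_nonneg hκ (d'.nn t ht htT)
    show 0 ≤ (1 - κ) * e t + κ * e' t
    linarith
  · intro t ht htT
    have h1 := mul_le_mul_of_nonneg_left (d.le t ht htT) hκ'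
    have h2 := mul_le_mul_of_nonneg_left (d'.le t ht htT) hκ
    show (1 - κ) * e t + κ * e' t ≤ _
    linarith
  · intro t t' h1 h2 h3 h4
    have h5 := d.lip t t' h1 h2 h3 h4
    have h6 := d'.lip t t' h1 h2 h3 h4
    have h7 : (1 - κ) * e t + κ * e' t - ((1 - κ) * e t' + κ * e' t') =
      (1 - κ) * (e t - e t') + κ * (e' t - e' t') := by ring
    show |(1 - κ) * e t + κ * e' t - ((1 - κ) * e t' + κ * e' t')| ≤ _
    rw [h7]
    refine (abs_add_le _ _).trans ?_
    rw [abs_mul, abs_mul, abs_of_nonneg hκ', abs_of_nonneg hκ]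
    have h8 := mul_le_mul_of_nonneg_left h5 hκ'
    have h9 := mul_le_mul_of_nonneg_left h6 hκ
    linarith
  · intro t ht htT hM
    show (1 - κ) * e t + κ * e' t = 0
    rw [d.supp t ht htT hM, d'.supp t ht htT hM]
    ring
  · rw [hmass]
    refine mul_le_mul_of_nonneg_left ?_ hη.le
    nlinarith
  · intro t ht htT hM
    show (1 - κ) * e t + κ * e' t = 0
    rw [ds t ht htT hM, ds' t ht htT hM]
    ring

end

end Vale.Agent.P209.Strong
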