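import Vale.Agent.P209.Strong.B6a

namespace Vale.Agent.P209.Strong

open MeasureTheory

/-! B6b. Nonexpansiveness and the iteration. -/

theorem B6b_lin {F G H : ℝ → ℝ} (hF : Continuous F) (hG : Continuous G) (hH : Continuous H)
    (T : ℝ) : ∫ t in (0 : ℝ)..T, (2 * G t - F t - H t) =
      2 * (∫ t in (0 : ℝ)..T, G t) - (∫ t in (0 : ℝ)..T, F t) - ∫ t in (0 : ℝ)..T, H t := by
  have i1 : IntervalIntegrable F volume 0 T := hF.intervalIntegrable _ _
  have i2 : IntervalIntegrable H volume 0 T := hH.intervalIntegrable _ _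
  have i3 : IntervalIntegrable (fun t => 2 * G t) volume 0 T :=
    (continuous_const.mul hG).intervalIntegrable _ _
  have i4 : IntervalIntegrable (fun t => 2 * G t - F t) volume 0 T := i3.sub i1
  rw [intervalIntegral.integral_sub i4 i2, intervalIntegral.integral_sub i3 i1,
    intervalIntegral.integral_const_mul]

section
variable {q : ℕ} {δ ρ C η A0 T : ℝ} {A : ℝ → ℝ} {V1 V2 : ℝ} {uL uR : ℕ → ℝ} {NL NR NJ : ℕ}
  (HL : HD q δ ρ C η A0 T A V1 V2 uL NL NJ)
  (HR : HD q δ ρ C η A0 T (fun s => A (T - s)) V2 V1 uR NR 0)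
include HL HR

/-- Crandall-Tartar: order preserving and mass preserving implies nonexpansive in `L¹`. -/
theorem loopMap_nonexp {e e' : ℝ → ℝ} (he : DomE C η A0 T A V1 e) (he' : DomE C η A0 T A V1 e') :
    ∫ t in (0 : ℝ)..T, |loopMap q C η A0 T A V1 V2 uL uR NL NR e t -
      loopMap q C η A0 T A V1 V2 uL uR NL NR e' t| ≤ ∫ t in (0 : ℝ)..T, |e t - e' t| := by
  set Λ := loopMap q C η A0 T A V1 V2 uL uR NL NR with hΛ
  set g : ℝ → ℝ := fun t => max (e t) (e' t) with hg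
  have hgD : Dom η C A0 T A V1 g := domE_max HL HR he he'
  obtain ⟨hΛg, hmg⟩ := loopMap_mass HL HR hgD
  obtain ⟨hΛe, hme⟩ := loopMap_mass HL HR he.1
  obtain ⟨hΛe', hme'⟩ := loopMap_mass HL HR he'.1
  have hT : (0 : ℝ) ≤ T := HL.hT.le
  have c1 : Continuous (Λ e) := hΛe.cont
  have c2 : Continuous (Λ e') := hΛe'.cont
  have c3 : Continuous (Λ g) := hΛg.cont
  have c4 : Continuous e := he.1.cont
  have c5 : Continuous e' := he'.1.cont
  have c6 : Continuous g := hgD.cont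
  have h1 : ∫ t in (0 : ℝ)..T, |Λ e t - Λ e' t| ≤
      ∫ t in (0 : ℝ)..T, (2 * Λ g t - Λ e t - Λ e' t) := by
    refine intervalIntegral.integral_mono_on hT ((c1.sub c2).abs.intervalIntegrable _ _)
      ((((continuous_const.mul c3).sub c1).sub c2).intervalIntegrable _ _) fun t ht => ?_
    have m1 : Λ e t ≤ Λ g t := loopMap_mono HL HR (fun s _ _ => le_max_left _ _) ht.1 ht.2
    have m2 : Λ e' t ≤ Λ g t := loopMap_mono HL HR (fun s _ _ => le_max_right _ _) ht.1 ht.2
    rw [abs_le]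
    constructor <;> linarith
  have h2 : ∫ t in (0 : ℝ)..T, (2 * Λ g t - Λ e t - Λ e' t) =
      ∫ t in (0 : ℝ)..T, (2 * g t - e t - e' t) := by
    rw [B6b_lin c1 c3 c2, B6b_lin c4 c6 c5, ← hme, ← hme', ← hmg]
  refine h1.trans (h2.le.trans (le_of_eq ?_))
  congr 1
  ext t
  simp only [hg]
  rcases le_total (e t) (e' t) with h | h
  · rw [max_eq_right h, abs_of_nonpos (by linarith)]
    ring
  · rw [max_eq_left h, abs_of_nonneg (by linarith)]
    ring

theorem itr_domE {κ : ℝ} (hκ : 0 ≤ κ) (hκ1 : κ ≤ 1) (k : ℕ) :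
    DomE C η A0 T A V1 (itr q C η A0 T A V1 V2 uL uR NL NR κ k) := by
  induction k with
  | zero => exact e0_domE HL HR
  | succ k ih => exact domE_convex HL HR (loopMap_domE HL HR ih) (e0_domE HL HR) hκ hκ1

omit HR in
theorem B6b_consts : 0 < A0 ∧ 0 ≤ yr η C A0 ∧ 0 ≤ V1 ∧ η ≤ 1 ∧ 14 ≤ T := by
  have hC := HL.hC
  have hη := HL.hη
  have hA0 : 0 < A0 := by
    have h1 := HL.hA0
    have h3 : (0 : ℝ) ≤ 5 * (q : ℝ) := by positivity
    have h4 : 0 < η * A0 := by linarith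
    by_contra hn
    have := mul_nonpos_of_nonneg_of_nonpos hη.le (not_lt.1 hn)
    linarith
  have hC0 : 0 < C := by linarith
  have hyr : 0 ≤ yr η C A0 := by
    unfold yr
    positivity
  have hCA : 0 < C * A0 := by positivity
  have hV1 := HL.hV1
  have hV2 := HL.hV2
  refine ⟨hA0, hyr, by linarith, ?_, ?_⟩
  · have := HL.hη1
    nlinarith
  · have h1 : ∫ t in (0 : ℝ)..T, A t ≤ ∫ t in (0 : ℝ)..T, C * A0 :=
      intervalIntegral.integral_mono_on HL.hT.le (HL.cA.intervalIntegrable _ _)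
        (continuous_const.intervalIntegrable _ _) fun t _ => HL.hiA t
    rw [HL.int, intervalIntegral.integral_const, smul_eq_mul, sub_zero] at h1
    have h2 : 14 * (C * A0) ≤ T * (C * A0) := by linarith
    exact le_of_mul_le_mul_right h2 hCA

/-- two members of `DomE` have distance at most `2 V1` -/
theorem B6b_dist {e e' : ℝ → ℝ} (he : DomE C η A0 T A V1 e) (he' : DomE C η A0 T A V1 e') :
    ∫ t in (0 : ℝ)..T, |e t - e' t| ≤ 2 * V1 := by
  obtain ⟨hA0, hyr, hV1, hη1, hT14⟩ := B6b_consts HL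
  have hC0 : 0 < C := by linarith [HL.hC]
  have hT : (0 : ℝ) ≤ T := HL.hT.le
  have c4 : Continuous e := he.1.cont
  have c5 : Continuous e' := he'.1.cont
  have h1 : ∫ t in (0 : ℝ)..T, |e t - e' t| ≤ ∫ t in (0 : ℝ)..T, (e t + e' t) := by
    refine intervalIntegral.integral_mono_on hT ((c4.sub c5).abs.intervalIntegrable _ _)
      ((c4.add c5).intervalIntegrable _ _) fun t ht => ?_
    have h2 := he.1.nn t ht.1 ht.2
    have h3 := he'.1.nn t ht.1 ht.2
    rw [abs_le]
    constructor <;> linarith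
  rw [intervalIntegral.integral_add (c4.intervalIntegrable _ _) (c5.intervalIntegrable _ _),
    he.2.1, he'.2.1] at h1
  have hCA : 0 < C * A0 := by positivity
  have h2 : η * (V1 - (yr η C A0 + 4 * C * A0)) ≤ V1 := by
    have h3 : V1 - (yr η C A0 + 4 * C * A0) ≤ V1 := by linarith
    calc η * (V1 - (yr η C A0 + 4 * C * A0)) ≤ η * V1 :=
          mul_le_mul_of_nonneg_left h3 HL.hη.le
      _ ≤ 1 * V1 := mul_le_mul_of_nonneg_right hη1 hV1
      _ = V1 := one_mul _
  linarith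

theorem B6b_step {κ : ℝ} (hκ : 0 < κ) (hκ1 : κ < 1) (k : ℕ) :
    ∫ t in (0 : ℝ)..T, |itr q C η A0 T A V1 V2 uL uR NL NR κ (k + 1) t -
      itr q C η A0 T A V1 V2 uL uR NL NR κ k t| ≤ (1 - κ) ^ k * (2 * V1) := by
  induction k with
  | zero =>
    rw [pow_zero, one_mul]
    exact B6b_dist HL HR (itr_domE HL HR hκ.le hκ1.le 1) (itr_domE HL HR hκ.le hκ1.le 0)
  | succ k ih =>
    have h1 : ∀ t, |itr q C η A0 T A V1 V2 uL uR NL NR κ (k + 1 + 1) t -
        itr q C η A0 T A V1 V2 uL uR NL NR κ (k + 1) t| = (1 - κ) *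
        |loopMap q C η A0 T A V1 V2 uL uR NL NR
          (itr q C η A0 T A V1 V2 uL uR NL NR κ (k + 1)) t -
        loopMap q C η A0 T A V1 V2 uL uR NL NR (itr q C η A0 T A V1 V2 uL uR NL NR κ k) t| := by
      intro t
      have h0 : 1 - κ = |1 - κ| := (abs_of_pos (by linarith)).symm
      conv_rhs => rw [h0]
      rw [← abs_mul]
      congr 1
      change ((1 - κ) * _ + κ * _) - ((1 - κ) * _ + κ * _) = _
      ring
    simp_rw [h1]
    rw [intervalIntegral.integral_const_mul, pow_succ']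
    have h2 := loopMap_nonexp HL HR (itr_domE HL HR hκ.le hκ1.le (k + 1))
      (itr_domE HL HR hκ.le hκ1.le k)
    rw [mul_assoc]
    exact mul_le_mul_of_nonneg_left (h2.trans ih) (by linarith)

/-- `L¹` error of the iteration; `S = η (V1 - yz)` is the mass. -/
theorem itr_error {κ : ℝ} (hκ : 0 < κ) (hκ1 : κ < 1) (k : ℕ) :
    ∫ t in (0 : ℝ)..T, |loopMap q C η A0 T A V1 V2 uL uR NL NR
        (itr q C η A0 T A V1 V2 uL uR NL NR κ k) t -
      itr q C η A0 T A V1 V2 uL uR NL NR κ k t| ≤ 4 * V1 * ((1 - κ) ^ k + κ) := by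
  obtain ⟨hA0, hyr, hV1, hη1, hT14⟩ := B6b_consts HL
  have hT : (0 : ℝ) ≤ T := HL.hT.le
  have hk := itr_domE HL HR hκ.le hκ1.le k
  have hk1 := itr_domE HL HR hκ.le hκ1.le (k + 1)
  have h0 : DomE C η A0 T A V1 (e0 C η A0 A V1) := e0_domE HL HR
  have hΛ := loopMap_domE HL HR hk
  set x := itr q C η A0 T A V1 V2 uL uR NL NR κ k with hx
  set x' := itr q C η A0 T A V1 V2 uL uR NL NR κ (k + 1) with hx'
  set y := loopMap q C η A0 T A V1 V2 uL uR NL NR x with hy
  have hstep : ∀ t, x' t = (1 - κ) * y t + κ * e0 C η A0 A V1 t := fun t => rfl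
  have c1 : Continuous x := hk.1.cont
  have c2 : Continuous x' := hk1.1.cont
  have c3 : Continuous y := hΛ.1.cont
  have c4 : Continuous (e0 C η A0 A V1) := h0.1.cont
  have h1 : ∫ t in (0 : ℝ)..T, |y t - x t| ≤
      ∫ t in (0 : ℝ)..T, (|x' t - x t| + κ * |y t - e0 C η A0 A V1 t|) := by
    refine intervalIntegral.integral_mono_on hT ((c3.sub c1).abs.intervalIntegrable _ _)
      (((c2.sub c1).abs.add (continuous_const.mul (c3.sub c4).abs)).intervalIntegrable _ _)
      fun t _ => ?_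
    have e1 : y t - x t = (x' t - x t) + κ * (y t - e0 C η A0 A V1 t) := by
      rw [hstep]; ring
    rw [e1]
    refine (abs_add_le _ _).trans (le_of_eq ?_)
    rw [abs_mul, abs_of_pos hκ]
  have i1 : IntervalIntegrable (fun t => |x' t - x t|) volume 0 T :=
    (c2.sub c1).abs.intervalIntegrable _ _
  have i2 : IntervalIntegrable (fun t => κ * |y t - e0 C η A0 A V1 t|) volume 0 T :=
    (continuous_const.mul (c3.sub c4).abs).intervalIntegrable _ _
  rw [intervalIntegral.integral_add i1 i2, intervalIntegral.integral_const_mul] at h1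
  have h2 := B6b_step HL HR hκ hκ1 k
  have h3 := B6b_dist HL HR hΛ h0
  have h4 : κ * ∫ t in (0 : ℝ)..T, |y t - e0 C η A0 A V1 t| ≤ κ * (2 * V1) :=
    mul_le_mul_of_nonneg_left h3 hκ.le
  have h5 : 0 ≤ (1 - κ) ^ k * (2 * V1) := by
    have : 0 ≤ 1 - κ := by linarith
    positivity
  have h6 : 0 ≤ κ * (2 * V1) := by positivity
  have h7 : 4 * V1 * ((1 - κ) ^ k + κ) = 2 * ((1 - κ) ^ k * (2 * V1)) + 2 * (κ * (2 * V1)) := by
    ring
  rw [h7]
  linarith

/-- Pointwise error. -/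
theorem itr_pointwise {κ ε : ℝ} (hκ : 0 < κ) (hκ1 : κ < 1) (hε : 0 < ε) (hεA : ε ≤ A0) {k : ℕ}
    (h : 4 * V1 * ((1 - κ) ^ k + κ) < ε ^ 2 / A0) {t : ℝ} (ht : 0 ≤ t) (htT : t ≤ T) :
    |loopMap q C η A0 T A V1 V2 uL uR NL NR (itr q C η A0 T A V1 V2 uL uR NL NR κ k) t -
      itr q C η A0 T A V1 V2 uL uR NL NR κ k t| ≤ ε := by
  obtain ⟨hA0, hyr, hV1, hη1, hT14⟩ := B6b_consts HL
  have hT : (0 : ℝ) ≤ T := HL.hT.le
  have hk := itr_domE HL HR hκ.le hκ1.le k
  have hΛ := loopMap_domE HL HR hk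
  have herr := itr_error HL HR hκ hκ1 k
  set x := itr q C η A0 T A V1 V2 uL uR NL NR κ k with hx
  set y := loopMap q C η A0 T A V1 V2 uL uR NL NR x with hy
  have c1 : Continuous x := hk.1.cont
  have c3 : Continuous y := hΛ.1.cont
  by_contra hcon
  push Not at hcon
  have hlip : ∀ s, 0 ≤ s → s ≤ T → |y t - x t| - A0 / 32 * |t - s| ≤ |y s - x s| := by
    intro s hs hsT
    have l1 := hΛ.1.lip t s ht htT hs hsT
    have l2 := hk.1.lip t s ht htT hs hsT
    have l3 : |(y t - x t) - (y s - x s)| ≤ A0 / 32 * |t - s| := by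
      calc |(y t - x t) - (y s - x s)| = |(y t - y s) - (x t - x s)| := by ring_nf
        _ ≤ |y t - y s| + |x t - x s| := abs_sub _ _
        _ ≤ A0 / 64 * |t - s| + A0 / 64 * |t - s| := add_le_add l1 l2
        _ = A0 / 32 * |t - s| := by ring
    have l4 := abs_sub_abs_le_abs_sub (y t - x t) (y s - x s)
    linarith
  set ℓ := 7 * ε / A0 with hℓ
  have hℓ0 : 0 < ℓ := by positivity
  have hℓ7 : ℓ ≤ 7 := by
    rw [hℓ, div_le_iff₀ hA0]
    linarith
  have hAℓ : A0 / 32 * ℓ = 7 / 32 * ε := by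
    rw [hℓ]; field_simp
  -- a subinterval
  obtain ⟨a, ha0, haT, had⟩ : ∃ a, 0 ≤ a ∧ a + ℓ ≤ T ∧ ∀ s, a ≤ s → s ≤ a + ℓ → |t - s| ≤ ℓ := by
    rcases le_total t (T / 2) with h1 | h1
    · refine ⟨t, ht, by linarith, fun s h2 h3 => ?_⟩
      rw [abs_le]; constructor <;> linarith
    · refine ⟨t - ℓ, by linarith, by linarith, fun s h2 h3 => ?_⟩
      rw [abs_le]; constructor <;> linarith
  have hsub : ∫ s in a..(a + ℓ), |y s - x s| ≤ ∫ s in (0 : ℝ)..T, |y s - x s| := by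
    refine intervalIntegral.integral_mono_interval ha0 (by linarith) haT
      (Filter.Eventually.of_forall fun s => abs_nonneg _)
      ((c3.sub c1).abs.intervalIntegrable _ _)
  have hlow : ∫ s in a..(a + ℓ), ε / 2 ≤ ∫ s in a..(a + ℓ), |y s - x s| := by
    refine intervalIntegral.integral_mono_on (by linarith)
      (continuous_const.intervalIntegrable _ _)
      ((c3.sub c1).abs.intervalIntegrable _ _) fun s hs => ?_
    have h1 := hlip s (by linarith [hs.1]) (by linarith [hs.2])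
    have h2 := had s hs.1 hs.2
    have h3 : A0 / 32 * |t - s| ≤ A0 / 32 * ℓ := mul_le_mul_of_nonneg_left h2 (by positivity)
    linarith
  rw [intervalIntegral.integral_const, smul_eq_mul, add_sub_cancel_left] at hlow
  have h8 : ℓ * (ε / 2) = 7 / 2 * (ε ^ 2 / A0) := by
    rw [hℓ]; field_simp
  have h9 : 0 < ε ^ 2 / A0 := by positivity
  rw [h8] at hlow
  linarith

end

end Vale.Agent.P209.Strong
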