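import Vale.Agent.P209.Strong.B6a

namespace Vale.Agent.P209.Strong

open MeasureTheory

/-! B6c. Continuity of the iteration in parameters. -/

theorem b6c_prim {Θ : Type} [TopologicalSpace Θ] {A : Θ → ℝ → ℝ}
    (hA : Continuous fun z : Θ × ℝ => A z.1 z.2) :
    Continuous fun z : Θ × ℝ => ∫ s in (0 : ℝ)..z.2, A z.1 s :=
  intervalIntegral.continuous_parametric_primitive_of_continuous (f := A) hA

theorem b6c_tgt {Θ : Type} [TopologicalSpace Θ] (η C A0 : ℝ) {A e : Θ → ℝ → ℝ} {V1 : Θ → ℝ}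
    (hA : Continuous fun z : Θ × ℝ => A z.1 z.2) (hV1 : Continuous V1)
    (he : Continuous fun z : Θ × ℝ => e z.1 z.2) :
    Continuous fun z : Θ × ℝ => tgt η C A0 (A z.1) (V1 z.1) (e z.1) z.2 := by
  have h1 := b6c_prim hA
  have h2 : Continuous fun z : Θ × ℝ => V1 z.1 := hV1.comp continuous_fst
  unfold tgt chi hh
  exact ((continuous_const.max (continuous_const.min (continuous_const.sub
    ((continuous_const.mul (h1.sub h2)).div_const _)))).mul hA).add he

theorem b6c_half {Θ : Type} [TopologicalSpace Θ] (q : ℕ) (η C A0 : ℝ) {T : Θ → ℝ}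
    {A e : Θ → ℝ → ℝ} {V1 : Θ → ℝ} {u : ℕ → Θ → ℝ} (N : ℕ) (hT : Continuous T)
    (hA : Continuous fun z : Θ × ℝ => A z.1 z.2) (hV1 : Continuous V1)
    (hu : ∀ i, Continuous (u i)) (he : Continuous fun z : Θ × ℝ => e z.1 z.2) :
    Continuous fun z : Θ × ℝ => halfMap q C η A0 (T z.1) (A z.1) (V1 z.1)
      (fun j => u j z.1) N (e z.1) z.2 := by
  have h1 := (eM_continuous (a := fun θ => tgt η C A0 (A θ) (V1 θ) (e θ)) q hT
    (b6c_tgt η C A0 hA hV1 he) hu N).1
  have h2 : Continuous fun z : Θ × ℝ => (z.1, T z.1 - z.2) :=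
    continuous_fst.prodMk ((hT.comp continuous_fst).sub continuous_snd)
  exact h1.comp h2

theorem itr_continuous {Θ : Type} [TopologicalSpace Θ] (q : ℕ) (C η A0 κ : ℝ) {T : Θ → ℝ}
    {A : Θ → ℝ → ℝ} {V1 V2 : Θ → ℝ} {uL uR : ℕ → Θ → ℝ} (NL NR : ℕ) (hT : Continuous T)
    (hA : Continuous fun z : Θ × ℝ => A z.1 z.2) (hV1 : Continuous V1) (hV2 : Continuous V2)
    (huL : ∀ i, Continuous (uL i)) (huR : ∀ i, Continuous (uR i)) (k : ℕ) :
    Continuous fun z : Θ × ℝ => itr q C η A0 (T z.1) (A z.1) (V1 z.1) (V2 z.1)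
      (fun j => uL j z.1) (fun j => uR j z.1) NL NR κ k z.2 := by
  have h0 : Continuous fun z : Θ × ℝ => e0 C η A0 (A z.1) (V1 z.1) z.2 := by
    have h1 := b6c_prim hA
    have h2 : Continuous fun z : Θ × ℝ => V1 z.1 := hV1.comp continuous_fst
    unfold e0
    exact (continuous_const.mul hA).mul (continuous_const.max (continuous_const.min
      (continuous_const.add ((((h2.sub h1)).sub continuous_const).div_const _))))
  induction k with
  | zero => exact h0
  | succ k ih =>
    have hA' : Continuous fun z : Θ × ℝ => (fun θ s => A θ (T θ - s)) z.1 z.2 :=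
      hA.comp (continuous_fst.prodMk ((hT.comp continuous_fst).sub continuous_snd))
    have h3 := b6c_half (e := fun θ s => itr q C η A0 (T θ) (A θ) (V1 θ) (V2 θ) (fun j => uL j θ)
      (fun j => uR j θ) NL NR κ k s) q η C A0 NL hT hA hV1 huL ih
    have h4 := b6c_half q η C A0 (A := fun θ s => A θ (T θ - s))
      (e := fun θ s => halfMap q C η A0 (T θ) (A θ) (V1 θ) (fun j => uL j θ) NL
        (itr q C η A0 (T θ) (A θ) (V1 θ) (V2 θ) (fun j => uL j θ) (fun j => uR j θ) NL NR κ k) s)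
      NR hT hA' hV2 huR h3
    exact (continuous_const.mul h4).add (continuous_const.mul h0)

end Vale.Agent.P209.Strong
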