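import Vale.Agent.P209.Strong.B6b
import Vale.Agent.P209.Strong.B6c

namespace Vale.Agent.P209.Strong

open MeasureTheory

/-! B7. The chain lemma. -/

/-- Output of the chain lemma: start times `W`, slice sizes `v`, peaks `p` of the L-balls and the
R-balls. -/
structure ChainOut {Θ : Type} [TopologicalSpace Θ] (q : ℕ) (δ A0 ε : ℝ) (NL NR : ℕ)
    (uL uR : ℕ → Θ → ℝ) (T : Θ → ℝ) (A : Θ → ℝ → ℝ) (WL WR vL vR : ℕ → Θ → ℝ → ℝ)
    (pL pR : ℕ → Θ → ℝ) : Prop where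
  cWL : ∀ i, Continuous fun z : Θ × ℝ => WL i z.1 z.2
  cWR : ∀ i, Continuous fun z : Θ × ℝ => WR i z.1 z.2
  cvL : ∀ i, Continuous fun z : Θ × ℝ => vL i z.1 z.2
  cvR : ∀ i, Continuous fun z : Θ × ℝ => vR i z.1 z.2
  vL_nn : ∀ i θ t, 0 ≤ vL i θ t
  vR_nn : ∀ i θ t, 0 ≤ vR i θ t
  vL_le : ∀ i θ t, vL i θ t ≤ uL i θ
  vR_le : ∀ i θ t, vR i θ t ≤ uR i θ
  secL : ∀ i, i < NL → ∀ θ x t, 0 ≤ x → x ≤ uL i θ → WL i θ x ≤ t → t ≤ WL i θ x + (uL i θ - x) →
    0 ≤ t ∧ t ≤ T θ ∧ x ≤ vL i θ t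
  secR : ∀ i, i < NR → ∀ θ x t, 0 ≤ x → x ≤ uR i θ → WR i θ x ≤ t → t ≤ WR i θ x + (uR i θ - x) →
    0 ≤ t ∧ t ≤ T θ ∧ x ≤ vR i θ t
  suppL : ∀ i, i < NL → ∀ θ t, 0 ≤ t → t ≤ T θ → 0 < vL i θ t → |t - pL i θ| ≤ 1
  suppR : ∀ i, i < NR → ∀ θ t, 0 ≤ t → t ≤ T θ → 0 < vR i θ t → |t - pR i θ| ≤ 1
  lowL : ∀ i, i < NL → ∀ θ t, 0 ≤ t → t ≤ T θ → pL i θ ≤ t → uL i θ - 2 * (t - pL i θ) ≤ vL i θ t
  lowR : ∀ i, i < NR → ∀ θ t, 0 ≤ t → t ≤ T θ → t ≤ pR i θ → uR i θ - 2 * (pR i θ - t) ≤ vR i θ t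
  intL : ∀ i, i < NL → ∀ θ, ∫ t in (0 : ℝ)..T θ, vL i θ t ^ q = uL i θ ^ (q + 1) / (q + 1)
  intR : ∀ i, i < NR → ∀ θ, ∫ t in (0 : ℝ)..T θ, vR i θ t ^ q = uR i θ ^ (q + 1) / (q + 1)
  monoL : ∀ i j θ, i ≤ j → j < NL → pL i θ ≤ pL j θ
  monoR : ∀ i j θ, i ≤ j → j < NR → pR j θ ≤ pR i θ
  mass : ∀ θ t, 0 ≤ t → t ≤ T θ →
    (δ / 64 * A0 ≤ ∑ i ∈ (Finset.range NL).filter
      (fun i => t - δ / 16 ≤ pL i θ ∧ pL i θ ≤ t), uL i θ ^ q) ∨
    (δ / 64 * A0 ≤ ∑ i ∈ (Finset.range NR).filter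
      (fun i => t ≤ pR i θ ∧ pR i θ ≤ t + δ / 16), uR i θ ^ q)
  sum : ∀ θ t, 0 ≤ t → t ≤ T θ →
    |∑ i ∈ Finset.range NL, vL i θ t ^ q + ∑ i ∈ Finset.range NR, vR i θ t ^ q - A θ t| ≤ ε


/-! ### Half of the chain lemma -/

section half
variable {q : ℕ} {δ ρ C η A0 T : ℝ} {A : ℝ → ℝ} {V1 V2 : ℝ} {u : ℕ → ℝ} {N NJ : ℕ}

theorem HD.inv_at (H : HD q δ ρ C η A0 T A V1 V2 u N NJ) {e : ℝ → ℝ} (he : Dom η C A0 T A V1 e)
    {i : ℕ} (hi : i ≤ N) :
    Inv q T (tgt η C A0 A V1 e) (eM q T (tgt η C A0 A V1 e) u i)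
      (eP q T (tgt η C A0 A V1 e) u i) :=
  evo_inv H.hq (Dom.target H he) H.hu
    (fun j hj => (half_peaks H he).1 j (hj.le.trans hi))

theorem half_sec (H : HD q δ ρ C η A0 T A V1 V2 u N NJ) {e : ℝ → ℝ} (he : Dom η C A0 T A V1 e)
    {i : ℕ} (hi : i < N) {x t : ℝ} (hx : 0 ≤ x) (hxu : x ≤ u i)
    (h1 : eW q T (tgt η C A0 A V1 e) u i x ≤ t)
    (h2 : t ≤ eW q T (tgt η C A0 A V1 e) u i x + (u i - x)) :
    0 ≤ t ∧ t ≤ T ∧ x ≤ ev q T (tgt η C A0 A V1 e) u i t := by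
  have hT := H.hT.le
  have hP := (half_peaks H he).1
  have hW0 : 0 ≤ eW q T (tgt η C A0 A V1 e) u i x := Wf_nonneg hT
  have hWu : eW q T (tgt η C A0 A V1 e) u i x ≤ T - 1 :=
    (Wf_mono hT hx hxu).trans (hP (i + 1) hi)
  have ht0 : 0 ≤ t := hW0.trans h1
  have htT : t ≤ T := by
    have := (H.hu i).2
    linarith
  refine ⟨ht0, htT, ?_⟩
  rcases hx.eq_or_lt with rfl | hx'
  · exact vf_nonneg H.hq (Dom.target H he) (H.inv_at he hi.le) (hP i hi.le) (H.hu i).1 (H.hu i).2 t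
  · exact (le_vf_iff H.hq (Dom.target H he) (H.inv_at he hi.le) (hP i hi.le) (H.hu i).1 (H.hu i).2
      hx' hxu ht0 htT).2 ⟨h1, h2⟩

theorem half_supp_abs (H : HD q δ ρ C η A0 T A V1 V2 u N NJ) {e : ℝ → ℝ}
    (he : Dom η C A0 T A V1 e) {i : ℕ} (hi : i < N) {t : ℝ} (ht : 0 ≤ t) (htT : t ≤ T)
    (hv : 0 < ev q T (tgt η C A0 A V1 e) u i t) :
    |t - eP q T (tgt η C A0 A V1 e) u (i + 1)| ≤ 1 := by
  have hP := (half_peaks H he).1
  have h := vf_support H.hq (Dom.target H he) (H.inv_at he hi.le) (hP i hi.le) (H.hu i).1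
    (H.hu i).2 ht htT hv
  have e1 : eP q T (tgt η C A0 A V1 e) u (i + 1) =
    Wf q T (eM q T (tgt η C A0 A V1 e) u i) (eP q T (tgt η C A0 A V1 e) u i) (u i) := rfl
  rw [e1, abs_le]
  constructor <;> linarith [h.1, h.2]

theorem half_low (H : HD q δ ρ C η A0 T A V1 V2 u N NJ) {e : ℝ → ℝ}
    (he : Dom η C A0 T A V1 e) {i : ℕ} (hi : i < N) {t : ℝ} (htT : t ≤ T)
    (hv : eP q T (tgt η C A0 A V1 e) u (i + 1) ≤ t) :
    u i - 2 * (t - eP q T (tgt η C A0 A V1 e) u (i + 1)) ≤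
      ev q T (tgt η C A0 A V1 e) u i t := by
  have hP := (half_peaks H he).1
  exact vf_lower H.hq (Dom.target H he) (H.inv_at he hi.le) (hP i hi.le) (H.hu i).1
    (H.hu i).2 hv htT

theorem half_int (H : HD q δ ρ C η A0 T A V1 V2 u N NJ) {e : ℝ → ℝ}
    (he : Dom η C A0 T A V1 e) {i : ℕ} (hi : i < N) :
    ∫ t in (0 : ℝ)..T, ev q T (tgt η C A0 A V1 e) u i t ^ q = u i ^ (q + 1) / (q + 1) := by
  have hP := (half_peaks H he).1
  exact vf_integral H.hq (Dom.target H he) (H.inv_at he hi.le) (hP i hi.le) (H.hu i).1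
    (H.hu i).2 (hP (i + 1) hi)

theorem half_mono (H : HD q δ ρ C η A0 T A V1 V2 u N NJ) {e : ℝ → ℝ}
    (he : Dom η C A0 T A V1 e) {i j : ℕ} (hij : i ≤ j) (hj : j < N) :
    eP q T (tgt η C A0 A V1 e) u (i + 1) ≤ eP q T (tgt η C A0 A V1 e) u (j + 1) :=
  eP_mono H.hq (Dom.target H he) H.hu (n := N) (fun k hk => (half_peaks H he).1 k hk.le)
    (Nat.succ_le_succ hij) hj

theorem half_sum (H : HD q δ ρ C η A0 T A V1 V2 u N NJ) {e : ℝ → ℝ}
    (he : Dom η C A0 T A V1 e) {t : ℝ} (ht : 0 ≤ t) (htT : t ≤ T) :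
    ∑ i ∈ Finset.range N, ev q T (tgt η C A0 A V1 e) u i t ^ q =
      tgt η C A0 A V1 e t - eM q T (tgt η C A0 A V1 e) u N t := by
  have h := eM_eq H.hq (Dom.target H he) H.hu (n := N)
    (fun k hk => (half_peaks H he).1 k hk.le) ht htT
  linarith

theorem HD.hA0' (H : HD q δ ρ C η A0 T A V1 V2 u N NJ) : 0 < A0 := by
  have h1 := H.hA0
  have h2 := H.hη
  by_contra h
  push Not at h
  have h3 : η * A0 ≤ 0 := mul_nonpos_of_nonneg_of_nonpos h2.le h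
  have h4 : (0 : ℝ) ≤ q := Nat.cast_nonneg q
  linarith

theorem HD.eta_le_half (H : HD q δ ρ C η A0 T A V1 V2 u N NJ) : η ≤ 1 / 2 := by
  have h1 := H.hη1
  have h2 := H.hη
  have h3 := H.hC
  nlinarith

theorem half_le_hh (H : HD q δ ρ C η A0 T A V1 V2 u N NJ) {y : ℝ} (hy : y ≤ 0) :
    1 / 2 ≤ hh η C A0 y := by
  have h1 := H.eta_le_half
  have h2 := H.hη
  have h3 := H.hC
  have h4 := H.hA0'
  unfold hh
  refine le_max_of_le_right (le_min (by linarith) ?_)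
  have h5 : η / (32 * C ^ 2) * y / A0 ≤ 0 := by
    apply div_nonpos_of_nonpos_of_nonneg _ h4.le
    apply mul_nonpos_of_nonneg_of_nonpos _ hy
    positivity
  linarith

theorem half_window (H : HD q δ ρ C η A0 T A V1 V2 u N NJ) (hA : 256 / (3 * δ) ≤ A0)
    {e : ℝ → ℝ} (he : Dom η C A0 T A V1 e) {t : ℝ} (ht : 0 ≤ t) (htT : t ≤ T)
    (hM : ∫ s in (0 : ℝ)..t, A s ≤ V1) :
    δ / 64 * A0 ≤ ∑ i ∈ (Finset.range N).filter
      (fun i => t - δ / 16 ≤ eP q T (tgt η C A0 A V1 e) u (i + 1) ∧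
        eP q T (tgt η C A0 A V1 e) u (i + 1) ≤ t), u i ^ q := by
  have hA0 := H.hA0'
  have hδ := H.hδ
  have hP := half_peaks H he
  have hint : ∀ x y : ℝ, IntervalIntegrable A volume x y := fun x y => H.cA.intervalIntegrable x y
  -- the last peak is after `t`
  have htn : t < eP q T (tgt η C A0 A V1 e) u N := by
    by_contra hcon
    push Not at hcon
    have h1 := intervalIntegral.integral_add_adjacent_intervals
      (hint 0 (eP q T (tgt η C A0 A V1 e) u N)) (hint (eP q T (tgt η C A0 A V1 e) u N) t)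
    have h2 : 0 ≤ ∫ s in (eP q T (tgt η C A0 A V1 e) u N)..t, A s :=
      intervalIntegral.integral_nonneg hcon (fun s _ => hA0.le.trans (H.loA s))
    have h3 : 0 < yr η C A0 + 2 * C * A0 := by
      have := H.hC
      have := H.hη
      unfold yr
      positivity
    linarith [hP.2.1]
  have ha : A0 / 2 ≤ tgt η C A0 A V1 e t := by
    have h1 : 1 / 2 ≤ chi η C A0 A V1 t := half_le_hh H (by linarith)
    have h2 := H.loA t
    have h3 := he.nn t ht htT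
    unfold tgt
    nlinarith
  have h := mass_window H.hq (Dom.target H he) H.hu (n := N) (fun k hk => hP.1 k hk.le)
    ht htT htn (d := δ / 16) (by positivity) (by linarith [H.hδ1])
  refine le_trans ?_ h
  have h4 : 256 ≤ 3 * δ * A0 := by
    rw [div_le_iff₀ (by positivity)] at hA
    linarith
  nlinarith

end half


/-! ### Continuity in parameters -/

theorem hh_continuous (η C A0 : ℝ) : Continuous fun y : ℝ => hh η C A0 y := by
  unfold hh
  fun_prop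

theorem tgt_continuous {Θ : Type} [TopologicalSpace Θ] (η C A0 : ℝ) {A : Θ → ℝ → ℝ}
    {V1 : Θ → ℝ} {e : Θ → ℝ → ℝ} (hA : Continuous fun z : Θ × ℝ => A z.1 z.2)
    (hV1 : Continuous V1) (he : Continuous fun z : Θ × ℝ => e z.1 z.2) :
    Continuous fun z : Θ × ℝ => tgt η C A0 (A z.1) (V1 z.1) (e z.1) z.2 := by
  have h1 : Continuous fun p : Θ × ℝ => ∫ s in (0 : ℝ)..p.2, A p.1 s :=
    intervalIntegral.continuous_parametric_primitive_of_continuous (f := A) hA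
  unfold tgt chi
  exact (((hh_continuous η C A0).comp (h1.sub (hV1.comp continuous_fst))).mul hA).add he

/-! ### Assembly at one parameter -/

/-- The reversed cutoff. -/
theorem chi_rev {q : ℕ} {δ ρ C η A0 T : ℝ} {A : ℝ → ℝ} {V1 V2 : ℝ} {u : ℕ → ℝ} {N NJ : ℕ}
    (H : HD q δ ρ C η A0 T A V1 V2 u N NJ) (t : ℝ) :
    chi η C A0 (fun s => A (T - s)) V2 (T - t) = 1 - chi η C A0 A V1 t := by
  have hint : ∀ x y : ℝ, IntervalIntegrable A volume x y := fun x y => H.cA.intervalIntegrable x y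
  have h1 : ∫ s in (0 : ℝ)..(T - t), A (T - s) = ∫ s in t..T, A s := by
    rw [intervalIntegral.integral_comp_sub_left (fun x => A x) T]
    congr 1
    · ring
    · ring
  have h2 := intervalIntegral.integral_add_adjacent_intervals (hint 0 t) (hint t T)
  have h3 := H.int
  unfold chi
  rw [h1]
  have h4 : (∫ s in t..T, A s) - V2 = -((∫ s in (0 : ℝ)..t, A s) - V1) := by linarith
  rw [h4]
  have h5 := hh_add_neg H ((∫ s in (0 : ℝ)..t, A s) - V1)
  linarith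


theorem HD_build {q : ℕ} {δ ρ C η A0 T Y : ℝ} {A : ℝ → ℝ} {V1 V2 : ℝ} {u : ℕ → ℝ} {N NJ : ℕ}
    (hq : 1 ≤ q) (hδ : 0 < δ) (hδ1 : δ ≤ 1) (hρ : 1 ≤ ρ) (hC : 1 ≤ C) (hη : 0 < η)
    (hη1 : η * (128 * C) ≤ 1) (hη2 : η * (1200 * q * (q + 1) * ρ * C) ≤ δ ^ (q + 1))
    (hY : 1 ≤ Y) (hY1 : 400 * (q : ℝ) ≤ Y) (hY2 : 16 * C ^ 2 / η + 7 * C ≤ Y)
    (hY3 : (3 + 5 * (q : ℝ)) / η ≤ Y) (hYA : Y ≤ A0) (hT : 0 < T) (cA : Continuous A)
    (loA : ∀ t, A0 ≤ A t) (hiA : ∀ t, A t ≤ C * A0)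
    (lipA : ∀ t t', |A t - A t'| ≤ A0 / 256 * |t - t'|) (hV1 : Y * A0 ≤ V1) (hV2 : Y * A0 ≤ V2)
    (int : ∫ t in (0 : ℝ)..T, A t = V1 + V2) (hu : ∀ i, 0 ≤ u i ∧ u i ≤ 1)
    (vol : ∑ i ∈ Finset.range N, u i ^ (q + 1) / (q + 1) = V1) (hNJ : NJ ≤ N)
    (tail : ∑ i ∈ Finset.range NJ, u i ≤ A0 / 8)
    (suf : ∀ s, NJ ≤ s → (((Finset.range N).filter (fun i => s ≤ i ∧ 0 < u i)).card : ℝ) ≤
      ρ * (((Finset.range N).filter (fun i => s ≤ i ∧ δ ≤ u i)).card : ℝ) + A0 / Y) :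
    HD q δ ρ C η A0 T A V1 V2 u N NJ := by
  have hA0 : 0 < A0 := by linarith
  have hq0 : (1 : ℝ) ≤ q := by exact_mod_cast hq
  have h1 : yr η C A0 + 7 * C * A0 ≤ Y * A0 := by
    have : yr η C A0 + 7 * C * A0 = (16 * C ^ 2 / η + 7 * C) * A0 := by
      unfold yr
      ring
    rw [this]
    exact mul_le_mul_of_nonneg_right hY2 hA0.le
  refine ⟨hq, hδ, hδ1, hρ, hC, hη, hη1, hη2, ?_, hT, cA, loA, hiA, lipA, h1.trans hV1,
    h1.trans hV2, int, hu, vol, hNJ, tail, ?_⟩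
  · rw [div_le_iff₀ hη] at hY3
    nlinarith
  · intro s hs
    refine (suf s hs).trans ?_
    have : A0 / Y ≤ A0 / (400 * q) :=
      div_le_div_of_nonneg_left hA0.le (by positivity) hY1
    linarith

theorem exists_kappa {B e : ℝ} (hB : 0 ≤ B) (he : 0 < e) :
    ∃ (κ : ℝ) (k : ℕ), 0 < κ ∧ κ < 1 ∧ ∀ V : ℝ, 0 ≤ V → V ≤ B →
      4 * V * ((1 - κ) ^ k + κ) < e := by
  have hpos : 0 < e / (16 * (B + 1)) := by positivity
  set κ : ℝ := min (1 / 2) (e / (16 * (B + 1))) with hκ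
  have hκ0 : 0 < κ := lt_min (by norm_num) hpos
  have hκ1 : κ < 1 := (min_le_left _ _).trans_lt (by norm_num)
  obtain ⟨k, hk⟩ := exists_pow_lt_of_lt_one hκ0 (show 1 - κ < 1 by linarith)
  refine ⟨κ, k, hκ0, hκ1, fun V hV hVB => ?_⟩
  have h1 : κ * (16 * (B + 1)) ≤ e := by
    have : κ ≤ e / (16 * (B + 1)) := min_le_right _ _
    rwa [le_div_iff₀ (by positivity)] at this
  have h2 : (1 - κ) ^ k + κ ≤ 2 * κ := by linarith
  calc 4 * V * ((1 - κ) ^ k + κ) ≤ 4 * V * (2 * κ) :=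
        mul_le_mul_of_nonneg_left h2 (by linarith)
    _ ≤ 4 * B * (2 * κ) := by
        apply mul_le_mul_of_nonneg_right _ (by linarith)
        linarith
    _ < κ * (16 * (B + 1)) := by nlinarith
    _ ≤ e := h1

theorem chain_lemma (q : ℕ) (hq : 1 ≤ q) (δ ρ C : ℝ) (hδ : 0 < δ) (hδ1 : δ ≤ 1) (hρ : 1 ≤ ρ)
    (hC : 1 ≤ C) : ∃ Y : ℝ, 1 ≤ Y ∧
    ∀ (Θ : Type) [TopologicalSpace Θ] (NL NR NJ : ℕ) (uL uR : ℕ → Θ → ℝ) (T : Θ → ℝ)
      (A : Θ → ℝ → ℝ) (A0 : ℝ), Y ≤ A0 → NJ ≤ NL → Continuous T →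
      (Continuous fun z : Θ × ℝ => A z.1 z.2) → (∀ i, Continuous (uL i)) →
      (∀ i, Continuous (uR i)) →
      (∀ i θ, 0 ≤ uL i θ ∧ uL i θ ≤ 1) → (∀ i θ, 0 ≤ uR i θ ∧ uR i θ ≤ 1) →
      (∀ θ, 0 < T θ) → (∀ θ t, A0 ≤ A θ t ∧ A θ t ≤ C * A0) →
      (∀ θ t t', |A θ t - A θ t'| ≤ A0 / 256 * |t - t'|) →
      (∀ θ, ∑ i ∈ Finset.range NJ, uL i θ ≤ A0 / 8) →
      (∀ θ s, NJ ≤ s → (((Finset.range NL).filter (fun i => s ≤ i ∧ 0 < uL i θ)).card : ℝ) ≤
        ρ * (((Finset.range NL).filter (fun i => s ≤ i ∧ δ ≤ uL i θ)).card : ℝ) + A0 / Y) →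
      (∀ θ s, (((Finset.range NR).filter (fun i => s ≤ i ∧ 0 < uR i θ)).card : ℝ) ≤
        ρ * (((Finset.range NR).filter (fun i => s ≤ i ∧ δ ≤ uR i θ)).card : ℝ) + A0 / Y) →
      (∀ θ, Y * A0 ≤ ∑ i ∈ Finset.range NL, uL i θ ^ (q + 1) / (q + 1)) →
      (∀ θ, Y * A0 ≤ ∑ i ∈ Finset.range NR, uR i θ ^ (q + 1) / (q + 1)) →
      (∀ θ, ∫ t in (0 : ℝ)..T θ, A θ t = ∑ i ∈ Finset.range NL, uL i θ ^ (q + 1) / (q + 1) +
        ∑ i ∈ Finset.range NR, uR i θ ^ (q + 1) / (q + 1)) →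
      ∀ ε : ℝ, 0 < ε → ∃ (WL WR vL vR : ℕ → Θ → ℝ → ℝ) (pL pR : ℕ → Θ → ℝ),
        ChainOut q δ A0 ε NL NR uL uR T A WL WR vL vR pL pR := by
  set η : ℝ := min (1 / (128 * C)) (δ ^ (q + 1) / (1200 * q * (q + 1) * ρ * C)) with hηdef
  have hq0 : (1 : ℝ) ≤ q := by exact_mod_cast hq
  have hden : 0 < 1200 * (q : ℝ) * (q + 1) * ρ * C := by positivity
  have hη : 0 < η := by
    apply lt_min
    · positivity
    · positivity
  have hη1 : η * (128 * C) ≤ 1 := by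
    have : η ≤ 1 / (128 * C) := min_le_left _ _
    rwa [le_div_iff₀ (by positivity)] at this
  have hη2 : η * (1200 * q * (q + 1) * ρ * C) ≤ δ ^ (q + 1) := by
    have : η ≤ δ ^ (q + 1) / (1200 * q * (q + 1) * ρ * C) := min_le_right _ _
    rwa [le_div_iff₀ hden] at this
  clear_value η
  refine ⟨max 1 (max (400 * (q : ℝ)) (max (16 * C ^ 2 / η + 7 * C)
    (max ((3 + 5 * (q : ℝ)) / η) (256 / (3 * δ))))), le_max_left _ _, ?_⟩
  set Y : ℝ := max 1 (max (400 * (q : ℝ)) (max (16 * C ^ 2 / η + 7 * C)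
    (max ((3 + 5 * (q : ℝ)) / η) (256 / (3 * δ))))) with hYdef
  have hY : 1 ≤ Y := le_max_left _ _
  have hY1 : 400 * (q : ℝ) ≤ Y := (le_max_left _ _).trans (le_max_right _ _)
  have hY2 : 16 * C ^ 2 / η + 7 * C ≤ Y :=
    (le_max_left _ _).trans ((le_max_right _ _).trans (le_max_right _ _))
  have hY3 : (3 + 5 * (q : ℝ)) / η ≤ Y :=
    (le_max_left _ _).trans ((le_max_right _ _).trans ((le_max_right _ _).trans (le_max_right _ _)))
  have hY4 : 256 / (3 * δ) ≤ Y :=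
    (le_max_right _ _).trans ((le_max_right _ _).trans ((le_max_right _ _).trans (le_max_right _ _)))
  clear_value Y
  intro Θ _ NL NR NJ uL uR T A A0 hYA hNJ cT cA cuL cuR huL huR hT hA lipA tail sufL sufR volL volR
    int ε hε
  have hA0 : 0 < A0 := by linarith
  set V1 : Θ → ℝ := fun θ => ∑ i ∈ Finset.range NL, uL i θ ^ (q + 1) / (q + 1) with hV1
  set V2 : Θ → ℝ := fun θ => ∑ i ∈ Finset.range NR, uR i θ ^ (q + 1) / (q + 1) with hV2
  have cV1 : Continuous V1 := by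
    rw [hV1]
    fun_prop
  have cV2 : Continuous V2 := by
    rw [hV2]
    fun_prop
  have cAθ : ∀ θ, Continuous (A θ) := fun θ => cA.comp (Continuous.prodMk_right θ)
  have HL : ∀ θ, HD q δ ρ C η A0 (T θ) (A θ) (V1 θ) (V2 θ) (fun i => uL i θ) NL NJ := fun θ =>
    HD_build hq hδ hδ1 hρ hC hη hη1 hη2 hY hY1 hY2 hY3 hYA (hT θ) (cAθ θ) (fun t => (hA θ t).1)
      (fun t => (hA θ t).2) (lipA θ) (volL θ) (volR θ) (int θ) (fun i => huL i θ) rfl hNJ (tail θ)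
      (sufL θ)
  have HR : ∀ θ, HD q δ ρ C η A0 (T θ) (fun s => A θ (T θ - s)) (V2 θ) (V1 θ) (fun i => uR i θ)
      NR 0 := fun θ =>
    HD_build hq hδ hδ1 hρ hC hη hη1 hη2 hY hY1 hY2 hY3 hYA (hT θ)
      ((cAθ θ).comp (continuous_const.sub continuous_id)) (fun t => (hA θ _).1)
      (fun t => (hA θ _).2)
      (fun t t' => by
        have := lipA θ (T θ - t) (T θ - t')
        rwa [show T θ - t - (T θ - t') = -(t - t') by ring, abs_neg] at this)
      (volR θ) (volL θ)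
      (by
        rw [intervalIntegral.integral_comp_sub_left (fun x => A θ x) (T θ)]
        simp only [sub_self, sub_zero]
        rw [int θ]
        ring)
      (fun i => huR i θ) rfl (Nat.zero_le _) (by simp; positivity) (fun s _ => sufR θ s)
  -- choice of the iteration
  have hε' : 0 < min ε A0 := lt_min hε hA0
  obtain ⟨κ, k, hκ, hκ1, hk⟩ := exists_kappa (B := (NL : ℝ)) (e := (min ε A0) ^ 2 / A0)
    (Nat.cast_nonneg _) (by positivity)
  have hV1nn : ∀ θ, 0 ≤ V1 θ := fun θ => Finset.sum_nonneg fun i _ => by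
    have := (huL i θ).1
    positivity
  have hV1le : ∀ θ, V1 θ ≤ NL := fun θ => by
    have : V1 θ ≤ ∑ i ∈ Finset.range NL, (1 : ℝ) := by
      refine Finset.sum_le_sum fun i _ => ?_
      have h1 : uL i θ ^ (q + 1) ≤ 1 := pow_le_one₀ (huL i θ).1 (huL i θ).2
      rw [div_le_one (by positivity)]
      linarith
    simpa using this
  set x : Θ → ℝ → ℝ := fun θ => itr q C η A0 (T θ) (A θ) (V1 θ) (V2 θ) (fun j => uL j θ)
    (fun j => uR j θ) NL NR κ k with hx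
  have cx : Continuous fun z : Θ × ℝ => x z.1 z.2 :=
    itr_continuous q C η A0 κ NL NR cT cA cV1 cV2 cuL cuR k
  have hxD : ∀ θ, DomE C η A0 (T θ) (A θ) (V1 θ) (x θ) := fun θ =>
    itr_domE (HL θ) (HR θ) hκ.le hκ1.le k
  -- the two evolutions
  set aL : Θ → ℝ → ℝ := fun θ => tgt η C A0 (A θ) (V1 θ) (x θ) with haL
  have caL : Continuous fun z : Θ × ℝ => aL z.1 z.2 := tgt_continuous η C A0 cA cV1 cx
  set y : Θ → ℝ → ℝ := fun θ s => eM q (T θ) (aL θ) (fun j => uL j θ) NL (T θ - s) with hy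
  have cTsub : Continuous fun z : Θ × ℝ => (z.1, T z.1 - z.2) :=
    continuous_fst.prodMk ((cT.comp continuous_fst).sub continuous_snd)
  have cy : Continuous fun z : Θ × ℝ => y z.1 z.2 :=
    (eM_continuous q cT caL cuL NL).1.comp cTsub
  have hyD : ∀ θ, Dom η C A0 (T θ) (fun s => A θ (T θ - s)) (V2 θ) (y θ) := fun θ =>
    half_dom (HL θ) (hxD θ).1
  have cAR : Continuous fun z : Θ × ℝ => A z.1 (T z.1 - z.2) := cA.comp cTsub
  set aR : Θ → ℝ → ℝ := fun θ => tgt η C A0 (fun s => A θ (T θ - s)) (V2 θ) (y θ) with haR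
  have caR : Continuous fun z : Θ × ℝ => aR z.1 z.2 :=
    tgt_continuous (A := fun θ s => A θ (T θ - s)) η C A0 cAR cV2 cy
  refine ⟨fun i θ s => eW q (T θ) (aL θ) (fun j => uL j θ) i s,
    fun i θ s => T θ - eW q (T θ) (aR θ) (fun j => uR j θ) i s - (uR i θ - s),
    fun i θ t => ev q (T θ) (aL θ) (fun j => uL j θ) i t,
    fun i θ t => ev q (T θ) (aR θ) (fun j => uR j θ) i (T θ - t),
    fun i θ => eP q (T θ) (aL θ) (fun j => uL j θ) (i + 1),
    fun i θ => T θ - eP q (T θ) (aR θ) (fun j => uR j θ) (i + 1), ?_⟩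
  refine
    { cWL := fun i => eW_continuous q cT caL cuL i
      cWR := fun i => ?_
      cvL := fun i => ev_continuous q cT caL cuL i
      cvR := fun i => ?_
      vL_nn := fun i θ t => ?_
      vR_nn := fun i θ t => ?_
      vL_le := fun i θ t => ?_
      vR_le := fun i θ t => ?_
      secL := fun i hi θ s t hs hsu h1 h2 => half_sec (HL θ) (hxD θ).1 hi hs hsu h1 h2
      secR := fun i hi θ s t hs hsu h1 h2 => ?_
      suppL := fun i hi θ t ht htT hv => half_supp_abs (HL θ) (hxD θ).1 hi ht htT hv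
      suppR := fun i hi θ t ht htT hv => ?_
      lowL := fun i hi θ t ht htT hv => half_low (HL θ) (hxD θ).1 hi htT hv
      lowR := fun i hi θ t ht htT hv => ?_
      intL := fun i hi θ => half_int (HL θ) (hxD θ).1 hi
      intR := fun i hi θ => ?_
      monoL := fun i j θ hij hj => half_mono (HL θ) (hxD θ).1 hij hj
      monoR := fun i j θ hij hj => ?_
      mass := fun θ t ht htT => ?_
      sum := fun θ t ht htT => ?_ }
  · exact ((cT.comp continuous_fst).sub (eW_continuous q cT caR cuR i)).sub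
      (((cuR i).comp continuous_fst).sub continuous_snd)
  · exact (ev_continuous q cT caR cuR i).comp cTsub
  · exact le_min (Real.rpow_nonneg (le_max_left _ _) _) (cf_nonneg (huL i θ).1)
  · exact le_min (Real.rpow_nonneg (le_max_left _ _) _) (cf_nonneg (huR i θ).1)
  · exact (min_le_right _ _).trans (cf_le (huL i θ).1)
  · exact (min_le_right _ _).trans (cf_le (huR i θ).1)
  · have h := half_sec (HR θ) (hyD θ) hi hs hsu (t := T θ - t) (by linarith) (by linarith)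
    exact ⟨by linarith [h.2.1], by linarith [h.1], h.2.2⟩
  · have h := half_supp_abs (HR θ) (hyD θ) hi (t := T θ - t) (by linarith) (by linarith) hv
    rw [abs_sub_comm] at h
    convert h using 2
    ring
  · have h := half_low (HR θ) (hyD θ) hi (t := T θ - t) (by linarith) (by linarith)
    refine le_trans (le_of_eq ?_) h
    ring
  · rw [← half_int (HR θ) (hyD θ) hi]
    rw [intervalIntegral.integral_comp_sub_left
      (fun t => ev q (T θ) (aR θ) (fun j => uR j θ) i t ^ q) (T θ)]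
    simp only [sub_self, sub_zero]
    rfl
  · have h := half_mono (HR θ) (hyD θ) hij hj
    linarith
  · rcases le_total (∫ s in (0 : ℝ)..t, A θ s) (V1 θ) with hM | hM
    · exact Or.inl (half_window (HL θ) (hY4.trans hYA) (hxD θ).1 ht htT hM)
    · right
      have hint : ∀ x y : ℝ, IntervalIntegrable (A θ) volume x y :=
        fun x y => (cAθ θ).intervalIntegrable x y
      have h1 : ∫ s in (0 : ℝ)..(T θ - t), A θ (T θ - s) = ∫ s in t..T θ, A θ s := by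
        rw [intervalIntegral.integral_comp_sub_left (fun x => A θ x) (T θ)]
        congr 1
        · ring
        · ring
      have h2 := intervalIntegral.integral_add_adjacent_intervals (hint 0 t) (hint t (T θ))
      have h3 := (HL θ).int
      have h := half_window (HR θ) (hY4.trans hYA) (hyD θ) (t := T θ - t) (by linarith)
        (by linarith) (by rw [h1]; linarith)
      refine h.trans (le_of_eq ?_)
      refine Finset.sum_congr ?_ fun _ _ => rfl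
      ext i
      simp only [Finset.mem_filter]
      constructor
      · rintro ⟨hi, h5, h6⟩
        exact ⟨hi, by linarith, by linarith⟩
      · rintro ⟨hi, h5, h6⟩
        exact ⟨hi, by linarith, by linarith⟩
  · have h1 := half_sum (HL θ) (hxD θ).1 ht htT
    have h2 := half_sum (HR θ) (hyD θ) (t := T θ - t) (by linarith) (by linarith)
    have h3 := chi_rev (HL θ) t
    have h4 : tgt η C A0 (A θ) (V1 θ) (x θ) t = chi η C A0 (A θ) (V1 θ) t * A θ t + x θ t := rfl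
    have h5 : tgt η C A0 (fun s => A θ (T θ - s)) (V2 θ) (y θ) (T θ - t) =
        chi η C A0 (fun s => A θ (T θ - s)) (V2 θ) (T θ - t) * A θ (T θ - (T θ - t)) +
          eM q (T θ) (aL θ) (fun j => uL j θ) NL (T θ - (T θ - t)) := rfl
    rw [h3, sub_sub_cancel] at h5
    have h6 : loopMap q C η A0 (T θ) (A θ) (V1 θ) (V2 θ) (fun j => uL j θ) (fun j => uR j θ) NL NR
        (x θ) t = eM q (T θ) (tgt η C A0 (fun s => A θ (T θ - s)) (V2 θ) (y θ))
          (fun j => uR j θ) NR (T θ - t) := rfl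
    have h7 := itr_pointwise (HL θ) (HR θ) hκ hκ1 hε' (min_le_right _ _)
      (hk (V1 θ) (hV1nn θ) (hV1le θ)) ht htT
    have h8 : |loopMap q C η A0 (T θ) (A θ) (V1 θ) (V2 θ) (fun j => uL j θ) (fun j => uR j θ) NL NR
        (x θ) t - x θ t| ≤ min ε A0 := h7
    rw [h6, abs_sub_comm] at h8
    refine le_trans (le_of_eq ?_) (h8.trans (min_le_left _ _))
    congr 1
    have h1' : ∑ i ∈ Finset.range NL, ev q (T θ) (aL θ) (fun j => uL j θ) i t ^ q =
      tgt η C A0 (A θ) (V1 θ) (x θ) t - eM q (T θ) (aL θ) (fun j => uL j θ) NL t := h1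
    have h2' : ∑ i ∈ Finset.range NR, ev q (T θ) (aR θ) (fun j => uR j θ) i (T θ - t) ^ q =
      tgt η C A0 (fun s => A θ (T θ - s)) (V2 θ) (y θ) (T θ - t) -
        eM q (T θ) (tgt η C A0 (fun s => A θ (T θ - s)) (V2 θ) (y θ))
          (fun j => uR j θ) NR (T θ - t) := h2
    rw [h1', h2', h4, h5]
    ring

end Vale.Agent.P209.Strong
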