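import Mathlib
import Vale.Agent.P209.Defs

/-!
# Definitions for strong packing stability (P209, module `Strong`)

Target coordinates: a point `w : Fin n → ℂ` of the toric target has action coordinates
`a j = (w j).re` and angle coordinates `b j = (w j).im` (taken mod `ℤ`).
-/

open scoped ContDiff

namespace Vale.Agent.P209.Strong

open Vale.Agent.P209

/-- action part of a point of the toric target -/
def act {n : ℕ} (w : Fin n → ℂ) : Fin n → ℝ := fun j => (w j).re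

/-- equality in `ℝⁿ × (ℝ/ℤ)ⁿ` -/
def SameMod {n : ℕ} (w w' : Fin n → ℂ) : Prop :=
  ∀ j, (w j).re = (w' j).re ∧ ∃ m : ℤ, (w j).im - (w' j).im = m

/-- `f` is a symplectic embedding of (a neighbourhood of) the closed ball of capacity `r` into
`Ω × (ℝ/ℤ)ⁿ`. -/
def TEmb {n : ℕ} (r : ℝ) (f : (Fin n → ℂ) → (Fin n → ℂ)) (Ω : Set (Fin n → ℝ)) : Prop :=
  ∃ U : Set (Fin n → ℂ), IsOpen U ∧ closedBall n r ⊆ U ∧ ContDiffOn ℝ ∞ f U ∧
    (∀ z ∈ U, ∀ v w : Fin n → ℂ, omega (fderiv ℝ f z v) (fderiv ℝ f z w) = omega v w) ∧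
    (∀ z ∈ U, act (f z) ∈ Ω) ∧
    (∀ z ∈ U, ∀ w ∈ U, SameMod (f z) (f w) → z = w)

/-- packing of `Ω × (ℝ/ℤ)ⁿ` by balls, with pairwise disjoint projections to `Ω` -/
def TPk {n : ℕ} {ι : Type} (Ω : Set (Fin n → ℝ)) (r : ι → ℝ) : Prop :=
  ∃ f : ι → (Fin n → ℂ) → (Fin n → ℂ), (∀ i, TEmb (r i) (f i) Ω) ∧
    ∀ i j, i ≠ j → ∀ z ∈ closedBall n (r i), ∀ w ∈ closedBall n (r j), act (f i z) ≠ act (f j w)

/-- The region of a ball of capacity `r` twisted by the continuous functions `W j`. -/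
def KK {n : ℕ} (W : Fin n → (Fin n → ℝ) → ℝ → ℝ) (r : ℝ) : Set (Fin n → ℝ) :=
  {a | ∃ x : ℕ → ℝ, x 0 ≤ r ∧ (∀ j, 0 ≤ x j) ∧ x n = 0 ∧
    ∀ j : Fin n, W j a (x (j + 1)) ≤ a j ∧ a j ≤ W j a (x (j + 1)) + (x j - x (j + 1))}

/-- `F j` only depends on the coordinates before `j` -/
def DepLt {n : ℕ} {β : Type*} (F : Fin n → (Fin n → ℝ) → β) : Prop :=
  ∀ j y y', (∀ i, i < j → y i = y' i) → F j y = F j y'

/-- A family over `Θ` of iterated boxes, with walls `l j < y j < u j` of bounded slope and width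
between `c * R` and `R`. -/
structure IsBox {n : ℕ} {Θ : Type} [TopologicalSpace Θ] (c L R : ℝ)
    (l u : Fin n → Θ → (Fin n → ℝ) → ℝ) : Prop where
  dep_l : ∀ θ, DepLt fun j => l j θ
  dep_u : ∀ θ, DepLt fun j => u j θ
  cont_l : ∀ j, Continuous fun x : Θ × (Fin n → ℝ) => l j x.1 x.2
  cont_u : ∀ j, Continuous fun x : Θ × (Fin n → ℝ) => u j x.1 x.2
  lip_l : ∀ j θ y y', |l j θ y - l j θ y'| ≤ L * dist y y'
  lip_u : ∀ j θ y y', |u j θ y - u j θ y'| ≤ L * dist y y'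
  lo : ∀ j θ y, c * R ≤ u j θ y - l j θ y
  hi : ∀ j θ y, u j θ y - l j θ y ≤ R

/-- the open iterated box -/
def boxSet {n : ℕ} (l u : Fin n → (Fin n → ℝ) → ℝ) : Set (Fin n → ℝ) :=
  {y | ∀ j, l j y < y j ∧ y j < u j y}

/-- slices of the walls: the first coordinate becomes a parameter -/
def sl {n : ℕ} {Θ : Type} (l : Fin (n + 1) → Θ → (Fin (n + 1) → ℝ) → ℝ) :
    Fin n → Θ × ℝ → (Fin n → ℝ) → ℝ :=
  fun j p y => l j.succ p.1 (Fin.cons p.2 y)

/-- volume of an iterated box, as an iterated integral -/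
noncomputable def vol : (n : ℕ) → {Θ : Type} → (l u : Fin n → Θ → (Fin n → ℝ) → ℝ) → Θ → ℝ
  | 0, _, _, _, _ => 1
  | n + 1, _, l, u, θ => ∫ t in (l 0 θ 0)..(u 0 θ 0), vol n (sl l) (sl u) (θ, t)

/-- Every collection of balls, bulk balls of capacity in `[δ, 1]` and tail balls of total
capacity at most `N`, whose volume is smaller than that of `Ω`, packs `Ω`. -/
def Fill {n : ℕ} (δ N : ℝ) (Ω : Set (Fin n → ℝ)) : Prop :=
  ∀ (ι : Type) [Fintype ι] (r : ι → ℝ) (J : Finset ι), (∀ i, 0 < r i ∧ r i ≤ 1) →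
    (∀ i, i ∉ J → δ ≤ r i) → ∑ i ∈ J, r i ≤ N →
    ∑ i, r i ^ n / (n.factorial : ℝ) < (MeasureTheory.volume Ω).toReal → TPk Ω r

/-- open simplex of size `R` -/
def simplex (n : ℕ) (R : ℝ) : Set (Fin n → ℝ) := {a | (∀ j, 0 < a j) ∧ ∑ j, a j < R}

end Vale.Agent.P209.Strong
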