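import Vale.Agent.P209.Strong.C1a

namespace Vale.Agent.P209.Strong

open MeasureTheory

theorem c1c_succ {n : ℕ} {Θ : Type} [TopologicalSpace Θ] {c L R : ℝ} (hc : 0 < c)
    (hR : 0 < R) {l u : Fin (n + 1) → Θ → (Fin (n + 1) → ℝ) → ℝ} (h : IsBox c L R l u)
    (ih : ∀ p : Θ × ℝ, volume (boxSet (fun j => sl l j p) (fun j => sl u j p)) =
      ENNReal.ofReal (vol n (sl l) (sl u) p)) (θ : Θ) :
    volume (boxSet (fun j => l j θ) (fun j => u j θ)) = ENNReal.ofReal (vol (n + 1) l u θ) := by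
  have hopen : IsOpen (boxSet (fun j => l j θ) (fun j => u j θ)) :=
    isOpen_boxSet (fun j => (h.cont_l j).comp (Continuous.prodMk_right θ))
      (fun j => (h.cont_u j).comp (Continuous.prodMk_right θ))
  have hpres := (volume_preserving_piFinSuccAbove (fun _ : Fin (n + 1) => ℝ) 0).symm
  have h1 := hpres.measure_preimage hopen.measurableSet.nullMeasurableSet
  rw [← h1]
  have hmeas : MeasurableSet ((MeasurableEquiv.piFinSuccAbove (fun _ : Fin (n + 1) => ℝ) 0).symm ⁻¹'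
      (boxSet (fun j => l j θ) (fun j => u j θ))) :=
    (MeasurableEquiv.piFinSuccAbove (fun _ : Fin (n + 1) => ℝ) 0).symm.measurable
      hopen.measurableSet
  have hl0 : ∀ y, l 0 θ y = l 0 θ 0 := fun y =>
    h.dep_l θ 0 y 0 (fun i hi => absurd hi (Fin.not_lt_zero i))
  have hu0 : ∀ y, u 0 θ y = u 0 θ 0 := fun y =>
    h.dep_u θ 0 y 0 (fun i hi => absurd hi (Fin.not_lt_zero i))
  have hle : l 0 θ 0 ≤ u 0 θ 0 := by
    have := h.lo 0 θ 0
    nlinarith [mul_pos hc hR]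
  have hslice : ∀ t : ℝ, (Prod.mk t ⁻¹' ((MeasurableEquiv.piFinSuccAbove
      (fun _ : Fin (n + 1) => ℝ) 0).symm ⁻¹' (boxSet (fun j => l j θ) (fun j => u j θ)))) =
      {y | t ∈ Set.Ioo (l 0 θ 0) (u 0 θ 0) ∧
        y ∈ boxSet (fun j => sl l j (θ, t)) (fun j => sl u j (θ, t))} := by
    intro t
    ext y
    have he : (MeasurableEquiv.piFinSuccAbove (fun _ : Fin (n + 1) => ℝ) 0).symm (t, y) =
        (Fin.cons t y : Fin (n + 1) → ℝ) := by
      ext j
      refine Fin.cases ?_ (fun j => ?_) j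
      · simp [MeasurableEquiv.piFinSuccAbove, Fin.insertNthEquiv]
      · simp [MeasurableEquiv.piFinSuccAbove, Fin.insertNthEquiv]
    change (MeasurableEquiv.piFinSuccAbove (fun _ : Fin (n + 1) => ℝ) 0).symm (t, y) ∈
      boxSet (fun j => l j θ) (fun j => u j θ) ↔ _
    rw [he]
    change (∀ j, l j θ (Fin.cons t y) < (Fin.cons t y : Fin (n + 1) → ℝ) j ∧
      (Fin.cons t y : Fin (n + 1) → ℝ) j < u j θ (Fin.cons t y)) ↔
      (t ∈ Set.Ioo (l 0 θ 0) (u 0 θ 0) ∧ ∀ j, sl l j (θ, t) y < y j ∧ y j < sl u j (θ, t) y)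
    rw [Fin.forall_fin_succ, hl0, hu0]
    simp only [Fin.cons_zero, Fin.cons_succ, sl, Set.mem_Ioo]
  rw [Measure.volume_eq_prod, Measure.prod_apply hmeas]
  have h2 : ∀ t : ℝ, volume (Prod.mk t ⁻¹' ((MeasurableEquiv.piFinSuccAbove
      (fun _ : Fin (n + 1) => ℝ) 0).symm ⁻¹' (boxSet (fun j => l j θ) (fun j => u j θ)))) =
      (Set.Ioo (l 0 θ 0) (u 0 θ 0)).indicator
        (fun t => ENNReal.ofReal (vol n (sl l) (sl u) (θ, t))) t := by
    intro t
    rw [hslice t]
    by_cases ht : t ∈ Set.Ioo (l 0 θ 0) (u 0 θ 0)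
    · rw [Set.indicator_of_mem ht, ← ih (θ, t)]
      congr 1
      ext y
      exact and_iff_right ht
    · rw [Set.indicator_of_notMem ht]
      have : {y | t ∈ Set.Ioo (l 0 θ 0) (u 0 θ 0) ∧
        y ∈ boxSet (fun j => sl l j (θ, t)) (fun j => sl u j (θ, t))} = ∅ := by
        ext y
        exact ⟨fun h => (ht h.1).elim, fun h => h.elim⟩
      rw [this, measure_empty]
  rw [lintegral_congr h2, lintegral_indicator measurableSet_Ioo]
  have hcont : Continuous fun t : ℝ => vol n (sl l) (sl u) (θ, t) :=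
    (vol_continuous h.slice).comp (Continuous.prodMk_right θ)
  have hint : IntegrableOn (fun t : ℝ => vol n (sl l) (sl u) (θ, t))
      (Set.Ioo (l 0 θ 0) (u 0 θ 0)) :=
    (hcont.integrableOn_Icc).mono_set Set.Ioo_subset_Icc_self
  have hnn : ∀ t : ℝ, 0 ≤ vol n (sl l) (sl u) (θ, t) := fun t =>
    (pow_nonneg (mul_pos hc hR).le n).trans (vol_bounds hc hR h.slice (θ, t)).1
  rw [← ofReal_integral_eq_lintegral_ofReal hint (Filter.Eventually.of_forall hnn)]
  congr 1
  change _ = ∫ t in (l 0 θ 0)..(u 0 θ 0), vol n (sl l) (sl u) (θ, t)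
  rw [intervalIntegral.integral_of_le hle, integral_Ioc_eq_integral_Ioo]

theorem volume_boxSet {n : ℕ} {Θ : Type} [TopologicalSpace Θ] {c L R : ℝ} (hc : 0 < c)
    (hR : 0 < R) {l u : Fin n → Θ → (Fin n → ℝ) → ℝ} (h : IsBox c L R l u) (θ : Θ) :
    volume (boxSet (fun j => l j θ) (fun j => u j θ)) = ENNReal.ofReal (vol n l u θ) := by
  induction n generalizing Θ with
  | zero =>
    have h1 : boxSet (fun j => l j θ) (fun j => u j θ) = Set.univ := by
      ext y
      exact ⟨fun _ => trivial, fun _ j => j.elim0⟩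
    rw [h1]
    have h2 : vol 0 l u θ = 1 := rfl
    rw [h2, ENNReal.ofReal_one]
    simp [volume_pi]
  | succ n ih => exact c1c_succ hc hR h (fun p => ih h.slice p) θ

end Vale.Agent.P209.Strong
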