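import Vale.Agent.P209.Strong.Base

namespace Vale.Agent.P209.Strong

open MeasureTheory

/-! C1. Volumes of iterated boxes. -/

private theorem cons_cont {n : ℕ} {Θ : Type} [TopologicalSpace Θ] :
    Continuous fun x : (Θ × ℝ) × (Fin n → ℝ) =>
      (x.1.1, (Fin.cons x.1.2 x.2 : Fin (n + 1) → ℝ)) := by
  refine (continuous_fst.comp continuous_fst).prodMk ?_
  refine continuous_pi fun i => ?_
  refine Fin.cases ?_ (fun j => ?_) i
  · exact continuous_snd.comp continuous_fst
  · exact (continuous_apply j).comp continuous_snd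

private theorem cons_dist {n : ℕ} (t : ℝ) (y y' : Fin n → ℝ) :
    dist (Fin.cons t y : Fin (n + 1) → ℝ) (Fin.cons t y') = dist y y' := by
  refine le_antisymm ?_ ?_
  · refine (dist_pi_le_iff dist_nonneg).2 fun i => ?_
    refine Fin.cases ?_ (fun j => ?_) i
    · simp
    · simpa using dist_le_pi_dist y y' j
  · refine (dist_pi_le_iff dist_nonneg).2 fun i => ?_
    simpa using dist_le_pi_dist (Fin.cons t y : Fin (n + 1) → ℝ) (Fin.cons t y') i.succ

private theorem dep_slice {n : ℕ} {F : Fin (n + 1) → (Fin (n + 1) → ℝ) → ℝ} (hF : DepLt F)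
    (t : ℝ) : DepLt fun (j : Fin n) (y : Fin n → ℝ) => F j.succ (Fin.cons t y) := by
  intro j y y' hy
  refine hF j.succ _ _ fun i => ?_
  refine Fin.cases ?_ (fun k => ?_) i
  · intro _
    simp
  · intro hk
    simpa using hy k (Fin.succ_lt_succ_iff.1 hk)

theorem IsBox.slice {n : ℕ} {Θ : Type} [TopologicalSpace Θ] {c L R : ℝ}
    {l u : Fin (n + 1) → Θ → (Fin (n + 1) → ℝ) → ℝ} (h : IsBox c L R l u) :
    IsBox c L R (sl l) (sl u) where
  dep_l θ := dep_slice (h.dep_l θ.1) θ.2
  dep_u θ := dep_slice (h.dep_u θ.1) θ.2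
  cont_l j := (h.cont_l j.succ).comp cons_cont
  cont_u j := (h.cont_u j.succ).comp cons_cont
  lip_l j θ y y' := by
    have := h.lip_l j.succ θ.1 (Fin.cons θ.2 y) (Fin.cons θ.2 y')
    rwa [cons_dist] at this
  lip_u j θ y y' := by
    have := h.lip_u j.succ θ.1 (Fin.cons θ.2 y) (Fin.cons θ.2 y')
    rwa [cons_dist] at this
  lo j θ y := h.lo j.succ θ.1 (Fin.cons θ.2 y)
  hi j θ y := h.hi j.succ θ.1 (Fin.cons θ.2 y)

/-- change of parameter -/
theorem IsBox.comp {n : ℕ} {Θ Θ' : Type} [TopologicalSpace Θ] [TopologicalSpace Θ'] {c L R : ℝ}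
    {l u : Fin n → Θ → (Fin n → ℝ) → ℝ} (h : IsBox c L R l u) {f : Θ' → Θ} (hf : Continuous f) :
    IsBox c L R (fun j θ => l j (f θ)) (fun j θ => u j (f θ)) where
  dep_l θ := h.dep_l (f θ)
  dep_u θ := h.dep_u (f θ)
  cont_l j := (h.cont_l j).comp ((hf.comp continuous_fst).prodMk continuous_snd)
  cont_u j := (h.cont_u j).comp ((hf.comp continuous_fst).prodMk continuous_snd)
  lip_l j θ y y' := h.lip_l j (f θ) y y'
  lip_u j θ y y' := h.lip_u j (f θ) y y'
  lo j θ y := h.lo j (f θ) y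
  hi j θ y := h.hi j (f θ) y

theorem vol_comp {n : ℕ} {Θ Θ' : Type} (l u : Fin n → Θ → (Fin n → ℝ) → ℝ) (f : Θ' → Θ) (θ : Θ') :
    vol n (fun j θ => l j (f θ)) (fun j θ => u j (f θ)) θ = vol n l u (f θ) := by
  induction n generalizing Θ Θ' with
  | zero => rfl
  | succ n ih =>
    show (∫ t in (l 0 (f θ) 0)..(u 0 (f θ) 0),
        vol n (sl fun j θ => l j (f θ)) (sl fun j θ => u j (f θ)) (θ, t)) =
      ∫ t in (l 0 (f θ) 0)..(u 0 (f θ) 0), vol n (sl l) (sl u) (f θ, t)
    refine intervalIntegral.integral_congr fun t _ => ?_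
    exact ih (sl l) (sl u) (fun p : Θ' × ℝ => (f p.1, p.2)) (θ, t)

theorem vol_continuous {n : ℕ} {Θ : Type} [TopologicalSpace Θ] {c L R : ℝ}
    {l u : Fin n → Θ → (Fin n → ℝ) → ℝ} (h : IsBox c L R l u) : Continuous (vol n l u) := by
  induction n generalizing Θ with
  | zero => exact continuous_const
  | succ n ih =>
    have hF : Continuous (vol n (sl l) (sl u)) := ih h.slice
    have hl : Continuous fun θ : Θ => l 0 θ 0 :=
      (h.cont_l 0).comp (continuous_id.prodMk continuous_const)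
    have hu : Continuous fun θ : Θ => u 0 θ 0 :=
      (h.cont_u 0).comp (continuous_id.prodMk continuous_const)
    have hf : Continuous (fun (θ : Θ) (t : ℝ) => vol n (sl l) (sl u) (θ, t)).uncurry := hF
    have e : vol (n + 1) l u = fun θ =>
        (∫ t in (0 : ℝ)..(u 0 θ 0), vol n (sl l) (sl u) (θ, t)) -
          ∫ t in (0 : ℝ)..(l 0 θ 0), vol n (sl l) (sl u) (θ, t) := by
      funext θ
      have hc : Continuous fun t : ℝ => vol n (sl l) (sl u) (θ, t) :=
        hF.comp (continuous_const.prodMk continuous_id)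
      exact (intervalIntegral.integral_interval_sub_left (hc.intervalIntegrable _ _)
        (hc.intervalIntegrable _ _)).symm
    rw [e]
    exact (intervalIntegral.continuous_parametric_intervalIntegral_of_continuous hf hu).sub
      (intervalIntegral.continuous_parametric_intervalIntegral_of_continuous hf hl)

theorem vol_bounds {n : ℕ} {Θ : Type} [TopologicalSpace Θ] {c L R : ℝ} (hc : 0 < c) (hR : 0 < R)
    {l u : Fin n → Θ → (Fin n → ℝ) → ℝ} (h : IsBox c L R l u) (θ : Θ) :
    (c * R) ^ n ≤ vol n l u θ ∧ vol n l u θ ≤ R ^ n := by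
  induction n generalizing Θ with
  | zero => simp [vol]
  | succ n ih =>
    have hcR : 0 < c * R := mul_pos hc hR
    have hlo := h.lo 0 θ 0
    have hhi := h.hi 0 θ 0
    have hle : l 0 θ 0 ≤ u 0 θ 0 := by linarith
    have hF : Continuous (vol n (sl l) (sl u)) := vol_continuous h.slice
    have hct : Continuous fun t : ℝ => vol n (sl l) (sl u) (θ, t) :=
      hF.comp (continuous_const.prodMk continuous_id)
    have hb := fun t : ℝ => ih h.slice (θ, t)
    have h1 : ∫ _ in (l 0 θ 0)..(u 0 θ 0), (c * R) ^ n ≤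
        ∫ t in (l 0 θ 0)..(u 0 θ 0), vol n (sl l) (sl u) (θ, t) :=
      intervalIntegral.integral_mono_on hle (continuous_const.intervalIntegrable _ _)
        (hct.intervalIntegrable _ _) fun t _ => (hb t).1
    have h2 : ∫ t in (l 0 θ 0)..(u 0 θ 0), vol n (sl l) (sl u) (θ, t) ≤
        ∫ _ in (l 0 θ 0)..(u 0 θ 0), R ^ n :=
      intervalIntegral.integral_mono_on hle (hct.intervalIntegrable _ _)
        (continuous_const.intervalIntegrable _ _) fun t _ => (hb t).2
    rw [intervalIntegral.integral_const, smul_eq_mul] at h1 h2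
    have e : vol (n + 1) l u θ = ∫ t in (l 0 θ 0)..(u 0 θ 0), vol n (sl l) (sl u) (θ, t) := rfl
    rw [e]
    constructor
    · calc (c * R) ^ (n + 1) = (c * R) * (c * R) ^ n := by ring
        _ ≤ (u 0 θ 0 - l 0 θ 0) * (c * R) ^ n :=
          mul_le_mul_of_nonneg_right hlo (pow_nonneg hcR.le n)
        _ ≤ _ := h1
    · calc _ ≤ (u 0 θ 0 - l 0 θ 0) * R ^ n := h2
        _ ≤ R * R ^ n := mul_le_mul_of_nonneg_right hhi (pow_nonneg hR.le n)
        _ = R ^ (n + 1) := by ring

theorem isOpen_boxSet {n : ℕ} {l u : Fin n → (Fin n → ℝ) → ℝ} (hl : ∀ j, Continuous (l j))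
    (hu : ∀ j, Continuous (u j)) : IsOpen (boxSet l u) := by
  have e : boxSet l u = ⋂ j : Fin n, ({y | l j y < y j} ∩ {y | y j < u j y}) := by
    ext y
    simp [boxSet]
  rw [e]
  exact isOpen_iInter_of_finite fun j =>
    (isOpen_lt (hl j) (continuous_apply j)).inter (isOpen_lt (continuous_apply j) (hu j))

end Vale.Agent.P209.Strong
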