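import Vale.Agent.P209.Strong.C1a

namespace Vale.Agent.P209.Strong

open MeasureTheory

/-- The constants of the comparison of volumes. -/
noncomputable def lipConst (L : ℝ) : ℕ → ℝ
  | 0 => 0
  | n + 1 => 2 + (1 + L) * lipConst L n

theorem lipConst_nonneg {L : ℝ} (hL : 0 ≤ L) (n : ℕ) : 0 ≤ lipConst L n := by
  induction n with
  | zero => exact le_rfl
  | succ n ih => simp only [lipConst]; positivity

theorem dist_cons_le {n : ℕ} (x x' : ℝ) (y y' : Fin n → ℝ) {e : ℝ} (h : |x - x'| ≤ e) :
    dist (Fin.cons x y : Fin (n + 1) → ℝ) (Fin.cons x' y') ≤ e + dist y y' := by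
  have he : 0 ≤ e := (abs_nonneg _).trans h
  rw [dist_pi_le_iff (add_nonneg he dist_nonneg)]
  intro i
  refine Fin.cases ?_ (fun j => ?_) i
  · simp only [Fin.cons_zero, Real.dist_eq]
    exact h.trans (le_add_of_nonneg_right dist_nonneg)
  · simp only [Fin.cons_succ]
    exact (dist_le_pi_dist y y' j).trans (le_add_of_nonneg_left he)

/-- Comparison of the volumes of two iterated boxes whose walls are close. -/
theorem vol_compare (n : ℕ) (L : ℝ) (hL : 0 ≤ L) :
    ∀ (Θ Θ' : Type) [TopologicalSpace Θ] [TopologicalSpace Θ'] (c R : ℝ)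
      (l u : Fin n → Θ → (Fin n → ℝ) → ℝ) (l' u' : Fin n → Θ' → (Fin n → ℝ) → ℝ),
      0 < c → 0 < R → IsBox c L R l u → IsBox c L R l' u' → ∀ (θ : Θ) (θ' : Θ') (e : ℝ), 0 ≤ e →
        (∀ j y y', |l j θ y - l' j θ' y'| ≤ L * dist y y' + e) →
        (∀ j y y', |u j θ y - u' j θ' y'| ≤ L * dist y y' + e) →
        |vol n l u θ - vol n l' u' θ'| ≤ lipConst L n * e * R ^ (n - 1) := by
  induction n with
  | zero =>
    intro Θ Θ' _ _ c R l u l' u' _ _ _ _ θ θ' e _ _ _
    simp [vol, lipConst]
  | succ n ih =>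
    intro Θ Θ' _ _ c R l u l' u' hc hR hB hB' θ θ' e he hl hu
    have hS := hB.slice
    have hS' := hB'.slice
    have hD := lipConst_nonneg hL n
    set F : ℝ → ℝ := fun t => vol n (sl l) (sl u) (θ, t) with hF
    set F' : ℝ → ℝ := fun t => vol n (sl l') (sl u') (θ', t) with hF'
    have cF : Continuous F := (vol_continuous hS).comp (Continuous.prodMk_right θ)
    have cF' : Continuous F' := (vol_continuous hS').comp (Continuous.prodMk_right θ')
    set a := l 0 θ 0 with ha
    set b := u 0 θ 0 with hb
    set a' := l' 0 θ' 0 with ha'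
    set b' := u' 0 θ' 0 with hb'
    have h1 : |a - a'| ≤ e := by simpa using hl 0 0 0
    have h2 : |b - b'| ≤ e := by simpa using hu 0 0 0
    have e1 : vol (n + 1) l u θ = (b - a) * ∫ s in (0 : ℝ)..1, F (a + (b - a) * s) := by
      show (∫ t in a..b, F t) = _
      have := intervalIntegral.mul_integral_comp_add_mul (a := 0) (b := 1) (f := F) (b - a) a
      rw [this]
      congr 1 <;> ring
    have e2 : vol (n + 1) l' u' θ' = (b' - a') * ∫ s in (0 : ℝ)..1, F' (a' + (b' - a') * s) := by
      show (∫ t in a'..b', F' t) = _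
      have := intervalIntegral.mul_integral_comp_add_mul (a := 0) (b := 1) (f := F') (b' - a') a'
      rw [this]
      congr 1 <;> ring
    set I := ∫ s in (0 : ℝ)..1, F (a + (b - a) * s) with hI
    set I' := ∫ s in (0 : ℝ)..1, F' (a' + (b' - a') * s) with hI'
    have cG : Continuous fun s : ℝ => F (a + (b - a) * s) := cF.comp (by fun_prop)
    have cG' : Continuous fun s : ℝ => F' (a' + (b' - a') * s) := cF'.comp (by fun_prop)
    have hIb : |I| ≤ R ^ n := by
      have : ‖∫ s in (0 : ℝ)..1, F (a + (b - a) * s)‖ ≤ R ^ n * |1 - 0| := by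
        refine intervalIntegral.norm_integral_le_of_norm_le_const fun s _ => ?_
        have h3 := vol_bounds hc hR hS (θ, a + (b - a) * s)
        rw [Real.norm_eq_abs, abs_le]
        exact ⟨by nlinarith [h3.1, pow_pos (mul_pos hc hR) n, pow_pos hR n], h3.2⟩
      simpa using this
    have hdiff : |I - I'| ≤ lipConst L n * ((1 + L) * e) * R ^ (n - 1) := by
      rw [hI, hI', ← intervalIntegral.integral_sub (cG.intervalIntegrable _ _)
        (cG'.intervalIntegrable _ _)]
      have : ‖∫ s in (0 : ℝ)..1, (F (a + (b - a) * s) - F' (a' + (b' - a') * s))‖ ≤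
          lipConst L n * ((1 + L) * e) * R ^ (n - 1) * |1 - 0| := by
        refine intervalIntegral.norm_integral_le_of_norm_le_const fun s hs => ?_
        rw [Set.uIoc_of_le zero_le_one] at hs
        have h3 : |(a + (b - a) * s) - (a' + (b' - a') * s)| ≤ e := by
          have h4 : (a + (b - a) * s) - (a' + (b' - a') * s) =
              (1 - s) * (a - a') + s * (b - b') := by ring
          rw [h4]
          calc |(1 - s) * (a - a') + s * (b - b')|
              ≤ |(1 - s) * (a - a')| + |s * (b - b')| := abs_add_le _ _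
            _ = (1 - s) * |a - a'| + s * |b - b'| := by
                rw [abs_mul, abs_mul, abs_of_nonneg (by linarith [hs.2] : 0 ≤ 1 - s),
                  abs_of_nonneg hs.1.le]
            _ ≤ (1 - s) * e + s * e := by
                have := mul_le_mul_of_nonneg_left h1 (by linarith [hs.2] : 0 ≤ 1 - s)
                have := mul_le_mul_of_nonneg_left h2 hs.1.le
                linarith
            _ = e := by ring
        have key : ∀ x x' : ℝ, |x - x'| ≤ e → ∀ y y' : Fin n → ℝ,
            L * dist (Fin.cons x y : Fin (n + 1) → ℝ) (Fin.cons x' y') + e ≤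
              L * dist y y' + (1 + L) * e := by
          intro x x' hx y y'
          have := mul_le_mul_of_nonneg_left (dist_cons_le x x' y y' hx) hL
          linarith
        exact ih (Θ × ℝ) (Θ' × ℝ) c R (sl l) (sl u) (sl l') (sl u') hc hR hS hS'
          (θ, a + (b - a) * s) (θ', a' + (b' - a') * s) ((1 + L) * e) (by positivity)
          (fun j y y' => (hl j.succ _ _).trans (key _ _ h3 y y'))
          (fun j y y' => (hu j.succ _ _).trans (key _ _ h3 y y'))
      simpa using this
    have hw' : |b' - a'| ≤ R := by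
      have h3 := hB'.hi 0 θ' 0
      have h4 := hB'.lo 0 θ' 0
      rw [abs_le]
      exact ⟨by nlinarith [mul_pos hc hR], h3⟩
    have hww : |(b - a) - (b' - a')| ≤ 2 * e := by
      rw [abs_le] at h1 h2 ⊢
      exact ⟨by linarith [h1.2, h2.1], by linarith [h1.1, h2.2]⟩
    rw [e1, e2]
    have e3 : (b - a) * I - (b' - a') * I' =
        ((b - a) - (b' - a')) * I + (b' - a') * (I - I') := by ring
    rw [e3]
    have hRR : lipConst L n * ((1 + L) * e) * R ^ (n - 1) * R =
        lipConst L n * ((1 + L) * e) * R ^ n := by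
      rcases n with _ | n
      · simp [lipConst]
      · simp only [Nat.add_sub_cancel]
        rw [pow_succ]
        ring
    calc |((b - a) - (b' - a')) * I + (b' - a') * (I - I')|
        ≤ |((b - a) - (b' - a')) * I| + |(b' - a') * (I - I')| := abs_add_le _ _
      _ = |(b - a) - (b' - a')| * |I| + |b' - a'| * |I - I'| := by rw [abs_mul, abs_mul]
      _ ≤ 2 * e * R ^ n + R * (lipConst L n * ((1 + L) * e) * R ^ (n - 1)) := by
          have t1 := mul_le_mul hww hIb (abs_nonneg _) (by positivity)
          have t2 := mul_le_mul hw' hdiff (abs_nonneg _) hR.le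
          linarith
      _ = lipConst L (n + 1) * e * R ^ (n + 1 - 1) := by
          rw [mul_comm R, hRR]
          simp only [lipConst, Nat.add_sub_cancel]
          ring

/-- Lipschitz dependence of the volume of the slice on the time -/
theorem vol_lip (n : ℕ) (L : ℝ) (hL : 0 ≤ L) : ∃ D : ℝ, 0 ≤ D ∧
    ∀ (Θ : Type) [TopologicalSpace Θ] (c R : ℝ) (l u : Fin (n + 1) → Θ → (Fin (n + 1) → ℝ) → ℝ),
      0 < c → 0 < R → IsBox c L R l u → ∀ (θ : Θ) (t t' : ℝ),
        |vol n (sl l) (sl u) (θ, t) - vol n (sl l) (sl u) (θ, t')| ≤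
          D * R ^ (n - 1) * |t - t'| := by
  have hD := lipConst_nonneg hL n
  refine ⟨lipConst L n * L, by positivity, ?_⟩
  intro Θ _ c R l u hc hR hB θ t t'
  have hS := hB.slice
  have key : ∀ y y' : Fin n → ℝ,
      L * dist (Fin.cons t y : Fin (n + 1) → ℝ) (Fin.cons t' y') ≤
        L * dist y y' + L * |t - t'| := by
    intro y y'
    have := mul_le_mul_of_nonneg_left (dist_cons_le t t' y y' le_rfl) hL
    linarith
  have h := vol_compare n L hL (Θ × ℝ) (Θ × ℝ) c R (sl l) (sl u) (sl l) (sl u) hc hR hS hS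
    (θ, t) (θ, t') (L * |t - t'|) (by positivity)
    (fun j y y' => (hB.lip_l j.succ θ _ _).trans (key y y'))
    (fun j y y' => (hB.lip_u j.succ θ _ _).trans (key y y'))
  calc _ ≤ lipConst L n * (L * |t - t'|) * R ^ (n - 1) := h
    _ = lipConst L n * L * R ^ (n - 1) * |t - t'| := by ring

end Vale.Agent.P209.Strong
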