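import Mathlib

namespace Vale.Agent.P209.Strong

/-- The members of `T` strictly between two members of `T`. -/
lemma c2b_card (T : Finset ℕ) :
    T.card ≤ (T.filter (fun κ => (∃ a ∈ T, a < κ) ∧ (∃ b ∈ T, κ < b))).card + 2 := by
  classical
  rcases T.eq_empty_or_nonempty with h | h
  · subst h; simp
  have hsub : T ⊆ (T.filter (fun κ => (∃ a ∈ T, a < κ) ∧ (∃ b ∈ T, κ < b))) ∪
      {T.min' h, T.max' h} := by
    intro κ hκ
    rw [Finset.mem_union, Finset.mem_filter]
    by_cases h1 : κ = T.min' h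
    · right; simp [h1]
    by_cases h2 : κ = T.max' h
    · right; simp [h2]
    left
    refine ⟨hκ, ⟨T.min' h, T.min'_mem h, ?_⟩, ⟨T.max' h, T.max'_mem h, ?_⟩⟩
    · exact lt_of_le_of_ne (T.min'_le κ hκ) (Ne.symm h1)
    · exact lt_of_le_of_ne (T.le_max' κ hκ) h2
  calc T.card ≤ _ := Finset.card_le_card hsub
    _ ≤ _ := Finset.card_union_le _ _
    _ ≤ _ := Nat.add_le_add_left Finset.card_le_two _

/-- A class strictly between two classes which meet an interval is contained in it. -/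
lemma c2b_mem {ι : Type} [DecidableEq ι] (S : Finset ι) (k : ι → ℕ) (p : ι → ℝ)
    (I : Set ℝ) [DecidablePred (· ∈ I)] (hI : I.OrdConnected)
    (hp : ∀ i ∈ S, ∀ j ∈ S, k i < k j → p i ≤ p j) (κ : ℕ)
    (hκ : κ ∈ ((S.filter (fun i => p i ∈ I)).image k).filter
      (fun κ => (∃ a ∈ (S.filter (fun i => p i ∈ I)).image k, a < κ) ∧
        (∃ b ∈ (S.filter (fun i => p i ∈ I)).image k, κ < b)))
    (i : ι) (hi : i ∈ S) (hk : k i = κ) : p i ∈ I := by
  rw [Finset.mem_filter] at hκ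
  obtain ⟨-, ⟨a, ha, haκ⟩, ⟨b, hb, hbκ⟩⟩ := hκ
  obtain ⟨u, hu, rfl⟩ := Finset.mem_image.1 ha
  obtain ⟨v, hv, rfl⟩ := Finset.mem_image.1 hb
  rw [Finset.mem_filter] at hu hv
  exact hI.out hu.2 hv.2 ⟨hp u hu.1 i hi (by omega), hp i hi v hv.1 (by omega)⟩

/-- If the peaks are ordered by classes, then all but two of the classes which meet an interval are
contained in it; weighted lower bound for the number of contained classes. -/
theorem class_inner {ι : Type} [DecidableEq ι] (S : Finset ι) (k : ι → ℕ) (p w : ι → ℝ)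
    (I : Set ℝ) [DecidablePred (· ∈ I)] (hI : I.OrdConnected)
    (hp : ∀ i ∈ S, ∀ j ∈ S, k i < k j → p i ≤ p j) {X m : ℝ} (hX0 : 0 ≤ X)
    (hX : ∀ κ, ∑ i ∈ S.filter (fun i => k i = κ), w i ≤ X)
    (hm : m ≤ ∑ i ∈ S.filter (fun i => p i ∈ I), w i) (hw : ∀ i ∈ S, 0 ≤ w i) :
    ∃ F : Finset ℕ, (∀ κ ∈ F, ∀ i ∈ S, k i = κ → p i ∈ I) ∧ (∀ κ ∈ F, ∃ i ∈ S, k i = κ) ∧
      m ≤ (F.card + 2) * X := by
  classical
  refine ⟨((S.filter (fun i => p i ∈ I)).image k).filter
      (fun κ => (∃ a ∈ (S.filter (fun i => p i ∈ I)).image k, a < κ) ∧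
        (∃ b ∈ (S.filter (fun i => p i ∈ I)).image k, κ < b)),
    fun κ hκ i hi hk => c2b_mem S k p I hI hp κ hκ i hi hk, ?_, ?_⟩
  · intro κ hκ
    rw [Finset.mem_filter] at hκ
    obtain ⟨i, hi, rfl⟩ := Finset.mem_image.1 hκ.1
    exact ⟨i, (Finset.mem_filter.1 hi).1, rfl⟩
  · have h1 : ∑ i ∈ S.filter (fun i => p i ∈ I), w i ≤
        (((S.filter (fun i => p i ∈ I)).image k).card : ℝ) * X := by
      rw [← Finset.sum_fiberwise_of_maps_to
        (fun i hi => Finset.mem_image_of_mem k hi : ∀ i ∈ S.filter (fun i => p i ∈ I),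
          k i ∈ (S.filter (fun i => p i ∈ I)).image k)]
      calc _ ≤ ∑ _κ ∈ (S.filter (fun i => p i ∈ I)).image k, X := by
            refine Finset.sum_le_sum fun κ _ => le_trans ?_ (hX κ)
            refine Finset.sum_le_sum_of_subset_of_nonneg ?_ ?_
            · intro i hi
              rw [Finset.mem_filter, Finset.mem_filter] at hi
              exact Finset.mem_filter.2 ⟨hi.1.1, hi.2⟩
            · intro i hi _
              exact hw i (Finset.mem_filter.1 hi).1
        _ = _ := by rw [Finset.sum_const, nsmul_eq_mul]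
    have h2 : (((S.filter (fun i => p i ∈ I)).image k).card : ℝ) ≤
        ((((S.filter (fun i => p i ∈ I)).image k).filter
      (fun κ => (∃ a ∈ (S.filter (fun i => p i ∈ I)).image k, a < κ) ∧
        (∃ b ∈ (S.filter (fun i => p i ∈ I)).image k, κ < b))).card : ℝ) + 2 := by
      exact_mod_cast c2b_card ((S.filter (fun i => p i ∈ I)).image k)
    exact hm.trans (h1.trans (mul_le_mul_of_nonneg_right h2 hX0))

/-- Upper bound for the number of classes which meet an interval. -/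
theorem class_near {ι : Type} [DecidableEq ι] (S : Finset ι) (k : ι → ℕ) (p w : ι → ℝ)
    (I : Set ℝ) [DecidablePred (· ∈ I)] (hI : I.OrdConnected)
    (hp : ∀ i ∈ S, ∀ j ∈ S, k i < k j → p i ≤ p j) {X m : ℝ} (hX0 : 0 ≤ X)
    (hX : ∀ κ, (∃ i ∈ S, k i = κ) → X ≤ ∑ i ∈ S.filter (fun i => k i = κ), w i)
    (hm : ∑ i ∈ S.filter (fun i => p i ∈ I), w i ≤ m) (hw : ∀ i ∈ S, 0 ≤ w i) :
    (((S.filter (fun i => p i ∈ I)).image k).card : ℝ) * X ≤ m + 2 * X := by
  classical
  set T := (S.filter (fun i => p i ∈ I)).image k with hT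
  set F := T.filter (fun κ => (∃ a ∈ T, a < κ) ∧ (∃ b ∈ T, κ < b)) with hF
  have h2 : (T.card : ℝ) ≤ (F.card : ℝ) + 2 := by
    exact_mod_cast c2b_card T
  have h1 : (F.card : ℝ) * X ≤ ∑ i ∈ S.filter (fun i => p i ∈ I), w i := by
    calc (F.card : ℝ) * X = ∑ _κ ∈ F, X := by rw [Finset.sum_const, nsmul_eq_mul]
      _ ≤ ∑ κ ∈ F, ∑ i ∈ S.filter (fun i => k i = κ), w i := by
          refine Finset.sum_le_sum fun κ hκ => hX κ ?_
          obtain ⟨i, hi, h⟩ := Finset.mem_image.1 (Finset.mem_filter.1 hκ).1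
          exact ⟨i, (Finset.mem_filter.1 hi).1, h⟩
      _ = ∑ κ ∈ F, ∑ i ∈ (S.filter (fun i => p i ∈ I)).filter (fun i => k i = κ), w i := by
          refine Finset.sum_congr rfl fun κ hκ => Finset.sum_congr ?_ fun _ _ => rfl
          ext i
          rw [Finset.mem_filter, Finset.mem_filter, Finset.mem_filter]
          constructor
          · rintro ⟨hi, hk⟩
            exact ⟨⟨hi, c2b_mem S k p I hI hp κ hκ i hi hk⟩, hk⟩
          · rintro ⟨⟨hi, -⟩, hk⟩
            exact ⟨hi, hk⟩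
      _ ≤ ∑ κ ∈ T, ∑ i ∈ (S.filter (fun i => p i ∈ I)).filter (fun i => k i = κ), w i := by
          refine Finset.sum_le_sum_of_subset_of_nonneg (Finset.filter_subset _ _) ?_
          intro κ _ _
          refine Finset.sum_nonneg fun i hi => hw i ?_
          exact (Finset.mem_filter.1 (Finset.mem_filter.1 hi).1).1
      _ = _ := Finset.sum_fiberwise_of_maps_to (fun i hi => Finset.mem_image_of_mem k hi) _
  calc (T.card : ℝ) * X ≤ ((F.card : ℝ) + 2) * X := mul_le_mul_of_nonneg_right h2 hX0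
    _ = (F.card : ℝ) * X + 2 * X := by ring
    _ ≤ m + 2 * X := by linarith

end Vale.Agent.P209.Strong
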