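import Mathlib

namespace Vale.Agent.P209.Strong

/-! C2. Combinatorial lemmas on classes, and sorted enumerations. -/

/-- sorted enumeration of a finset -/
theorem exists_enum {ι : Type} (S : Finset ι) (key : ι → ℤ) :
    ∃ e : Fin S.card ≃ S, ∀ i j, i ≤ j → key (e i) ≤ key (e j) := by
  refine ⟨(Tuple.sort fun i => key (S.equivFin.symm i)).trans S.equivFin.symm, ?_⟩
  intro i j hij
  exact Tuple.monotone_sort (fun i => key (S.equivFin.symm i)) hij

/-- Suffix counting: `e` enumerates the balls so that classes are monotone; in each class the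
number of active balls is at most `ρ` times the number of big balls, and at most `X`. -/
theorem class_suffix {N NJ : ℕ} (cls : ℕ → ℤ) (hcls : ∀ i j, i ≤ j → j < N → cls i ≤ cls j)
    (a b : ℕ → Prop) [DecidablePred a] [DecidablePred b] {ρ X : ℝ} (hρ : 0 ≤ ρ) (hX : 0 ≤ X)
    (h1 : ∀ κ : ℤ, (∃ i, NJ ≤ i ∧ i < N ∧ cls i = κ) →
      (((Finset.range N).filter (fun i => cls i = κ ∧ a i)).card : ℝ) ≤
        ρ * (((Finset.range N).filter (fun i => cls i = κ ∧ b i)).card : ℝ))
    (h2 : ∀ κ : ℤ, (∃ i, NJ ≤ i ∧ i < N ∧ cls i = κ) →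
      (((Finset.range N).filter (fun i => cls i = κ ∧ a i)).card : ℝ) ≤ X)
    (h3 : ∀ i, i < NJ → ∀ j, NJ ≤ j → j < N → cls i < cls j) (s : ℕ) (hs : NJ ≤ s) :
    (((Finset.range N).filter (fun i => s ≤ i ∧ a i)).card : ℝ) ≤
      ρ * (((Finset.range N).filter (fun i => s ≤ i ∧ b i)).card : ℝ) + X := by
  classical
  by_cases hsN : s < N
  · set K : Finset ℤ := ((Finset.range N).filter (fun i => s ≤ i)).image cls with hK
    have hmem : ∀ κ ∈ K, ∃ i, s ≤ i ∧ i < N ∧ cls i = κ := by
      intro κ hκ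
      obtain ⟨i, hi, rfl⟩ := Finset.mem_image.1 hκ
      rw [Finset.mem_filter, Finset.mem_range] at hi
      exact ⟨i, hi.2, hi.1, rfl⟩
    have h0K : cls s ∈ K := Finset.mem_image.2
      ⟨s, Finset.mem_filter.2 ⟨Finset.mem_range.2 hsN, le_rfl⟩, rfl⟩
    have decomp : ∀ (p : ℕ → Prop) [DecidablePred p],
        ((Finset.range N).filter (fun i => s ≤ i ∧ p i)).card =
        ∑ κ ∈ K, ((Finset.range N).filter (fun i => (s ≤ i ∧ p i) ∧ cls i = κ)).card := by
      intro p _
      rw [Finset.card_eq_sum_card_fiberwise (f := cls) (t := K)]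
      · refine Finset.sum_congr rfl fun κ _ => ?_
        rw [Finset.filter_filter]
      · intro i hi
        have hi' := Finset.mem_filter.1 hi
        exact Finset.mem_image.2 ⟨i, Finset.mem_filter.2 ⟨hi'.1, hi'.2.1⟩, rfl⟩
    rw [decomp a, decomp b, ← Finset.sum_erase_add _ _ h0K, ← Finset.sum_erase_add _ _ h0K]
    push_cast
    have e0 : (((Finset.range N).filter (fun i => (s ≤ i ∧ a i) ∧ cls i = cls s)).card : ℝ) ≤ X := by
      refine le_trans ?_ (h2 (cls s) ⟨s, hs, hsN, rfl⟩)
      refine Nat.cast_le.2 (Finset.card_le_card ?_)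
      intro i hi
      rw [Finset.mem_filter] at hi ⊢
      exact ⟨hi.1, hi.2.2, hi.2.1.2⟩
    have e1 : ∀ κ ∈ K.erase (cls s),
        (((Finset.range N).filter (fun i => (s ≤ i ∧ a i) ∧ cls i = κ)).card : ℝ) ≤
        ρ * (((Finset.range N).filter (fun i => (s ≤ i ∧ b i) ∧ cls i = κ)).card : ℝ) := by
      intro κ hκ
      obtain ⟨hne, hκK⟩ := Finset.mem_erase.1 hκ
      obtain ⟨j, hsj, hjN, hj⟩ := hmem κ hκK
      have hlt : cls s < κ := lt_of_le_of_ne (hj ▸ hcls s j hsj hjN) (Ne.symm hne)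
      have hge : ∀ i, i < N → cls i = κ → s ≤ i := by
        intro i _ hi
        by_contra hcon
        push Not at hcon
        have := hcls i s hcon.le hsN
        omega
      refine le_trans ?_ ((h1 κ ⟨j, hs.trans hsj, hjN, hj⟩).trans
        (mul_le_mul_of_nonneg_left ?_ hρ))
      · refine Nat.cast_le.2 (Finset.card_le_card ?_)
        intro i hi
        rw [Finset.mem_filter] at hi ⊢
        exact ⟨hi.1, hi.2.2, hi.2.1.2⟩
      · refine Nat.cast_le.2 (Finset.card_le_card ?_)
        intro i hi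
        rw [Finset.mem_filter] at hi ⊢
        exact ⟨hi.1, ⟨hge i (Finset.mem_range.1 hi.1) hi.2.1, hi.2.2⟩, hi.2.1⟩
    have e2 := Finset.sum_le_sum e1
    rw [← Finset.mul_sum] at e2
    have e3 : 0 ≤ ρ * (((Finset.range N).filter
      (fun i => (s ≤ i ∧ b i) ∧ cls i = cls s)).card : ℝ) := mul_nonneg hρ (Nat.cast_nonneg _)
    rw [mul_add]
    linarith
  · have : (Finset.range N).filter (fun i => s ≤ i ∧ a i) = ∅ := by
      rw [Finset.filter_eq_empty_iff]
      intro i hi
      rw [Finset.mem_range] at hi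
      omega
    rw [this, Finset.card_empty, Nat.cast_zero]
    positivity

end Vale.Agent.P209.Strong
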