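import Vale.Agent.P209.Strong.C3a

set_option linter.all false

namespace Vale.Agent.P209.Strong

theorem c3b_tail {D : ℕ} {Θ : Type}
    {l u : Fin (D + 1 + 1) → Θ → (Fin (D + 1 + 1) → ℝ) → ℝ} {ι : Type}
    {r : ι → Θ → ℝ} {W v : ι → Θ → ℝ → ℝ}
    (sec : ∀ i θ x t, 0 ≤ x → x ≤ r i θ → W i θ x ≤ t → t ≤ W i θ x + (r i θ - x) →
      0 ≤ t ∧ t ≤ u 0 θ 0 - l 0 θ 0 ∧ x ≤ v i θ t)
    {cl : Θ × ℝ → Θ × ℝ} (hcl : ∀ θ t, cl (θ, t) = (θ, max (l 0 θ 0) (min (u 0 θ 0) t)))
    {W' : ι → Fin (D + 1) → Θ × ℝ → (Fin (D + 1) → ℝ) → ℝ → ℝ} (i : ι) (θ : Θ)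
    (a : Fin (D + 1 + 1) → ℝ)
    (ha : a ∈ KK (fun j y x => Fin.cases (motive := fun _ => ℝ) (l 0 θ 0 + W i θ x)
        (fun j' => W' i j' (θ, y 0) (Fin.tail y) x) j) (r i θ)) :
    cl (θ, a 0) = (θ, a 0) ∧ l 0 θ 0 ≤ a 0 ∧ a 0 ≤ u 0 θ 0 ∧
      Fin.tail a ∈ KK (fun j => W' i j (θ, a 0)) (v i θ ((cl (θ, a 0)).2 - l 0 θ 0)) := by
  obtain ⟨x, hx0, hx, hxn, hj⟩ := ha
  have h0 := hj 0
  simp only [Fin.cases_zero, Fin.val_zero, zero_add] at h0
  obtain ⟨h1, h2⟩ := h0
  have hx1 : x 1 ≤ r i θ := by linarith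
  obtain ⟨s1, s2, s3⟩ := sec i θ (x 1) (a 0 - l 0 θ 0) (hx 1) hx1 (by linarith) (by linarith)
  have hc : cl (θ, a 0) = (θ, a 0) := by
    rw [hcl, min_eq_right (by linarith), max_eq_right (by linarith)]
  refine ⟨hc, by linarith, by linarith, ?_⟩
  rw [hc]
  refine ⟨fun k => x (k + 1), s3, fun k => hx _, hxn, fun j => ?_⟩
  have h3 := hj j.succ
  simp only [Fin.cases_succ, Fin.val_succ] at h3
  exact h3

/-- C3b. Formal assembly: from the output of the chain lemma (direction 0) and of the next stage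
(over `Θ × ℝ`, with the slices clamped to the time interval) to the output of the stage. -/
theorem stage_assemble {D : ℕ} {Θ : Type} [TopologicalSpace Θ] {c L R : ℝ}
    {l u : Fin (D + 1 + 1) → Θ → (Fin (D + 1 + 1) → ℝ) → ℝ} (hbox : IsBox c L R l u) {ι : Type}
    {r : ι → Θ → ℝ} {W v : ι → Θ → ℝ → ℝ}
    (cW : ∀ i, Continuous fun z : Θ × ℝ => W i z.1 z.2)
    (sec : ∀ i θ x t, 0 ≤ x → x ≤ r i θ → W i θ x ≤ t → t ≤ W i θ x + (r i θ - x) →
      0 ≤ t ∧ t ≤ u 0 θ 0 - l 0 θ 0 ∧ x ≤ v i θ t)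
    {cl : Θ × ℝ → Θ × ℝ} (hcl : ∀ θ t, cl (θ, t) = (θ, max (l 0 θ 0) (min (u 0 θ 0) t)))
    {W' : ι → Fin (D + 1) → Θ × ℝ → (Fin (D + 1) → ℝ) → ℝ → ℝ}
    (hout : StageOut D (fun j z => sl l j (cl z)) (fun j z => sl u j (cl z))
      (fun i z => v i z.1 ((cl z).2 - l 0 z.1 0)) W') :
    StageOut (D + 1) l u r (fun i j θ y x =>
      Fin.cases (motive := fun _ => ℝ) (l 0 θ 0 + W i θ x)
        (fun j' => W' i j' (θ, y 0) (Fin.tail y) x) j) := by
  constructor
  · -- continuity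
    intro i j
    refine Fin.cases ?_ (fun j' => ?_) j
    · simp only [Fin.cases_zero]
      refine Continuous.add ?_ ?_
      · exact (hbox.cont_l 0).comp ((continuous_fst.comp continuous_fst).prodMk continuous_const)
      · exact (cW i).comp ((continuous_fst.comp continuous_fst).prodMk continuous_snd)
    · simp only [Fin.cases_succ]
      have hc := hout.cont i j'
      refine hc.comp (Continuous.prodMk (Continuous.prodMk (Continuous.prodMk ?_ ?_) ?_) ?_)
      · exact continuous_fst.comp continuous_fst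
      · exact (continuous_apply 0).comp (continuous_snd.comp continuous_fst)
      · refine continuous_pi fun k => ?_
        exact (continuous_apply k.succ).comp (continuous_snd.comp continuous_fst)
      · exact continuous_snd
  · -- dependence
    intro i θ j
    refine Fin.cases ?_ (fun j' => ?_) j
    · intro y y' _
      funext x
      simp only [Fin.cases_zero]
    · intro y y' h
      have h0 : y 0 = y' 0 := h 0 (Fin.succ_pos j')
      have h1 := hout.dep i (θ, y 0) j' (Fin.tail y) (Fin.tail y') fun k hk =>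
        h k.succ (Fin.succ_lt_succ_iff.2 hk)
      funext x
      simp only [Fin.cases_succ]
      rw [← h0]
      exact congrFun h1 x
  · -- inclusion
    intro i θ a ha
    obtain ⟨hc, h1, h2, h3⟩ := c3b_tail sec hcl i θ a ha
    have h4 := hout.sub i (θ, a 0) h3
    intro j
    refine Fin.cases ?_ (fun j' => ?_) j
    · have e1 : l 0 θ a = l 0 θ 0 :=
        hbox.dep_l θ 0 a 0 fun k hk => absurd hk (Fin.not_lt_zero k)
      have e2 : u 0 θ a = u 0 θ 0 :=
        hbox.dep_u θ 0 a 0 fun k hk => absurd hk (Fin.not_lt_zero k)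
      show l 0 θ a ≤ a 0 ∧ a 0 ≤ u 0 θ a
      rw [e1, e2]
      exact ⟨h1, h2⟩
    · have h5 := h4 j'
      simp only [hc, sl, Fin.cons_self_tail] at h5
      exact h5
  · -- disjointness
    intro i i' θ hii
    rw [Set.disjoint_left]
    intro a ha ha'
    obtain ⟨hc, h1, h2, h3⟩ := c3b_tail sec hcl i θ a ha
    obtain ⟨hc', h1', h2', h3'⟩ := c3b_tail sec hcl i' θ a ha'
    exact Set.disjoint_left.1 (hout.disj i i' (θ, a 0) hii) h3 h3'

end Vale.Agent.P209.Strong
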