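import Vale.Agent.P209.Strong.C3a

namespace Vale.Agent.P209.Strong

/-- C3c. The target of the chain lemma. -/
theorem stage_target {D : ℕ} (c L : ℝ) (hc : 0 < c) (hL : 0 ≤ L) : ∃ R0 : ℝ, 0 < R0 ∧
    ∀ (R : ℝ), R0 ≤ R → ∀ (Θ : Type) [TopologicalSpace Θ]
      (l u : Fin (D + 1 + 1) → Θ → (Fin (D + 1 + 1) → ℝ) → ℝ) (V : Θ → ℝ) (A : Θ → ℝ → ℝ),
      IsBox c L R l u → Continuous V →
      (∀ θ, 1 / 2 * ((D + 1 + 1).factorial * vol (D + 1 + 1) l u θ) ≤ V θ ∧
        V θ ≤ (D + 1 + 1).factorial * vol (D + 1 + 1) l u θ) →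
      (∀ θ t, A θ t = V θ / ((D + 1 + 1).factorial * vol (D + 1 + 1) l u θ) *
        ((D + 1).factorial * vol (D + 1) (sl l) (sl u) (θ, l 0 θ 0 + t))) →
      (Continuous fun z : Θ × ℝ => A z.1 z.2) ∧
      (∀ θ t, 1 / 2 * ((D + 1).factorial * (c * R) ^ (D + 1)) ≤ A θ t ∧
        A θ t ≤ 2 / c ^ (D + 1) * (1 / 2 * ((D + 1).factorial * (c * R) ^ (D + 1)))) ∧
      (∀ θ t t', |A θ t - A θ t'| ≤
        1 / 2 * ((D + 1).factorial * (c * R) ^ (D + 1)) / 256 * |t - t'|) ∧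
      (∀ θ, ∫ t in (0 : ℝ)..(u 0 θ 0 - l 0 θ 0), A θ t = V θ / (D + 1 + 1)) := by
  obtain ⟨D', hD', hlip⟩ := vol_lip (D + 1) L hL
  have hcp : 0 < c ^ (D + 1) := pow_pos hc _
  refine ⟨512 * D' / c ^ (D + 1) + 1, by positivity, ?_⟩
  intro R hR Θ _ l u V A hbox hV hVb hA
  have hR0 : 0 < R := lt_of_lt_of_le (by positivity) hR
  have hcR : 0 < c * R := mul_pos hc hR0
  have hDR : 512 * D' ≤ c ^ (D + 1) * R := by
    have h1 : 512 * D' / c ^ (D + 1) ≤ R := by linarith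
    rw [div_le_iff₀ hcp] at h1
    linarith
  -- bounds for the volume of the box
  have hW : ∀ θ, 0 < vol (D + 1 + 1) l u θ := fun θ =>
    lt_of_lt_of_le (pow_pos hcR _) (vol_bounds hc hR0 hbox θ).1
  have hf2 : (0 : ℝ) < ((D + 1 + 1).factorial : ℝ) := by exact_mod_cast Nat.factorial_pos _
  have hf1 : (0 : ℝ) < ((D + 1).factorial : ℝ) := by exact_mod_cast Nat.factorial_pos _
  have hden : ∀ θ, 0 < ((D + 1 + 1).factorial : ℝ) * vol (D + 1 + 1) l u θ := fun θ =>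
    mul_pos hf2 (hW θ)
  have hρ1 : ∀ θ, 1 / 2 ≤ V θ / (((D + 1 + 1).factorial : ℝ) * vol (D + 1 + 1) l u θ) := fun θ => by
    rw [le_div_iff₀ (hden θ)]
    exact (hVb θ).1
  have hρ2 : ∀ θ, V θ / (((D + 1 + 1).factorial : ℝ) * vol (D + 1 + 1) l u θ) ≤ 1 := fun θ => by
    rw [div_le_one (hden θ)]
    exact (hVb θ).2
  have hS : ∀ p : Θ × ℝ, (c * R) ^ (D + 1) ≤ vol (D + 1) (sl l) (sl u) p ∧
      vol (D + 1) (sl l) (sl u) p ≤ R ^ (D + 1) := fun p => vol_bounds hc hR0 hbox.slice p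
  have hSp : 0 < (c * R) ^ (D + 1) := pow_pos hcR _
  refine ⟨?_, ?_, ?_, ?_⟩
  · have h1 : Continuous fun z : Θ × ℝ => l 0 z.1 0 :=
      (hbox.cont_l 0).comp (continuous_fst.prodMk continuous_const)
    have h2 : Continuous (vol (D + 1) (sl l) (sl u)) := vol_continuous hbox.slice
    have h3 : Continuous fun z : Θ × ℝ => vol (D + 1) (sl l) (sl u) (z.1, l 0 z.1 0 + z.2) :=
      h2.comp (continuous_fst.prodMk (h1.add continuous_snd))
    have h4 : Continuous fun z : Θ × ℝ => vol (D + 1 + 1) l u z.1 :=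
      (vol_continuous hbox).comp continuous_fst
    simp only [hA]
    exact ((hV.comp continuous_fst).div (continuous_const.mul h4) fun z => (hden z.1).ne').mul
      (continuous_const.mul h3)
  · intro θ t
    rw [hA]
    obtain ⟨hs1, hs2⟩ := hS (θ, l 0 θ 0 + t)
    constructor
    · have h1 : ((D + 1).factorial : ℝ) * (c * R) ^ (D + 1) ≤
          (D + 1).factorial * vol (D + 1) (sl l) (sl u) (θ, l 0 θ 0 + t) :=
        mul_le_mul_of_nonneg_left hs1 hf1.le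
      exact mul_le_mul (hρ1 θ) h1 (by positivity) (le_trans (by norm_num) (hρ1 θ))
    · have h1 : ((D + 1).factorial : ℝ) * vol (D + 1) (sl l) (sl u) (θ, l 0 θ 0 + t) ≤
          (D + 1).factorial * R ^ (D + 1) :=
        mul_le_mul_of_nonneg_left hs2 hf1.le
      have h0 : (0 : ℝ) ≤ ((D + 1).factorial : ℝ) * vol (D + 1) (sl l) (sl u) (θ, l 0 θ 0 + t) :=
        mul_nonneg hf1.le (hSp.le.trans hs1)
      calc V θ / (((D + 1 + 1).factorial : ℝ) * vol (D + 1 + 1) l u θ) *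
            (((D + 1).factorial : ℝ) * vol (D + 1) (sl l) (sl u) (θ, l 0 θ 0 + t))
          ≤ 1 * (((D + 1).factorial : ℝ) * R ^ (D + 1)) :=
            mul_le_mul (hρ2 θ) h1 h0 zero_le_one
        _ = 2 / c ^ (D + 1) * (1 / 2 * ((D + 1).factorial * (c * R) ^ (D + 1))) := by
            rw [mul_pow]
            field_simp
  · intro θ t t'
    rw [hA, hA]
    have h1 := hlip Θ c R l u hc hR0 hbox θ (l 0 θ 0 + t) (l 0 θ 0 + t')
    have h2 : |l 0 θ 0 + t - (l 0 θ 0 + t')| = |t - t'| := by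
      congr 1
      ring
    rw [h2] at h1
    have h3 : D + 1 - 1 = D := by omega
    rw [h3] at h1
    set S1 := vol (D + 1) (sl l) (sl u) (θ, l 0 θ 0 + t) with hS1
    set S2 := vol (D + 1) (sl l) (sl u) (θ, l 0 θ 0 + t') with hS2
    set ρ := V θ / (((D + 1 + 1).factorial : ℝ) * vol (D + 1 + 1) l u θ) with hρ
    have hρ0 : 0 ≤ ρ := le_trans (by norm_num) (hρ1 θ)
    have h4 : ρ * (((D + 1).factorial : ℝ) * S1) - ρ * (((D + 1).factorial : ℝ) * S2) =
        ρ * (((D + 1).factorial : ℝ) * (S1 - S2)) := by ring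
    rw [h4, abs_mul, abs_mul, abs_of_nonneg hρ0, abs_of_pos hf1]
    have h5 : ρ * (((D + 1).factorial : ℝ) * |S1 - S2|) ≤ 1 * (((D + 1).factorial : ℝ) * |S1 - S2|) :=
      mul_le_mul_of_nonneg_right (hρ2 θ) (by positivity)
    have h6 : D' * R ^ D ≤ (c * R) ^ (D + 1) / 512 := by
      have : 512 * D' * R ^ D ≤ c ^ (D + 1) * R * R ^ D :=
        mul_le_mul_of_nonneg_right hDR (by positivity)
      rw [mul_pow, pow_succ R D]
      linarith
    have h7 : |S1 - S2| ≤ (c * R) ^ (D + 1) / 512 * |t - t'| :=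
      h1.trans (mul_le_mul_of_nonneg_right h6 (abs_nonneg _))
    have h8 : ((D + 1).factorial : ℝ) * |S1 - S2| ≤
        (D + 1).factorial * ((c * R) ^ (D + 1) / 512 * |t - t'|) :=
      mul_le_mul_of_nonneg_left h7 hf1.le
    calc ρ * (((D + 1).factorial : ℝ) * |S1 - S2|)
        ≤ (D + 1).factorial * ((c * R) ^ (D + 1) / 512 * |t - t'|) := by linarith
      _ = 1 / 2 * ((D + 1).factorial * (c * R) ^ (D + 1)) / 256 * |t - t'| := by ring
  · intro θ
    have h1 : ∀ t, A θ t = V θ / ((D + 1 + 1).factorial * vol (D + 1 + 1) l u θ) *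
        ((D + 1).factorial * vol (D + 1) (sl l) (sl u) (θ, l 0 θ 0 + t)) := hA θ
    simp only [h1]
    rw [intervalIntegral.integral_const_mul, intervalIntegral.integral_const_mul,
      intervalIntegral.integral_comp_add_left (fun t => vol (D + 1) (sl l) (sl u) (θ, t))]
    have h2 : (∫ x in (l 0 θ 0 + 0)..(l 0 θ 0 + (u 0 θ 0 - l 0 θ 0)),
        vol (D + 1) (sl l) (sl u) (θ, x)) = vol (D + 1 + 1) l u θ := by
      rw [add_zero, add_sub_cancel]
      rfl
    rw [h2]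
    have hW0 := (hW θ).ne'
    have h3 : ((D + 1 + 1).factorial : ℝ) = ((D : ℝ) + 1 + 1) * ((D + 1).factorial : ℝ) := by
      rw [Nat.factorial_succ (D + 1)]
      push_cast
      ring
    rw [h3]
    have h4 : ((D : ℝ) + 1 + 1) ≠ 0 := by positivity
    field_simp

end Vale.Agent.P209.Strong
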