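import Vale.Agent.P209.Strong.C4a

namespace Vale.Agent.P209.Strong

/-- C4c. Upper bound for the number of active balls of the next stage. `X` is a lower bound for the
number of big balls of a class, `B` an upper bound for the number of active balls of a cell. -/
theorem next_act {Θ : Type} [TopologicalSpace Θ] {q D : ℕ} {δ ε C : ℝ} (hδ : 0 < δ) {ι : Type}
    [Fintype ι] [DecidableEq ι] {J : Finset ι} {dig : ι → Fin (D + 1) → ℕ} {K : ℕ} {r : ι → Θ → ℝ}
    {T : Θ → ℝ} {A : Θ → ℝ → ℝ} {A0 : ℝ} {W v : ι → Θ → ℝ → ℝ} {p : ι → Θ → ℝ} (hq : 1 ≤ q)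
    (hr : ∀ i θ, 0 ≤ r i θ ∧ r i θ ≤ 1) (hC : 1 ≤ C) (hA0 : 0 < A0)
    (h : ClsOut q δ ε J (fun i => dig i 0) K r T A A0 W v p) (hlt : ∀ i k, dig i k < 2 * K)
    (hε : ε ≤ A0 / 8) (hcA : ∀ θ, Continuous (A θ)) (hA : ∀ θ t, A θ t ≤ C * A0)
    (hcv : ∀ i θ, Continuous (v i θ))
    {X B : ℝ} (hX : 0 < X) (hXA : X ≤ A0) (hB : 0 ≤ B) {θ : Θ} {t : ℝ} (ht : 0 ≤ t) (htT : t ≤ T θ)
    (hbig : ∀ k, k < 2 * K →
      X ≤ ((Finset.univ.filter (fun i => i ∉ J ∧ dig i 0 = k ∧ δ ≤ r i θ)).card : ℝ))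
    (hact : ∀ κ : Fin (D + 1) → ℕ, (∀ k, κ k < 2 * K) →
      ((Finset.univ.filter (fun i => i ∉ J ∧ dig i = κ ∧ 0 < r i θ)).card : ℝ) ≤ B)
    (hδ1 : δ ≤ 1) (κ' : Fin D → ℕ) (hκ : ∀ k, κ' k < 2 * K) :
    ((Finset.univ.filter (fun i => i ∉ J ∧ Fin.tail (dig i) = κ' ∧ 0 < v i θ t)).card : ℝ) ≤
      B * (14 * C * (q + 1) * A0 / (δ ^ (q + 1) * X)) := by
  classical
  set I : Set ℝ := Set.Icc (t - 1) (t + 1) with hI
  set w : ι → ℝ := fun i => r i θ ^ (q + 1) / (q + 1) with hw
  have hw0 : ∀ i, 0 ≤ w i := by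
    intro i
    have := (hr i θ).1
    simp only [hw]
    positivity
  set X' : ℝ := X * (δ ^ (q + 1) / (q + 1)) with hX'
  have hX'0 : 0 < X' := by positivity
  set M : ℝ := C * A0 + A0 / 8 with hM
  have hM0 : 0 < M := by positivity
  have hvA : ∀ s, 0 ≤ s → s ≤ T θ → ∑ i, v i θ s ^ q ≤ M := by
    intro s h0 h1
    have h2 := (abs_le.1 (h.sum θ s h0 h1)).2
    have h3 := hA θ s
    linarith
  -- mass near `t`
  have hmass : ∀ S : Finset ι, ∑ i ∈ S.filter (fun i => p i θ ∈ I), w i ≤ 4 * M := by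
    intro S
    have e1 : ∑ i ∈ S.filter (fun i => p i θ ∈ I), w i =
        ∫ s in (0 : ℝ)..T θ, ∑ i ∈ S.filter (fun i => p i θ ∈ I), v i θ s ^ q := by
      rw [intervalIntegral.integral_finsetSum]
      · exact Finset.sum_congr rfl fun i _ => (h.int i θ).symm
      · intro i _
        exact ((hcv i θ).pow q).intervalIntegrable _ _
    have hc : Continuous fun s => ∑ i ∈ S.filter (fun i => p i θ ∈ I), v i θ s ^ q :=
      continuous_finsetSum _ fun i _ => (hcv i θ).pow q
    rw [e1, intervalIntegral.integral_of_le (ht.trans htT)]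
    calc ∫ s in Set.Ioc 0 (T θ), ∑ i ∈ S.filter (fun i => p i θ ∈ I), v i θ s ^ q
        ≤ ∫ s in Set.Ioc 0 (T θ), (Set.Icc (t - 2) (t + 2)).indicator (fun _ => M) s := by
          refine MeasureTheory.setIntegral_mono_on ?_ ?_ measurableSet_Ioc ?_
          · exact (hc.integrableOn_Icc (a := 0) (b := T θ)).mono_set Set.Ioc_subset_Icc_self
          · refine MeasureTheory.IntegrableOn.indicator ?_ measurableSet_Icc
            exact MeasureTheory.integrableOn_const (by simp)
          · intro s hs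
            by_cases hs2 : s ∈ Set.Icc (t - 2) (t + 2)
            · rw [Set.indicator_of_mem hs2]
              refine le_trans ?_ (hvA s hs.1.le hs.2)
              exact Finset.sum_le_sum_of_subset_of_nonneg (Finset.subset_univ _)
                fun i _ _ => pow_nonneg (h.v_nn i θ s) q
            · rw [Set.indicator_of_notMem hs2]
              refine le_of_eq (Finset.sum_eq_zero fun i hi => ?_)
              have hi2 : p i θ ∈ I := (Finset.mem_filter.1 hi).2
              have hv0 : v i θ s = 0 := by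
                by_contra hne
                have hpos : 0 < v i θ s := lt_of_le_of_ne (h.v_nn i θ s) (Ne.symm hne)
                have h1 := abs_le.1 (h.supp i θ s hs.1.le hs.2 hpos)
                apply hs2
                rw [hI, Set.mem_Icc] at hi2
                constructor <;> linarith [h1.1, h1.2, hi2.1, hi2.2]
              rw [hv0, zero_pow (by omega)]
      _ ≤ 4 * M := by
          rw [MeasureTheory.setIntegral_indicator measurableSet_Icc,
            MeasureTheory.setIntegral_const, smul_eq_mul]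
          refine mul_le_mul_of_nonneg_right ?_ hM0.le
          have h2 : MeasureTheory.volume.real (Set.Ioc 0 (T θ) ∩ Set.Icc (t - 2) (t + 2)) ≤
              MeasureTheory.volume.real (Set.Icc (t - 2) (t + 2)) :=
            MeasureTheory.measureReal_mono Set.inter_subset_right (by simp)
          rw [Real.volume_real_Icc_of_le (by linarith)] at h2
          linarith
  -- number of touched classes
  have hnear : ∀ S : Finset ι, (∀ i ∈ S, i ∉ J) →
      (∀ i ∈ S, ∀ j ∈ S, dig i 0 < dig j 0 → p i θ ≤ p j θ) →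
      (∀ i ∈ S, ∀ j, j ∉ J → dig j 0 = dig i 0 → j ∈ S) →
      (((S.filter (fun i => p i θ ∈ I)).image fun i => dig i 0).card : ℝ) ≤ 4 * M / X' + 2 := by
    intro S hS1 hS2 hS3
    have key := class_near S (fun i => dig i 0) (fun i => p i θ) w I Set.ordConnected_Icc hS2
      (X := X') (m := 4 * M) hX'0.le (by
        rintro κ ⟨i, hi, rfl⟩
        have h1 := hbig (dig i 0) (hlt i 0)
        have h2 : (((Finset.univ.filter
            (fun j => j ∉ J ∧ dig j 0 = dig i 0 ∧ δ ≤ r j θ)).card : ℝ)) * (δ ^ (q + 1) / (q + 1)) ≤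
            ∑ j ∈ S.filter (fun j => dig j 0 = dig i 0), w j := by
          rw [← nsmul_eq_mul, ← Finset.sum_const]
          refine le_trans (Finset.sum_le_sum (g := w) ?_)
            (Finset.sum_le_sum_of_subset_of_nonneg ?_ fun j _ _ => hw0 j)
          · intro j hj
            have h3 := (Finset.mem_filter.1 hj).2.2.2
            simp only [hw]
            gcongr
          · intro j hj
            obtain ⟨-, h3, h4, -⟩ := Finset.mem_filter.1 hj
            exact Finset.mem_filter.2 ⟨hS3 i hi j h3 h4, h4⟩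
        refine le_trans ?_ h2
        rw [hX']
        exact mul_le_mul_of_nonneg_right h1 (by positivity))
      (hmass S) (fun i _ => hw0 i)
    rw [div_add' _ _ _ hX'0.ne', le_div_iff₀ hX'0]
    exact key
  set SL : Finset ι := Finset.univ.filter (fun i => i ∉ J ∧ dig i 0 < K) with hSL
  set SR : Finset ι := Finset.univ.filter (fun i => i ∉ J ∧ K ≤ dig i 0) with hSR
  have nL := hnear SL (fun i hi => (Finset.mem_filter.1 hi).2.1)
    (fun i hi j hj hlt' => h.monoL i j θ (Finset.mem_filter.1 hi).2.1 (Finset.mem_filter.1 hj).2.1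
      hlt' (Finset.mem_filter.1 hj).2.2)
    (fun i hi j hj e => Finset.mem_filter.2 ⟨Finset.mem_univ _, hj, by
      rw [e]; exact (Finset.mem_filter.1 hi).2.2⟩)
  have nR := hnear SR (fun i hi => (Finset.mem_filter.1 hi).2.1)
    (fun i hi j hj hlt' => h.monoR i j θ (Finset.mem_filter.1 hi).2.1 (Finset.mem_filter.1 hj).2.1
      (Finset.mem_filter.1 hi).2.2 hlt')
    (fun i hi j hj e => Finset.mem_filter.2 ⟨Finset.mem_univ _, hj, by
      rw [e]; exact (Finset.mem_filter.1 hi).2.2⟩)
  set FL := (SL.filter (fun i => p i θ ∈ I)).image fun i => dig i 0 with hFL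
  set FR := (SR.filter (fun i => p i θ ∈ I)).image fun i => dig i 0 with hFR
  -- covering
  have hcov : Finset.univ.filter (fun i => i ∉ J ∧ Fin.tail (dig i) = κ' ∧ 0 < v i θ t) ⊆
      ((FL ∪ FR).filter (fun k => k < 2 * K)).biUnion fun k => Finset.univ.filter
        (fun i => i ∉ J ∧ dig i = Fin.cons k κ' ∧ 0 < r i θ) := by
    intro i hi
    obtain ⟨-, hiJ, htail, hv⟩ := Finset.mem_filter.1 hi
    have hpI : p i θ ∈ I := by
      have h1 := abs_le.1 (h.supp i θ t ht htT hv)
      rw [hI, Set.mem_Icc]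
      constructor <;> linarith [h1.1, h1.2]
    refine Finset.mem_biUnion.2 ⟨dig i 0, Finset.mem_filter.2 ⟨?_, hlt i 0⟩,
      Finset.mem_filter.2 ⟨Finset.mem_univ _, hiJ, ?_, lt_of_lt_of_le hv (h.v_le i θ t)⟩⟩
    · rw [Finset.mem_union]
      by_cases hK : dig i 0 < K
      · left
        exact Finset.mem_image.2 ⟨i, Finset.mem_filter.2
          ⟨Finset.mem_filter.2 ⟨Finset.mem_univ _, hiJ, hK⟩, hpI⟩, rfl⟩
      · right
        exact Finset.mem_image.2 ⟨i, Finset.mem_filter.2
          ⟨Finset.mem_filter.2 ⟨Finset.mem_univ _, hiJ, not_lt.1 hK⟩, hpI⟩, rfl⟩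
    · rw [← htail]
      exact (Fin.cons_self_tail (dig i)).symm
  have hcard : ((Finset.univ.filter
      (fun i => i ∉ J ∧ Fin.tail (dig i) = κ' ∧ 0 < v i θ t)).card : ℝ) ≤
      ((FL.card : ℝ) + FR.card) * B := by
    have h1 := (Finset.card_le_card hcov).trans Finset.card_biUnion_le
    have h2 : ((Finset.univ.filter
        (fun i => i ∉ J ∧ Fin.tail (dig i) = κ' ∧ 0 < v i θ t)).card : ℝ) ≤
        ∑ k ∈ (FL ∪ FR).filter (fun k => k < 2 * K), ((Finset.univ.filter
          (fun i => i ∉ J ∧ dig i = Fin.cons k κ' ∧ 0 < r i θ)).card : ℝ) := by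
      exact_mod_cast h1
    have h3 : ∑ k ∈ (FL ∪ FR).filter (fun k => k < 2 * K), ((Finset.univ.filter
          (fun i => i ∉ J ∧ dig i = Fin.cons k κ' ∧ 0 < r i θ)).card : ℝ) ≤
          ∑ k ∈ (FL ∪ FR).filter (fun k => k < 2 * K), B := by
      refine Finset.sum_le_sum fun k hk => hact _ fun l => ?_
      refine Fin.cases ?_ (fun l => ?_) l
      · exact (Finset.mem_filter.1 hk).2
      · exact hκ l
    rw [Finset.sum_const, nsmul_eq_mul] at h3
    refine h2.trans (h3.trans (mul_le_mul_of_nonneg_right ?_ hB))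
    have h4 : ((FL ∪ FR).filter (fun k => k < 2 * K)).card ≤ FL.card + FR.card :=
      (Finset.card_filter_le _ _).trans (Finset.card_union_le _ _)
    exact_mod_cast h4
  refine hcard.trans ?_
  rw [mul_comm]
  refine mul_le_mul_of_nonneg_left ?_ hB
  have e2 : 4 * M / X' = 4 * M * (q + 1) / (δ ^ (q + 1) * X) := by
    rw [hX']
    field_simp
  have hden : 0 < δ ^ (q + 1) * X := by positivity
  have h5 : (FL.card : ℝ) + FR.card ≤ (8 * M * (q + 1) + 4 * (δ ^ (q + 1) * X)) /
      (δ ^ (q + 1) * X) := by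
    rw [e2] at nL nR
    have : (8 * M * (q + 1) + 4 * (δ ^ (q + 1) * X)) / (δ ^ (q + 1) * X) =
        (4 * M * (q + 1) / (δ ^ (q + 1) * X) + 2) + (4 * M * (q + 1) / (δ ^ (q + 1) * X) + 2) := by
      field_simp
      ring
    rw [this]
    exact add_le_add nL nR
  refine h5.trans ?_
  refine div_le_div_of_nonneg_right ?_ hden.le
  have h6 : δ ^ (q + 1) * X ≤ A0 := by
    have h7 : δ ^ (q + 1) ≤ 1 := pow_le_one₀ hδ.le hδ1
    calc δ ^ (q + 1) * X ≤ 1 * X := mul_le_mul_of_nonneg_right h7 hX.le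
      _ ≤ A0 := by linarith
  have hq' : (1 : ℝ) ≤ q := by exact_mod_cast hq
  have h8 : A0 ≤ C * A0 := by nlinarith
  have h9 : M ≤ 9 / 8 * (C * A0) := by rw [hM]; linarith
  have h10 : 0 ≤ C * A0 := by positivity
  nlinarith [mul_le_mul_of_nonneg_right h9 (by positivity : (0:ℝ) ≤ q + 1)]

end Vale.Agent.P209.Strong
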