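import Vale.Agent.P209.Strong.C3z
import Vale.Agent.P209.Strong.C3b
import Vale.Agent.P209.Strong.C3c
import Vale.Agent.P209.Strong.C4

set_option linter.all false

namespace Vale.Agent.P209.Strong

/-! ### counting -/

theorem c3_card_class {ι : Type} [Fintype ι] [DecidableEq ι] {D : ℕ} (J : Finset ι)
    (dig : ι → Fin (D + 1) → ℕ) (P : ι → Prop) [DecidablePred P] {M : ℕ}
    (hlt : ∀ i k, dig i k < M) (k : ℕ) :
    (Finset.univ.filter (fun i => i ∉ J ∧ dig i 0 = k ∧ P i)).card =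
      ∑ κ ∈ Fintype.piFinset (fun _ : Fin D => Finset.range M),
        (Finset.univ.filter (fun i => i ∉ J ∧ dig i = Fin.cons k κ ∧ P i)).card := by
  rw [Finset.card_eq_sum_card_fiberwise (f := fun i => Fin.tail (dig i))
    (t := Fintype.piFinset (fun _ : Fin D => Finset.range M))]
  · refine Finset.sum_congr rfl fun κ hκ => ?_
    congr 1
    ext i
    simp only [Finset.mem_filter, Finset.mem_univ, true_and]
    constructor
    · rintro ⟨⟨h1, h2, h3⟩, h4⟩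
      refine ⟨h1, ?_, h3⟩
      rw [← Fin.cons_self_tail (dig i), h2, h4]
    · rintro ⟨h1, h2, h3⟩
      refine ⟨⟨h1, ?_, h3⟩, ?_⟩
      · rw [h2, Fin.cons_zero]
      · rw [h2, Fin.tail_cons]
  · intro i hi
    simp [Fin.tail, hlt]

theorem c3_cons_lt {D M k : ℕ} (hk : k < M) {κ : Fin D → ℕ}
    (hκ : κ ∈ Fintype.piFinset (fun _ : Fin D => Finset.range M)) :
    ∀ j, (Fin.cons k κ : Fin (D + 1) → ℕ) j < M := by
  intro j
  refine Fin.cases ?_ (fun j' => ?_) j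
  · simpa using hk
  · rw [Fintype.mem_piFinset] at hκ
    simpa using hκ j'

theorem c3_class_lower {ι : Type} [Fintype ι] [DecidableEq ι] {D : ℕ} (J : Finset ι)
    (dig : ι → Fin (D + 1) → ℕ) (P : ι → Prop) [DecidablePred P] {M : ℕ}
    (hlt : ∀ i k, dig i k < M) {b : ℝ}
    (h : ∀ κ : Fin (D + 1) → ℕ, (∀ k, κ k < M) →
      b ≤ ((Finset.univ.filter (fun i => i ∉ J ∧ dig i = κ ∧ P i)).card : ℝ)) {k : ℕ} (hk : k < M) :
    (M : ℝ) ^ D * b ≤
      ((Finset.univ.filter (fun i => i ∉ J ∧ dig i 0 = k ∧ P i)).card : ℝ) := by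
  rw [c3_card_class J dig P hlt k]
  push_cast
  have h1 := Finset.card_nsmul_le_sum (Fintype.piFinset (fun _ : Fin D => Finset.range M))
    (fun κ => ((Finset.univ.filter (fun i => i ∉ J ∧ dig i = Fin.cons k κ ∧ P i)).card : ℝ)) b
    (fun κ hκ => h _ (c3_cons_lt hk hκ))
  have h2 : (Fintype.piFinset (fun _ : Fin D => Finset.range M)).card = M ^ D := by simp
  rw [h2, nsmul_eq_mul] at h1
  push_cast at h1
  exact h1

theorem c3_class_upper {ι : Type} [Fintype ι] [DecidableEq ι] {D : ℕ} (J : Finset ι)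
    (dig : ι → Fin (D + 1) → ℕ) (P : ι → Prop) [DecidablePred P] {M : ℕ}
    (hlt : ∀ i k, dig i k < M) {B : ℝ} (hB : 0 ≤ B)
    (h : ∀ κ : Fin (D + 1) → ℕ, (∀ k, κ k < M) →
      ((Finset.univ.filter (fun i => i ∉ J ∧ dig i = κ ∧ P i)).card : ℝ) ≤ B) (k : ℕ) :
    ((Finset.univ.filter (fun i => i ∉ J ∧ dig i 0 = k ∧ P i)).card : ℝ) ≤ (M : ℝ) ^ D * B := by
  by_cases hk : k < M
  · rw [c3_card_class J dig P hlt k]
    push_cast
    have h1 := Finset.sum_le_card_nsmul (Fintype.piFinset (fun _ : Fin D => Finset.range M))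
      (fun κ => ((Finset.univ.filter (fun i => i ∉ J ∧ dig i = Fin.cons k κ ∧ P i)).card : ℝ)) B
      (fun κ hκ => h _ (c3_cons_lt hk hκ))
    have h2 : (Fintype.piFinset (fun _ : Fin D => Finset.range M)).card = M ^ D := by simp
    rw [h2, nsmul_eq_mul] at h1
    push_cast at h1
    exact h1
  · have h0 : (Finset.univ.filter (fun i => i ∉ J ∧ dig i 0 = k ∧ P i)) = ∅ := by
      ext i
      simp only [Finset.mem_filter, Finset.mem_univ, true_and, Finset.notMem_empty, iff_false]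
      rintro ⟨-, h2, -⟩
      have := hlt i 0
      omega
    rw [h0, Finset.card_empty, Nat.cast_zero]
    positivity

theorem c3_total_lower {ι : Type} [Fintype ι] [DecidableEq ι] (J : Finset ι)
    (cls : ι → ℕ) (P : ι → Prop) [DecidablePred P] (S : Finset ℕ) {X : ℝ}
    (h : ∀ k ∈ S, X ≤ ((Finset.univ.filter (fun i => i ∉ J ∧ cls i = k ∧ P i)).card : ℝ)) :
    (S.card : ℝ) * X ≤
      ((Finset.univ.filter (fun i => i ∉ J ∧ cls i ∈ S ∧ P i)).card : ℝ) := by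
  rw [Finset.card_eq_sum_card_fiberwise (f := cls) (t := S)]
  · push_cast
    have h1 := Finset.card_nsmul_le_sum S
      (fun k => (((Finset.univ.filter (fun i => i ∉ J ∧ cls i ∈ S ∧ P i)).filter
        (fun i => cls i = k)).card : ℝ)) X (fun k hk => ?_)
    · rw [nsmul_eq_mul] at h1
      exact h1
    · refine (h k hk).trans (le_of_eq ?_)
      congr 2
      ext i
      simp only [Finset.mem_filter, Finset.mem_univ, true_and]
      constructor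
      · rintro ⟨h1, h2, h3⟩
        exact ⟨⟨h1, h2 ▸ hk, h3⟩, h2⟩
      · rintro ⟨⟨h1, h2, h3⟩, h4⟩
        exact ⟨h1, h4, h3⟩
  · intro i hi
    simp only [Finset.coe_filter, Finset.mem_univ, true_and, Set.mem_setOf_eq] at hi
    exact hi.2.1

theorem c3_total_upper {ι : Type} [Fintype ι] [DecidableEq ι] (J : Finset ι)
    (cls : ι → ℕ) (P : ι → Prop) [DecidablePred P] {M : ℕ} (hM : ∀ i, cls i < M) {X : ℝ}
    (h : ∀ k, ((Finset.univ.filter (fun i => i ∉ J ∧ cls i = k ∧ P i)).card : ℝ) ≤ X) :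
    ((Finset.univ.filter (fun i => i ∉ J ∧ P i)).card : ℝ) ≤ M * X := by
  rw [Finset.card_eq_sum_card_fiberwise (f := cls) (t := Finset.range M)]
  · push_cast
    have h1 := Finset.sum_le_card_nsmul (Finset.range M)
      (fun k => (((Finset.univ.filter (fun i => i ∉ J ∧ P i)).filter
        (fun i => cls i = k)).card : ℝ)) X (fun k hk => ?_)
    · rw [nsmul_eq_mul, Finset.card_range] at h1
      exact h1
    · refine le_trans (le_of_eq ?_) (h k)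
      congr 2
      ext i
      simp only [Finset.mem_filter, Finset.mem_univ, true_and]
      constructor
      · rintro ⟨⟨h1, h3⟩, h4⟩
        exact ⟨h1, h4, h3⟩
      · rintro ⟨h1, h2, h3⟩
        exact ⟨⟨h1, h3⟩, h2⟩
  · intro i hi
    simpa using hM i

/-- sum over the big balls -/
theorem c3_sum_big {ι : Type} [Fintype ι] [DecidableEq ι] {x : ι → ℝ} {δ : ℝ} (hδ : 0 < δ)
    (hx : ∀ i, 0 ≤ x i) (n : ℕ) (Q : ι → Prop) [DecidablePred Q] {Z m : ℝ} (hm : 0 < m)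
    (h : Z ≤ ((Finset.univ.filter (fun i => Q i ∧ δ ≤ x i)).card : ℝ)) :
    Z * δ ^ n / m ≤ ∑ i ∈ Finset.univ.filter (fun i => Q i), x i ^ n / m := by
  have h1 : Z * δ ^ n / m ≤ ((Finset.univ.filter (fun i => Q i ∧ δ ≤ x i)).card : ℝ) *
      (δ ^ n / m) := by
    rw [mul_div_assoc]
    exact mul_le_mul_of_nonneg_right h (by positivity)
  refine h1.trans ?_
  have h2 : ((Finset.univ.filter (fun i => Q i ∧ δ ≤ x i)).card : ℝ) * (δ ^ n / m) ≤
      ∑ i ∈ Finset.univ.filter (fun i => Q i ∧ δ ≤ x i), x i ^ n / m := by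
    have := Finset.card_nsmul_le_sum (Finset.univ.filter (fun i => Q i ∧ δ ≤ x i))
      (fun i => x i ^ n / m) (δ ^ n / m) (fun i hi => ?_)
    · rwa [nsmul_eq_mul] at this
    · rw [Finset.mem_filter] at hi
      have := hi.2.2
      gcongr
  refine h2.trans (Finset.sum_le_sum_of_subset_of_nonneg ?_ fun i _ _ => ?_)
  · intro i hi
    rw [Finset.mem_filter] at hi ⊢
    exact ⟨hi.1, hi.2.1⟩
  · have := hx i
    positivity

/-- total volume is at most the number of active balls plus the tail -/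
theorem c3_sum_le {ι : Type} [Fintype ι] [DecidableEq ι] (J : Finset ι) {x : ι → ℝ}
    (hx : ∀ i, 0 ≤ x i ∧ x i ≤ 1) {N : ℝ} (hN : ∑ i ∈ J, x i ≤ N) {n : ℕ} (hn : n ≠ 0) :
    ∑ i, x i ^ n ≤ ((Finset.univ.filter (fun i => i ∉ J ∧ 0 < x i)).card : ℝ) + N := by
  have h1 : ∑ i, x i ^ n ≤ ∑ i, ((if i ∉ J ∧ 0 < x i then (1 : ℝ) else 0) +
      (if i ∈ J then x i else 0)) := by
    refine Finset.sum_le_sum fun i _ => ?_
    obtain ⟨h0, h1⟩ := hx i
    by_cases hi : i ∈ J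
    · rw [if_neg (by tauto), if_pos hi, zero_add]
      exact pow_le_of_le_one h0 h1 hn
    · rw [if_neg hi, add_zero]
      rcases h0.eq_or_lt with h | h
      · rw [← h, zero_pow hn]
        split_ifs <;> norm_num
      · rw [if_pos ⟨hi, h⟩]
        exact pow_le_one₀ h0 h1
  refine h1.trans ?_
  rw [Finset.sum_add_distrib]
  refine add_le_add (le_of_eq ?_) (le_trans (le_of_eq ?_) hN)
  · rw [Finset.card_filter]
    push_cast
    rfl
  · rw [Finset.sum_ite_mem, Finset.univ_inter]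

/-- sizes of the parameters -/
structure C3Par (D : ℕ) (c δ ρ N Y R : ℝ) (K : ℕ) : Prop where
  hc : 0 < c
  hc1 : c ≤ 1
  hδ : 0 < δ
  hδ1 : δ ≤ 1
  hρ : 1 ≤ ρ
  hN : 0 ≤ N
  hY : 1 ≤ Y
  hR : 0 < R
  h1 : 1 ≤ c * R
  h2 : 2 * Y ≤ c * R
  h3 : 256 * N / δ ≤ c * R
  h4 : 4 * ρ * Y / δ ^ (D + 1 + 1) ≤ c * R
  h5 : ρ * (((D + 1 : ℕ) : ℝ) + 1) / (min (1 / Y) (δ / 512) * δ ^ (D + 1 + 1) * c ^ (D + 1)) * R ≤ K
  h6 : (0 : ℝ) < K

/-- the scale of the target -/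
noncomputable def c3A (D : ℕ) (c R : ℝ) : ℝ := 1 / 2 * ((D + 1).factorial * (c * R) ^ (D + 1))

theorem c3_fac (D : ℕ) :
    ((D + 1 + 1).factorial : ℝ) = (((D + 1 : ℕ) : ℝ) + 1) * (D + 1).factorial := by
  rw [Nat.factorial_succ (D + 1)]
  push_cast
  ring

theorem C3Par.A_ge {D : ℕ} {c δ ρ N Y R : ℝ} {K : ℕ} (h : C3Par D c δ ρ N Y R K) :
    c * R / 2 ≤ c3A D c R := by
  have hcR0 : 0 < c * R := mul_pos h.hc h.hR
  have hfac : (1 : ℝ) ≤ ((D + 1).factorial : ℝ) := by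
    exact_mod_cast Nat.succ_le_of_lt (Nat.factorial_pos _)
  have hpowR : c * R ≤ (c * R) ^ (D + 1) := le_self_pow₀ h.h1 (by omega)
  have h1 : 1 * (c * R) ≤ ((D + 1).factorial : ℝ) * (c * R) ^ (D + 1) :=
    mul_le_mul hfac hpowR hcR0.le (by positivity)
  unfold c3A
  linarith

theorem C3Par.A_pos {D : ℕ} {c δ ρ N Y R : ℝ} {K : ℕ} (h : C3Par D c δ ρ N Y R K) :
    0 < c3A D c R := by
  have := h.A_ge
  have := mul_pos h.hc h.hR
  linarith

theorem C3Par.A_Y {D : ℕ} {c δ ρ N Y R : ℝ} {K : ℕ} (h : C3Par D c δ ρ N Y R K) :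
    Y ≤ c3A D c R := by
  have := h.A_ge
  have := h.h2
  linarith

theorem C3Par.N1 {D : ℕ} {c δ ρ N Y R : ℝ} {K : ℕ} (h : C3Par D c δ ρ N Y R K) :
    N ≤ δ * c3A D c R / 128 := by
  have h1 := h.A_ge
  have h2 := h.h3
  have hδ := h.hδ
  rw [div_le_iff₀ hδ] at h2
  have : c * R * δ ≤ 2 * c3A D c R * δ := mul_le_mul_of_nonneg_right (by linarith) hδ.le
  linarith

theorem C3Par.N2 {D : ℕ} {c δ ρ N Y R : ℝ} {K : ℕ} (h : C3Par D c δ ρ N Y R K) :
    N ≤ c3A D c R / 8 := by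
  have h1 := h.N1
  have h2 : δ * c3A D c R ≤ c3A D c R := by
    have := h.A_pos
    have := h.hδ1
    nlinarith
  have := h.A_pos
  linarith

theorem C3Par.Xa {D : ℕ} {c δ ρ N Y R : ℝ} {K : ℕ} (h : C3Par D c δ ρ N Y R K) {Xb : ℝ}
    (hXb : 0 < Xb)
    (hi : 2 * K * Xb * δ ^ (D + 1 + 1) ≤ (D + 1 + 1).factorial * R ^ (D + 1 + 1)) :
    ρ * Xb ≤ min (1 / Y) (δ / 512) * c3A D c R := by
  have hc := h.hc
  have hδ := h.hδ
  have hρ : 0 < ρ := lt_of_lt_of_le one_pos h.hρ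
  have hY : 0 < Y := lt_of_lt_of_le one_pos h.hY
  have hR := h.hR
  have hK := h.h6
  set ν : ℝ := min (1 / Y) (δ / 512) with hν
  have hν0 : 0 < ν := lt_min (by positivity) (by positivity)
  have h5 := h.h5
  rw [← hν] at h5
  rw [div_mul_eq_mul_div, div_le_iff₀ (by positivity)] at h5
  have hδn : 0 < δ ^ (D + 1 + 1) := by positivity
  rw [c3_fac] at hi
  unfold c3A
  rw [mul_pow]
  have h7 : (ρ * Xb) * (2 * K * δ ^ (D + 1 + 1)) ≤
      (ν * (1 / 2 * (((D + 1).factorial : ℝ) * (c ^ (D + 1) * R ^ (D + 1))))) *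
        (2 * K * δ ^ (D + 1 + 1)) := by
    calc (ρ * Xb) * (2 * K * δ ^ (D + 1 + 1))
        = ρ * (2 * K * Xb * δ ^ (D + 1 + 1)) := by ring
      _ ≤ ρ * ((((D + 1 : ℕ) : ℝ) + 1) * (D + 1).factorial * R ^ (D + 1 + 1)) :=
          mul_le_mul_of_nonneg_left hi hρ.le
      _ = (ρ * (((D + 1 : ℕ) : ℝ) + 1) * R) * ((D + 1).factorial * R ^ (D + 1)) := by ring
      _ ≤ (K * (ν * δ ^ (D + 1 + 1) * c ^ (D + 1))) * ((D + 1).factorial * R ^ (D + 1)) :=
          mul_le_mul_of_nonneg_right h5 (by positivity)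
      _ = _ := by ring
  exact le_of_mul_le_mul_right h7 (by positivity)

theorem C3Par.XaY {D : ℕ} {c δ ρ N Y R : ℝ} {K : ℕ} (h : C3Par D c δ ρ N Y R K) {Xa : ℝ}
    (hi : Xa ≤ min (1 / Y) (δ / 512) * c3A D c R) : Xa ≤ c3A D c R / Y := by
  refine hi.trans ?_
  rw [div_eq_mul_one_div (c3A D c R) Y, mul_comm (c3A D c R)]
  exact mul_le_mul_of_nonneg_right (min_le_left _ _) h.A_pos.le

theorem C3Par.Xaδ {D : ℕ} {c δ ρ N Y R : ℝ} {K : ℕ} (h : C3Par D c δ ρ N Y R K) {Xa : ℝ}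
    (hi : Xa ≤ min (1 / Y) (δ / 512) * c3A D c R) : 512 * Xa ≤ δ * c3A D c R := by
  have h2 : min (1 / Y) (δ / 512) * c3A D c R ≤ δ / 512 * c3A D c R :=
    mul_le_mul_of_nonneg_right (min_le_right _ _) h.A_pos.le
  linarith

theorem C3Par.KX {D : ℕ} {c δ ρ N Y R : ℝ} {K : ℕ} (h : C3Par D c δ ρ N Y R K) {Xb : ℝ}
    (hi : (((D + 1 : ℕ) : ℝ) + 1) * (c * R) * c3A D c R ≤ 2 * K * (ρ * Xb) + N) :
    (((D + 1 : ℕ) : ℝ) + 1) * (c * R) * c3A D c R ≤ K * Xb * (4 * ρ) := by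
  have hD1 : (1 : ℝ) ≤ ((D + 1 : ℕ) : ℝ) + 1 := by
    have : (0 : ℝ) ≤ ((D + 1 : ℕ) : ℝ) := Nat.cast_nonneg _
    linarith
  have h11 : (1 : ℝ) ≤ (((D + 1 : ℕ) : ℝ) + 1) * (c * R) := one_le_mul_of_one_le_of_one_le hD1 h.h1
  have h12 : c3A D c R ≤ (((D + 1 : ℕ) : ℝ) + 1) * (c * R) * c3A D c R := by
    have := h.A_pos
    nlinarith
  have h13 := h.N2
  have := h.A_pos
  linarith

theorem C3Par.vol {D : ℕ} {c δ ρ N Y R : ℝ} {K : ℕ} (h : C3Par D c δ ρ N Y R K) {Xb : ℝ}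
    (hi : (((D + 1 : ℕ) : ℝ) + 1) * (c * R) * c3A D c R ≤ K * Xb * (4 * ρ)) :
    Y * c3A D c R ≤ K * Xb * δ ^ (D + 1 + 1) / (((D + 1 : ℕ) : ℝ) + 1) := by
  have hδ := h.hδ
  have hρ : 0 < ρ := lt_of_lt_of_le one_pos h.hρ
  have hD1 : (0 : ℝ) < ((D + 1 : ℕ) : ℝ) + 1 := by positivity
  have h4 := h.h4
  have hA := h.A_pos
  rw [div_le_iff₀ (by positivity)] at h4
  rw [le_div_iff₀ hD1]
  have hδn : 0 < δ ^ (D + 1 + 1) := by positivity
  have h2 : (Y * c3A D c R * (((D + 1 : ℕ) : ℝ) + 1)) * (4 * ρ) ≤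
      (K * Xb * δ ^ (D + 1 + 1)) * (4 * ρ) := by
    calc (Y * c3A D c R * (((D + 1 : ℕ) : ℝ) + 1)) * (4 * ρ)
        = (4 * ρ * Y) * (c3A D c R * (((D + 1 : ℕ) : ℝ) + 1)) := by ring
      _ ≤ (c * R * δ ^ (D + 1 + 1)) * (c3A D c R * (((D + 1 : ℕ) : ℝ) + 1)) :=
          mul_le_mul_of_nonneg_right h4 (by positivity)
      _ = ((((D + 1 : ℕ) : ℝ) + 1) * (c * R) * c3A D c R) * δ ^ (D + 1 + 1) := by ring
      _ ≤ (K * Xb * (4 * ρ)) * δ ^ (D + 1 + 1) := mul_le_mul_of_nonneg_right hi hδn.le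
      _ = _ := by ring
  exact le_of_mul_le_mul_right h2 (by positivity)

section

variable {D : ℕ} {Θ : Type} [TopologicalSpace Θ] {c L R δ ρ N : ℝ} {K : ℕ}
  {l u : Fin (D + 1 + 1) → Θ → (Fin (D + 1 + 1) → ℝ) → ℝ} {ι : Type} [Fintype ι] [DecidableEq ι]
  {r : ι → Θ → ℝ} {J : Finset ι} {dig : ι → Fin (D + 1) → ℕ} {b η : ℝ}

theorem c3_bigc (hin : StageIn (D + 1) c L R δ ρ N K l u r J dig b η) (θ : Θ) {k : ℕ}
    (hk : k < 2 * K) : ((2 * K : ℕ) : ℝ) ^ D * b ≤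
      ((Finset.univ.filter (fun i => i ∉ J ∧ dig i 0 = k ∧ δ ≤ r i θ)).card : ℝ) :=
  c3_class_lower J dig (fun i => δ ≤ r i θ) hin.dlt (hin.big θ) hk

theorem c3_actc (hρ : 0 ≤ ρ) (hin : StageIn (D + 1) c L R δ ρ N K l u r J dig b η) (θ : Θ)
    (k : ℕ) : ((Finset.univ.filter (fun i => i ∉ J ∧ dig i 0 = k ∧ 0 < r i θ)).card : ℝ) ≤
      ρ * (((2 * K : ℕ) : ℝ) ^ D * b) := by
  have := c3_class_upper J dig (fun i => 0 < r i θ) hin.dlt (mul_nonneg hρ hin.b0.le) (hin.act θ) k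
  refine this.trans (le_of_eq ?_)
  ring

theorem c3_vpos (hc : 0 < c) (hR : 0 < R)
    (hin : StageIn (D + 1) c L R δ ρ N K l u r J dig b η) (θ : Θ) :
    0 < ((D + 1 + 1).factorial : ℝ) * vol (D + 1 + 1) l u θ :=
  mul_pos (by exact_mod_cast Nat.factorial_pos _)
    (lt_of_lt_of_le (by positivity) (vol_bounds hc hR hin.box θ).1)

theorem c3_i (hc : 0 < c) (hR : 0 < R) (hδ : 0 < δ)
    (hin : StageIn (D + 1) c L R δ ρ N K l u r J dig b η) (θ : Θ) :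
    2 * K * (((2 * K : ℕ) : ℝ) ^ D * b) * δ ^ (D + 1 + 1) ≤
      (D + 1 + 1).factorial * R ^ (D + 1 + 1) := by
  have h1 := c3_total_lower J (fun i => dig i 0) (fun i => δ ≤ r i θ) (Finset.range (2 * K))
    (X := ((2 * K : ℕ) : ℝ) ^ D * b) (fun k hk => c3_bigc hin θ (Finset.mem_range.mp hk))
  have h2 := c3_sum_big (x := fun i => r i θ) hδ (fun i => (hin.r01 i θ).1) (D + 1 + 1)
    (fun i => i ∉ J ∧ dig i 0 ∈ Finset.range (2 * K)) (m := 1) one_pos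
    (by simpa only [and_assoc] using h1)
  have h3 : ∑ i ∈ Finset.univ.filter (fun i => i ∉ J ∧ dig i 0 ∈ Finset.range (2 * K)),
      r i θ ^ (D + 1 + 1) / 1 ≤ ∑ i, r i θ ^ (D + 1 + 1) := by
    simp only [div_one]
    exact Finset.sum_le_univ_sum_of_nonneg fun i => pow_nonneg (hin.r01 i θ).1 _
  rw [Finset.card_range, div_one] at h2
  have hcast : ((2 * K : ℕ) : ℝ) = 2 * K := by push_cast; ring
  have h4 := (h2.trans h3).trans (hin.hi θ)
  have h5 := (vol_bounds hc hR hin.box θ).2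
  have h6 := c3_vpos hc hR hin θ
  have h7 : ((D + 1 + 1).factorial : ℝ) * vol (D + 1 + 1) l u θ ≤
      (D + 1 + 1).factorial * R ^ (D + 1 + 1) := mul_le_mul_of_nonneg_left h5 (by positivity)
  have h8 : (1 - η) * (((D + 1 + 1).factorial : ℝ) * vol (D + 1 + 1) l u θ) ≤
      (D + 1 + 1).factorial * R ^ (D + 1 + 1) := by
    have := hin.η0
    nlinarith
  calc 2 * K * (((2 * K : ℕ) : ℝ) ^ D * b) * δ ^ (D + 1 + 1)
      = ((2 * K : ℕ) : ℝ) * (((2 * K : ℕ) : ℝ) ^ D * b) * δ ^ (D + 1 + 1) := by rw [hcast]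
    _ ≤ _ := h4.trans h8

theorem c3_ii (hρ : 0 ≤ ρ) (hc : 0 < c) (hR : 0 < R)
    (hin : StageIn (D + 1) c L R δ ρ N K l u r J dig b η) (θ : Θ) :
    (((D + 1 : ℕ) : ℝ) + 1) * (c * R) * c3A D c R ≤
      2 * K * (ρ * (((2 * K : ℕ) : ℝ) ^ D * b)) + N := by
  have h1 := c3_total_upper J (fun i => dig i 0) (fun i => 0 < r i θ) (M := 2 * K)
    (fun i => hin.dlt i 0) (c3_actc hρ hin θ)
  have h2 := c3_sum_le J (x := fun i => r i θ) (fun i => hin.r01 i θ) (hin.tail θ)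
    (n := D + 1 + 1) (by omega)
  have h3 : (((D + 1 : ℕ) : ℝ) + 1) * (c * R) * c3A D c R ≤ ∑ i, r i θ ^ (D + 1 + 1) := by
    refine le_trans ?_ (hin.lo θ)
    have h5 := (vol_bounds hc hR hin.box θ).1
    have h6 : (((D + 1 : ℕ) : ℝ) + 1) * (c * R) * c3A D c R =
        1 / 2 * ((D + 1 + 1).factorial * (c * R) ^ (D + 1 + 1)) := by
      rw [c3_fac]
      unfold c3A
      ring
    rw [h6]
    have h7 : ((D + 1 + 1).factorial : ℝ) * (c * R) ^ (D + 1 + 1) ≤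
        (D + 1 + 1).factorial * vol (D + 1 + 1) l u θ :=
      mul_le_mul_of_nonneg_left h5 (by positivity)
    have h8 := c3_vpos hc hR hin θ
    have := hin.η0
    nlinarith
  have hcast : ((2 * K : ℕ) : ℝ) = 2 * K := by push_cast; ring
  have h9 : ((Finset.univ.filter (fun i => i ∉ J ∧ 0 < r i θ)).card : ℝ) ≤
      2 * K * (ρ * (((2 * K : ℕ) : ℝ) ^ D * b)) := by
    calc _ ≤ ((2 * K : ℕ) : ℝ) * (ρ * (((2 * K : ℕ) : ℝ) ^ D * b)) := h1
      _ = _ := by rw [hcast]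
  linarith

theorem c3_volL (hδ : 0 < δ) (hin : StageIn (D + 1) c L R δ ρ N K l u r J dig b η) (θ : Θ) :
    K * (((2 * K : ℕ) : ℝ) ^ D * b) * δ ^ (D + 1 + 1) / (((D + 1 : ℕ) : ℝ) + 1) ≤
      ∑ i ∈ Finset.univ.filter (fun i => i ∉ J ∧ dig i 0 < K),
        r i θ ^ (D + 1 + 1) / (((D + 1 : ℕ) : ℝ) + 1) := by
  have h1 := c3_total_lower J (fun i => dig i 0) (fun i => δ ≤ r i θ) (Finset.range K)
    (X := ((2 * K : ℕ) : ℝ) ^ D * b)
    (fun k hk => c3_bigc hin θ (by have := Finset.mem_range.mp hk; omega))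
  rw [Finset.card_range] at h1
  exact c3_sum_big (x := fun i => r i θ) hδ (fun i => (hin.r01 i θ).1) (D + 1 + 1)
    (fun i => i ∉ J ∧ dig i 0 < K) (m := ((D + 1 : ℕ) : ℝ) + 1) (by positivity)
    (by simpa only [and_assoc, Finset.mem_range] using h1)

theorem c3_volR (hδ : 0 < δ) (hin : StageIn (D + 1) c L R δ ρ N K l u r J dig b η) (θ : Θ) :
    K * (((2 * K : ℕ) : ℝ) ^ D * b) * δ ^ (D + 1 + 1) / (((D + 1 : ℕ) : ℝ) + 1) ≤
      ∑ i ∈ Finset.univ.filter (fun i => i ∉ J ∧ K ≤ dig i 0),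
        r i θ ^ (D + 1 + 1) / (((D + 1 : ℕ) : ℝ) + 1) := by
  have h1 := c3_total_lower J (fun i => dig i 0) (fun i => δ ≤ r i θ) (Finset.Ico K (2 * K))
    (X := ((2 * K : ℕ) : ℝ) ^ D * b) (fun k hk => c3_bigc hin θ (Finset.mem_Ico.mp hk).2)
  have hcard : (Finset.Ico K (2 * K)).card = K := by
    rw [Nat.card_Ico]
    omega
  rw [hcard] at h1
  exact c3_sum_big (x := fun i => r i θ) hδ (fun i => (hin.r01 i θ).1) (D + 1 + 1)
    (fun i => i ∉ J ∧ K ≤ dig i 0) (m := ((D + 1 : ℕ) : ℝ) + 1) (by positivity) (by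
      refine h1.trans ?_
      exact_mod_cast Finset.card_le_card (fun i hi => by
        simp only [Finset.mem_filter, Finset.mem_univ, true_and, Finset.mem_Ico] at hi ⊢
        exact ⟨⟨hi.1, hi.2.1.1⟩, hi.2.2⟩))

/-- the target -/
noncomputable def c3T (l u : Fin (D + 1 + 1) → Θ → (Fin (D + 1 + 1) → ℝ) → ℝ) (r : ι → Θ → ℝ)
    (θ : Θ) (t : ℝ) : ℝ :=
  (∑ i, r i θ ^ (D + 1 + 1)) / ((D + 1 + 1).factorial * vol (D + 1 + 1) l u θ) *
    ((D + 1).factorial * vol (D + 1) (sl l) (sl u) (θ, l 0 θ 0 + t))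

theorem c3_ratio (hc : 0 < c) (hR : 0 < R)
    (hin : StageIn (D + 1) c L R δ ρ N K l u r J dig b η) (θ : Θ) :
    1 / 2 + η ≤ (∑ i, r i θ ^ (D + 1 + 1)) / ((D + 1 + 1).factorial * vol (D + 1 + 1) l u θ) ∧
    (∑ i, r i θ ^ (D + 1 + 1)) / ((D + 1 + 1).factorial * vol (D + 1 + 1) l u θ) ≤ 1 - η := by
  have h1 := c3_vpos hc hR hin θ
  exact ⟨(le_div_iff₀ h1).mpr (hin.lo θ), (div_le_iff₀ h1).mpr (hin.hi θ)⟩

theorem c3_cls {Y : ℝ} (hP : C3Par D c δ ρ N Y R K)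
    (hin : StageIn (D + 1) c L R δ ρ N K l u r J dig b η)
    (hT : (Continuous fun z : Θ × ℝ => c3T l u r z.1 z.2) ∧
      (∀ θ t, c3A D c R ≤ c3T l u r θ t ∧ c3T l u r θ t ≤ 2 / c ^ (D + 1) * c3A D c R) ∧
      (∀ θ t t', |c3T l u r θ t - c3T l u r θ t'| ≤ c3A D c R / 256 * |t - t'|) ∧
      (∀ θ, ∫ t in (0 : ℝ)..(u 0 θ 0 - l 0 θ 0), c3T l u r θ t =
        (∑ i, r i θ ^ (D + 1 + 1)) / (D + 1 + 1))) :
    ClsIn (D + 1) δ ρ (2 / c ^ (D + 1)) Y J (fun i => dig i 0) K r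
      (fun θ => u 0 θ 0 - l 0 θ 0) (c3T l u r) (c3A D c R) := by
  have hρ : 0 ≤ ρ := zero_le_one.trans hP.hρ
  have hb := hin.b0
  have hK := hP.h6
  have hXb : 0 < ((2 * K : ℕ) : ℝ) ^ D * b := by
    have : (0 : ℝ) < ((2 * K : ℕ) : ℝ) := by push_cast; positivity
    positivity
  have hXa : ∀ θ : Θ, ρ * (((2 * K : ℕ) : ℝ) ^ D * b) ≤ min (1 / Y) (δ / 512) * c3A D c R :=
    fun θ => hP.Xa hXb (c3_i hP.hc hP.hR hP.hδ hin θ)
  have hvol : ∀ θ : Θ, Y * c3A D c R ≤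
      K * (((2 * K : ℕ) : ℝ) ^ D * b) * δ ^ (D + 1 + 1) / (((D + 1 : ℕ) : ℝ) + 1) :=
    fun θ => hP.vol (hP.KX (c3_ii hρ hP.hc hP.hR hin θ))
  refine ⟨hP.A_Y, ?_, hT.1, hin.cr, hin.r01, fun θ => ?_, hT.2.1, hT.2.2.1,
    fun θ => (hin.tail θ).trans hP.N2, fun i _ => hin.dlt i 0, ?_, ?_, ?_, ?_, ?_⟩
  · exact ((hin.box.cont_u 0).comp (continuous_id.prodMk continuous_const)).sub
      ((hin.box.cont_l 0).comp (continuous_id.prodMk continuous_const))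
  · exact lt_of_lt_of_le (mul_pos hP.hc hP.hR) (hin.box.lo 0 θ 0)
  · intro θ k hk
    exact (c3_actc hρ hin θ k).trans (mul_le_mul_of_nonneg_left (c3_bigc hin θ hk) hρ)
  · intro θ k hk
    exact (c3_actc hρ hin θ k).trans (hP.XaY (hXa θ))
  · intro θ
    exact (hvol θ).trans (c3_volL hP.hδ hin θ)
  · intro θ
    exact (hvol θ).trans (c3_volR hP.hδ hin θ)
  · intro θ
    rw [hT.2.2.2 θ, ← Finset.sum_div]
    push_cast
    ring

/-- the ratio of the numbers of active and big balls in the next stage -/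
noncomputable def c3ρ (D : ℕ) (c δ ρ : ℝ) : ℝ :=
  14 * 256 * (2 / c ^ (D + 1)) * (((D + 1 : ℕ) : ℝ) + 1) * ρ ^ 2 / δ ^ (D + 1 + 1 + 1)

theorem c3_next {Y : ℝ} (hP : C3Par D c δ ρ N Y R K)
    (hin : StageIn (D + 1) c L R δ ρ N K l u r J dig b η)
    (hTc : Continuous fun z : Θ × ℝ => c3T l u r z.1 z.2)
    (hTb : ∀ θ t, c3T l u r θ t ≤ 2 / c ^ (D + 1) * c3A D c R) {ε : ℝ}
    (hε1 : ε ≤ c3A D c R / 8) (hε2 : ε ≤ η / 2 * ((D + 1).factorial * (c * R) ^ (D + 1)))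
    {W v : ι → Θ → ℝ → ℝ} {p : ι → Θ → ℝ}
    (hout : ClsOut (D + 1) δ ε J (fun i => dig i 0) K r (fun θ => u 0 θ 0 - l 0 θ 0)
      (c3T l u r) (c3A D c R) W v p) {cl : Θ × ℝ → Θ × ℝ}
    (hcl : ∀ θ t, cl (θ, t) = (θ, max (l 0 θ 0) (min (u 0 θ 0) t))) :
    StageIn D c L R (δ / 2) (c3ρ D c δ ρ) N K (fun j z => sl l j (cl z))
      (fun j z => sl u j (cl z)) (fun i z => v i z.1 ((cl z).2 - l 0 z.1 0)) J
      (fun i => Fin.tail (dig i))
      (b * (δ * c3A D c R / (256 * (ρ * (((2 * K : ℕ) : ℝ) ^ D * b))))) (η / 2) := by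
  have hc := hP.hc
  have hδ := hP.hδ
  have hR := hP.hR
  have hρ : 0 < ρ := lt_of_lt_of_le one_pos hP.hρ
  have hb := hin.b0
  have hη := hin.η0
  have hK := hP.h6
  have hA := hP.A_pos
  have hM : (0 : ℝ) < ((2 * K : ℕ) : ℝ) := by push_cast; positivity
  have hXb : 0 < ((2 * K : ℕ) : ℝ) ^ D * b := by positivity
  have hXa : ∀ θ : Θ, ρ * (((2 * K : ℕ) : ℝ) ^ D * b) ≤ min (1 / Y) (δ / 512) * c3A D c R :=
    fun θ => hP.Xa hXb (c3_i hc hR hδ hin θ)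
  have hlc : Continuous fun z : Θ × ℝ => l 0 z.1 0 :=
    (hin.box.cont_l 0).comp (continuous_fst.prodMk continuous_const)
  have huc : Continuous fun z : Θ × ℝ => u 0 z.1 0 :=
    (hin.box.cont_u 0).comp (continuous_fst.prodMk continuous_const)
  have hclc : Continuous cl := by
    have : cl = fun z : Θ × ℝ => (z.1, max (l 0 z.1 0) (min (u 0 z.1 0) z.2)) := by
      funext z
      exact hcl z.1 z.2
    rw [this]
    exact continuous_fst.prodMk (hlc.max (huc.min continuous_snd))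
  have hlu : ∀ θ, l 0 θ 0 ≤ u 0 θ 0 := fun θ => by
    have := hin.box.lo 0 θ 0
    have := mul_pos hc hR
    linarith
  have ht0 : ∀ z : Θ × ℝ, 0 ≤ (cl z).2 - l 0 z.1 0 := fun z => by
    rw [show cl z = _ from hcl z.1 z.2]
    have : l 0 z.1 0 ≤ max (l 0 z.1 0) (min (u 0 z.1 0) z.2) := le_max_left _ _
    show 0 ≤ max (l 0 z.1 0) (min (u 0 z.1 0) z.2) - l 0 z.1 0
    linarith
  have htT : ∀ z : Θ × ℝ, (cl z).2 - l 0 z.1 0 ≤ u 0 z.1 0 - l 0 z.1 0 := fun z => by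
    rw [show cl z = _ from hcl z.1 z.2]
    have : max (l 0 z.1 0) (min (u 0 z.1 0) z.2) ≤ u 0 z.1 0 :=
      max_le (hlu z.1) (min_le_left _ _)
    show max (l 0 z.1 0) (min (u 0 z.1 0) z.2) - l 0 z.1 0 ≤ u 0 z.1 0 - l 0 z.1 0
    linarith
  have hcl1 : ∀ z : Θ × ℝ, cl z = (z.1, l 0 z.1 0 + ((cl z).2 - l 0 z.1 0)) := fun z => by
    have h1 : (cl z).1 = z.1 := by rw [show cl z = _ from hcl z.1 z.2]
    have h2 : l 0 z.1 0 + ((cl z).2 - l 0 z.1 0) = (cl z).2 := by ring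
    rw [h2, ← h1]
  -- volumes
  have hvs : ∀ z : Θ × ℝ, (c * R) ^ (D + 1) ≤ vol (D + 1) (sl l) (sl u) (cl z) := fun z =>
    (vol_bounds hc hR hin.box.slice (cl z)).1
  have hkey : ∀ z : Θ × ℝ, c3T l u r z.1 ((cl z).2 - l 0 z.1 0) =
      (∑ i, r i z.1 ^ (D + 1 + 1)) / ((D + 1 + 1).factorial * vol (D + 1 + 1) l u z.1) *
        ((D + 1).factorial * vol (D + 1) (sl l) (sl u) (cl z)) := fun z => by
    unfold c3T
    rw [← hcl1 z]
  have hfac : (0 : ℝ) < ((D + 1).factorial : ℝ) := by exact_mod_cast Nat.factorial_pos _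
  refine ⟨hin.box.slice.comp hclc, fun i => ?_, fun i z => ⟨hout.v_nn _ _ _,
    (hout.v_le _ _ _).trans (hin.r01 _ _).2⟩, fun z => ?_, fun i k => hin.dlt i k.succ,
    by positivity, fun z κ hκ => ?_, fun z κ hκ => ?_, by positivity, fun z => ?_, fun z => ?_⟩
  · exact (hout.cv i).comp (continuous_fst.prodMk ((continuous_snd.comp hclc).sub hlc))
  · exact (Finset.sum_le_sum fun i _ => hout.v_le _ _ _).trans (hin.tail z.1)
  · exact next_big hδ (by omega) hin.r01 hout hin.dlt (by positivity) hb.le (ht0 z) (htT z)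
      (hin.tail z.1) hP.N1 (hP.Xaδ (hXa z.1)) (c3_actc hρ.le hin z.1) (hin.big z.1) κ hκ
  · have h1 := next_act (C := 2 / c ^ (D + 1)) hδ (by omega) hin.r01 (by
        rw [le_div_iff₀ (by positivity)]
        have : c ^ (D + 1) ≤ 1 := pow_le_one₀ hc.le hP.hc1
        linarith) hA hout hin.dlt hε1
      (fun θ => hTc.comp (continuous_const.prodMk continuous_id)) hTb
      (fun i θ => (hout.cv i).comp (continuous_const.prodMk continuous_id)) hXb (by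
        have h2 := hP.Xaδ (hXa z.1)
        have h3 : ((2 * K : ℕ) : ℝ) ^ D * b ≤ ρ * (((2 * K : ℕ) : ℝ) ^ D * b) := by
          have := hP.hρ
          nlinarith
        have h4 : δ * c3A D c R ≤ c3A D c R := by
          have := hP.hδ1
          nlinarith
        linarith) (mul_nonneg hρ.le hb.le) (ht0 z) (htT z)
      (fun k hk => c3_bigc hin z.1 hk) (hin.act z.1) hP.hδ1 κ hκ
    refine h1.trans (le_of_eq ?_)
    unfold c3ρ
    generalize ((D + 1 : ℕ) : ℝ) + 1 = q1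
    generalize c3A D c R = A0
    have hx : ((2 * K : ℕ) : ℝ) ^ D ≠ 0 := by positivity
    generalize ((2 * K : ℕ) : ℝ) ^ D = X at hx ⊢
    field_simp
    ring
  · have h1 := abs_le.mp (hout.sum z.1 _ (ht0 z) (htT z))
    rw [hkey z] at h1
    rw [vol_comp]
    have h2 := (c3_ratio hc hR hin z.1).1
    have h3 := hvs z
    have h4 : (0 : ℝ) < vol (D + 1) (sl l) (sl u) (cl z) := lt_of_lt_of_le (by positivity) h3
    have h5 : (1 / 2 + η) * ((D + 1).factorial * vol (D + 1) (sl l) (sl u) (cl z)) ≤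
        (∑ i, r i z.1 ^ (D + 1 + 1)) / ((D + 1 + 1).factorial * vol (D + 1 + 1) l u z.1) *
        ((D + 1).factorial * vol (D + 1) (sl l) (sl u) (cl z)) :=
      mul_le_mul_of_nonneg_right h2 (by positivity)
    have h6 : η / 2 * ((D + 1).factorial * (c * R) ^ (D + 1)) ≤
        η / 2 * ((D + 1).factorial * vol (D + 1) (sl l) (sl u) (cl z)) := by gcongr
    linarith [h1.1]
  · have h1 := abs_le.mp (hout.sum z.1 _ (ht0 z) (htT z))
    rw [hkey z] at h1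
    rw [vol_comp]
    have h2 := (c3_ratio hc hR hin z.1).2
    have h3 := hvs z
    have h4 : (0 : ℝ) < vol (D + 1) (sl l) (sl u) (cl z) := lt_of_lt_of_le (by positivity) h3
    have h5 : (∑ i, r i z.1 ^ (D + 1 + 1)) / ((D + 1 + 1).factorial * vol (D + 1 + 1) l u z.1) *
        ((D + 1).factorial * vol (D + 1) (sl l) (sl u) (cl z)) ≤
        (1 - η) * ((D + 1).factorial * vol (D + 1) (sl l) (sl u) (cl z)) :=
      mul_le_mul_of_nonneg_right h2 (by positivity)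
    have h6 : η / 2 * ((D + 1).factorial * (c * R) ^ (D + 1)) ≤
        η / 2 * ((D + 1).factorial * vol (D + 1) (sl l) (sl u) (cl z)) := by gcongr
    linarith [h1.2]

end

theorem c3_ρ_one {D : ℕ} {c δ ρ : ℝ} (hc : 0 < c) (hc1 : c ≤ 1) (hδ : 0 < δ) (hδ1 : δ ≤ 1)
    (hρ : 1 ≤ ρ) : 1 ≤ c3ρ D c δ ρ := by
  unfold c3ρ
  have hcp : c ^ (D + 1) ≤ 1 := pow_le_one₀ hc.le hc1
  have hcp0 : 0 < c ^ (D + 1) := by positivity
  have hC : 1 ≤ 2 / c ^ (D + 1) := by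
    rw [le_div_iff₀ hcp0]
    linarith
  have hδp : δ ^ (D + 1 + 1 + 1) ≤ 1 := pow_le_one₀ hδ.le hδ1
  have hδp0 : 0 < δ ^ (D + 1 + 1 + 1) := by positivity
  rw [le_div_iff₀ hδp0]
  have h1 : (1 : ℝ) ≤ ((D + 1 : ℕ) : ℝ) + 1 := by
    have : (0 : ℝ) ≤ ((D + 1 : ℕ) : ℝ) := Nat.cast_nonneg _
    linarith
  have h2 : (1 : ℝ) ≤ ρ ^ 2 := one_le_pow₀ hρ
  have h3 := one_le_mul_of_one_le_of_one_le hC h1
  have h4 := one_le_mul_of_one_le_of_one_le h3 h2
  nlinarith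

theorem stage_succ {D : ℕ} (ih : Stage D) : Stage (D + 1) := by
  intro c L δ ρ N hc hL hδ hδ1 hρ hN
  by_cases hc1 : c ≤ 1
  swap
  · refine ⟨1, 1, one_pos, one_pos, fun R hR K hK Θ _ l u ι _ _ r J dig b η hin => ?_⟩
    have hempty : IsEmpty Θ := by
      refine ⟨fun θ => ?_⟩
      have h1 := hin.box.lo 0 θ 0
      have h2 := hin.box.hi 0 θ 0
      rw [not_le] at hc1
      nlinarith
    exact ⟨fun _ _ _ _ _ => 0, fun _ _ => continuous_const, fun _ _ _ _ _ _ => rfl,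
      fun _ θ => (hempty.false θ).elim, fun _ _ θ => (hempty.false θ).elim⟩
  have hcp : c ^ (D + 1) ≤ 1 := pow_le_one₀ hc.le hc1
  have hcp0 : 0 < c ^ (D + 1) := by positivity
  have hC : 1 ≤ 2 / c ^ (D + 1) := by
    rw [le_div_iff₀ hcp0]
    linarith
  obtain ⟨Y, hY, hch⟩ := chain_classes (D + 1) (by omega) δ ρ (2 / c ^ (D + 1)) hδ hδ1 hρ hC
  obtain ⟨C1', R0', hC1', hR0', hih⟩ := ih c L (δ / 2) (c3ρ D c δ ρ) N hc hL (by positivity)
    (by linarith) (c3_ρ_one hc hc1 hδ hδ1 hρ) hN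
  obtain ⟨R0t, hR0t, htg⟩ := stage_target (D := D) c L hc hL
  set C2 : ℝ := ρ * (((D + 1 : ℕ) : ℝ) + 1) /
    (min (1 / Y) (δ / 512) * δ ^ (D + 1 + 1) * c ^ (D + 1)) with hC2
  set Z : ℝ := 1 + 2 * Y + 256 * N / δ + 4 * ρ * Y / δ ^ (D + 1 + 1) with hZ
  refine ⟨max C1' C2, max R0' (max R0t (Z / c)), lt_of_lt_of_le hC1' (le_max_left _ _),
    lt_of_lt_of_le hR0' (le_max_left _ _),
    fun R hR K hK Θ _ l u ι _ _ r J dig b η hin => ?_⟩
  have hRR0' : R0' ≤ R := (le_max_left _ _).trans hR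
  have hRR0t : R0t ≤ R := ((le_max_left _ _).trans (le_max_right _ _)).trans hR
  have hRpos : 0 < R := lt_of_lt_of_le hR0' hRR0'
  have hRZ : Z ≤ c * R := by
    have : Z / c ≤ R := ((le_max_right _ _).trans (le_max_right _ _)).trans hR
    rw [div_le_iff₀ hc] at this
    linarith
  have hKR : C1' * R ≤ K := (mul_le_mul_of_nonneg_right (le_max_left _ _) hRpos.le).trans hK
  have hKpos : (0 : ℝ) < K := lt_of_lt_of_le (by positivity) hKR
  have hY0 : 0 < Y := lt_of_lt_of_le one_pos hY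
  have hρ0 : 0 < ρ := lt_of_lt_of_le one_pos hρ
  have hZ1 : 0 ≤ 256 * N / δ := by positivity
  have hZ2 : 0 ≤ 4 * ρ * Y / δ ^ (D + 1 + 1) := by positivity
  have hP : C3Par D c δ ρ N Y R K := ⟨hc, hc1, hδ, hδ1, hρ, hN, hY, hRpos, by linarith,
    by linarith, by linarith, by linarith,
    (mul_le_mul_of_nonneg_right (le_max_right _ _) hRpos.le).trans hK, hKpos⟩
  have hη := hin.η0
  have hT := htg R hRR0t Θ l u (fun θ => ∑ i, r i θ ^ (D + 1 + 1)) (c3T l u r) hin.box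
    (continuous_finset_sum _ fun i _ => (hin.cr i).pow _) (fun θ => ⟨by
      have h1 := hin.lo θ
      have h2 := c3_vpos hc hRpos hin θ
      nlinarith, by
      have h1 := hin.hi θ
      have h2 := c3_vpos hc hRpos hin θ
      nlinarith⟩) (fun θ t => rfl)
  have hcls := c3_cls hP hin hT
  have hεpos : 0 < min (c3A D c R / 8) (η / 2 * ((D + 1).factorial * (c * R) ^ (D + 1))) :=
    lt_min (by have := hP.A_pos; positivity) (by positivity)
  obtain ⟨W, v, p, hout⟩ := hch Θ ι J (fun i => dig i 0) K r _ _ _ hcls _ hεpos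
  set cl : Θ × ℝ → Θ × ℝ := fun z => (z.1, max (l 0 z.1 0) (min (u 0 z.1 0) z.2)) with hcl
  have hnext := c3_next hP hin hT.1 (fun θ t => (hT.2.1 θ t).2) (min_le_left _ _)
    (min_le_right _ _) hout (cl := cl) (fun θ t => rfl)
  obtain ⟨W', hW'⟩ := hih R hRR0' K hKR (Θ × ℝ) _ _ ι _ J _ _ _ hnext
  exact ⟨_, stage_assemble hin.box hout.cW hout.sec (cl := cl) (fun θ t => rfl) hW'⟩

theorem stage (D : ℕ) : Stage D := by
  induction D with
  | zero => exact stage_zero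
  | succ D ih => exact stage_succ ih

end Vale.Agent.P209.Strong
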