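import Vale.Agent.P209.Strong.C1

namespace Vale.Agent.P209.Strong

/-! C3. The stage theorem (column lemma with parameters), by induction on the dimension. -/

/-- closed iterated box -/
def cboxSet {n : ℕ} (l u : Fin n → (Fin n → ℝ) → ℝ) : Set (Fin n → ℝ) :=
  {y | ∀ j, l j y ≤ y j ∧ y j ≤ u j y}

/-- input of stage `D` (`D` chain directions and one final direction) -/
structure StageIn (D : ℕ) {Θ : Type} [TopologicalSpace Θ] (c L R δ ρ N : ℝ) (K : ℕ)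
    (l u : Fin (D + 1) → Θ → (Fin (D + 1) → ℝ) → ℝ) {ι : Type} [Fintype ι] [DecidableEq ι]
    (r : ι → Θ → ℝ)
    (J : Finset ι) (dig : ι → Fin D → ℕ) (b η : ℝ) : Prop where
  box : IsBox c L R l u
  cr : ∀ i, Continuous (r i)
  r01 : ∀ i θ, 0 ≤ r i θ ∧ r i θ ≤ 1
  tail : ∀ θ, ∑ i ∈ J, r i θ ≤ N
  dlt : ∀ i k, dig i k < 2 * K
  b0 : 0 < b
  big : ∀ θ (κ : Fin D → ℕ), (∀ k, κ k < 2 * K) →
    b ≤ ((Finset.univ.filter (fun i => i ∉ J ∧ dig i = κ ∧ δ ≤ r i θ)).card : ℝ)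
  act : ∀ θ (κ : Fin D → ℕ), (∀ k, κ k < 2 * K) →
    ((Finset.univ.filter (fun i => i ∉ J ∧ dig i = κ ∧ 0 < r i θ)).card : ℝ) ≤ ρ * b
  η0 : 0 < η
  lo : ∀ θ, (1 / 2 + η) * ((D + 1).factorial * vol (D + 1) l u θ) ≤ ∑ i, r i θ ^ (D + 1)
  hi : ∀ θ, ∑ i, r i θ ^ (D + 1) ≤ (1 - η) * ((D + 1).factorial * vol (D + 1) l u θ)

/-- output of a stage -/
structure StageOut (D : ℕ) {Θ : Type} [TopologicalSpace Θ]
    (l u : Fin (D + 1) → Θ → (Fin (D + 1) → ℝ) → ℝ) {ι : Type} (r : ι → Θ → ℝ)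
    (W : ι → Fin (D + 1) → Θ → (Fin (D + 1) → ℝ) → ℝ → ℝ) : Prop where
  cont : ∀ i j, Continuous fun z : (Θ × (Fin (D + 1) → ℝ)) × ℝ => W i j z.1.1 z.1.2 z.2
  dep : ∀ i θ, DepLt fun j => W i j θ
  sub : ∀ i θ, KK (fun j => W i j θ) (r i θ) ⊆ cboxSet (fun j => l j θ) (fun j => u j θ)
  disj : ∀ i i' θ, i ≠ i' → Disjoint (KK (fun j => W i j θ) (r i θ)) (KK (fun j => W i' j θ) (r i' θ))

/-- statement of stage `D` -/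
def Stage (D : ℕ) : Prop :=
  ∀ c L δ ρ N : ℝ, 0 < c → 0 ≤ L → 0 < δ → δ ≤ 1 → 1 ≤ ρ → 0 ≤ N →
    ∃ C1 R0 : ℝ, 0 < C1 ∧ 0 < R0 ∧ ∀ R : ℝ, R0 ≤ R → ∀ K : ℕ, C1 * R ≤ K →
      ∀ (Θ : Type) [TopologicalSpace Θ] (l u : Fin (D + 1) → Θ → (Fin (D + 1) → ℝ) → ℝ)
        (ι : Type) [Fintype ι] [DecidableEq ι] (r : ι → Θ → ℝ) (J : Finset ι)
        (dig : ι → Fin D → ℕ) (b η : ℝ), StageIn D c L R δ ρ N K l u r J dig b η →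
        ∃ W : ι → Fin (D + 1) → Θ → (Fin (D + 1) → ℝ) → ℝ → ℝ, StageOut D l u r W

end Vale.Agent.P209.Strong
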