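import Vale.Agent.P209.Strong.C3a

set_option linter.all false

namespace Vale.Agent.P209.Strong

section C3z

variable {ι : Type} [Fintype ι] [DecidableEq ι]

/-- left end of the interval of `i` -/
noncomputable def c3zA (e : ι → ℕ) (r : ι → ℝ) (l0 g : ℝ) (i : ι) : ℝ :=
  l0 + ∑ k ∈ Finset.univ.filter (fun k => e k < e i), r k + ((e i : ℝ) + 1) * g

lemma c3z_lt {e : ι → ℕ} {r : ι → ℝ} (hr : ∀ i, 0 ≤ r i) {l0 g : ℝ} (hg : 0 < g) {i i' : ι}
    (h : e i < e i') : c3zA e r l0 g i + r i < c3zA e r l0 g i' := by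
  have h1 : ∑ k ∈ Finset.univ.filter (fun k => e k < e i), r k + r i ≤
      ∑ k ∈ Finset.univ.filter (fun k => e k < e i'), r k := by
    have h2 : i ∉ Finset.univ.filter (fun k => e k < e i) := by simp
    rw [add_comm, ← Finset.sum_insert h2]
    refine Finset.sum_le_sum_of_subset_of_nonneg ?_ fun k _ _ => hr k
    intro k hk
    rcases Finset.mem_insert.1 hk with rfl | hk
    · exact Finset.mem_filter.2 ⟨Finset.mem_univ _, h⟩
    · exact Finset.mem_filter.2 ⟨Finset.mem_univ _, (Finset.mem_filter.1 hk).2.trans h⟩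
  have h3 : ((e i : ℝ) + 1) ≤ (e i' : ℝ) := by exact_mod_cast h
  unfold c3zA
  nlinarith

lemma c3z_ge {e : ι → ℕ} {r : ι → ℝ} (hr : ∀ i, 0 ≤ r i) {l0 g : ℝ} (hg : 0 < g) (i : ι) :
    l0 ≤ c3zA e r l0 g i := by
  unfold c3zA
  have h1 : 0 ≤ ∑ k ∈ Finset.univ.filter (fun k => e k < e i), r k :=
    Finset.sum_nonneg fun k _ => hr k
  have h2 : 0 ≤ ((e i : ℝ) + 1) * g := by positivity
  linarith

lemma c3z_le {e : ι → ℕ} {r : ι → ℝ} (hr : ∀ i, 0 ≤ r i) {l0 g : ℝ} (hg : 0 < g) {C : ℕ}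
    (he : ∀ i, e i < C) (i : ι) :
    c3zA e r l0 g i + r i ≤ l0 + ∑ k, r k + C * g := by
  have h1 : ∑ k ∈ Finset.univ.filter (fun k => e k < e i), r k + r i ≤ ∑ k, r k := by
    have h2 : i ∉ Finset.univ.filter (fun k => e k < e i) := by simp
    rw [add_comm, ← Finset.sum_insert h2]
    exact Finset.sum_le_sum_of_subset_of_nonneg (Finset.subset_univ _) fun k _ _ => hr k
  have h3 : ((e i : ℝ) + 1) ≤ (C : ℝ) := by exact_mod_cast he i
  unfold c3zA
  nlinarith

end C3z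

/-- last direction: intervals next to each other -/
theorem stage_zero : Stage 0 := by
  intro c L δ ρ N hc hL hδ hδ1 hρ hN
  refine ⟨1, 1, one_pos, one_pos, fun R hR K hK Θ _ l u ι _ _ r J dig b η h => ?_⟩
  have hRpos : 0 < R := lt_of_lt_of_le one_pos hR
  set e : ι → ℕ := fun i => (Fintype.equivFin ι i : ℕ) with he
  have heinj : ∀ i i', e i = e i' → i = i' := fun i i' hii =>
    (Fintype.equivFin ι).injective (Fin.ext hii)
  have hec : ∀ i, e i < Fintype.card ι := fun i => (Fintype.equivFin ι i).2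
  have hw : ∀ θ, 0 < u 0 θ 0 - l 0 θ 0 := fun θ =>
    lt_of_lt_of_le (mul_pos hc hRpos) (h.box.lo 0 θ 0)
  have hlc : ∀ θ y, l 0 θ y = l 0 θ 0 := fun θ y =>
    h.box.dep_l θ 0 y 0 fun i hi => absurd hi (by simp)
  have huc : ∀ θ y, u 0 θ y = u 0 θ 0 := fun θ y =>
    h.box.dep_u θ 0 y 0 fun i hi => absurd hi (by simp)
  have hr : ∀ θ i, 0 ≤ r i θ := fun θ i => (h.r01 i θ).1
  have hvol : ∀ θ, vol (0 + 1) l u θ = u 0 θ 0 - l 0 θ 0 := by
    intro θ
    simp [vol]
  have hsum : ∀ θ, ∑ i, r i θ ≤ (1 - η) * (u 0 θ 0 - l 0 θ 0) := by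
    intro θ
    have := h.hi θ
    rw [hvol] at this
    simpa using this
  set g : Θ → ℝ := fun θ => η * (u 0 θ 0 - l 0 θ 0) / (Fintype.card ι + 1) with hg
  have hgpos : ∀ θ, 0 < g θ := fun θ => by
    have h1 := h.η0
    have h2 := hw θ
    simp only [hg]
    positivity
  have hlcont : Continuous fun θ => l 0 θ 0 :=
    (h.box.cont_l 0).comp (continuous_id.prodMk continuous_const)
  have hucont : Continuous fun θ => u 0 θ 0 :=
    (h.box.cont_u 0).comp (continuous_id.prodMk continuous_const)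
  have hgcont : Continuous g := (continuous_const.mul (hucont.sub hlcont)).div_const _
  have hAcont : ∀ i, Continuous fun θ => c3zA e (fun k => r k θ) (l 0 θ 0) (g θ) i := by
    intro i
    unfold c3zA
    exact (hlcont.add (continuous_finsetSum _ fun k _ => h.cr k)).add
      (continuous_const.mul hgcont)
  have hmem : ∀ i θ a, a ∈ KK (n := 0 + 1)
      (fun _ _ _ => c3zA e (fun k => r k θ) (l 0 θ 0) (g θ) i) (r i θ) →
      c3zA e (fun k => r k θ) (l 0 θ 0) (g θ) i ≤ a 0 ∧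
        a 0 ≤ c3zA e (fun k => r k θ) (l 0 θ 0) (g θ) i + r i θ := by
    rintro i θ a ⟨x, hx0, hxn, hx1, hx⟩
    have h1 := hx 0
    have h2 : x ((0 : Fin (0 + 1)) + 1) = 0 := by simpa using hx1
    have h3 : x ((0 : Fin (0 + 1)) : ℕ) = x 0 := rfl
    refine ⟨h1.1, h1.2.trans ?_⟩
    simp only [Fin.val_zero, zero_add] at hx1 ⊢
    rw [hx1]
    linarith
  refine ⟨fun i j θ y x => c3zA e (fun k => r k θ) (l 0 θ 0) (g θ) i, ?_, ?_, ?_, ?_⟩
  · intro i j
    exact (hAcont i).comp (continuous_fst.comp continuous_fst)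
  · intro i θ j y y' _
    rfl
  · intro i θ a ha
    obtain ⟨h1, h2⟩ := hmem i θ a ha
    intro j
    obtain rfl : j = 0 := Fin.ext (by omega)
    change l 0 θ a ≤ a 0 ∧ a 0 ≤ u 0 θ a
    rw [hlc θ a, huc θ a]
    refine ⟨(c3z_ge (hr θ) (hgpos θ) i).trans h1, h2.trans ?_⟩
    refine (c3z_le (hr θ) (hgpos θ) hec i).trans ?_
    have h3 := hsum θ
    have h4 : (Fintype.card ι : ℝ) * g θ ≤ η * (u 0 θ 0 - l 0 θ 0) := by
      have h5 : 0 < (Fintype.card ι : ℝ) + 1 := by positivity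
      have h6 : ((Fintype.card ι : ℝ) + 1) * g θ = η * (u 0 θ 0 - l 0 θ 0) := by
        simp only [hg]
        field_simp
      have h7 := hgpos θ
      linarith
    linarith
  · intro i i' θ hii
    rw [Set.disjoint_left]
    intro a ha ha'
    obtain ⟨h1, h2⟩ := hmem i θ a ha
    obtain ⟨h3, h4⟩ := hmem i' θ a ha'
    rcases lt_trichotomy (e i) (e i') with hlt | heq | hlt
    · have := c3z_lt (hr θ) (l0 := l 0 θ 0) (hgpos θ) hlt
      linarith
    · exact hii (heinj i i' heq)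
    · have := c3z_lt (hr θ) (l0 := l 0 θ 0) (hgpos θ) hlt
      linarith

end Vale.Agent.P209.Strong
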