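import Vale.Agent.P209.Strong.B7
import Vale.Agent.P209.Strong.C2

namespace Vale.Agent.P209.Strong

/-! C4. The chain lemma in terms of classes. The balls are indexed by a finite type `ι`; the balls in
`J` are the tail balls, the other balls have a class `cls i < 2 * K`; classes `< K` are L-balls (as
are the tail balls), classes `≥ K` are R-balls. -/

/-- input -/
structure ClsIn {Θ : Type} [TopologicalSpace Θ] (q : ℕ) (δ ρ C Y : ℝ) {ι : Type} [Fintype ι]
    [DecidableEq ι] (J : Finset ι) (cls : ι → ℕ) (K : ℕ) (r : ι → Θ → ℝ) (T : Θ → ℝ)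
    (A : Θ → ℝ → ℝ) (A0 : ℝ) : Prop where
  hA0 : Y ≤ A0
  cT : Continuous T
  cA : Continuous fun z : Θ × ℝ => A z.1 z.2
  cr : ∀ i, Continuous (r i)
  r01 : ∀ i θ, 0 ≤ r i θ ∧ r i θ ≤ 1
  hT : ∀ θ, 0 < T θ
  bdA : ∀ θ t, A0 ≤ A θ t ∧ A θ t ≤ C * A0
  lipA : ∀ θ t t', |A θ t - A θ t'| ≤ A0 / 256 * |t - t'|
  tail : ∀ θ, ∑ i ∈ J, r i θ ≤ A0 / 8
  clt : ∀ i, i ∉ J → cls i < 2 * K
  cnt : ∀ θ k, k < 2 * K →
    ((Finset.univ.filter (fun i => i ∉ J ∧ cls i = k ∧ 0 < r i θ)).card : ℝ) ≤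
      ρ * ((Finset.univ.filter (fun i => i ∉ J ∧ cls i = k ∧ δ ≤ r i θ)).card : ℝ)
  cnt2 : ∀ θ k, k < 2 * K →
    ((Finset.univ.filter (fun i => i ∉ J ∧ cls i = k ∧ 0 < r i θ)).card : ℝ) ≤ A0 / Y
  volL : ∀ θ, Y * A0 ≤ ∑ i ∈ Finset.univ.filter (fun i => i ∉ J ∧ cls i < K), r i θ ^ (q + 1) / (q + 1)
  volR : ∀ θ, Y * A0 ≤ ∑ i ∈ Finset.univ.filter (fun i => i ∉ J ∧ K ≤ cls i), r i θ ^ (q + 1) / (q + 1)
  bal : ∀ θ, ∫ t in (0 : ℝ)..T θ, A θ t = ∑ i, r i θ ^ (q + 1) / (q + 1)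

/-- output -/
structure ClsOut {Θ : Type} [TopologicalSpace Θ] (q : ℕ) (δ ε : ℝ) {ι : Type} [Fintype ι]
    [DecidableEq ι] (J : Finset ι) (cls : ι → ℕ) (K : ℕ) (r : ι → Θ → ℝ) (T : Θ → ℝ)
    (A : Θ → ℝ → ℝ) (A0 : ℝ) (W v : ι → Θ → ℝ → ℝ) (p : ι → Θ → ℝ) : Prop where
  cW : ∀ i, Continuous fun z : Θ × ℝ => W i z.1 z.2
  cv : ∀ i, Continuous fun z : Θ × ℝ => v i z.1 z.2
  v_nn : ∀ i θ t, 0 ≤ v i θ t
  v_le : ∀ i θ t, v i θ t ≤ r i θ
  sec : ∀ i θ x t, 0 ≤ x → x ≤ r i θ → W i θ x ≤ t → t ≤ W i θ x + (r i θ - x) →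
    0 ≤ t ∧ t ≤ T θ ∧ x ≤ v i θ t
  supp : ∀ i θ t, 0 ≤ t → t ≤ T θ → 0 < v i θ t → |t - p i θ| ≤ 1
  lowL : ∀ i, i ∉ J → cls i < K → ∀ θ t, 0 ≤ t → t ≤ T θ → p i θ ≤ t →
    r i θ - 2 * (t - p i θ) ≤ v i θ t
  lowR : ∀ i, i ∉ J → K ≤ cls i → ∀ θ t, 0 ≤ t → t ≤ T θ → t ≤ p i θ →
    r i θ - 2 * (p i θ - t) ≤ v i θ t
  int : ∀ i θ, ∫ t in (0 : ℝ)..T θ, v i θ t ^ q = r i θ ^ (q + 1) / (q + 1)
  monoL : ∀ i j θ, i ∉ J → j ∉ J → cls i < cls j → cls j < K → p i θ ≤ p j θ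
  monoR : ∀ i j θ, i ∉ J → j ∉ J → K ≤ cls i → cls i < cls j → p i θ ≤ p j θ
  mass : ∀ θ t, 0 ≤ t → t ≤ T θ →
    (δ / 64 * A0 ≤ ∑ i ∈ Finset.univ.filter
      (fun i => (i ∈ J ∨ cls i < K) ∧ t - δ / 16 ≤ p i θ ∧ p i θ ≤ t), r i θ ^ q) ∨
    (δ / 64 * A0 ≤ ∑ i ∈ Finset.univ.filter
      (fun i => i ∉ J ∧ K ≤ cls i ∧ t ≤ p i θ ∧ p i θ ≤ t + δ / 16), r i θ ^ q)
  sum : ∀ θ t, 0 ≤ t → t ≤ T θ → |∑ i, v i θ t ^ q - A θ t| ≤ ε

/-! ### enumerations -/

section Enum

variable {ι : Type} [DecidableEq ι] {S : Finset ι} (e : Fin S.card ≃ S)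

/-- index of an element of `S` -/
noncomputable def idx (i : ι) : ℕ := if h : i ∈ S then (e.symm ⟨i, h⟩ : ℕ) else 0

/-- pull back a function on `ι` to the indices -/
noncomputable def pull {β : Type} (d : β) (g : ι → β) (n : ℕ) : β :=
  if h : n < S.card then g (e ⟨n, h⟩) else d

theorem idx_lt {i : ι} (hi : i ∈ S) : idx e i < S.card := by
  unfold idx
  rw [dif_pos hi]
  exact (e.symm _).2

theorem idx_e (n : ℕ) (h : n < S.card) : idx e (e ⟨n, h⟩) = n := by
  simp [idx]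

theorem e_idx {i : ι} (hi : i ∈ S) (h : idx e i < S.card) : (e ⟨idx e i, h⟩ : ι) = i := by
  have : (⟨idx e i, h⟩ : Fin S.card) = e.symm ⟨i, hi⟩ := by
    apply Fin.ext
    simp [idx, hi]
  rw [this]
  simp

theorem pull_idx {β : Type} (d : β) (g : ι → β) {i : ι} (hi : i ∈ S) :
    pull e d g (idx e i) = g i := by
  unfold pull
  rw [dif_pos (idx_lt e hi), e_idx e hi]

theorem sum_range_idx (F : ℕ → ℝ) : ∑ n ∈ Finset.range S.card, F n = ∑ i ∈ S, F (idx e i) := by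
  rw [Finset.sum_range, ← Finset.sum_coe_sort S, ← Equiv.sum_comp e]
  refine Finset.sum_congr rfl fun n _ => ?_
  rw [idx_e e n.1 n.2]

theorem sum_filter_idx (P : ℕ → Prop) [DecidablePred P] (F : ℕ → ℝ) :
    ∑ n ∈ (Finset.range S.card).filter P, F n = ∑ i ∈ S.filter (fun i => P (idx e i)), F (idx e i) := by
  rw [Finset.sum_filter, Finset.sum_filter, sum_range_idx e]

theorem card_filter_idx (P : ℕ → Prop) [DecidablePred P] :
    (((Finset.range S.card).filter P).card : ℝ) = ((S.filter (fun i => P (idx e i))).card : ℝ) := by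
  have := sum_filter_idx e P (fun _ => 1)
  simpa using this

theorem idx_lt_idx {key : ι → ℤ} (he : ∀ i j, i ≤ j → key (e i) ≤ key (e j)) {i j : ι} (hi : i ∈ S)
    (hj : j ∈ S) (h : key i < key j) : idx e i < idx e j := by
  by_contra hc
  push Not at hc
  have := he ⟨idx e j, idx_lt e hj⟩ ⟨idx e i, idx_lt e hi⟩ hc
  rw [e_idx e hj, e_idx e hi] at this
  exact absurd h (not_lt.2 this)

theorem mem_iff_idx {key : ι → ℤ} (he : ∀ i j, i ≤ j → key (e i) ≤ key (e j)) {J : Finset ι}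
    (hJ : J ⊆ S) (hkey : ∀ i ∈ J, ∀ j ∈ S, j ∉ J → key i < key j) {i : ι} (hi : i ∈ S) :
    i ∈ J ↔ idx e i < J.card := by
  have inj : ∀ a ∈ J, ∀ b ∈ J, idx e a = idx e b → a = b := by
    intro a ha b hb hab
    have h1 := e_idx e (hJ ha) (idx_lt e (hJ ha))
    have h2 := e_idx e (hJ hb) (idx_lt e (hJ hb))
    rw [← h1, ← h2]
    congr 2
    exact Fin.ext hab
  have hcard : (J.image (idx e)).card = J.card :=
    Finset.card_image_of_injOn fun a ha b hb hab => inj a ha b hb hab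
  constructor
  · intro hiJ
    have hsub : Finset.range (idx e i + 1) ⊆ J.image (idx e) := by
      intro m hm
      rw [Finset.mem_range] at hm
      have hmS : m < S.card := lt_of_lt_of_le hm (idx_lt e hi)
      have hmem : (e ⟨m, hmS⟩ : ι) ∈ J := by
        by_contra hc
        have := idx_lt_idx e he (hJ hiJ) (e ⟨m, hmS⟩).2 (hkey i hiJ _ (e ⟨m, hmS⟩).2 hc)
        rw [idx_e] at this
        omega
      exact Finset.mem_image.2 ⟨_, hmem, idx_e e m hmS⟩
    have := Finset.card_le_card hsub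
    rw [hcard, Finset.card_range] at this
    omega
  · intro hlt
    by_contra hc
    have hsub : J.image (idx e) ⊆ Finset.range (idx e i) := by
      intro m hm
      obtain ⟨a, ha, rfl⟩ := Finset.mem_image.1 hm
      rw [Finset.mem_range]
      exact idx_lt_idx e he (hJ ha) hi (hkey a ha i hi hc)
    have := Finset.card_le_card hsub
    rw [hcard, Finset.card_range] at this
    omega

end Enum

/-- one side of the suffix condition -/
theorem suffix_of_classes {ι : Type} [Fintype ι] [DecidableEq ι] {S J : Finset ι} (hJS : J ⊆ S)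
    (e : Fin S.card ≃ S)
    (key : ι → ℤ) (he : ∀ i j, i ≤ j → key (e i) ≤ key (e j))
    (hkey : ∀ i ∈ J, ∀ j ∈ S, j ∉ J → key i < key j)
    (a b : ℕ → Prop) [DecidablePred a] [DecidablePred b] {ρ X : ℝ} (hρ : 0 ≤ ρ) (hX : 0 ≤ X)
    (h1 : ∀ j ∈ S, j ∉ J → ((S.filter (fun i => key i = key j ∧ a (idx e i))).card : ℝ) ≤
      ρ * ((S.filter (fun i => key i = key j ∧ b (idx e i))).card : ℝ))
    (h2 : ∀ j ∈ S, j ∉ J → ((S.filter (fun i => key i = key j ∧ a (idx e i))).card : ℝ) ≤ X)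
    (s : ℕ) (hs : J.card ≤ s) :
    (((Finset.range S.card).filter (fun i => s ≤ i ∧ a i)).card : ℝ) ≤
      ρ * (((Finset.range S.card).filter (fun i => s ≤ i ∧ b i)).card : ℝ) + X := by
  have hpull : ∀ i ∈ S, pull e 0 key (idx e i) = key i := fun i hi => pull_idx e 0 key hi
  have hrep : ∀ n, J.card ≤ n → n < S.card → ∃ j ∈ S, j ∉ J ∧ idx e j = n := by
    intro n h1 h2
    refine ⟨e ⟨n, h2⟩, (e ⟨n, h2⟩).2, ?_, idx_e e n h2⟩
    intro hc
    have := (mem_iff_idx e he hJS hkey (e ⟨n, h2⟩).2).1 hc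
    rw [idx_e] at this
    omega
  have hfil : ∀ (κ : ℤ) (P : ℕ → Prop) [DecidablePred P],
      (((Finset.range S.card).filter (fun i => pull e 0 key i = κ ∧ P i)).card : ℝ) =
      ((S.filter (fun i => key i = κ ∧ P (idx e i))).card : ℝ) := by
    intro κ P _
    rw [card_filter_idx e]
    congr 2
    apply Finset.filter_congr
    intro i hi
    rw [hpull i hi]
  refine class_suffix (N := S.card) (NJ := J.card) (pull e 0 key) ?_ a b hρ hX ?_ ?_ ?_ s hs
  · intro i j hij hj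
    have hi : i < S.card := lt_of_le_of_lt hij hj
    unfold pull
    rw [dif_pos hi, dif_pos hj]
    exact he _ _ hij
  · rintro κ ⟨n, hn1, hn2, rfl⟩
    obtain ⟨j, hj, hjJ, rfl⟩ := hrep n hn1 hn2
    rw [hfil, hfil, hpull j hj]
    exact h1 j hj hjJ
  · rintro κ ⟨n, hn1, hn2, rfl⟩
    obtain ⟨j, hj, hjJ, rfl⟩ := hrep n hn1 hn2
    rw [hfil, hpull j hj]
    exact h2 j hj hjJ
  · intro i hi n hn1 hn2
    obtain ⟨j, hj, hjJ, rfl⟩ := hrep n hn1 hn2
    have hi' : i < S.card := lt_of_lt_of_le hi (Finset.card_le_card hJS)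
    have hiJ : (e ⟨i, hi'⟩ : ι) ∈ J := by
      rw [mem_iff_idx e he hJS hkey (e ⟨i, hi'⟩).2, idx_e]
      exact hi
    rw [hpull j hj]
    have : pull e 0 key i = key (e ⟨i, hi'⟩) := by
      unfold pull
      rw [dif_pos hi']
    rw [this]
    exact hkey _ hiJ j hj hjJ

/-- C4a. -/
theorem chain_classes (q : ℕ) (hq : 1 ≤ q) (δ ρ C : ℝ) (hδ : 0 < δ) (hδ1 : δ ≤ 1) (hρ : 1 ≤ ρ)
    (hC : 1 ≤ C) : ∃ Y : ℝ, 1 ≤ Y ∧
    ∀ (Θ : Type) [TopologicalSpace Θ] (ι : Type) [Fintype ι] [DecidableEq ι] (J : Finset ι)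
      (cls : ι → ℕ) (K : ℕ) (r : ι → Θ → ℝ) (T : Θ → ℝ) (A : Θ → ℝ → ℝ) (A0 : ℝ),
      ClsIn q δ ρ C Y J cls K r T A A0 → ∀ ε : ℝ, 0 < ε →
        ∃ (W v : ι → Θ → ℝ → ℝ) (p : ι → Θ → ℝ), ClsOut q δ ε J cls K r T A A0 W v p := by
  obtain ⟨Y, hY, H⟩ := chain_lemma q hq δ ρ C hδ hδ1 hρ hC
  refine ⟨Y, hY, ?_⟩
  intro Θ _ ι _ _ J cls K r T A A0 h ε hε
  have hY0 : (0 : ℝ) < Y := by linarith
  have hA0 : (0 : ℝ) < A0 := by linarith [h.hA0]
  have hX : 0 ≤ A0 / Y := by positivity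
  have hρ0 : 0 ≤ ρ := by linarith
  -- the two sides
  set SL : Finset ι := Finset.univ.filter (fun i => i ∈ J ∨ cls i < K) with hSL
  set SR : Finset ι := Finset.univ.filter (fun i => i ∉ J ∧ K ≤ cls i) with hSR
  have memL : ∀ i, i ∈ SL ↔ (i ∈ J ∨ cls i < K) := fun i => by simp [hSL]
  have memR : ∀ i, i ∈ SR ↔ (i ∉ J ∧ K ≤ cls i) := fun i => by simp [hSR]
  have memR' : ∀ i, i ∈ SR ↔ i ∉ SL := fun i => by
    rw [memR, memL]
    push Not
    rfl
  have hJL : J ⊆ SL := fun i hi => (memL i).2 (Or.inl hi)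
  have hsplit : ∀ f : ι → ℝ, ∑ i, f i = ∑ i ∈ SL, f i + ∑ i ∈ SR, f i := by
    intro f
    have hSR' : SR = Finset.univ.filter (fun i => ¬ (i ∈ J ∨ cls i < K)) := by
      ext i
      simp only [hSR, Finset.mem_filter, Finset.mem_univ, true_and]
      push Not
      rfl
    rw [hSR', hSL]
    exact (Finset.sum_filter_add_sum_filter_not _ _ _).symm
  set keyL : ι → ℤ := fun i => if i ∈ J then -1 else (cls i : ℤ) with hkeyL
  set keyR : ι → ℤ := fun i => -(cls i : ℤ) with hkeyR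
  obtain ⟨eL, heL⟩ := exists_enum SL keyL
  obtain ⟨eR, heR⟩ := exists_enum SR keyR
  have kL_J : ∀ i ∈ J, keyL i = -1 := fun i hi => by simp [hkeyL, hi]
  have kL_nJ : ∀ i, i ∉ J → keyL i = (cls i : ℤ) := fun i hi => by simp [hkeyL, hi]
  have hkL : ∀ i ∈ J, ∀ j ∈ SL, j ∉ J → keyL i < keyL j := by
    intro i hi j _ hj
    rw [kL_J i hi, kL_nJ j hj]
    have : (0 : ℤ) ≤ (cls j : ℤ) := Int.natCast_nonneg _
    linarith
  -- class filters
  have filL : ∀ j ∈ SL, j ∉ J → ∀ (P : ι → Prop) [DecidablePred P],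
      SL.filter (fun i => keyL i = keyL j ∧ P i) =
        Finset.univ.filter (fun i => i ∉ J ∧ cls i = cls j ∧ P i) := by
    intro j hj hjJ P _
    have hjK : cls j < K := by
      rcases (memL j).1 hj with h' | h'
      · exact absurd h' hjJ
      · exact h'
    ext i
    simp only [Finset.mem_filter, Finset.mem_univ, true_and, memL]
    rw [kL_nJ j hjJ]
    constructor
    · rintro ⟨_, h1, h2⟩
      have hiJ : i ∉ J := by
        intro hc
        rw [kL_J i hc] at h1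
        have : (0 : ℤ) ≤ (cls j : ℤ) := Int.natCast_nonneg _
        linarith
      rw [kL_nJ i hiJ] at h1
      exact ⟨hiJ, by exact_mod_cast h1, h2⟩
    · rintro ⟨h0, h1, h2⟩
      refine ⟨Or.inr (by rw [h1]; exact hjK), ?_, h2⟩
      rw [kL_nJ i h0, h1]
  have filR : ∀ j ∈ SR, ∀ (P : ι → Prop) [DecidablePred P],
      SR.filter (fun i => keyR i = keyR j ∧ P i) =
        Finset.univ.filter (fun i => i ∉ J ∧ cls i = cls j ∧ P i) := by
    intro j hj P _
    have hjK : K ≤ cls j := ((memR j).1 hj).2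
    ext i
    simp only [Finset.mem_filter, Finset.mem_univ, true_and, memR, hkeyR]
    constructor
    · rintro ⟨⟨h0, _⟩, h1, h2⟩
      exact ⟨h0, by have := neg_inj.1 h1; exact_mod_cast this, h2⟩
    · rintro ⟨h0, h1, h2⟩
      exact ⟨⟨h0, by rw [h1]; exact hjK⟩, by rw [h1], h2⟩
  -- sizes
  set uL : ℕ → Θ → ℝ := fun n θ => pull eL 0 (fun i => r i θ) n with huL
  set uR : ℕ → Θ → ℝ := fun n θ => pull eR 0 (fun i => r i θ) n with huR
  have uL_idx : ∀ i ∈ SL, ∀ θ, uL (idx eL i) θ = r i θ := fun i hi θ => pull_idx eL 0 _ hi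
  have uR_idx : ∀ i ∈ SR, ∀ θ, uR (idx eR i) θ = r i θ := fun i hi θ => pull_idx eR 0 _ hi
  have uL_cont : ∀ n, Continuous (uL n) := by
    intro n
    by_cases hn : n < SL.card
    · have : uL n = r (eL ⟨n, hn⟩) := by
        funext θ
        simp only [huL, pull, dif_pos hn]
      rw [this]
      exact h.cr _
    · have : uL n = fun _ => 0 := by
        funext θ
        simp only [huL, pull, dif_neg hn]
      rw [this]
      exact continuous_const
  have uR_cont : ∀ n, Continuous (uR n) := by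
    intro n
    by_cases hn : n < SR.card
    · have : uR n = r (eR ⟨n, hn⟩) := by
        funext θ
        simp only [huR, pull, dif_pos hn]
      rw [this]
      exact h.cr _
    · have : uR n = fun _ => 0 := by
        funext θ
        simp only [huR, pull, dif_neg hn]
      rw [this]
      exact continuous_const
  have uL_01 : ∀ n θ, 0 ≤ uL n θ ∧ uL n θ ≤ 1 := by
    intro n θ
    by_cases hn : n < SL.card
    · simp only [huL, pull, dif_pos hn]
      exact h.r01 _ θ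
    · simp only [huL, pull, dif_neg hn]
      exact ⟨le_rfl, zero_le_one⟩
  have uR_01 : ∀ n θ, 0 ≤ uR n θ ∧ uR n θ ≤ 1 := by
    intro n θ
    by_cases hn : n < SR.card
    · simp only [huR, pull, dif_pos hn]
      exact h.r01 _ θ
    · simp only [huR, pull, dif_neg hn]
      exact ⟨le_rfl, zero_le_one⟩
  -- power sums
  have sumL : ∀ θ, ∑ i ∈ Finset.range SL.card, uL i θ ^ (q + 1) / ((q : ℝ) + 1) =
      ∑ i ∈ SL, r i θ ^ (q + 1) / ((q : ℝ) + 1) := by
    intro θ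
    rw [sum_range_idx eL (fun n => uL n θ ^ (q + 1) / ((q : ℝ) + 1))]
    refine Finset.sum_congr rfl fun i hi => ?_
    rw [uL_idx i hi]
  have sumR : ∀ θ, ∑ i ∈ Finset.range SR.card, uR i θ ^ (q + 1) / ((q : ℝ) + 1) =
      ∑ i ∈ SR, r i θ ^ (q + 1) / ((q : ℝ) + 1) := by
    intro θ
    rw [sum_range_idx eR (fun n => uR n θ ^ (q + 1) / ((q : ℝ) + 1))]
    refine Finset.sum_congr rfl fun i hi => ?_
    rw [uR_idx i hi]
  have hpos : ∀ i θ, 0 ≤ r i θ ^ (q + 1) / ((q : ℝ) + 1) := fun i θ => by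
    have := (h.r01 i θ).1
    positivity
  -- tail
  have htail : ∀ θ, ∑ i ∈ Finset.range J.card, uL i θ ≤ A0 / 8 := by
    intro θ
    have h1 : Finset.range J.card = (Finset.range SL.card).filter (fun n => n < J.card) := by
      ext n
      simp only [Finset.mem_range, Finset.mem_filter]
      constructor
      · intro hn
        exact ⟨lt_of_lt_of_le hn (Finset.card_le_card hJL), hn⟩
      · exact fun hn => hn.2
    rw [h1, sum_filter_idx eL (fun n => n < J.card) (fun n => uL n θ)]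
    have h2 : SL.filter (fun i => idx eL i < J.card) = J := by
      ext i
      simp only [Finset.mem_filter]
      constructor
      · rintro ⟨hi, hlt⟩
        exact (mem_iff_idx eL heL hJL hkL hi).2 hlt
      · intro hi
        exact ⟨hJL hi, (mem_iff_idx eL heL hJL hkL (hJL hi)).1 hi⟩
    rw [h2]
    have h3 : ∑ i ∈ J, uL (idx eL i) θ = ∑ i ∈ J, r i θ :=
      Finset.sum_congr rfl fun i hi => uL_idx i (hJL hi) θ
    rw [h3]
    exact h.tail θ
  -- suffix conditions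
  have hsufL : ∀ θ s, J.card ≤ s →
      (((Finset.range SL.card).filter (fun i => s ≤ i ∧ 0 < uL i θ)).card : ℝ) ≤
        ρ * (((Finset.range SL.card).filter (fun i => s ≤ i ∧ δ ≤ uL i θ)).card : ℝ) +
          A0 / Y := by
    intro θ s hs
    refine suffix_of_classes hJL eL keyL heL hkL (fun n => 0 < uL n θ) (fun n => δ ≤ uL n θ) hρ0 hX
      ?_ ?_ s hs
    · intro j hj hjJ
      have e1 : SL.filter (fun i => keyL i = keyL j ∧ 0 < uL (idx eL i) θ) =
          SL.filter (fun i => keyL i = keyL j ∧ 0 < r i θ) :=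
        Finset.filter_congr fun i hi => by rw [uL_idx i hi]
      have e2 : SL.filter (fun i => keyL i = keyL j ∧ δ ≤ uL (idx eL i) θ) =
          SL.filter (fun i => keyL i = keyL j ∧ δ ≤ r i θ) :=
        Finset.filter_congr fun i hi => by rw [uL_idx i hi]
      rw [e1, e2, filL j hj hjJ (fun i => 0 < r i θ), filL j hj hjJ (fun i => δ ≤ r i θ)]
      exact h.cnt θ (cls j) (h.clt j hjJ)
    · intro j hj hjJ
      have e1 : SL.filter (fun i => keyL i = keyL j ∧ 0 < uL (idx eL i) θ) =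
          SL.filter (fun i => keyL i = keyL j ∧ 0 < r i θ) :=
        Finset.filter_congr fun i hi => by rw [uL_idx i hi]
      rw [e1, filL j hj hjJ (fun i => 0 < r i θ)]
      exact h.cnt2 θ (cls j) (h.clt j hjJ)
  have hsufR : ∀ θ s,
      (((Finset.range SR.card).filter (fun i => s ≤ i ∧ 0 < uR i θ)).card : ℝ) ≤
        ρ * (((Finset.range SR.card).filter (fun i => s ≤ i ∧ δ ≤ uR i θ)).card : ℝ) +
          A0 / Y := by
    intro θ s
    refine suffix_of_classes (J := ∅) (Finset.empty_subset _) eR keyR heR ?_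
      (fun n => 0 < uR n θ) (fun n => δ ≤ uR n θ) hρ0 hX ?_ ?_ s (by simp)
    · intro i hi
      exact absurd hi (Finset.notMem_empty i)
    · intro j hj _
      have e1 : SR.filter (fun i => keyR i = keyR j ∧ 0 < uR (idx eR i) θ) =
          SR.filter (fun i => keyR i = keyR j ∧ 0 < r i θ) :=
        Finset.filter_congr fun i hi => by rw [uR_idx i hi]
      have e2 : SR.filter (fun i => keyR i = keyR j ∧ δ ≤ uR (idx eR i) θ) =
          SR.filter (fun i => keyR i = keyR j ∧ δ ≤ r i θ) :=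
        Finset.filter_congr fun i hi => by rw [uR_idx i hi]
      rw [e1, e2, filR j hj (fun i => 0 < r i θ), filR j hj (fun i => δ ≤ r i θ)]
      exact h.cnt θ (cls j) (h.clt j ((memR j).1 hj).1)
    · intro j hj _
      have e1 : SR.filter (fun i => keyR i = keyR j ∧ 0 < uR (idx eR i) θ) =
          SR.filter (fun i => keyR i = keyR j ∧ 0 < r i θ) :=
        Finset.filter_congr fun i hi => by rw [uR_idx i hi]
      rw [e1, filR j hj (fun i => 0 < r i θ)]
      exact h.cnt2 θ (cls j) (h.clt j ((memR j).1 hj).1)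
  -- volumes
  have hvolL : ∀ θ, Y * A0 ≤ ∑ i ∈ Finset.range SL.card, uL i θ ^ (q + 1) / ((q : ℝ) + 1) := by
    intro θ
    rw [sumL θ]
    refine (h.volL θ).trans ?_
    refine Finset.sum_le_sum_of_subset_of_nonneg ?_ fun i _ _ => hpos i θ
    intro i hi
    simp only [Finset.mem_filter, Finset.mem_univ, true_and] at hi
    exact (memL i).2 (Or.inr hi.2)
  have hvolR : ∀ θ, Y * A0 ≤ ∑ i ∈ Finset.range SR.card, uR i θ ^ (q + 1) / ((q : ℝ) + 1) := by
    intro θ
    rw [sumR θ]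
    exact h.volR θ
  have hbal : ∀ θ, ∫ t in (0 : ℝ)..T θ, A θ t =
      ∑ i ∈ Finset.range SL.card, uL i θ ^ (q + 1) / ((q : ℝ) + 1) +
        ∑ i ∈ Finset.range SR.card, uR i θ ^ (q + 1) / ((q : ℝ) + 1) := by
    intro θ
    rw [sumL θ, sumR θ, ← hsplit]
    exact h.bal θ
  obtain ⟨WL, WR, vL, vR, pL, pR, O⟩ := H Θ SL.card SR.card J.card uL uR T A A0 h.hA0
    (Finset.card_le_card hJL) h.cT h.cA uL_cont uR_cont uL_01 uR_01 h.hT h.bdA h.lipA htail
    hsufL hsufR hvolL hvolR hbal ε hε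
  -- the output
  set W : ι → Θ → ℝ → ℝ := fun i => if i ∈ SL then WL (idx eL i) else WR (idx eR i) with hW
  set v : ι → Θ → ℝ → ℝ := fun i => if i ∈ SL then vL (idx eL i) else vR (idx eR i) with hv
  set p : ι → Θ → ℝ := fun i => if i ∈ SL then pL (idx eL i) else pR (idx eR i) with hp
  have WL' : ∀ i ∈ SL, W i = WL (idx eL i) := fun i hi => by simp only [hW, if_pos hi]
  have vL' : ∀ i ∈ SL, v i = vL (idx eL i) := fun i hi => by simp only [hv, if_pos hi]
  have pL' : ∀ i ∈ SL, p i = pL (idx eL i) := fun i hi => by simp only [hp, if_pos hi]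
  have WR' : ∀ i ∈ SR, W i = WR (idx eR i) := fun i hi => by
    simp only [hW, if_neg ((memR' i).1 hi)]
  have vR' : ∀ i ∈ SR, v i = vR (idx eR i) := fun i hi => by
    simp only [hv, if_neg ((memR' i).1 hi)]
  have pR' : ∀ i ∈ SR, p i = pR (idx eR i) := fun i hi => by
    simp only [hp, if_neg ((memR' i).1 hi)]
  have hor : ∀ i, i ∈ SL ∨ i ∈ SR := fun i => by
    by_cases hi : i ∈ SL
    · exact Or.inl hi
    · exact Or.inr ((memR' i).2 hi)
  refine ⟨W, v, p, ?_⟩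
  constructor
  · intro i
    rcases hor i with hi | hi
    · rw [WL' i hi]
      exact O.cWL _
    · rw [WR' i hi]
      exact O.cWR _
  · intro i
    rcases hor i with hi | hi
    · rw [vL' i hi]
      exact O.cvL _
    · rw [vR' i hi]
      exact O.cvR _
  · intro i θ t
    rcases hor i with hi | hi
    · rw [vL' i hi]
      exact O.vL_nn _ θ t
    · rw [vR' i hi]
      exact O.vR_nn _ θ t
  · intro i θ t
    rcases hor i with hi | hi
    · rw [vL' i hi, ← uL_idx i hi]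
      exact O.vL_le _ θ t
    · rw [vR' i hi, ← uR_idx i hi]
      exact O.vR_le _ θ t
  · intro i θ x t hx0 hx1 ht1 ht2
    rcases hor i with hi | hi
    · rw [← uL_idx i hi] at hx1 ht2
      rw [WL' i hi] at ht1 ht2
      rw [vL' i hi]
      exact O.secL _ (idx_lt eL hi) θ x t hx0 hx1 ht1 ht2
    · rw [← uR_idx i hi] at hx1 ht2
      rw [WR' i hi] at ht1 ht2
      rw [vR' i hi]
      exact O.secR _ (idx_lt eR hi) θ x t hx0 hx1 ht1 ht2
  · intro i θ t ht0 ht1 hvt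
    rcases hor i with hi | hi
    · rw [vL' i hi] at hvt
      rw [pL' i hi]
      exact O.suppL _ (idx_lt eL hi) θ t ht0 ht1 hvt
    · rw [vR' i hi] at hvt
      rw [pR' i hi]
      exact O.suppR _ (idx_lt eR hi) θ t ht0 ht1 hvt
  · intro i hiJ hiK θ t ht0 ht1 hpt
    have hi : i ∈ SL := (memL i).2 (Or.inr hiK)
    rw [pL' i hi] at hpt ⊢
    rw [vL' i hi, ← uL_idx i hi]
    exact O.lowL _ (idx_lt eL hi) θ t ht0 ht1 hpt
  · intro i hiJ hiK θ t ht0 ht1 hpt
    have hi : i ∈ SR := (memR i).2 ⟨hiJ, hiK⟩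
    rw [pR' i hi] at hpt ⊢
    rw [vR' i hi, ← uR_idx i hi]
    exact O.lowR _ (idx_lt eR hi) θ t ht0 ht1 hpt
  · intro i θ
    rcases hor i with hi | hi
    · rw [vL' i hi, ← uL_idx i hi]
      exact O.intL _ (idx_lt eL hi) θ
    · rw [vR' i hi, ← uR_idx i hi]
      exact O.intR _ (idx_lt eR hi) θ
  · intro i j θ hiJ hjJ hij hjK
    have hi : i ∈ SL := (memL i).2 (Or.inr (hij.trans hjK))
    have hj : j ∈ SL := (memL j).2 (Or.inr hjK)
    rw [pL' i hi, pL' j hj]
    refine O.monoL _ _ θ (le_of_lt ?_) (idx_lt eL hj)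
    refine idx_lt_idx eL heL hi hj ?_
    rw [kL_nJ i hiJ, kL_nJ j hjJ]
    exact_mod_cast hij
  · intro i j θ hiJ hjJ hiK hij
    have hi : i ∈ SR := (memR i).2 ⟨hiJ, hiK⟩
    have hj : j ∈ SR := (memR j).2 ⟨hjJ, hiK.trans hij.le⟩
    rw [pR' i hi, pR' j hj]
    refine O.monoR _ _ θ (le_of_lt ?_) (idx_lt eR hi)
    refine idx_lt_idx eR heR hj hi ?_
    simp only [hkeyR]
    have : (cls i : ℤ) < (cls j : ℤ) := by exact_mod_cast hij
    linarith
  · intro θ t ht0 ht1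
    rcases O.mass θ t ht0 ht1 with hm | hm
    · left
      refine hm.trans (le_of_eq ?_)
      rw [sum_filter_idx eL (fun n => t - δ / 16 ≤ pL n θ ∧ pL n θ ≤ t) (fun n => uL n θ ^ q)]
      have hf : Finset.univ.filter
          (fun i => (i ∈ J ∨ cls i < K) ∧ t - δ / 16 ≤ p i θ ∧ p i θ ≤ t) =
          SL.filter (fun i => t - δ / 16 ≤ pL (idx eL i) θ ∧ pL (idx eL i) θ ≤ t) := by
        ext i
        simp only [Finset.mem_filter, Finset.mem_univ, true_and]
        rw [← memL i]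
        refine and_congr_right fun hi => ?_
        rw [pL' i hi]
      rw [hf]
      refine Finset.sum_congr rfl fun i hi => ?_
      rw [uL_idx i (Finset.mem_filter.1 hi).1]
    · right
      refine hm.trans (le_of_eq ?_)
      rw [sum_filter_idx eR (fun n => t ≤ pR n θ ∧ pR n θ ≤ t + δ / 16) (fun n => uR n θ ^ q)]
      have hf : Finset.univ.filter
          (fun i => i ∉ J ∧ K ≤ cls i ∧ t ≤ p i θ ∧ p i θ ≤ t + δ / 16) =
          SR.filter (fun i => t ≤ pR (idx eR i) θ ∧ pR (idx eR i) θ ≤ t + δ / 16) := by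
        ext i
        simp only [Finset.mem_filter, Finset.mem_univ, true_and]
        rw [← and_assoc, ← memR i]
        refine and_congr_right fun hi => ?_
        rw [pR' i hi]
      rw [hf]
      refine Finset.sum_congr rfl fun i hi => ?_
      rw [uR_idx i (Finset.mem_filter.1 hi).1]
  · intro θ t ht0 ht1
    have h1 := O.sum θ t ht0 ht1
    rw [sum_range_idx eL (fun n => vL n θ t ^ q), sum_range_idx eR (fun n => vR n θ t ^ q)] at h1
    rw [hsplit (fun i => v i θ t ^ q)]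
    have h2 : ∑ i ∈ SL, v i θ t ^ q = ∑ i ∈ SL, vL (idx eL i) θ t ^ q :=
      Finset.sum_congr rfl fun i hi => by rw [vL' i hi]
    have h3 : ∑ i ∈ SR, v i θ t ^ q = ∑ i ∈ SR, vR (idx eR i) θ t ^ q :=
      Finset.sum_congr rfl fun i hi => by rw [vR' i hi]
    rw [h2, h3]
    exact h1

end Vale.Agent.P209.Strong
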