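import Vale.Agent.P209.Strong.C4a

namespace Vale.Agent.P209.Strong

/-- common part of the two cases of `next_big` -/
theorem C4b_core {q D : ℕ} {δ : ℝ} {ι : Type} [Fintype ι] [DecidableEq ι] {J : Finset ι}
    {dig : ι → Fin (D + 1) → ℕ} {K : ℕ} {r v p : ι → ℝ} {A0 : ℝ} (hq : 1 ≤ q)
    (hr : ∀ i, 0 ≤ r i ∧ r i ≤ 1) (hlt : ∀ i k, dig i k < 2 * K)
    {X b : ℝ} (hX : 0 < X) (hb : 0 ≤ b) (hXA : 512 * X ≤ δ * A0)
    (hact : ∀ k, ((Finset.univ.filter (fun i => i ∉ J ∧ dig i 0 = k ∧ 0 < r i)).card : ℝ) ≤ X)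
    (hbig : ∀ κ : Fin (D + 1) → ℕ, (∀ k, κ k < 2 * K) →
      b ≤ ((Finset.univ.filter (fun i => i ∉ J ∧ dig i = κ ∧ δ ≤ r i)).card : ℝ))
    (κ' : Fin D → ℕ) (hκ : ∀ k, κ' k < 2 * K) (P : ℕ → Prop) [DecidablePred P] (I : Set ℝ)
    [DecidablePred (· ∈ I)] (hI : I.OrdConnected)
    (hp : ∀ i j, i ∉ J → j ∉ J → P (dig i 0) → P (dig j 0) → dig i 0 < dig j 0 → p i ≤ p j)
    (hm : δ * A0 / 128 ≤ ∑ i ∈ Finset.univ.filter (fun i => (i ∉ J ∧ P (dig i 0)) ∧ p i ∈ I),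
      r i ^ q)
    (hv : ∀ i, i ∉ J → P (dig i 0) → p i ∈ I → δ ≤ r i → δ / 2 ≤ v i) :
    b * (δ * A0 / (256 * X)) ≤
      ((Finset.univ.filter (fun i => i ∉ J ∧ Fin.tail (dig i) = κ' ∧ δ / 2 ≤ v i)).card : ℝ) := by
  set S : Finset ι := Finset.univ.filter (fun i => i ∉ J ∧ P (dig i 0)) with hS
  have hSm : ∀ i, i ∈ S ↔ i ∉ J ∧ P (dig i 0) := fun i => by simp [hS]
  have hS2 : S.filter (fun i => p i ∈ I) =
      Finset.univ.filter (fun i => (i ∉ J ∧ P (dig i 0)) ∧ p i ∈ I) := by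
    rw [hS, Finset.filter_filter]
  have hXκ : ∀ κ, ∑ i ∈ S.filter (fun i => dig i 0 = κ), r i ^ q ≤ X := by
    intro κ
    have h1 : ∑ i ∈ S.filter (fun i => dig i 0 = κ), r i ^ q ≤
        ∑ i ∈ S.filter (fun i => dig i 0 = κ), (if 0 < r i then (1 : ℝ) else 0) := by
      refine Finset.sum_le_sum fun i _ => ?_
      by_cases h2 : 0 < r i
      · rw [if_pos h2]
        exact pow_le_one₀ (hr i).1 (hr i).2
      · rw [if_neg h2]
        have h3 : r i = 0 := le_antisymm (not_lt.1 h2) (hr i).1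
        rw [h3, zero_pow (by omega)]
    refine h1.trans (le_trans ?_ (hact κ))
    rw [← Finset.sum_filter, Finset.sum_const, nsmul_eq_mul, mul_one]
    have h2 : ((S.filter (fun i => dig i 0 = κ)).filter (fun i => 0 < r i)) ⊆
        Finset.univ.filter (fun i => i ∉ J ∧ dig i 0 = κ ∧ 0 < r i) := by
      intro i hi
      simp only [Finset.mem_filter, hS, Finset.mem_univ, true_and] at hi ⊢
      exact ⟨hi.1.1.1, hi.1.2, hi.2⟩
    exact_mod_cast Finset.card_le_card h2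
  obtain ⟨F, hF1, hF2, hF3⟩ := class_inner S (fun i => dig i 0) p (fun i => r i ^ q) I hI
    (fun i hi j hj hij => hp i j ((hSm i).1 hi).1 ((hSm j).1 hj).1 ((hSm i).1 hi).2
      ((hSm j).1 hj).2 hij) hX.le hXκ (m := δ * A0 / 128) (by rw [hS2]; exact hm)
    (fun i _ => pow_nonneg (hr i).1 q)
  · have hF4 : δ * A0 / (256 * X) ≤ F.card := by
      rw [div_le_iff₀ (by positivity)]
      linarith
    let cell : ℕ → Finset ι := fun κ =>
      Finset.univ.filter (fun i => i ∉ J ∧ dig i = (Fin.cons κ κ' : Fin (D + 1) → ℕ) ∧ δ ≤ r i)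
    have hsub : F.biUnion cell ⊆
        Finset.univ.filter (fun i => i ∉ J ∧ Fin.tail (dig i) = κ' ∧ δ / 2 ≤ v i) := by
      intro i hi
      obtain ⟨κ, hκF, hi2⟩ := Finset.mem_biUnion.1 hi
      obtain ⟨-, hiJ, hid, hir⟩ := Finset.mem_filter.1 hi2
      have hi0 : dig i 0 = κ := by rw [hid, Fin.cons_zero]
      obtain ⟨j, hjS, hj0⟩ := hF2 κ hκF
      have hPκ : P κ := by
        have := ((hSm j).1 hjS).2
        rwa [hj0] at this
      have hiS : i ∈ S := (hSm i).2 ⟨hiJ, by rwa [hi0]⟩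
      have hpI := hF1 κ hκF i hiS hi0
      refine Finset.mem_filter.2 ⟨Finset.mem_univ _, hiJ, ?_, hv i hiJ (by rwa [hi0]) hpI hir⟩
      rw [hid, Fin.tail_cons]
    have hdisj : (F : Set ℕ).PairwiseDisjoint cell := by
      intro κ _ κ₂ _ hne
      rw [Function.onFun, Finset.disjoint_left]
      intro i hi hi2
      obtain ⟨-, -, h1, -⟩ := Finset.mem_filter.1 hi
      obtain ⟨-, -, h2, -⟩ := Finset.mem_filter.1 hi2
      apply hne
      have h3 : (Fin.cons κ κ' : Fin (D + 1) → ℕ) 0 = (Fin.cons κ₂ κ' : Fin (D + 1) → ℕ) 0 := by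
        rw [← h1, ← h2]
      simpa using h3
    have hcard : ((F.biUnion cell).card : ℝ) = ∑ κ ∈ F, ((cell κ).card : ℝ) := by
      rw [Finset.card_biUnion hdisj]
      push_cast
      rfl
    calc b * (δ * A0 / (256 * X)) ≤ b * F.card := mul_le_mul_of_nonneg_left hF4 hb
      _ = ∑ κ ∈ F, b := by rw [Finset.sum_const, nsmul_eq_mul, mul_comm]
      _ ≤ ∑ κ ∈ F, ((cell κ).card : ℝ) := by
          refine Finset.sum_le_sum fun κ hκF => hbig _ fun k => ?_
          obtain ⟨j, hjS, hj0⟩ := hF2 κ hκF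
          refine Fin.cases ?_ (fun k => ?_) k
          · rw [Fin.cons_zero, ← hj0]
            exact hlt j 0
          · rw [Fin.cons_succ]
            exact hκ k
      _ = ((F.biUnion cell).card : ℝ) := hcard.symm
      _ ≤ _ := by exact_mod_cast Finset.card_le_card hsub

/-- C4b. Lower bound for the number of big balls of the next stage. Here `X` bounds the number of
active balls of a class, `b` is a lower bound for the number of big balls of a cell. -/
theorem next_big {Θ : Type} [TopologicalSpace Θ] {q D : ℕ} {δ ε : ℝ} (hδ : 0 < δ) {ι : Type}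
    [Fintype ι] [DecidableEq ι] {J : Finset ι} {dig : ι → Fin (D + 1) → ℕ} {K : ℕ} {r : ι → Θ → ℝ}
    {T : Θ → ℝ} {A : Θ → ℝ → ℝ} {A0 : ℝ} {W v : ι → Θ → ℝ → ℝ} {p : ι → Θ → ℝ} (hq : 1 ≤ q)
    (hr : ∀ i θ, 0 ≤ r i θ ∧ r i θ ≤ 1)
    (h : ClsOut q δ ε J (fun i => dig i 0) K r T A A0 W v p) (hlt : ∀ i k, dig i k < 2 * K)
    {N X b : ℝ} (hX : 0 < X) (hb : 0 ≤ b) {θ : Θ} {t : ℝ} (ht : 0 ≤ t) (htT : t ≤ T θ)
    (hN : ∑ i ∈ J, r i θ ≤ N) (hNA : N ≤ δ * A0 / 128) (hXA : 512 * X ≤ δ * A0)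
    (hact : ∀ k, ((Finset.univ.filter (fun i => i ∉ J ∧ dig i 0 = k ∧ 0 < r i θ)).card : ℝ) ≤ X)
    (hbig : ∀ κ : Fin (D + 1) → ℕ, (∀ k, κ k < 2 * K) →
      b ≤ ((Finset.univ.filter (fun i => i ∉ J ∧ dig i = κ ∧ δ ≤ r i θ)).card : ℝ))
    (κ' : Fin D → ℕ) (hκ : ∀ k, κ' k < 2 * K) :
    b * (δ * A0 / (256 * X)) ≤
      ((Finset.univ.filter (fun i => i ∉ J ∧ Fin.tail (dig i) = κ' ∧ δ / 2 ≤ v i θ t)).card : ℝ) := by
  classical
  rcases h.mass θ t ht htT with hm | hm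
  · refine C4b_core (p := fun i => p i θ) hq (fun i => hr i θ) hlt hX hb hXA hact hbig κ' hκ
      (fun k => k < K) (Set.Icc (t - δ / 16) t) Set.ordConnected_Icc ?_ ?_ ?_
    · intro i j hi hj _ hj2 hij
      exact h.monoL i j θ hi hj hij hj2
    · have hsplit : ∑ i ∈ Finset.univ.filter
          (fun i => (i ∈ J ∨ dig i 0 < K) ∧ t - δ / 16 ≤ p i θ ∧ p i θ ≤ t), r i θ ^ q ≤
          ∑ i ∈ J, r i θ ^ q + ∑ i ∈ Finset.univ.filter
            (fun i => (i ∉ J ∧ dig i 0 < K) ∧ p i θ ∈ Set.Icc (t - δ / 16) t), r i θ ^ q := by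
        have hsub : Finset.univ.filter
            (fun i => (i ∈ J ∨ dig i 0 < K) ∧ t - δ / 16 ≤ p i θ ∧ p i θ ≤ t) ⊆
            J ∪ Finset.univ.filter
            (fun i => (i ∉ J ∧ dig i 0 < K) ∧ p i θ ∈ Set.Icc (t - δ / 16) t) := by
          intro i hi
          simp only [Finset.mem_filter, Finset.mem_univ, true_and, Finset.mem_union,
            Set.mem_Icc] at hi ⊢
          tauto
        refine (Finset.sum_le_sum_of_subset_of_nonneg hsub
          fun i _ _ => pow_nonneg (hr i θ).1 q).trans ?_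
        have hnn : 0 ≤ ∑ i ∈ J ∩ Finset.univ.filter
            (fun i => (i ∉ J ∧ dig i 0 < K) ∧ p i θ ∈ Set.Icc (t - δ / 16) t), r i θ ^ q :=
          Finset.sum_nonneg fun i _ => pow_nonneg (hr i θ).1 q
        have := Finset.sum_union_inter (s₁ := J) (s₂ := Finset.univ.filter
            (fun i => (i ∉ J ∧ dig i 0 < K) ∧ p i θ ∈ Set.Icc (t - δ / 16) t))
            (f := fun i => r i θ ^ q)
        linarith
      have hJ : ∑ i ∈ J, r i θ ^ q ≤ N := by
        refine le_trans (Finset.sum_le_sum fun i _ => ?_) hN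
        calc r i θ ^ q ≤ r i θ ^ 1 := pow_le_pow_of_le_one (hr i θ).1 (hr i θ).2 hq
          _ = r i θ := pow_one _
      have hm' : δ / 64 * A0 ≤ ∑ i ∈ Finset.univ.filter
          (fun i => (i ∈ J ∨ dig i 0 < K) ∧ t - δ / 16 ≤ p i θ ∧ p i θ ≤ t), r i θ ^ q := hm
      linarith
    · intro i hi hi2 hpi hir
      have h1 := h.lowL i hi hi2 θ t ht htT hpi.2
      linarith [hpi.1]
  · refine C4b_core (p := fun i => p i θ) hq (fun i => hr i θ) hlt hX hb hXA hact hbig κ' hκ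
      (fun k => K ≤ k) (Set.Icc t (t + δ / 16)) Set.ordConnected_Icc ?_ ?_ ?_
    · intro i j hi hj hi2 _ hij
      exact h.monoR i j θ hi hj hi2 hij
    · have he : Finset.univ.filter
          (fun i => i ∉ J ∧ K ≤ dig i 0 ∧ t ≤ p i θ ∧ p i θ ≤ t + δ / 16) =
          Finset.univ.filter
            (fun i => (i ∉ J ∧ K ≤ dig i 0) ∧ p i θ ∈ Set.Icc t (t + δ / 16)) := by
        ext i
        simp only [Finset.mem_filter, Finset.mem_univ, true_and, Set.mem_Icc]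
        tauto
      have hm' : δ / 64 * A0 ≤ ∑ i ∈ Finset.univ.filter
            (fun i => (i ∉ J ∧ K ≤ dig i 0) ∧ p i θ ∈ Set.Icc t (t + δ / 16)), r i θ ^ q := by
        rw [← he]; exact hm
      have h0 : 0 ≤ δ * A0 := by linarith
      linarith
    · intro i hi hi2 hpi hir
      have h1 := h.lowR i hi hi2 θ t ht htT hpi.1
      linarith [hpi.2]

end Vale.Agent.P209.Strong
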