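import Vale.Agent.P209.Strong.C1
import Vale.Agent.P209.Strong.C3a

namespace Vale.Agent.P209.Strong

/-! C5a. Shrinking a box. -/

private theorem cts_aux {n : ℕ} {F : Fin n → (Fin n → ℝ) → ℝ} {g : ℝ → ℝ} (hg : Continuous g)
    (h : ∀ j, Continuous fun x : Unit × (Fin n → ℝ) => F j x.2) (j : Fin n) :
    Continuous fun x : ℝ × (Fin n → ℝ) => F j x.2 + g x.1 := by
  have h1 : Continuous fun x : ℝ × (Fin n → ℝ) => F j x.2 :=
    (h j).comp (Continuous.prodMk (continuous_const (y := ())) continuous_snd)
  exact h1.add (hg.comp continuous_fst)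

/-- the shrunk family -/
private theorem shrink_isBox {n : ℕ} {c L R : ℝ}
    {l u : Fin n → (Fin n → ℝ) → ℝ}
    (h : IsBox c L R (Θ := Unit) (fun j _ => l j) (fun j _ => u j))
    {g : ℝ → ℝ} (hg : Continuous g) (hg0 : ∀ e, 0 ≤ g e) (hg1 : ∀ e, g e ≤ c * R / 4) :
    IsBox (c / 2) L R (Θ := ℝ) (fun j e y => l j y + g e) (fun j e y => u j y + (- g e)) where
  dep_l := fun θ j y y' hy => by
    have := h.dep_l () j y y' hy
    simp only at this
    simp only [this]
  dep_u := fun θ j y y' hy => by
    have := h.dep_u () j y y' hy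
    simp only at this
    simp only [this]
  cont_l := fun j => cts_aux hg h.cont_l j
  cont_u := fun j => cts_aux hg.neg h.cont_u j
  lip_l := fun j θ y y' => by
    have := h.lip_l j () y y'
    have e : l j y + g θ - (l j y' + g θ) = l j y - l j y' := by ring
    rw [e]; exact this
  lip_u := fun j θ y y' => by
    have := h.lip_u j () y y'
    have e : u j y + - g θ - (u j y' + - g θ) = u j y - u j y' := by ring
    rw [e]; exact this
  lo := fun j θ y => by
    have h1 := h.lo j () y
    have h2 := hg1 θ
    show c / 2 * R ≤ (u j y + - g θ) - (l j y + g θ)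
    have h3 : c * R ≤ u j y - l j y := h1
    linarith
  hi := fun j θ y => by
    have h1 := h.hi j () y
    have h2 := hg0 θ
    show (u j y + - g θ) - (l j y + g θ) ≤ R
    have h3 : u j y - l j y ≤ R := h1
    linarith

theorem shrink_box {n : ℕ} {c L R : ℝ} (hc : 0 < c) (hR : 0 < R) (hL : 0 ≤ L)
    {l u : Fin n → (Fin n → ℝ) → ℝ}
    (h : IsBox c L R (Θ := Unit) (fun j _ => l j) (fun j _ => u j)) {η : ℝ} (hη : 0 < η) :
    ∃ ε : ℝ, 0 < ε ∧
      IsBox (c / 2) L R (Θ := Unit) (fun j _ y => l j y + ε) (fun j _ y => u j y - ε) ∧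
      vol n (Θ := Unit) (fun j _ => l j) (fun j _ => u j) () - η ≤
        vol n (Θ := Unit) (fun j _ y => l j y + ε) (fun j _ y => u j y - ε) () ∧
      cboxSet (fun j y => l j y + ε) (fun j y => u j y - ε) ⊆ boxSet l u := by
  set g : ℝ → ℝ := fun e => min (max e 0) (c * R / 4) with hgdef
  have hcR : 0 < c * R / 4 := by positivity
  have hgc : Continuous g := by fun_prop
  have hg0 : ∀ e, 0 ≤ g e := fun e => le_min (le_max_right _ _) hcR.le
  have hg1 : ∀ e, g e ≤ c * R / 4 := fun e => min_le_right _ _
  have hbox := shrink_isBox h hgc hg0 hg1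
  have hcont := vol_continuous hbox
  have hval : ∀ e : ℝ, vol n (Θ := ℝ) (fun j e y => l j y + g e) (fun j e y => u j y + (- g e)) e =
      vol n (Θ := Unit) (fun j _ y => l j y + g e) (fun j _ y => u j y - g e) () := by
    intro e
    have := vol_comp (Θ := ℝ) (Θ' := Unit) (fun j e y => l j y + g e)
      (fun j e y => u j y + (- g e)) (fun _ => e) ()
    rw [← this]
    rfl
  have hg00 : g 0 = 0 := by
    simp only [hgdef, max_self]
    exact min_eq_left hcR.le
  have hv0 : vol n (Θ := ℝ) (fun j e y => l j y + g e) (fun j e y => u j y + (- g e)) 0 =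
      vol n (Θ := Unit) (fun j _ => l j) (fun j _ => u j) () := by
    rw [hval 0, hg00]
    simp only [add_zero, sub_zero]
  have hnear := (hcont.tendsto 0).eventually
    (lt_mem_nhds (a := vol n (Θ := Unit) (fun j _ => l j) (fun j _ => u j) () - η)
      (b := vol n (Θ := ℝ) (fun j e y => l j y + g e) (fun j e y => u j y + (- g e)) 0)
      (by rw [hv0]; linarith))
  obtain ⟨d, hd, hball⟩ := Metric.eventually_nhds_iff.1 hnear
  refine ⟨min (d / 2) (c * R / 4), lt_min (by positivity) hcR, ?_, ?_, ?_⟩
  · set ε := min (d / 2) (c * R / 4) with hε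
    have hε0 : 0 < ε := lt_min (by positivity) hcR
    have hgε : g ε = ε := by
      simp only [hgdef]
      rw [max_eq_left hε0.le, min_eq_left (min_le_right _ _)]
    have hb2 := IsBox.comp hbox (f := fun _ : Unit => ε) continuous_const
    simp only [hgε] at hb2
    exact hb2
  · set ε := min (d / 2) (c * R / 4) with hε
    have hε0 : 0 < ε := lt_min (by positivity) hcR
    have hgε : g ε = ε := by
      simp only [hgdef]
      rw [max_eq_left hε0.le, min_eq_left (min_le_right _ _)]
    have hdist : dist ε 0 < d := by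
      rw [Real.dist_eq, sub_zero, abs_of_pos hε0]
      have : ε ≤ d / 2 := min_le_left _ _
      linarith
    have h1 := hball hdist
    rw [hval ε, hgε] at h1
    exact h1.le
  · set ε := min (d / 2) (c * R / 4) with hε
    have hε0 : 0 < ε := lt_min (by positivity) hcR
    intro y hy j
    have := hy j
    simp only at this
    exact ⟨by linarith [this.1], by linarith [this.2]⟩

end Vale.Agent.P209.Strong
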