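import Mathlib

namespace Vale.Agent.P209.Strong

/-! C5b. Distributing a finite set evenly over the cells `(Fin D → {0, …, 2 K - 1})`. -/

theorem exists_digits {ι : Type} [Fintype ι] [DecidableEq ι] (S : Finset ι) (D K : ℕ) (hK : 1 ≤ K)
    (hS : (2 * K) ^ D ≤ S.card) :
    ∃ (dig : ι → Fin D → ℕ) (b : ℝ), (∀ i k, dig i k < 2 * K) ∧ 1 ≤ b ∧
      ∀ κ : Fin D → ℕ, (∀ k, κ k < 2 * K) →
        b ≤ ((S.filter (fun i => dig i = κ)).card : ℝ) ∧
        ((S.filter (fun i => dig i = κ)).card : ℝ) ≤ 2 * b := by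
  have hM : 0 < (2 * K) ^ D := by positivity
  set M := (2 * K) ^ D with hMdef
  set e : {x // x ∈ S} ≃ Fin S.card := S.equivFin with he
  set φ : (Fin D → Fin (2 * K)) ≃ Fin M := finFunctionFinEquiv with hφ
  set dig : ι → Fin D → ℕ := fun i k =>
    if h : i ∈ S then (φ.symm ⟨(e ⟨i, h⟩ : ℕ) % M, Nat.mod_lt _ hM⟩ k : ℕ) else 0 with hdig
  have hb1 : 1 ≤ S.card / M := (Nat.one_le_div_iff hM).2 hS
  refine ⟨dig, ((S.card / M : ℕ) : ℝ), ?_, by exact_mod_cast hb1, fun κ hκ => ?_⟩
  · intro i k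
    simp only [hdig]
    split_ifs with h
    · exact (φ.symm _ k).2
    · omega
  · set κ' : Fin D → Fin (2 * K) := fun k => ⟨κ k, hκ k⟩ with hκ'
    have hcard : (S.filter (fun i => dig i = κ)).card =
        S.card.count (· ≡ (φ κ' : ℕ) [MOD M]) := by
      rw [Nat.count_eq_card_filter_range]
      refine Finset.card_bij (fun i hi => (e ⟨i, (Finset.mem_filter.1 hi).1⟩ : ℕ)) ?_ ?_ ?_
      · intro i hi
        obtain ⟨h1, h2⟩ := Finset.mem_filter.1 hi
        rw [Finset.mem_filter, Finset.mem_range]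
        refine ⟨(e ⟨i, h1⟩).2, ?_⟩
        have h3 : φ.symm ⟨(e ⟨i, h1⟩ : ℕ) % M, Nat.mod_lt _ hM⟩ = κ' := by
          funext k
          apply Fin.ext
          have := congrFun h2 k
          simp only [hdig, dif_pos h1] at this
          exact this
        have h4 := (Equiv.symm_apply_eq φ).1 h3
        have h5 : (e ⟨i, h1⟩ : ℕ) % M = (φ κ' : ℕ) := congrArg Fin.val h4
        show (e ⟨i, h1⟩ : ℕ) % M = (φ κ' : ℕ) % M
        rw [h5, Nat.mod_eq_of_lt (φ κ').2]
      · intro i hi j hj hij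
        have h1 := e.injective (Fin.ext hij)
        exact congrArg Subtype.val h1
      · intro x hx
        rw [Finset.mem_filter, Finset.mem_range] at hx
        obtain ⟨h1, h2⟩ := hx
        set y := e.symm ⟨x, h1⟩ with hy
        have hey : (e y : ℕ) = x := by rw [hy, Equiv.apply_symm_apply]
        refine ⟨y, ?_, ?_⟩
        · rw [Finset.mem_filter]
          refine ⟨y.2, ?_⟩
          funext k
          simp only [hdig, dif_pos y.2]
          have h3 : x % M = (φ κ' : ℕ) % M := h2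
          rw [Nat.mod_eq_of_lt (φ κ').2] at h3
          have h4 : (⟨(e ⟨(y : ι), y.2⟩ : ℕ) % M, Nat.mod_lt _ hM⟩ : Fin M) = φ κ' := by
            apply Fin.ext
            show (e y : ℕ) % M = (φ κ' : ℕ)
            rw [hey, h3]
          rw [h4, Equiv.symm_apply_apply]
        · exact hey
    rw [hcard, Nat.count_modEq_card _ hM]
    have hb : ((1 : ℕ) : ℝ) ≤ ((S.card / M : ℕ) : ℝ) := by exact_mod_cast hb1
    push_cast at hb ⊢
    split_ifs <;> constructor <;> linarith

end Vale.Agent.P209.Strong
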