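import Vale.Agent.P209.Strong.A7
import Vale.Agent.P209.Strong.A9
import Vale.Agent.P209.Strong.C3
import Vale.Agent.P209.Strong.C5a
import Vale.Agent.P209.Strong.C5b

namespace Vale.Agent.P209.Strong

/-! C5. Column lemma: large fat iterated boxes are filled. -/

/-- the number of unit balls which are added -/
theorem c5_pad (x : ℝ) (hx : 0 < x) : ∃ M : ℕ, (M : ℝ) < x ∧ x ≤ M + 1 := by
  refine ⟨⌈x⌉₊ - 1, ?_, ?_⟩
  · have h1 : 0 < ⌈x⌉₊ := Nat.ceil_pos.2 hx
    have h2 := Nat.ceil_lt_add_one hx.le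
    rw [Nat.cast_sub h1, Nat.cast_one]
    linarith
  · have h1 : 0 < ⌈x⌉₊ := Nat.ceil_pos.2 hx
    have h2 := Nat.le_ceil x
    rw [Nat.cast_sub h1, Nat.cast_one]
    linarith

/-- the size of `R` -/
theorem c5_size (D : ℕ) (c C1 R N : ℝ) (hc : 0 < c) (hC : 0 < C1) (hN : 0 ≤ N) (h1 : 1 ≤ R)
    (h2 : 1 / C1 ≤ R) (h3 : ((4 * C1) ^ D + 5 + N) / (c / 2) ^ (D + 1) ≤ R) :
    4 ≤ (c / 2 * R) ^ (D + 1) ∧
    (2 * (⌈C1 * R⌉₊ : ℝ)) ^ D + 1 + N ≤ (c / 2 * R) ^ (D + 1) := by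
  have hc2 : 0 < (c / 2) ^ (D + 1) := by positivity
  rw [div_le_iff₀ hc2] at h3
  have hR0 : 0 < R := by linarith
  have hRD : 1 ≤ R ^ D := one_le_pow₀ h1
  have h4 : (c / 2 * R) ^ (D + 1) = R * (c / 2) ^ (D + 1) * R ^ D := by
    rw [mul_pow, pow_succ R D]
    ring
  have h5 : ((4 * C1) ^ D + 5 + N) * R ^ D ≤ (c / 2 * R) ^ (D + 1) := by
    rw [h4]
    exact mul_le_mul_of_nonneg_right h3 (by positivity)
  have hK : 2 * (⌈C1 * R⌉₊ : ℝ) ≤ 4 * C1 * R := by
    have h6 := Nat.ceil_lt_add_one (by positivity : 0 ≤ C1 * R)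
    rw [div_le_iff₀ hC] at h2
    linarith
  have h7 : (2 * (⌈C1 * R⌉₊ : ℝ)) ^ D ≤ (4 * C1) ^ D * R ^ D := by
    rw [← mul_pow]
    exact pow_le_pow_left₀ (by positivity) hK D
  have h8 : 0 < (4 * C1) ^ D := by positivity
  constructor
  · nlinarith
  · nlinarith

theorem column (D : ℕ) (hD : 1 ≤ D) (c L δ N : ℝ) (hc : 0 < c) (hL : 0 ≤ L) (hδ : 0 < δ)
    (hδ1 : δ ≤ 1) (hN : 0 ≤ N) : ∃ R0 : ℝ, 0 < R0 ∧ ∀ R, R0 ≤ R →
      ∀ l u : Fin (D + 1) → (Fin (D + 1) → ℝ) → ℝ,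
        IsBox c L R (Θ := Unit) (fun j _ => l j) (fun j _ => u j) →
        Fill δ N (boxSet l u) := by
  obtain ⟨C1, R1, hC1, hR1, hst⟩ := stage D (c / 2) L δ 2 N (by positivity) hL hδ hδ1
    (by norm_num) hN
  refine ⟨max R1 (max 1 (max (1 / C1) (((4 * C1) ^ D + 5 + N) / (c / 2) ^ (D + 1)))),
    lt_max_of_lt_left hR1, ?_⟩
  intro R hR l u hbox ι _ r J hr hbulk htail hvol
  classical
  rw [max_le_iff, max_le_iff, max_le_iff] at hR
  obtain ⟨hRa, hRb, hRc, hRd⟩ := hR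
  have hR0 : 0 < R := by linarith
  obtain ⟨hs4, hsK⟩ := c5_size D c C1 R N hc hC1 hN hRb hRc hRd
  set f : ℝ := ((D + 1).factorial : ℝ) with hf
  have hf1 : 1 ≤ f := by
    rw [hf]
    exact_mod_cast Nat.succ_le_of_lt (Nat.factorial_pos _)
  have hf0 : 0 < f := by linarith
  -- volumes
  set V := vol (D + 1) (Θ := Unit) (fun j _ => l j) (fun j _ => u j) () with hV
  have hVb := (vol_bounds hc hR0 hbox ()).1
  have hV0 : 0 < V := lt_of_lt_of_le (by positivity) hVb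
  have hvolV : (MeasureTheory.volume (boxSet l u)).toReal = V := by
    have h1 := volume_boxSet hc hR0 hbox ()
    rw [h1, ENNReal.toReal_ofReal hV0.le]
  rw [hvolV, ← Finset.sum_div, div_lt_iff₀ hf0] at hvol
  set S : ℝ := ∑ i, r i ^ (D + 1) with hS
  obtain ⟨ε, hε, hbox', hvol', hsub⟩ := shrink_box hc hR0 hL hbox
    (η := (V - S / f) / 2) (by
      have : S / f < V := by rwa [div_lt_iff₀ hf0]
      linarith)
  set V' := vol (D + 1) (Θ := Unit) (fun j _ y => l j y + ε) (fun j _ y => u j y - ε) ()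
    with hV'
  have hSf : S / f < V := by rwa [div_lt_iff₀ hf0]
  have hSV' : S < f * V' := by
    have h1 : S / f < V' := by linarith
    rw [div_lt_iff₀ hf0] at h1
    linarith
  have hV'b : (c / 2 * R) ^ (D + 1) ≤ V' := (vol_bounds (by positivity) hR0 hbox' ()).1
  have hfV' : (c / 2 * R) ^ (D + 1) ≤ f * V' := by
    have h1 : 0 ≤ V' := le_trans (by positivity) hV'b
    nlinarith
  have hfV'0 : 0 < f * V' := lt_of_lt_of_le (by positivity) hfV'
  -- additional unit balls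
  obtain ⟨M, hM1, hM2⟩ := c5_pad (f * V' - S) (by linarith)
  set r' : ι ⊕ Fin M → ℝ := Sum.elim r (fun _ => 1) with hr'
  set J' : Finset (ι ⊕ Fin M) := J.map Function.Embedding.inl with hJ'
  have hr01 : ∀ i, 0 < r' i ∧ r' i ≤ 1 := by
    rintro (i | i)
    · exact hr i
    · exact ⟨one_pos, le_rfl⟩
  have hbulk' : ∀ i, i ∉ J' → δ ≤ r' i := by
    rintro (i | i) hi
    · refine hbulk i fun h => hi ?_
      rw [hJ', Finset.mem_map]
      exact ⟨i, h, rfl⟩
    · exact hδ1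
  have htail' : ∑ i ∈ J', r' i ≤ N := by
    rw [hJ', Finset.sum_map]
    exact htail
  have hsum' : ∑ i, r' i ^ (D + 1) = S + M := by
    rw [Fintype.sum_sum_type]
    simp [hr', hS]
  -- the bulk
  set B : Finset (ι ⊕ Fin M) := Finset.univ.filter (fun i => i ∉ J') with hB
  have hcard : (2 * ⌈C1 * R⌉₊) ^ D ≤ B.card := by
    have h1 : ∑ i, r' i ^ (D + 1) = ∑ i ∈ J', r' i ^ (D + 1) + ∑ i ∈ B, r' i ^ (D + 1) := by
      rw [hB, ← Finset.sum_filter_add_sum_filter_not Finset.univ (fun i => i ∈ J')]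
      congr 1
      refine Finset.sum_congr ?_ fun _ _ => rfl
      ext i
      simp
    have h2 : ∑ i ∈ J', r' i ^ (D + 1) ≤ N := by
      refine (Finset.sum_le_sum fun i _ => ?_).trans htail'
      exact pow_le_of_le_one (hr01 i).1.le (hr01 i).2 (by omega)
    have h3 : ∑ i ∈ B, r' i ^ (D + 1) ≤ B.card := by
      refine (Finset.sum_le_card_nsmul B _ 1 fun i _ => ?_).trans (by simp)
      exact pow_le_one₀ (hr01 i).1.le (hr01 i).2
    have h4 : ((2 * ⌈C1 * R⌉₊) ^ D : ℕ) ≤ (B.card : ℝ) := by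
      push_cast
      linarith
    exact_mod_cast h4
  have hK1 : 1 ≤ ⌈C1 * R⌉₊ := Nat.ceil_pos.2 (by positivity)
  obtain ⟨dig, b, hdig, hb1, hcell⟩ := exists_digits B D ⌈C1 * R⌉₊ hK1 hcard
  -- the input of the stage
  have hη0 : 0 < (f * V' - (S + M)) / (f * V') := div_pos (by linarith) hfV'0
  set η : ℝ := min (1 / 4) ((f * V' - (S + M)) / (f * V')) with hη
  have hin : StageIn D (c / 2) L R δ 2 N ⌈C1 * R⌉₊ (Θ := Unit) (fun j _ y => l j y + ε)
      (fun j _ y => u j y - ε) (fun i _ => r' i) J' dig b η := by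
    refine ⟨hbox', fun i => continuous_const, fun i _ => ⟨(hr01 i).1.le, (hr01 i).2⟩,
      fun _ => htail', hdig, by linarith, ?_, ?_, lt_min (by norm_num) hη0, ?_, ?_⟩
    · intro _ κ hκ
      have h1 : Finset.univ.filter (fun i => i ∉ J' ∧ dig i = κ ∧ δ ≤ r' i) =
          B.filter (fun i => dig i = κ) := by
        ext i
        simp only [hB, Finset.mem_filter, Finset.mem_univ, true_and]
        exact ⟨fun h => ⟨h.1, h.2.1⟩, fun h => ⟨h.1, h.2, hbulk' i h.1⟩⟩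
      rw [h1]
      exact (hcell κ hκ).1
    · intro _ κ hκ
      have h1 : Finset.univ.filter (fun i => i ∉ J' ∧ dig i = κ ∧ 0 < r' i) =
          B.filter (fun i => dig i = κ) := by
        ext i
        simp only [hB, Finset.mem_filter, Finset.mem_univ, true_and]
        exact ⟨fun h => ⟨h.1, h.2.1⟩, fun h => ⟨h.1, h.2, (hr01 i).1⟩⟩
      rw [h1]
      exact (hcell κ hκ).2
    · intro _
      rw [hsum']
      have h1 : η ≤ 1 / 4 := min_le_left _ _
      have h2 : (1 / 2 + η) * (f * V') ≤ 3 / 4 * (f * V') :=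
        mul_le_mul_of_nonneg_right (by linarith) hfV'0.le
      change (1 / 2 + η) * (f * V') ≤ S + M
      linarith
    · intro _
      rw [hsum']
      have h1 : η ≤ (f * V' - (S + M)) / (f * V') := min_le_right _ _
      rw [le_div_iff₀ hfV'0] at h1
      change S + M ≤ (1 - η) * (f * V')
      linarith
  obtain ⟨W, hW⟩ := hst R hRa ⌈C1 * R⌉₊ (Nat.le_ceil _) Unit _ _ (ι ⊕ Fin M) _ J' dig b η hin
  have hopen : IsOpen (boxSet l u) := by
    refine isOpen_boxSet (fun j => ?_) fun j => ?_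
    · exact (hbox.cont_l j).comp (f := fun y : Fin (D + 1) → ℝ => (((), y) : Unit × _))
        (by fun_prop)
    · exact (hbox.cont_u j).comp (f := fun y : Fin (D + 1) → ℝ => (((), y) : Unit × _))
        (by fun_prop)
  have hfin := TPk_of_KK (fun i j => W i j ()) (fun i j => ?_) (fun i => hW.dep i ()) r'
    (fun i => (hr01 i).1.le) hopen (fun i => (hW.sub i ()).trans hsub)
    (fun i j hij => hW.disj i j () hij)
  · exact hfin.comp_inj Sum.inl Sum.inl_injective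
  · exact (hW.cont i j).comp (f := fun p : (Fin (D + 1) → ℝ) × ℝ =>
      ((((), p.1), p.2) : (Unit × (Fin (D + 1) → ℝ)) × ℝ)) (by fun_prop)

end Vale.Agent.P209.Strong
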