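import Vale.Agent.P209.Strong.A9

set_option linter.all false

namespace Vale.Agent.P209.Strong

open MeasureTheory

/-! D1. Formal properties of `Fill`. -/

/-- `Fill` only depends on the set up to adding a null set. -/
theorem Fill.of_subset {n : ℕ} {δ N : ℝ} {Ω Ω' : Set (Fin n → ℝ)} (h : Fill δ N Ω)
    (hs : Ω ⊆ Ω') (hv : volume Ω' ≤ volume Ω) (hf : volume Ω' ≠ ⊤) : Fill δ N Ω' := by
  intro ι _ r J hr hJ hN hlt
  have h1 : volume Ω ≠ ⊤ := ne_top_of_le_ne_top hf (measure_mono hs)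
  refine (h ι r J hr hJ hN (hlt.trans_le ?_)).mono hs
  exact ENNReal.toReal_mono h1 hv

/-- `Fill` for a subset of the balls. -/
theorem Fill.restrict {n : ℕ} {δ N : ℝ} {Ω : Set (Fin n → ℝ)} (h : Fill δ N Ω) {ι : Type}
    [Fintype ι] (r : ι → ℝ) (J : Finset ι) (hr : ∀ i, 0 < r i ∧ r i ≤ 1)
    (hJ : ∀ i, i ∉ J → δ ≤ r i) (hN : ∑ i ∈ J, r i ≤ N) (S : Set ι) [DecidablePred (· ∈ S)]
    (hv : ∑ i ∈ Finset.univ.filter (· ∈ S), r i ^ n / (n.factorial : ℝ) <
      (volume Ω).toReal) : TPk Ω (fun i : S => r i) := by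
  classical
  refine h S (fun i : S => r i) (Finset.univ.filter fun i : S => (i : ι) ∈ J)
    (fun i => hr i) (fun i hi => hJ i (by simpa using hi)) ?_ ?_
  · refine le_trans ?_ hN
    have e : ∑ i ∈ Finset.univ.filter (fun i : S => (i : ι) ∈ J), r i =
        ∑ i ∈ (Finset.univ.filter fun i : S => (i : ι) ∈ J).map
          (Function.Embedding.subtype (· ∈ S)), r i := by
      rw [Finset.sum_map]
      rfl
    rw [e]
    refine Finset.sum_le_sum_of_subset_of_nonneg ?_ fun i _ _ => (hr i).1.le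
    intro i hi
    simp only [Finset.mem_map, Finset.mem_filter, Finset.mem_univ, true_and] at hi
    obtain ⟨a, ha, rfl⟩ := hi
    exact ha
  · refine lt_of_eq_of_lt ?_ hv
    exact (Finset.sum_subtype (Finset.univ.filter (· ∈ S)) (fun x => by simp)
      (fun i => r i ^ n / (n.factorial : ℝ))).symm

/-- Splitting lemma with a movable wall. -/
theorem Fill.split {n : ℕ} (hn : 1 ≤ n) {δ N : ℝ} (hδ1 : δ ≤ 1) {Ω : Set (Fin n → ℝ)}
    (hfin : volume Ω ≠ ⊤) (U V : ℝ → Set (Fin n → ℝ)) {c₀ c₁ : ℝ} (hc : c₀ ≤ c₁)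
    (hU : ∀ c, c₀ ≤ c → c ≤ c₁ → U c ⊆ Ω) (hV : ∀ c, c₀ ≤ c → c ≤ c₁ → V c ⊆ Ω)
    (hd : ∀ c, c₀ ≤ c → c ≤ c₁ → Disjoint (U c) (V c))
    (hvol : ∀ c, c₀ ≤ c → c ≤ c₁ →
      (volume Ω).toReal ≤ (volume (U c)).toReal + (volume (V c)).toReal)
    (hcont : ContinuousOn (fun c => (volume (U c)).toReal) (Set.Icc c₀ c₁))
    (hbig : (volume (U c₀)).toReal + 1 / (n.factorial : ℝ) < (volume (U c₁)).toReal)
    (hFU : ∀ c, c₀ ≤ c → c ≤ c₁ → Fill δ N (U c)) (hFV : ∀ c, c₀ ≤ c → c ≤ c₁ → Fill δ N (V c)) :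
    Fill δ N Ω := by
  classical
  intro ι _ r J hr hJ hN hlt
  set w : ι → ℝ := fun i => r i ^ n / (n.factorial : ℝ) with hw
  have hw0 : ∀ i, 0 ≤ w i := fun i => by
    have := (hr i).1
    positivity
  have hw1 : ∀ i, w i ≤ 1 / (n.factorial : ℝ) := fun i =>
    div_le_div_of_nonneg_right (pow_le_one₀ (hr i).1.le (hr i).2) (by positivity)
  have hfac : (0 : ℝ) < 1 / (n.factorial : ℝ) := by positivity
  have hU0 : 0 ≤ (volume (U c₀)).toReal := ENNReal.toReal_nonneg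
  by_cases hA : ∑ i, w i < (volume (U c₁)).toReal
  · exact (hFU c₁ hc le_rfl ι r J hr hJ hN hA).mono (hU c₁ hc le_rfl)
  rw [not_lt] at hA
  obtain ⟨S, hS, hmax⟩ := Finset.exists_max_image
    (Finset.univ.filter fun S : Finset ι => ∑ i ∈ S, w i < (volume (U c₁)).toReal) Finset.card
    ⟨∅, by
      simp only [Finset.mem_filter, Finset.mem_univ, true_and, Finset.sum_empty]
      linarith⟩
  simp only [Finset.mem_filter, Finset.mem_univ, true_and] at hS hmax
  obtain ⟨i, hi⟩ : ∃ i, i ∉ S := by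
    by_contra hcon
    push Not at hcon
    rw [Finset.eq_univ_iff_forall.2 hcon] at hS
    linarith
  have hi2 : (volume (U c₁)).toReal ≤ w i + ∑ i ∈ S, w i := by
    rw [← Finset.sum_insert hi]
    by_contra hcon
    rw [not_le] at hcon
    have := hmax _ hcon
    rw [Finset.card_insert_of_notMem hi] at this
    omega
  have hlow : (volume (U c₀)).toReal < ∑ i ∈ S, w i := by
    have := hw1 i
    linarith
  set θ : ℝ := min ((volume Ω).toReal - ∑ i, w i) ((volume (U c₁)).toReal - ∑ i ∈ S, w i) / 2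
    with hθ
  have hm : 0 < min ((volume Ω).toReal - ∑ i, w i) ((volume (U c₁)).toReal - ∑ i ∈ S, w i) :=
    lt_min (sub_pos.2 hlt) (sub_pos.2 hS)
  have hθ0 : 0 < θ := by positivity
  have hθ1 : θ < (volume Ω).toReal - ∑ i, w i := by
    have := min_le_left ((volume Ω).toReal - ∑ i, w i) ((volume (U c₁)).toReal - ∑ i ∈ S, w i)
    rw [hθ]
    linarith
  have hθ2 : θ < (volume (U c₁)).toReal - ∑ i ∈ S, w i := by
    have := min_le_right ((volume Ω).toReal - ∑ i, w i) ((volume (U c₁)).toReal - ∑ i ∈ S, w i)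
    rw [hθ]
    linarith
  obtain ⟨c, ⟨hc0, hc1⟩, hcv⟩ := intermediate_value_Icc hc hcont
    (show ∑ i ∈ S, w i + θ ∈ Set.Icc (volume (U c₀)).toReal (volume (U c₁)).toReal from
      ⟨by linarith, by linarith⟩)
  simp only at hcv
  have hsplit : ∑ i ∈ S, w i + ∑ i ∈ Sᶜ, w i = ∑ i, w i := Finset.sum_add_sum_compl S w
  have h1 : TPk (U c) (fun i : (S : Set ι) => r i) := by
    refine (hFU c hc0 hc1).restrict r J hr hJ hN (S : Set ι) ?_
    have : Finset.univ.filter (· ∈ (S : Set ι)) = S := by ext; simp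
    rw [this, hcv]
    show ∑ i ∈ S, w i < _
    linarith
  have h2 : TPk (V c) (fun i : ((S : Set ι)ᶜ : Set ι) => r i) := by
    refine (hFV c hc0 hc1).restrict r J hr hJ hN ((S : Set ι)ᶜ) ?_
    have : Finset.univ.filter (· ∈ ((S : Set ι)ᶜ : Set ι)) = Sᶜ := by ext; simp
    rw [this]
    show ∑ i ∈ Sᶜ, w i < _
    have := hvol c hc0 hc1
    linarith
  exact TPk.union (S : Set ι) h1 h2 (hd c hc0 hc1) (hU c hc0 hc1) (hV c hc0 hc1)

end Vale.Agent.P209.Strong
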