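import Mathlib

namespace Vale.Agent.P209.Strong

open MeasureTheory

/-! D1c. Volumes. -/

/-- Continuity of the volume of `{f < c * g}`. -/
theorem volume_lt_continuous {n : ℕ} {Ω : Set (Fin n → ℝ)} (hfin : volume Ω ≠ ⊤)
    (hΩ : MeasurableSet Ω) {f g : (Fin n → ℝ) → ℝ} (hf : Measurable f) (hg : Measurable g)
    (hg0 : ∀ a ∈ Ω, 0 < g a) (hnull : ∀ c : ℝ, volume (Ω ∩ {a | f a = c * g a}) = 0) :
    Continuous fun c : ℝ => (volume (Ω ∩ {a | f a < c * g a})).toReal := by
  have hms : ∀ c : ℝ, MeasurableSet {a | f a < c * g a} := fun c =>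
    measurableSet_lt hf (hg.const_mul c)
  have : IsFiniteMeasure (volume.restrict Ω) :=
    ⟨by rw [Measure.restrict_apply_univ]; exact lt_top_iff_ne_top.2 hfin⟩
  have e : ∀ c : ℝ, (volume (Ω ∩ {a | f a < c * g a})).toReal =
      ∫ a, ({a | f a < c * g a}.indicator (fun _ => (1 : ℝ)) a) ∂(volume.restrict Ω) := by
    intro c
    rw [integral_indicator (hms c), setIntegral_const, smul_eq_mul, mul_one, Measure.real,
      Measure.restrict_apply (hms c), Set.inter_comm]
  simp only [e]
  rw [continuous_iff_continuousAt]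
  intro c₀
  refine continuousAt_of_dominated (bound := fun _ => (1 : ℝ)) ?_ ?_ ?_ ?_
  · exact Filter.Eventually.of_forall fun c =>
      (measurable_const.indicator (hms c)).aestronglyMeasurable
  · refine Filter.Eventually.of_forall fun c => Filter.Eventually.of_forall fun a => ?_
    by_cases h : a ∈ {a | f a < c * g a}
    · rw [Set.indicator_of_mem h, norm_one]
    · rw [Set.indicator_of_notMem h, norm_zero]
      exact zero_le_one
  · exact integrable_const _
  · have h0 : ∀ᵐ a ∂(volume.restrict Ω), f a ≠ c₀ * g a := by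
      rw [ae_iff]
      have h1 : {a | ¬ f a ≠ c₀ * g a} = {a | f a = c₀ * g a} := by
        ext a
        simp
      rw [h1, Measure.restrict_apply (measurableSet_eq_fun hf (hg.const_mul c₀)),
        Set.inter_comm]
      exact hnull c₀
    filter_upwards [h0] with a ha
    have hc : ContinuousAt (fun c : ℝ => c * g a) c₀ := by fun_prop
    rcases lt_or_gt_of_ne ha with h | h
    · have h1 : ∀ᶠ c in nhds c₀, f a < c * g a := hc.eventually_const_lt h
      refine ContinuousAt.congr (f := fun _ => (1 : ℝ)) continuousAt_const ?_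
      filter_upwards [h1] with c hc
      rw [Set.indicator_of_mem (show a ∈ {a | f a < c * g a} from hc)]
    · have h1 : ∀ᶠ c in nhds c₀, c * g a < f a := hc.eventually_lt_const h
      refine ContinuousAt.congr (f := fun _ => (0 : ℝ)) continuousAt_const ?_
      filter_upwards [h1] with c hc
      rw [Set.indicator_of_notMem (show a ∉ {a | f a < c * g a} from not_lt.2 hc.le)]

/-- The zero set of a nonconstant affine function is null. -/
theorem volume_affine_zero {n : ℕ} (m : Fin n → ℝ) (hm : m ≠ 0) (s : ℝ) :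
    volume {a : Fin n → ℝ | ∑ i, m i * a i = s} = 0 := by
  let φ : (Fin n → ℝ) →ₗ[ℝ] ℝ := ∑ i, m i • LinearMap.proj i
  have hφ : ∀ a, φ a = ∑ i, m i * a i := by
    intro a
    simp [φ, LinearMap.sum_apply]
  have hker : LinearMap.ker φ ≠ ⊤ := by
    intro h
    apply hm
    funext i
    have h1 : Pi.single i (1 : ℝ) ∈ LinearMap.ker φ := by rw [h]; trivial
    rw [LinearMap.mem_ker, hφ] at h1
    simpa [Pi.single_apply] using h1
  rcases Set.eq_empty_or_nonempty {a : Fin n → ℝ | ∑ i, m i * a i = s} with h | ⟨a₀, h0⟩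
  · rw [h, measure_empty]
  · have e : {a : Fin n → ℝ | ∑ i, m i * a i = s} =
        (fun a => a + -a₀) ⁻¹' (LinearMap.ker φ : Set (Fin n → ℝ)) := by
      ext a
      have h1 : ∑ i, m i * a₀ i = s := h0
      have h2 : φ (a + -a₀) = ∑ i, m i * a i - s := by
        rw [map_add, map_neg, hφ, hφ, h1, sub_eq_add_neg]
      have h3 : a ∈ (fun a => a + -a₀) ⁻¹' (LinearMap.ker φ : Set (Fin n → ℝ)) ↔
          φ (a + -a₀) = 0 := Iff.rfl
      rw [h3, h2, sub_eq_zero]
      exact Iff.rfl
    rw [e, measure_preimage_add_right]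
    exact Measure.addHaar_submodule _ _ hker

end Vale.Agent.P209.Strong
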