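import Vale.Agent.P209.Strong.A10

namespace Vale.Agent.P209.Strong

open MeasureTheory

/-! D1. Formal properties of `Fill`. -/

/-- A linear automorphism of `ℝⁿ` which is integral together with its inverse has determinant
`±1`. -/
theorem abs_det_of_integral {n : ℕ} (L : (Fin n → ℝ) ≃ₗ[ℝ] (Fin n → ℝ))
    (hL : ∀ i j, ∃ m : ℤ, L (Pi.single i 1) j = m)
    (hL' : ∀ i j, ∃ m : ℤ, L.symm (Pi.single i 1) j = m) :
    |LinearMap.det (L : (Fin n → ℝ) →ₗ[ℝ] (Fin n → ℝ))| = 1 := by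
  choose M hM using hL
  choose M' hM' using hL'
  have key : ∀ (K : (Fin n → ℝ) →ₗ[ℝ] (Fin n → ℝ)) (A : Fin n → Fin n → ℤ),
      (∀ i j, K (Pi.single i 1) j = A i j) →
      LinearMap.det K = (((Matrix.of fun j i => A i j : Matrix (Fin n) (Fin n) ℤ).det : ℤ) : ℝ) := by
    intro K A h
    rw [← LinearMap.det_toMatrix']
    have e0 := RingHom.map_det (Int.castRingHom ℝ)
      (Matrix.of fun j i => A i j : Matrix (Fin n) (Fin n) ℤ)
    rw [eq_intCast] at e0
    rw [e0]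
    congr 1
    ext j i
    rw [LinearMap.toMatrix'_apply]
    simp only [h, RingHom.mapMatrix_apply, Matrix.map_apply, Matrix.of_apply,
      Int.coe_castRingHom]
  have h1 := key (L : (Fin n → ℝ) →ₗ[ℝ] (Fin n → ℝ)) M hM
  have h2 := key (L.symm : (Fin n → ℝ) →ₗ[ℝ] (Fin n → ℝ)) M' hM'
  have h3 : LinearMap.det (L : (Fin n → ℝ) →ₗ[ℝ] (Fin n → ℝ)) *
      LinearMap.det (L.symm : (Fin n → ℝ) →ₗ[ℝ] (Fin n → ℝ)) = 1 := by
    rw [← LinearMap.det_comp, LinearEquiv.comp_coe, LinearEquiv.symm_trans_self]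
    simp
  rw [h1, h2] at h3
  have h4 : (Matrix.of fun j i => M i j : Matrix (Fin n) (Fin n) ℤ).det *
      (Matrix.of fun j i => M' i j : Matrix (Fin n) (Fin n) ℤ).det = 1 := by
    exact_mod_cast h3
  have h5 : |(Matrix.of fun j i => M i j : Matrix (Fin n) (Fin n) ℤ).det| = 1 :=
    Int.isUnit_iff_abs_eq.1 (IsUnit.of_mul_eq_one _ h4)
  rw [h1, ← Int.cast_abs, h5, Int.cast_one]

theorem volume_image_of_integral {n : ℕ} (Ω : Set (Fin n → ℝ))
    (L : (Fin n → ℝ) ≃ₗ[ℝ] (Fin n → ℝ))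
    (hL : ∀ i j, ∃ m : ℤ, L (Pi.single i 1) j = m)
    (hL' : ∀ i j, ∃ m : ℤ, L.symm (Pi.single i 1) j = m) (v : Fin n → ℝ) :
    volume ((fun a => L a + v) '' Ω) = volume Ω := by
  have e1 : (fun a => L a + v) '' Ω = (fun b => b + -v) ⁻¹' (L '' Ω) := by
    rw [← Set.image_add_right, Set.image_image]
  rw [e1, measure_preimage_add_right]
  have h := Measure.addHaar_image_linearMap (volume : Measure (Fin n → ℝ))
    (L : (Fin n → ℝ) →ₗ[ℝ] (Fin n → ℝ)) Ω
  rw [abs_det_of_integral L hL hL', ENNReal.ofReal_one, one_mul] at h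
  exact h

/-- Invariance under integral unimodular affine maps. -/
theorem Fill.image {n : ℕ} {δ N : ℝ} {Ω : Set (Fin n → ℝ)}
    (L : (Fin n → ℝ) ≃ₗ[ℝ] (Fin n → ℝ))
    (hL : ∀ i j, ∃ m : ℤ, L (Pi.single i 1) j = m)
    (hL' : ∀ i j, ∃ m : ℤ, L.symm (Pi.single i 1) j = m) (v : Fin n → ℝ)
    (h : Fill δ N ((fun a => L a + v) '' Ω)) : Fill δ N Ω := by
  intro ι _ r J h1 h2 h3 h4
  rw [← volume_image_of_integral Ω L hL hL' v] at h4
  have h5 := h ι r J h1 h2 h3 h4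
  have h6 := h5.image L.symm hL' (by simpa using hL) (-(L.symm v))
  have e : (fun a => L.symm a + -(L.symm v)) '' ((fun a => L a + v) '' Ω) = Ω := by
    rw [Set.image_image]
    have : (fun a => L.symm (L a + v) + -(L.symm v)) = id := by
      funext a
      simp
    rw [this, Set.image_id]
  rwa [e] at h6

end Vale.Agent.P209.Strong
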