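import Vale.Agent.P209.Strong.C5

namespace Vale.Agent.P209.Strong

open MeasureTheory

/-! D2. Iterated boxes whose walls are only controlled on the relevant region. -/

/-- the conditions of the box on the coordinates before `j` -/
def Pre {n : ℕ} (l u : Fin n → (Fin n → ℝ) → ℝ) (j : ℕ) (a : Fin n → ℝ) : Prop :=
  ∀ i : Fin n, (i : ℕ) < j → l i a < a i ∧ a i < u i a

/-- walls: `F j` depends only on the coordinates before `j` and is `L`-Lipschitz -/
structure Walls {n : ℕ} (L : ℝ) (F : Fin n → (Fin n → ℝ) → ℝ) : Prop where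
  dep : DepLt F
  lip : ∀ j y y', |F j y - F j y'| ≤ L * dist y y'

/-- the clamped upper wall -/
noncomputable def clampU {n : ℕ} (c R : ℝ) (l u : Fin n → (Fin n → ℝ) → ℝ) :
    Fin n → (Fin n → ℝ) → ℝ :=
  fun j a => l j a + max (c * R) (min R (u j a - l j a))

theorem Walls.continuous {n : ℕ} {L : ℝ} (hL : 0 ≤ L) {F : Fin n → (Fin n → ℝ) → ℝ}
    (h : Walls L F) (j : Fin n) : Continuous (F j) := by
  have : LipschitzWith (Real.toNNReal L) (F j) := by
    refine LipschitzWith.of_dist_le_mul fun y y' => ?_
    rw [Real.dist_eq, Real.coe_toNNReal L hL]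
    exact h.lip j y y'
  exact this.continuous

theorem clampU_walls {n : ℕ} {c R L : ℝ} {l u : Fin n → (Fin n → ℝ) → ℝ} (hl : Walls L l)
    (hu : Walls L u) : Walls (3 * L) (clampU c R l u) := by
  constructor
  · intro j y y' h
    simp only [clampU]
    rw [hl.dep j y y' h, hu.dep j y y' h]
  · intro j y y'
    have h1 := hl.lip j y y'
    have h2 := hu.lip j y y'
    have h3 : |max (c * R) (min R (u j y - l j y)) - max (c * R) (min R (u j y' - l j y'))| ≤
        |(u j y - l j y) - (u j y' - l j y')| := by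
      refine (abs_max_sub_max_le_max _ _ _ _).trans ?_
      refine max_le (by simp) ?_
      refine (abs_min_sub_min_le_max _ _ _ _).trans ?_
      exact max_le (by simp) le_rfl
    have h4 : |(u j y - l j y) - (u j y' - l j y')| ≤ |u j y - u j y'| + |l j y - l j y'| := by
      have : (u j y - l j y) - (u j y' - l j y') = (u j y - u j y') - (l j y - l j y') := by ring
      rw [this]
      exact abs_sub _ _
    have h5 : |clampU c R l u j y - clampU c R l u j y'| ≤ |l j y - l j y'| +
        |max (c * R) (min R (u j y - l j y)) - max (c * R) (min R (u j y' - l j y'))| := by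
      have : clampU c R l u j y - clampU c R l u j y' = (l j y - l j y') +
        (max (c * R) (min R (u j y - l j y)) - max (c * R) (min R (u j y' - l j y'))) := by
        simp only [clampU]; ring
      rw [this]
      exact abs_add_le _ _
    linarith

theorem boxSet_clampU {n : ℕ} {c R : ℝ} {l u : Fin n → (Fin n → ℝ) → ℝ}
    (h : ∀ (j : Fin n) (a : Fin n → ℝ), Pre l u j a →
      c * R ≤ u j a - l j a ∧ u j a - l j a ≤ R) :
    boxSet l (clampU c R l u) = boxSet l u := by
  have key : ∀ (j : Fin n) (a : Fin n → ℝ), Pre l u j a → clampU c R l u j a = u j a := by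
    intro j a hp
    obtain ⟨h1, h2⟩ := h j a hp
    simp only [clampU]
    rw [min_eq_right h2, max_eq_right h1]
    ring
  ext a
  constructor
  · intro ha
    have : ∀ m : ℕ, Pre l u m a := by
      intro m
      induction m with
      | zero => intro i hi; exact absurd hi (Nat.not_lt_zero _)
      | succ m ih =>
        intro i hi
        rcases Nat.lt_succ_iff_lt_or_eq.1 hi with hi | hi
        · exact ih i hi
        · have hk := key i a (by rw [hi]; exact ih)
          have := ha i
          rw [hk] at this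
          exact this
    intro j
    exact this (j + 1) j (Nat.lt_succ_self _)
  · intro ha j
    rw [key j a (fun i _ => ha i)]
    exact ha j

theorem isBox_clampU {n : ℕ} {c R L : ℝ} (hL : 0 ≤ L) (hcR : c * R ≤ R)
    {l u : Fin n → (Fin n → ℝ) → ℝ} (hl : Walls L l) (hu : Walls L u) :
    IsBox c (3 * L) R (Θ := Unit) (fun j _ => l j) (fun j _ => clampU c R l u j) where
  dep_l := fun _ => hl.dep
  dep_u := fun _ => (clampU_walls hl hu).dep
  cont_l := fun j => (hl.continuous hL j).comp continuous_snd
  cont_u := fun j => ((clampU_walls hl hu).continuous (by positivity) j).comp continuous_snd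
  lip_l := fun j _ y y' => (hl.lip j y y').trans
    (mul_le_mul_of_nonneg_right (by linarith) dist_nonneg)
  lip_u := fun j _ y y' => (clampU_walls hl hu).lip j y y'
  lo := fun j _ y => by
    simp only [clampU]
    linarith [le_max_left (c * R) (min R (u j y - l j y))]
  hi := fun j _ y => by
    simp only [clampU]
    have : max (c * R) (min R (u j y - l j y)) ≤ R := max_le hcR (min_le_left _ _)
    linarith

/-- Fat iterated boxes are filled. -/
theorem column_pre (n : ℕ) (hn : 2 ≤ n) (c L δ N : ℝ) (hc : 0 < c) (hL : 0 ≤ L) (hδ : 0 < δ)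
    (hδ1 : δ ≤ 1) (hN : 0 ≤ N) : ∃ R0 : ℝ, 0 < R0 ∧ ∀ R, R0 ≤ R →
      ∀ l u : Fin n → (Fin n → ℝ) → ℝ, Walls L l → Walls L u →
        (∀ (j : Fin n) (a : Fin n → ℝ), Pre l u j a → c * R ≤ u j a - l j a ∧ u j a - l j a ≤ R) →
        Fill δ N (boxSet l u) := by
  obtain ⟨D, rfl⟩ : ∃ D, n = D + 1 := ⟨n - 1, by omega⟩
  obtain ⟨R0, hR0, H⟩ := column D (by omega) c (3 * L) δ N hc (by positivity) hδ hδ1 hN
  refine ⟨R0, hR0, fun R hR l u hl hu h => ?_⟩
  have hcR : c * R ≤ R := by
    have := h 0 0 (fun i hi => absurd hi (Nat.not_lt_zero _))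
    linarith [this.1, this.2]
  rw [← boxSet_clampU h]
  exact H R hR l (clampU c R l u) (isBox_clampU hL hcR hl hu)

/-- Lower bound for the volume of a fat box. -/
theorem volume_pre_ge (n : ℕ) {c L R : ℝ} (hc : 0 < c) (hR : 0 < R) (hL : 0 ≤ L)
    {l u : Fin n → (Fin n → ℝ) → ℝ} (hl : Walls L l) (hu : Walls L u)
    (h : ∀ (j : Fin n) (a : Fin n → ℝ), Pre l u j a → c * R ≤ u j a - l j a ∧ u j a - l j a ≤ R) :
    (c * R) ^ n ≤ (volume (boxSet l u)).toReal ∧ volume (boxSet l u) ≠ ⊤ := by
  have hcR : c * R ≤ R ∨ n = 0 := by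
    rcases Nat.eq_zero_or_pos n with hn | hn
    · exact Or.inr hn
    · left
      have := h ⟨0, hn⟩ 0 (fun i hi => absurd hi (Nat.not_lt_zero _))
      linarith [this.1, this.2]
  rcases hcR with hcR | rfl
  · rw [← boxSet_clampU h]
    have hb := isBox_clampU hL hcR hl hu
    have hv := volume_boxSet hc hR hb ()
    have hb2 := vol_bounds hc hR hb ()
    rw [hv]
    refine ⟨?_, ENNReal.ofReal_ne_top⟩
    rw [ENNReal.toReal_ofReal (le_trans (by positivity) hb2.1)]
    exact hb2.1
  · have : boxSet l u = Set.univ := by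
      ext a
      simp only [Set.mem_univ, iff_true]
      intro j
      exact j.elim0
    rw [this]
    have hv : volume (Set.univ : Set (Fin 0 → ℝ)) = 1 := by
      have h0 := volume_pi_pi (fun _ : Fin 0 => (Set.univ : Set ℝ))
      simpa using h0
    rw [hv]
    simp

end Vale.Agent.P209.Strong
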