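import Vale.Agent.P209.Strong.D2

namespace Vale.Agent.P209.Strong

open MeasureTheory

/-! D3. Boxes with a simplex part, the pinwheel, and the filling of the simplex. -/

/-- `σ` is an affine function with integer linear part of the coordinates before `k` -/
def IntAff {n : ℕ} (k : ℕ) (σ : (Fin n → ℝ) → ℝ) : Prop :=
  ∃ (s : ℝ) (m : Fin n → ℤ), (∀ j : Fin n, k ≤ j → m j = 0) ∧ ∀ a, σ a = s + ∑ j, (m j : ℝ) * a j

/-- sum of the coordinates `k ≤ i < j` -/
def bsum {n : ℕ} (k j : ℕ) (a : Fin n → ℝ) : ℝ :=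
  ∑ i : Fin n, if k ≤ (i : ℕ) ∧ (i : ℕ) < j then a i else 0

/-- the coordinates `k, …, k + b - 1` form a simplex of size `σ a`:
`a i > 0`, `∑ a i < σ a` -/
def SimplexAt {n : ℕ} (l u : Fin n → (Fin n → ℝ) → ℝ) (k b : ℕ) (σ : (Fin n → ℝ) → ℝ) : Prop :=
  ∀ j : Fin n, k ≤ (j : ℕ) → (j : ℕ) < k + b →
    (∀ a, l j a = 0) ∧ ∀ a, u j a = σ a - bsum k j a

/-- Geometric data with one simplex block: coordinates `k, …, k + b - 1`. -/
structure Geo1 {n : ℕ} (c L R : ℝ) (l u : Fin n → (Fin n → ℝ) → ℝ) (k b : ℕ)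
    (σ : (Fin n → ℝ) → ℝ) : Prop where
  wl : Walls L l
  wu : Walls L u
  kb : k + b ≤ n
  int : IntAff k σ
  sim : SimplexAt l u k b σ
  fat : ∀ (j : Fin n) (a : Fin n → ℝ), ((j : ℕ) < k ∨ k + b ≤ (j : ℕ)) → Pre l u j a →
    c * R ≤ u j a - l j a ∧ u j a - l j a ≤ R
  size : ∀ a, Pre l u k a → c * R ≤ σ a ∧ σ a ≤ R

/-- Geometric data with two simplex blocks: a triangle in the coordinates `k, k + 1`, and a simplex
in the coordinates `k + 2, …, k + 1 + b`. -/
structure Geo2 {n : ℕ} (c L R : ℝ) (l u : Fin n → (Fin n → ℝ) → ℝ) (k b : ℕ)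
    (τ σ : (Fin n → ℝ) → ℝ) : Prop where
  wl : Walls L l
  wu : Walls L u
  kb : k + 2 + b ≤ n
  intτ : IntAff k τ
  intσ : IntAff (k + 2) σ
  simτ : SimplexAt l u k 2 τ
  simσ : SimplexAt l u (k + 2) b σ
  fat : ∀ (j : Fin n) (a : Fin n → ℝ), ((j : ℕ) < k ∨ k + 2 + b ≤ (j : ℕ)) → Pre l u j a →
    c * R ≤ u j a - l j a ∧ u j a - l j a ≤ R
  sizeτ : ∀ a, Pre l u k a → c * R ≤ τ a ∧ τ a ≤ R
  sizeσ : ∀ a, Pre l u (k + 2) a → c * R ≤ σ a ∧ σ a ≤ R

/-- statement for one block of dimension `b` -/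
def S1 (n b : ℕ) : Prop :=
  ∀ c L δ N : ℝ, 0 < c → 0 ≤ L → 0 < δ → δ ≤ 1 → 0 ≤ N → ∃ R0 : ℝ, 0 < R0 ∧ ∀ R, R0 ≤ R →
    ∀ (l u : Fin n → (Fin n → ℝ) → ℝ) (k : ℕ) (σ : (Fin n → ℝ) → ℝ),
      Geo1 c L R l u k b σ → Fill δ N (boxSet l u)

/-- statement for a triangle followed by a block of dimension `b` -/
def S2 (n b : ℕ) : Prop :=
  ∀ c L δ N : ℝ, 0 < c → 0 ≤ L → 0 < δ → δ ≤ 1 → 0 ≤ N → ∃ R0 : ℝ, 0 < R0 ∧ ∀ R, R0 ≤ R →
    ∀ (l u : Fin n → (Fin n → ℝ) → ℝ) (k : ℕ) (τ σ : (Fin n → ℝ) → ℝ),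
      Geo2 c L R l u k b τ σ → Fill δ N (boxSet l u)

/-- boxes are bounded -/
theorem d3a_bdd {n : ℕ} {L : ℝ} (hL : 0 ≤ L) {l u : Fin n → (Fin n → ℝ) → ℝ} (hl : Walls L l)
    (hu : Walls L u) (k : ℕ) : ∃ B : ℝ, 0 ≤ B ∧ ∀ a ∈ boxSet l u, ∀ i : Fin n,
      (i : ℕ) < k → |a i| ≤ B := by
  induction k with
  | zero => exact ⟨0, le_rfl, fun p _ i hi => absurd hi (by omega)⟩
  | succ k ih =>
    obtain ⟨B, hB0, hB⟩ := ih
    by_cases hk : k < n
    · set j : Fin n := ⟨k, hk⟩ with hj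
      refine ⟨max B (|l j 0| + |u j 0| + L * B), le_max_of_le_left hB0, fun a ha i hi => ?_⟩
      by_cases hik : (i : ℕ) < k
      · exact le_max_of_le_left (hB a ha i hik)
      · have hij : i = j := Fin.ext (by simp only [hj]; omega)
        rw [hij]
        refine le_max_of_le_right ?_
        set y : Fin n → ℝ := fun i => if (i : ℕ) < k then a i else 0 with hy
        have hya : ∀ i : Fin n, i < j → a i = y i := by
          intro i hi
          have h1 : (i : ℕ) < k := by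
            have := Fin.lt_def.mp hi
            simp only [hj] at this
            exact this
          simp [hy, h1]
        have hd : dist y 0 ≤ B := by
          rw [dist_pi_le_iff hB0]
          intro i
          simp only [hy, Pi.zero_apply]
          split_ifs with h1
          · rw [Real.dist_eq, sub_zero]
            exact hB a ha i h1
          · simpa using hB0
        have hLd : L * dist y 0 ≤ L * B := mul_le_mul_of_nonneg_left hd hL
        have h1 := abs_le.1 (hl.lip j y 0)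
        have h2 := abs_le.1 (hu.lip j y 0)
        have h3 := ha j
        rw [hl.dep j a y hya, hu.dep j a y hya] at h3
        have h4 := neg_abs_le (l j 0)
        have h5 := le_abs_self (u j 0)
        have h6 := abs_nonneg (l j 0)
        have h7 := abs_nonneg (u j 0)
        rw [abs_le]
        constructor
        · linarith [h3.1, h1.1]
        · linarith [h3.2, h2.2]
    · exact ⟨B, hB0, fun p hp i _ => hB p hp i (lt_of_lt_of_le i.2 (not_lt.mp hk))⟩

theorem d3a_fin {n : ℕ} {L : ℝ} (hL : 0 ≤ L) {l u : Fin n → (Fin n → ℝ) → ℝ} (hl : Walls L l)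
    (hu : Walls L u) : volume (boxSet l u) ≠ ⊤ := by
  obtain ⟨B, hB0, hB⟩ := d3a_bdd hL hl hu n
  have h1 : boxSet l u ⊆ Set.Icc (fun _ : Fin n => -B) (fun _ : Fin n => B) := fun a ha =>
    ⟨fun i => (abs_le.1 (hB a ha i i.2)).1, fun i => (abs_le.1 (hB a ha i i.2)).2⟩
  exact ne_top_of_le_ne_top isCompact_Icc.measure_lt_top.ne (measure_mono h1)

/-- the conditions of the smaller box, whose block is a cube, imply those of the box -/
theorem d3a_pre {n : ℕ} {c L R : ℝ} (hc : 0 < c) (hR : 0 < R)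
    {l u : Fin n → (Fin n → ℝ) → ℝ} {k b : ℕ} {σ : (Fin n → ℝ) → ℝ}
    (h : Geo1 c L R l u k b σ) (v : Fin n → (Fin n → ℝ) → ℝ)
    (hv1 : ∀ (j : Fin n) (a : Fin n → ℝ), (k ≤ (j : ℕ) ∧ (j : ℕ) < k + b) →
      v j a = c / (n + 1) * R)
    (hv2 : ∀ (j : Fin n) (a : Fin n → ℝ), ¬ (k ≤ (j : ℕ) ∧ (j : ℕ) < k + b) → v j a = u j a)
    (j : ℕ) (a : Fin n → ℝ) (ha : Pre l v j a) : Pre l u j a := by
  intro i hi
  refine ⟨(ha i hi).1, ?_⟩
  by_cases hb : k ≤ (i : ℕ) ∧ (i : ℕ) < k + b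
  · obtain ⟨-, h2⟩ := h.sim i hb.1 hb.2
    rw [h2 a]
    have hpk : Pre l u k a := by
      intro i' hi'
      have h3 := ha i' (by omega)
      rw [hv2 i' a (by omega)] at h3
      exact h3
    have hs := (h.size a hpk).1
    have hn1 : (0 : ℝ) < n + 1 := by positivity
    have hq : 0 < c / (n + 1) * R := by positivity
    have h4 : bsum k i a + a i ≤ n * (c / (n + 1) * R) := by
      have h5 : bsum k i a + a i
          = ∑ i' : Fin n, ((if k ≤ (i' : ℕ) ∧ (i' : ℕ) < i then a i' else 0)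
            + if i' = i then a i' else 0) := by
        rw [Finset.sum_add_distrib, Finset.sum_ite_eq' Finset.univ i a]
        simp [bsum]
      rw [h5]
      have h6 : ∀ i' ∈ (Finset.univ : Finset (Fin n)),
          ((if k ≤ (i' : ℕ) ∧ (i' : ℕ) < i then a i' else 0) + if i' = i then a i' else 0)
            ≤ c / (n + 1) * R := by
        intro i' _
        by_cases h7 : i' = i
        · subst h7
          have h8 := (ha i' hi).2
          rw [hv1 i' a hb] at h8
          rw [if_neg (by omega), if_pos rfl]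
          linarith
        · rw [if_neg h7, add_zero]
          split_ifs with h8
          · have h9 := (ha i' (by omega)).2
            rw [hv1 i' a (by omega)] at h9
            exact h9.le
          · exact hq.le
      refine (Finset.sum_le_sum h6).trans ?_
      rw [Finset.sum_const, Finset.card_univ, Fintype.card_fin, nsmul_eq_mul]
    have h7 : c * R = (n + 1) * (c / (n + 1) * R) := by
      field_simp
    have h8 : (n : ℝ) * (c / (n + 1) * R) < c * R := by
      rw [h7]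
      nlinarith
    linarith
  · have h3 := (ha i hi).2
    rw [hv2 i a hb] at h3
    exact h3

/-- lower bound for the volume, including the simplex block -/
theorem Geo1.volume_ge {n : ℕ} {c L R : ℝ} (hc : 0 < c) (hL : 0 ≤ L) (hR : 0 < R)
    {l u : Fin n → (Fin n → ℝ) → ℝ} {k b : ℕ} {σ : (Fin n → ℝ) → ℝ}
    (h : Geo1 c L R l u k b σ) :
    (c / (n + 1) * R) ^ n ≤ (volume (boxSet l u)).toReal ∧ volume (boxSet l u) ≠ ⊤ := by
  classical
  have hfin := d3a_fin hL h.wl h.wu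
  refine ⟨?_, hfin⟩
  have hn1 : (1 : ℝ) ≤ n + 1 := by
    have : (0 : ℝ) ≤ n := Nat.cast_nonneg n
    linarith
  have hcn : c / (n + 1) ≤ c := div_le_self hc.le hn1
  have hcn0 : 0 < c / ((n : ℝ) + 1) := div_pos hc (by linarith)
  set v : Fin n → (Fin n → ℝ) → ℝ := fun j a =>
    if k ≤ (j : ℕ) ∧ (j : ℕ) < k + b then c / (n + 1) * R else u j a with hv
  have hv1 : ∀ (j : Fin n) (a : Fin n → ℝ), (k ≤ (j : ℕ) ∧ (j : ℕ) < k + b) →
      v j a = c / (n + 1) * R := fun j a hj => by simp only [hv]; rw [if_pos hj]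
  have hv2 : ∀ (j : Fin n) (a : Fin n → ℝ), ¬ (k ≤ (j : ℕ) ∧ (j : ℕ) < k + b) →
      v j a = u j a := fun j a hj => by simp only [hv]; rw [if_neg hj]
  have hpre := d3a_pre hc hR h v hv1 hv2
  have hwv : Walls L v := by
    constructor
    · intro j y y' hy
      by_cases hb : k ≤ (j : ℕ) ∧ (j : ℕ) < k + b
      · rw [hv1 j y hb, hv1 j y' hb]
      · rw [hv2 j y hb, hv2 j y' hb]
        exact h.wu.dep j y y' hy
    · intro j y y'
      by_cases hb : k ≤ (j : ℕ) ∧ (j : ℕ) < k + b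
      · rw [hv1 j y hb, hv1 j y' hb, sub_self, abs_zero]
        exact mul_nonneg hL dist_nonneg
      · rw [hv2 j y hb, hv2 j y' hb]
        exact h.wu.lip j y y'
  have hvol := volume_pre_ge n hcn0 hR hL h.wl hwv (fun j a ha => by
    have hp := hpre j a ha
    by_cases hb : k ≤ (j : ℕ) ∧ (j : ℕ) < k + b
    · obtain ⟨h1, -⟩ := h.sim j hb.1 hb.2
      rw [hv1 j a hb, h1 a, sub_zero]
      refine ⟨le_rfl, ?_⟩
      have hs := h.size a (fun i hi => hp i (by omega))
      have h3 : c / (n + 1) * R ≤ c * R := mul_le_mul_of_nonneg_right hcn hR.le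
      linarith [hs.1, hs.2]
    · rw [hv2 j a hb]
      have h2 := h.fat j a (by omega) hp
      have h3 : c / (n + 1) * R ≤ c * R := mul_le_mul_of_nonneg_right hcn hR.le
      exact ⟨h3.trans h2.1, h2.2⟩)
  refine hvol.1.trans (ENNReal.toReal_mono hfin (measure_mono ?_))
  intro a ha j
  exact hpre n a (fun i _ => ha i) j j.2

end Vale.Agent.P209.Strong
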