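import Vale.Agent.P209.Strong.D3a

namespace Vale.Agent.P209.Strong

open MeasureTheory

theorem S1_le_one (n b : ℕ) (hn : 2 ≤ n) (hb : b ≤ 1) : S1 n b := by
  intro c L δ N hc hL hδ hδ1 hN
  obtain ⟨R0, hR0, H⟩ := column_pre n hn c L δ N hc hL hδ hδ1 hN
  refine ⟨R0, hR0, fun R hR l u k σ hG => H R hR l u hG.wl hG.wu fun j a hj => ?_⟩
  by_cases hjk : (j : ℕ) < k ∨ k + b ≤ (j : ℕ)
  · exact hG.fat j a hjk hj
  · push Not at hjk
    obtain ⟨h1, h2⟩ := hjk
    have hjk' : (j : ℕ) = k := by omega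
    obtain ⟨h3, h4⟩ := hG.sim j h1 h2
    have h5 : bsum k j a = 0 := by
      unfold bsum
      refine Finset.sum_eq_zero fun i _ => ?_
      rw [if_neg]
      omega
    rw [h3 a, h4 a, h5, sub_zero, sub_zero]
    rw [hjk'] at hj
    exact hG.size a hj

/-- a triangle is a block of dimension two -/
theorem S1_two (n : ℕ) (h : S2 n 0) : S1 n 2 := by
  intro c L δ N hc hL hδ hδ1 hN
  obtain ⟨R0, hR0, H⟩ := h c L δ N hc hL hδ hδ1 hN
  refine ⟨R0, hR0, fun R hR l u k σ hG => H R hR l u k σ (fun _ => c * R) ?_⟩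
  exact {
    wl := hG.wl
    wu := hG.wu
    kb := hG.kb
    intτ := hG.int
    intσ := ⟨c * R, fun _ => 0, fun _ _ => rfl, fun a => by simp⟩
    simτ := hG.sim
    simσ := fun j h1 h2 => absurd h2 (by omega)
    fat := fun j a hj hp => hG.fat j a hj hp
    sizeτ := hG.size
    sizeσ := fun a ha => ⟨le_rfl, by
      have hp : Pre l u k a := fun i hi => ha i (by omega)
      have := hG.size a hp
      exact this.1.trans this.2⟩ }

end Vale.Agent.P209.Strong
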