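import Vale.Agent.P209.Strong.D3

namespace Vale.Agent.P209.Strong

open MeasureTheory

/-! G0. Truncated simplex blocks: definitions. -/

/-- Truncated simplex block: the coordinates `j < k` lie between the walls; the coordinates
`j ≥ k` and the slack `σ a - ∑_{j ≥ k} a j` lie between `0` and the caps `A j`, `As`. -/
def TR {n : ℕ} (k : ℕ) (l u : Fin n → (Fin n → ℝ) → ℝ) (σ : (Fin n → ℝ) → ℝ) (A : Fin n → ℝ)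
    (As : ℝ) : Set (Fin n → ℝ) :=
  {a | (∀ j : Fin n, (j : ℕ) < k → l j a < a j ∧ a j < u j a) ∧
    (∀ j : Fin n, k ≤ (j : ℕ) → 0 < a j ∧ a j < A j) ∧
    0 < σ a - bsum k n a ∧ σ a - bsum k n a < As}

/-- Simplex block without caps. -/
def SR {n : ℕ} (k : ℕ) (l u : Fin n → (Fin n → ℝ) → ℝ) (σ : (Fin n → ℝ) → ℝ) :
    Set (Fin n → ℝ) :=
  {a | (∀ j : Fin n, (j : ℕ) < k → l j a < a j ∧ a j < u j a) ∧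
    (∀ j : Fin n, k ≤ (j : ℕ) → 0 < a j) ∧ bsum k n a < σ a}

/-- Data for a simplex block: the outer coordinates `j < k` have widths in `[c * Rv j, Rv j]`, the
size `σ` of the block is in `[c * Rb, Rb]`. -/
structure SD {n : ℕ} (c L : ℝ) (Rv : Fin n → ℝ) (Rb : ℝ) (k : ℕ)
    (l u : Fin n → (Fin n → ℝ) → ℝ) (σ : (Fin n → ℝ) → ℝ) : Prop where
  wl : Walls L l
  wu : Walls L u
  int : IntAff k σ
  lip : ∀ y y', |σ y - σ y'| ≤ L * dist y y'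
  fat : ∀ (j : Fin n) (a : Fin n → ℝ), (j : ℕ) < k → Pre l u j a →
    c * Rv j ≤ u j a - l j a ∧ u j a - l j a ≤ Rv j
  size : ∀ a, Pre l u k a → c * Rb ≤ σ a ∧ σ a ≤ Rb

/-- Data for a truncated simplex block, with gap `g`: any two caps have sum at least `σ + g`. -/
structure TD {n : ℕ} (c L : ℝ) (Rv : Fin n → ℝ) (Rb : ℝ) (k : ℕ)
    (l u : Fin n → (Fin n → ℝ) → ℝ) (σ : (Fin n → ℝ) → ℝ) (A : Fin n → ℝ) (As g : ℝ) : Prop where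
  sd : SD c L Rv Rb k l u σ
  cap : ∀ j : Fin n, k ≤ (j : ℕ) → c * Rb ≤ A j
  caps : c * Rb ≤ As
  pair : ∀ a, Pre l u k a → ∀ i j : Fin n, i ≠ j → k ≤ (i : ℕ) → k ≤ (j : ℕ) →
    σ a + g ≤ A i + A j
  pairs : ∀ a, Pre l u k a → ∀ j : Fin n, k ≤ (j : ℕ) → σ a + g ≤ A j + As
  tot : ∀ a, Pre l u k a → σ a + c * Rb ≤ bsum k n A + As

/-- Anisotropic fat boxes are filled. -/
def CA (n : ℕ) : Prop :=
  ∀ c L δ N : ℝ, 0 < c → 0 ≤ L → 0 < δ → δ ≤ 1 → 0 ≤ N → ∃ R0 : ℝ, 0 < R0 ∧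
    ∀ (Rv : Fin n → ℝ), (∀ j, R0 ≤ Rv j) → ∀ l u : Fin n → (Fin n → ℝ) → ℝ, Walls L l → Walls L u →
      (∀ (j : Fin n) (a : Fin n → ℝ), Pre l u j a →
        c * Rv j ≤ u j a - l j a ∧ u j a - l j a ≤ Rv j) → Fill δ N (boxSet l u)

/-- Simplex blocks are filled. -/
def PS (n k : ℕ) : Prop :=
  ∀ c L δ N : ℝ, 0 < c → 0 ≤ L → 0 < δ → δ ≤ 1 → 0 ≤ N → ∃ R0 : ℝ, 0 < R0 ∧
    ∀ (Rv : Fin n → ℝ) (Rb : ℝ), (∀ j : Fin n, (j : ℕ) < k → R0 ≤ Rv j) → R0 ≤ Rb →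
      ∀ (l u : Fin n → (Fin n → ℝ) → ℝ) (σ : (Fin n → ℝ) → ℝ),
        SD c L Rv Rb k l u σ → Fill δ N (SR k l u σ)

/-- Truncated simplex blocks with gap `c * Rb` are filled. -/
def TS (n k : ℕ) : Prop :=
  ∀ c L δ N : ℝ, 0 < c → 0 ≤ L → 0 < δ → δ ≤ 1 → 0 ≤ N → ∃ R0 : ℝ, 0 < R0 ∧
    ∀ (Rv : Fin n → ℝ) (Rb : ℝ), (∀ j : Fin n, (j : ℕ) < k → R0 ≤ Rv j) → R0 ≤ Rb →
      ∀ (l u : Fin n → (Fin n → ℝ) → ℝ) (σ : (Fin n → ℝ) → ℝ) (A : Fin n → ℝ) (As : ℝ),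
        TD c L Rv Rb k l u σ A As (c * Rb) → Fill δ N (TR k l u σ A As)

/-- Truncated simplex blocks with gap `0` are filled. -/
def TZ (n k : ℕ) : Prop :=
  ∀ c L δ N : ℝ, 0 < c → 0 ≤ L → 0 < δ → δ ≤ 1 → 0 ≤ N → ∃ R0 : ℝ, 0 < R0 ∧
    ∀ (Rv : Fin n → ℝ) (Rb : ℝ), (∀ j : Fin n, (j : ℕ) < k → R0 ≤ Rv j) → R0 ≤ Rb →
      ∀ (l u : Fin n → (Fin n → ℝ) → ℝ) (σ : (Fin n → ℝ) → ℝ) (A : Fin n → ℝ) (As : ℝ),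
        TD c L Rv Rb k l u σ A As 0 → Fill δ N (TR k l u σ A As)

/-- The first block coordinate has a large corner. -/
def TSA (n k : ℕ) : Prop :=
  ∀ c L δ N : ℝ, 0 < c → 0 ≤ L → 0 < δ → δ ≤ 1 → 0 ≤ N → ∃ R0 : ℝ, 0 < R0 ∧
    ∀ (Rv : Fin n → ℝ) (Rb : ℝ), (∀ j : Fin n, (j : ℕ) < k → R0 ≤ Rv j) → R0 ≤ Rb →
      ∀ (l u : Fin n → (Fin n → ℝ) → ℝ) (σ : (Fin n → ℝ) → ℝ) (A : Fin n → ℝ) (As : ℝ),
        TD c L Rv Rb k l u σ A As (c * Rb) →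
        (∀ a, Pre l u k a → ∀ j : Fin n, (j : ℕ) = k → A j + c * Rb ≤ σ a) →
        Fill δ N (TR k l u σ A As)

/-- Some block coordinate, or the slack, has a large corner. -/
def TSI (n k : ℕ) : Prop :=
  ∀ c L δ N : ℝ, 0 < c → 0 ≤ L → 0 < δ → δ ≤ 1 → 0 ≤ N → ∃ R0 : ℝ, 0 < R0 ∧
    ∀ (Rv : Fin n → ℝ) (Rb : ℝ), (∀ j : Fin n, (j : ℕ) < k → R0 ≤ Rv j) → R0 ≤ Rb →
      ∀ (l u : Fin n → (Fin n → ℝ) → ℝ) (σ : (Fin n → ℝ) → ℝ) (A : Fin n → ℝ) (As : ℝ),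
        TD c L Rv Rb k l u σ A As (c * Rb) →
        ((∃ j : Fin n, k ≤ (j : ℕ) ∧ ∀ a, Pre l u k a → A j + c * Rb ≤ σ a) ∨
          ∀ a, Pre l u k a → As + c * Rb ≤ σ a) →
        Fill δ N (TR k l u σ A As)

/-- Only the coordinate `k + 1` has an active cap. -/
def TSC (n k : ℕ) : Prop :=
  ∀ c L δ N : ℝ, 0 < c → 0 ≤ L → 0 < δ → δ ≤ 1 → 0 ≤ N → ∃ R0 : ℝ, 0 < R0 ∧
    ∀ (Rv : Fin n → ℝ) (Rb : ℝ), (∀ j : Fin n, (j : ℕ) < k → R0 ≤ Rv j) → R0 ≤ Rb →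
      ∀ (l u : Fin n → (Fin n → ℝ) → ℝ) (σ : (Fin n → ℝ) → ℝ) (A : Fin n → ℝ) (As : ℝ),
        TD c L Rv Rb k l u σ A As (c * Rb) →
        (∀ j : Fin n, k ≤ (j : ℕ) → (j : ℕ) ≠ k + 1 → Rb ≤ A j) → Rb ≤ As →
        Fill δ N (TR k l u σ A As)

/-- All corners are small. -/
def TSB (n k : ℕ) : Prop :=
  ∀ c L δ N : ℝ, 0 < c → 0 ≤ L → 0 < δ → δ ≤ 1 → 0 ≤ N → ∃ R0 : ℝ, 0 < R0 ∧
    ∀ (Rv : Fin n → ℝ) (Rb : ℝ), (∀ j : Fin n, (j : ℕ) < k → R0 ≤ Rv j) → R0 ≤ Rb →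
      ∀ (l u : Fin n → (Fin n → ℝ) → ℝ) (σ : (Fin n → ℝ) → ℝ) (A : Fin n → ℝ) (As : ℝ),
        TD c L Rv Rb k l u σ A As (c * Rb) →
        (∀ a, Pre l u k a → ∀ j : Fin n, k ≤ (j : ℕ) → σ a ≤ A j + 3 * (c / 100 * Rb)) →
        (∀ a, Pre l u k a → σ a ≤ As + 3 * (c / 100 * Rb)) →
        Fill δ N (TR k l u σ A As)

end Vale.Agent.P209.Strong
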