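import Vale.Agent.P209.Strong.G0

namespace Vale.Agent.P209.Strong

open MeasureTheory

/-! G1a. First properties of truncated simplex blocks. -/

/-- the outer coordinates of points satisfying the outer conditions are bounded -/
theorem g1a_bdd {n : ℕ} {L : ℝ} (hL : 0 ≤ L) {l u : Fin n → (Fin n → ℝ) → ℝ} (hl : Walls L l)
    (hu : Walls L u) (k : ℕ) : ∃ B : ℝ, 0 ≤ B ∧ ∀ a, Pre l u k a → ∀ i : Fin n,
      (i : ℕ) < k → |a i| ≤ B := by
  induction k with
  | zero => exact ⟨0, le_rfl, fun p _ i hi => absurd hi (by omega)⟩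
  | succ k ih =>
    obtain ⟨B, hB0, hB⟩ := ih
    by_cases hk : k < n
    · set j : Fin n := ⟨k, hk⟩ with hj
      refine ⟨max B (|l j 0| + |u j 0| + L * B), le_max_of_le_left hB0, fun a ha i hi => ?_⟩
      have ha' : Pre l u k a := fun i hi => ha i (by omega)
      by_cases hik : (i : ℕ) < k
      · exact le_max_of_le_left (hB a ha' i hik)
      · have hij : i = j := Fin.ext (by simp only [hj]; omega)
        rw [hij]
        refine le_max_of_le_right ?_
        set y : Fin n → ℝ := fun i => if (i : ℕ) < k then a i else 0 with hy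
        have hya : ∀ i : Fin n, i < j → a i = y i := by
          intro i hi
          have h1 : (i : ℕ) < k := by
            have := Fin.lt_def.mp hi
            simp only [hj] at this
            exact this
          simp [hy, h1]
        have hd : dist y 0 ≤ B := by
          rw [dist_pi_le_iff hB0]
          intro i
          simp only [hy, Pi.zero_apply]
          split_ifs with h1
          · rw [Real.dist_eq, sub_zero]
            exact hB a ha' i h1
          · simpa using hB0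
        have hLd : L * dist y 0 ≤ L * B := mul_le_mul_of_nonneg_left hd hL
        have h1 := abs_le.1 (hl.lip j y 0)
        have h2 := abs_le.1 (hu.lip j y 0)
        have h3 := ha j (by simp only [hj]; omega)
        rw [hl.dep j a y hya, hu.dep j a y hya] at h3
        have h4 := neg_abs_le (l j 0)
        have h5 := le_abs_self (u j 0)
        have h6 := abs_nonneg (l j 0)
        have h7 := abs_nonneg (u j 0)
        rw [abs_le]
        constructor
        · linarith [h3.1, h1.1]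
        · linarith [h3.2, h2.2]
    · exact ⟨B, hB0, fun p hp i _ => hB p (fun i hi => hp i (by omega)) i
        (lt_of_lt_of_le i.2 (not_lt.mp hk))⟩

/-- a set of points satisfying the outer conditions and with bounded block coordinates has finite
volume -/
theorem g1a_fin {n k : ℕ} {L : ℝ} (hL : 0 ≤ L) {l u : Fin n → (Fin n → ℝ) → ℝ} (hl : Walls L l)
    (hu : Walls L u) (S : Set (Fin n → ℝ)) (A : Fin n → ℝ)
    (h : ∀ a ∈ S, Pre l u k a ∧ ∀ j : Fin n, k ≤ (j : ℕ) → 0 < a j ∧ a j < A j) :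
    volume S ≠ ⊤ := by
  obtain ⟨B, hB0, hB⟩ := g1a_bdd hL hl hu k
  have h1 : S ⊆ Set.Icc (fun _ : Fin n => -B) (fun j : Fin n => max B (A j)) := by
    intro a ha
    obtain ⟨h2, h3⟩ := h a ha
    refine ⟨fun i => ?_, fun i => ?_⟩
    · rcases lt_or_ge (i : ℕ) k with hi | hi
      · exact (abs_le.1 (hB a h2 i hi)).1
      · have := (h3 i hi).1
        show -B ≤ a i
        linarith
    · rcases lt_or_ge (i : ℕ) k with hi | hi
      · exact le_max_of_le_left (abs_le.1 (hB a h2 i hi)).2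
      · exact le_max_of_le_right (h3 i hi).2.le
  exact ne_top_of_le_ne_top isCompact_Icc.measure_lt_top.ne (measure_mono h1)

theorem g1a_le_bsum {n k : ℕ} {a : Fin n → ℝ} (h : ∀ j : Fin n, k ≤ (j : ℕ) → 0 < a j)
    (j : Fin n) (hj : k ≤ (j : ℕ)) : a j ≤ bsum k n a := by
  unfold bsum
  have h1 := Finset.single_le_sum (f := fun i : Fin n => if k ≤ (i : ℕ) ∧ (i : ℕ) < n then a i
    else 0) (s := Finset.univ) (fun i _ => by
      show (0 : ℝ) ≤ if k ≤ (i : ℕ) ∧ (i : ℕ) < n then a i else 0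
      split_ifs with h2
      · exact (h i h2.1).le
      · exact le_rfl) (Finset.mem_univ j)
  have h3 : (if k ≤ (j : ℕ) ∧ (j : ℕ) < n then a j else 0) = a j := if_pos ⟨hj, j.2⟩
  calc a j = (if k ≤ (j : ℕ) ∧ (j : ℕ) < n then a j else 0) := h3.symm
    _ ≤ _ := h1

theorem g1a_walls_mono {n : ℕ} {L L' : ℝ} {F : Fin n → (Fin n → ℝ) → ℝ} (h : Walls L F)
    (hL : L ≤ L') : Walls L' F :=
  ⟨h.dep, fun j y y' => (h.lip j y y').trans (mul_le_mul_of_nonneg_right hL dist_nonneg)⟩

theorem g1a_outer_open {n : ℕ} {L : ℝ} (hL : 0 ≤ L) {l u : Fin n → (Fin n → ℝ) → ℝ}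
    (hl : Walls L l) (hu : Walls L u) (k : ℕ) :
    IsOpen {a : Fin n → ℝ | ∀ j : Fin n, (j : ℕ) < k → l j a < a j ∧ a j < u j a} := by
  have e : {a : Fin n → ℝ | ∀ j : Fin n, (j : ℕ) < k → l j a < a j ∧ a j < u j a} =
      ⋂ j : Fin n, {a | (j : ℕ) < k → l j a < a j ∧ a j < u j a} := by
    ext a
    simp only [Set.mem_ofPred_eq, Set.mem_iInter]
  rw [e]
  refine isOpen_iInter_of_finite fun j => ?_
  by_cases hj : (j : ℕ) < k
  · have e2 : {a : Fin n → ℝ | (j : ℕ) < k → l j a < a j ∧ a j < u j a} =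
        {a | l j a < a j} ∩ {a | a j < u j a} := by
      ext a
      simp [hj]
    rw [e2]
    exact (isOpen_lt (hl.continuous hL j) (continuous_apply j)).inter
      (isOpen_lt (continuous_apply j) (hu.continuous hL j))
  · have e2 : {a : Fin n → ℝ | (j : ℕ) < k → l j a < a j ∧ a j < u j a} = Set.univ := by
      ext a
      simp [hj]
    rw [e2]
    exact isOpen_univ

section
variable {n k : ℕ} {c L Rb As g : ℝ} {Rv A : Fin n → ℝ} {l u : Fin n → (Fin n → ℝ) → ℝ}
  {σ : (Fin n → ℝ) → ℝ}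

theorem TR.pre {a : Fin n → ℝ} (h : a ∈ TR k l u σ A As) : Pre l u k a := h.1

theorem SR.pre {a : Fin n → ℝ} (h : a ∈ SR k l u σ) : Pre l u k a := h.1

theorem TR.isOpen (hL : 0 ≤ L) (hl : Walls L l) (hu : Walls L u) (hσ : Continuous σ) :
    IsOpen (TR k l u σ A As) := by
  have e : TR k l u σ A As =
      {a : Fin n → ℝ | ∀ j : Fin n, (j : ℕ) < k → l j a < a j ∧ a j < u j a} ∩
        ((⋂ j : Fin n, {a | k ≤ (j : ℕ) → 0 < a j ∧ a j < A j}) ∩
          ({a | 0 < σ a - bsum k n a} ∩ {a | σ a - bsum k n a < As})) := by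
    ext a
    simp only [TR, Set.mem_ofPred_eq, Set.mem_iInter, Set.mem_inter_iff]
  rw [e]
  have hb : Continuous fun a : Fin n → ℝ => σ a - bsum k n a := hσ.sub (D3d_bsum_cont k n)
  refine (g1a_outer_open hL hl hu k).inter (IsOpen.inter ?_ ((isOpen_lt continuous_const hb).inter
    (isOpen_lt hb continuous_const)))
  refine isOpen_iInter_of_finite fun j => ?_
  by_cases hj : k ≤ (j : ℕ)
  · have e2 : {a : Fin n → ℝ | k ≤ (j : ℕ) → 0 < a j ∧ a j < A j} =
        {a | 0 < a j} ∩ {a | a j < A j} := by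
      ext a
      simp [hj]
    rw [e2]
    exact (isOpen_lt continuous_const (continuous_apply j)).inter
      (isOpen_lt (continuous_apply j) continuous_const)
  · have e2 : {a : Fin n → ℝ | k ≤ (j : ℕ) → 0 < a j ∧ a j < A j} = Set.univ := by
      ext a
      simp [hj]
    rw [e2]
    exact isOpen_univ

theorem SR.isOpen (hL : 0 ≤ L) (hl : Walls L l) (hu : Walls L u) (hσ : Continuous σ) :
    IsOpen (SR k l u σ) := by
  have e : SR k l u σ =
      {a : Fin n → ℝ | ∀ j : Fin n, (j : ℕ) < k → l j a < a j ∧ a j < u j a} ∩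
        ((⋂ j : Fin n, {a | k ≤ (j : ℕ) → 0 < a j}) ∩ {a | bsum k n a < σ a}) := by
    ext a
    simp only [SR, Set.mem_ofPred_eq, Set.mem_iInter, Set.mem_inter_iff]
  rw [e]
  refine (g1a_outer_open hL hl hu k).inter (IsOpen.inter ?_ (isOpen_lt (D3d_bsum_cont k n) hσ))
  refine isOpen_iInter_of_finite fun j => ?_
  by_cases hj : k ≤ (j : ℕ)
  · have e2 : {a : Fin n → ℝ | k ≤ (j : ℕ) → 0 < a j} = {a | 0 < a j} := by
      ext a
      simp [hj]
    rw [e2]
    exact isOpen_lt continuous_const (continuous_apply j)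
  · have e2 : {a : Fin n → ℝ | k ≤ (j : ℕ) → 0 < a j} = Set.univ := by
      ext a
      simp [hj]
    rw [e2]
    exact isOpen_univ

theorem TR.finite (hL : 0 ≤ L) (hl : Walls L l) (hu : Walls L u) :
    volume (TR k l u σ A As) ≠ ⊤ :=
  g1a_fin hL hl hu _ A fun _ ha => ⟨ha.1, ha.2.1⟩

theorem SR.finite (hL : 0 ≤ L) (h : SD c L Rv Rb k l u σ) : volume (SR k l u σ) ≠ ⊤ := by
  refine g1a_fin hL h.wl h.wu _ (fun _ => Rb) fun a ha => ⟨ha.1, fun j hj => ⟨ha.2.1 j hj, ?_⟩⟩
  have h1 := g1a_le_bsum ha.2.1 j hj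
  have h2 := ha.2.2
  have h3 := (h.size a ha.1).2
  linarith

/-- inactive caps -/
theorem TR_eq_SR (hk : k < n) (hA : ∀ a, Pre l u k a → ∀ j : Fin n, k ≤ (j : ℕ) → σ a ≤ A j)
    (hs : ∀ a, Pre l u k a → σ a ≤ As) : TR k l u σ A As = SR k l u σ := by
  ext a
  constructor
  · rintro ⟨h1, h2, h3, -⟩
    exact ⟨h1, fun j hj => (h2 j hj).1, by linarith⟩
  · rintro ⟨h1, h2, h3⟩
    refine ⟨h1, fun j hj => ⟨h2 j hj, ?_⟩, by linarith, ?_⟩
    · have h4 := g1a_le_bsum h2 j hj
      have h5 := hA a h1 j hj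
      linarith
    · have h4 := g1a_le_bsum h2 ⟨k, hk⟩ le_rfl
      have h5 := h2 ⟨k, hk⟩ le_rfl
      have h6 := hs a h1
      linarith

/-- lowering one cap -/
theorem TR.inter_lt {p : Fin n} (hp : k ≤ (p : ℕ)) {x : ℝ} (hx : x ≤ A p) :
    TR k l u σ A As ∩ {a | a p < x} = TR k l u σ (Function.update A p x) As := by
  ext a
  constructor
  · rintro ⟨⟨h1, h2, h3, h4⟩, h5⟩
    refine ⟨h1, fun j hj => ⟨(h2 j hj).1, ?_⟩, h3, h4⟩
    by_cases hjp : j = p
    · subst hjp
      rw [Function.update_self]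
      exact h5
    · rw [Function.update_of_ne hjp]
      exact (h2 j hj).2
  · rintro ⟨h1, h2, h3, h4⟩
    have h6 := (h2 p hp).2
    rw [Function.update_self] at h6
    refine ⟨⟨h1, fun j hj => ⟨(h2 j hj).1, ?_⟩, h3, h4⟩, h6⟩
    by_cases hjp : j = p
    · subst hjp
      exact lt_of_lt_of_le h6 hx
    · have h7 := (h2 j hj).2
      rw [Function.update_of_ne hjp] at h7
      exact h7

theorem SD.mono {c' L' : ℝ} (h : SD c L Rv Rb k l u σ) (hc : c' ≤ c) (hL : L ≤ L')
    (hRb : 0 ≤ Rb) (hRv : ∀ j : Fin n, (j : ℕ) < k → 0 ≤ Rv j) : SD c' L' Rv Rb k l u σ where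
  wl := g1a_walls_mono h.wl hL
  wu := g1a_walls_mono h.wu hL
  int := h.int
  lip := fun y y' => (h.lip y y').trans (mul_le_mul_of_nonneg_right hL dist_nonneg)
  fat := fun j a hj ha => ⟨(mul_le_mul_of_nonneg_right hc (hRv j hj)).trans (h.fat j a hj ha).1,
    (h.fat j a hj ha).2⟩
  size := fun a ha => ⟨(mul_le_mul_of_nonneg_right hc hRb).trans (h.size a ha).1, (h.size a ha).2⟩

theorem TD.mono {c' L' g' : ℝ} (h : TD c L Rv Rb k l u σ A As g) (hc : c' ≤ c) (hL : L ≤ L')
    (hg : g' ≤ g) (hRb : 0 ≤ Rb) (hRv : ∀ j : Fin n, (j : ℕ) < k → 0 ≤ Rv j) :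
    TD c' L' Rv Rb k l u σ A As g' where
  sd := h.sd.mono hc hL hRb hRv
  cap := fun j hj => (mul_le_mul_of_nonneg_right hc hRb).trans (h.cap j hj)
  caps := (mul_le_mul_of_nonneg_right hc hRb).trans h.caps
  pair := fun a ha i j hij hi hj => by
    have := h.pair a ha i j hij hi hj
    linarith
  pairs := fun a ha j hj => by
    have := h.pairs a ha j hj
    linarith
  tot := fun a ha => by
    have h1 := h.tot a ha
    have h2 := mul_le_mul_of_nonneg_right hc hRb
    linarith

theorem SD.continuous (hL : 0 ≤ L) (h : SD c L Rv Rb k l u σ) : Continuous σ := by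
  have : LipschitzWith (Real.toNNReal L) σ := by
    refine LipschitzWith.of_dist_le_mul fun y y' => ?_
    rw [Real.dist_eq, Real.coe_toNNReal L hL]
    exact h.lip y y'
  exact this.continuous

/-- the size only depends on the outer coordinates -/
theorem SD.dep (h : SD c L Rv Rb k l u σ) {y y' : Fin n → ℝ}
    (hy : ∀ i : Fin n, (i : ℕ) < k → y i = y' i) : σ y = σ y' :=
  d3s_congr h.int hy

end

end Vale.Agent.P209.Strong
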