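import Vale.Agent.P209.Strong.G0

namespace Vale.Agent.P209.Strong

open MeasureTheory

/-- The graph of a continuous function of the other coordinates is a null set. -/
theorem volume_graph_zero {n : ℕ} (j : Fin n) (φ : (Fin n → ℝ) → ℝ) (hφ : Continuous φ)
    (hdep : ∀ y y' : Fin n → ℝ, (∀ i, i ≠ j → y i = y' i) → φ y = φ y') :
    volume {a : Fin n → ℝ | a j = φ a} = 0 := by
  cases n with
  | zero => exact j.elim0
  | succ m =>
    have hA : MeasurableSet {a : Fin (m + 1) → ℝ | a j = φ a} :=
      measurableSet_eq_fun (measurable_pi_apply j) hφ.measurable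
    have he := (volume_preserving_piFinSuccAbove (fun _ : Fin (m + 1) => ℝ) j).symm
    rw [← he.measure_preimage hA.nullMeasurableSet, Measure.volume_eq_prod,
      Measure.prod_apply_symm (he.measurable hA)]
    rw [lintegral_eq_zero_iff' (measurable_measure_prodMk_right (he.measurable hA)).aemeasurable]
    refine Filter.Eventually.of_forall fun y => ?_
    have h1 : (fun t : ℝ => (t, y)) ⁻¹'
        ((MeasurableEquiv.piFinSuccAbove (fun _ : Fin (m + 1) => ℝ) j).symm ⁻¹'
          {a : Fin (m + 1) → ℝ | a j = φ a}) ⊆
        {φ (Fin.insertNth (α := fun _ => ℝ) j 0 y)} := by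
      intro t ht
      have h2 : Fin.insertNth (α := fun _ => ℝ) j t y j =
          φ (Fin.insertNth (α := fun _ => ℝ) j t y) := ht
      rw [Fin.insertNth_apply_same] at h2
      rw [Set.mem_singleton_iff, h2]
      refine hdep _ _ fun i hi => ?_
      obtain ⟨k, rfl⟩ := Fin.exists_succAbove_eq hi
      rw [Fin.insertNth_apply_succAbove, Fin.insertNth_apply_succAbove]
    exact measure_mono_null h1 (by simp)

end Vale.Agent.P209.Strong
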