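import Vale.Agent.P209.Strong.G1a

namespace Vale.Agent.P209.Strong

open MeasureTheory

/-- a point all whose outer coordinates are in the middle of the walls -/
theorem g1c_mid {n : ℕ} {l u : Fin n → (Fin n → ℝ) → ℝ} (hl : DepLt l) (hu : DepLt u) (k : ℕ) :
    ∃ a : Fin n → ℝ, ∀ j : Fin n, (j : ℕ) < k → a j = (l j a + u j a) / 2 := by
  classical
  induction k with
  | zero => exact ⟨0, fun j hj => absurd hj (Nat.not_lt_zero _)⟩
  | succ k ih =>
    obtain ⟨a, ha⟩ := ih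
    by_cases hk : k < n
    · set p : Fin n := ⟨k, hk⟩ with hp
      refine ⟨Function.update a p ((l p a + u p a) / 2), fun j hj => ?_⟩
      have hd : ∀ i : Fin n, i < j →
          Function.update a p ((l p a + u p a) / 2) i = a i := by
        intro i hi
        rw [Function.update_of_ne]
        intro h
        have h1 : (i : ℕ) = k := by rw [h]
        have h2 : (i : ℕ) < j := hi
        omega
      rw [hl j _ a hd, hu j _ a hd]
      by_cases hjk : (j : ℕ) < k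
      · rw [Function.update_of_ne, ha j hjk]
        intro h
        have h1 : (j : ℕ) = k := by rw [h]
        omega
      · have hjp : j = p := Fin.ext (by simp only [hp]; omega)
        rw [hjp, Function.update_self]
    · exact ⟨a, fun j _ => ha j (lt_of_lt_of_le j.2 (not_lt.mp hk))⟩

/-- sum of an affine function of the caps -/
theorem g1c_bsum {n k : ℕ} (r t : ℝ) (A a : Fin n → ℝ)
    (ha : ∀ j : Fin n, k ≤ (j : ℕ) → a j = r + t * (A j - 2 * r)) :
    bsum k n a = r * bsum k n (fun _ : Fin n => (1 : ℝ)) +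
      t * (bsum k n A - 2 * r * bsum k n (fun _ : Fin n => (1 : ℝ))) := by
  unfold bsum
  rw [Finset.mul_sum, Finset.mul_sum, ← Finset.sum_sub_distrib, Finset.mul_sum,
    ← Finset.sum_add_distrib]
  refine Finset.sum_congr rfl fun i _ => ?_
  by_cases hi : k ≤ (i : ℕ)
  · rw [if_pos ⟨hi, i.2⟩, if_pos ⟨hi, i.2⟩, if_pos ⟨hi, i.2⟩, ha i hi]; ring
  · rw [if_neg (fun h => hi h.1), if_neg (fun h => hi h.1), if_neg (fun h => hi h.1)]; ring

theorem g1c_card {n k : ℕ} : 0 ≤ bsum k n (fun _ : Fin n => (1 : ℝ)) ∧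
    bsum k n (fun _ : Fin n => (1 : ℝ)) ≤ n := by
  constructor
  · exact D3d_bsum_nonneg _ _ _ fun _ _ _ => zero_le_one
  · unfold bsum
    refine (Finset.sum_le_card_nsmul _ _ 1 fun i _ => ?_).trans (by simp)
    split_ifs <;> norm_num

/-- a ball in the block -/
theorem g1c_ball {n k : ℕ} {c L Rb As g : ℝ} {Rv A : Fin n → ℝ}
    {l u : Fin n → (Fin n → ℝ) → ℝ} {σ : (Fin n → ℝ) → ℝ} (hL : 0 ≤ L)
    (h : TD c L Rv Rb k l u σ A As g) {a0 : Fin n → ℝ} {r ρ w : ℝ}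
    (hρ : 0 ≤ ρ) (hsum : (L + n + 1) * ρ < r) (hrc : r ≤ w)
    (hout : ∀ j : Fin n, (j : ℕ) < k → l j a0 + w ≤ a0 j ∧ a0 j + w ≤ u j a0)
    (hblk : ∀ j : Fin n, k ≤ (j : ℕ) → r ≤ a0 j ∧ a0 j ≤ A j - r)
    (hslack : r ≤ σ a0 - bsum k n a0 ∧ σ a0 - bsum k n a0 ≤ As - r) :
    Metric.ball a0 ρ ⊆ TR k l u σ A As := by
  intro a ha
  rw [Metric.mem_ball] at ha
  have hn0 : (0 : ℝ) ≤ n := Nat.cast_nonneg n
  have hLd : L * dist a a0 ≤ L * ρ := mul_le_mul_of_nonneg_left ha.le hL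
  have hnd : (n : ℝ) * dist a a0 ≤ n * ρ := mul_le_mul_of_nonneg_left ha.le hn0
  have hnρ : 0 ≤ (n : ℝ) * ρ := mul_nonneg hn0 hρ
  have hLρ : 0 ≤ L * ρ := mul_nonneg hL hρ
  have hs : L * ρ + n * ρ + ρ < r := by
    have : (L + n + 1) * ρ = L * ρ + n * ρ + ρ := by ring
    rw [← this]; exact hsum
  have hcoord : ∀ j, |a j - a0 j| < ρ := by
    intro j
    rw [← Real.dist_eq]
    exact lt_of_le_of_lt (dist_le_pi_dist a a0 j) ha
  refine ⟨fun j hj => ?_, fun j hj => ?_, ?_⟩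
  · have h1 := (abs_le.1 (h.sd.wl.lip j a a0)).2
    have h2 := (abs_le.1 (h.sd.wu.lip j a a0)).1
    have h3 := abs_lt.1 (hcoord j)
    have h4 := hout j hj
    have h5 := h3.1
    have h6 := h3.2
    have h7 := h4.1
    have h8 := h4.2
    constructor
    · linarith only [h1, h5, h7, hLd, hs, hrc, hnρ]
    · linarith only [h2, h6, h8, hLd, hs, hrc, hnρ]
  · have h3 := abs_lt.1 (hcoord j)
    have h4 := hblk j hj
    have h5 := h3.1
    have h6 := h3.2
    have h7 := h4.1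
    have h8 := h4.2
    constructor
    · linarith only [h5, h7, hs, hnρ, hLρ]
    · linarith only [h6, h8, hs, hnρ, hLρ]
  · have h1 := abs_le.1 (h.sd.lip a a0)
    have h2 := abs_le.1 (D3d_bsum_lip k n a a0)
    have h5 := h1.1
    have h6 := h1.2
    have h7 := h2.1
    have h8 := h2.2
    have h9 := hslack.1
    have h10 := hslack.2
    constructor
    · linarith only [h5, h8, h9, hs, hLd, hnd, hρ]
    · linarith only [h6, h7, h10, hs, hLd, hnd, hρ]

/-- the outer coordinates in the middle -/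
theorem g1c_pre {n k : ℕ} {c L Rb m : ℝ} {Rv : Fin n → ℝ}
    {l u : Fin n → (Fin n → ℝ) → ℝ} {σ : (Fin n → ℝ) → ℝ} (hc : 0 < c) (hm : 0 < m)
    (h : SD c L Rv Rb k l u σ) (hRv : ∀ j : Fin n, (j : ℕ) < k → m ≤ Rv j)
    {b a : Fin n → ℝ} (hb : ∀ j : Fin n, (j : ℕ) < k → b j = (l j b + u j b) / 2)
    (hab : ∀ j : Fin n, (j : ℕ) < k → a j = b j) : Pre l u k a ∧
      ∀ j : Fin n, (j : ℕ) < k → l j a + c * m / 2 ≤ a j ∧ a j + c * m / 2 ≤ u j a := by
  have hmid : ∀ j : Fin n, (j : ℕ) < k → a j = (l j a + u j a) / 2 := by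
    intro j hj
    have hd : ∀ i : Fin n, i < j → a i = b i := fun i hi =>
      hab i (lt_trans (show (i : ℕ) < j from hi) hj)
    rw [h.wl.dep j a b hd, h.wu.dep j a b hd, hab j hj, hb j hj]
  have h5 : 0 < c * m := mul_pos hc hm
  have hstep : ∀ q : ℕ, q ≤ k → Pre l u q a := by
    intro q
    induction q with
    | zero => intro _ i hi; exact absurd hi (Nat.not_lt_zero _)
    | succ q ih =>
      intro hq i hi
      have hP := ih (by omega)
      rcases Nat.lt_succ_iff_lt_or_eq.1 hi with h1 | h1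
      · exact hP i h1
      · have hPi : Pre l u i a := by rw [h1]; exact hP
        have hik : (i : ℕ) < k := by omega
        have h2 := (h.fat i a hik hPi).1
        have h3 : c * m ≤ c * Rv i := mul_le_mul_of_nonneg_left (hRv i hik) hc.le
        have h4 := hmid i hik
        constructor <;> linarith only [h2, h3, h4, h5]
  refine ⟨hstep k le_rfl, fun j hj => ?_⟩
  have hPj : Pre l u j a := fun i hi => hstep k le_rfl i (lt_trans hi hj)
  have h2 := (h.fat j a hj hPj).1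
  have h3 : c * m ≤ c * Rv j := mul_le_mul_of_nonneg_left (hRv j hj) hc.le
  have h4 := hmid j hj
  constructor <;> linarith only [h2, h3, h4, h5]

theorem g1c_ineq {r t x : ℝ} (ht0 : 0 ≤ t) (ht1 : t ≤ 1) (hx : 0 ≤ x - 2 * r) :
    r ≤ r + t * (x - 2 * r) ∧ r + t * (x - 2 * r) ≤ x - r := by
  have h1 : 0 ≤ t * (x - 2 * r) := mul_nonneg ht0 hx
  have h2 : t * (x - 2 * r) ≤ 1 * (x - 2 * r) := mul_le_mul_of_nonneg_right ht1 hx
  constructor
  · linarith only [h1]
  · linarith only [h2]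

/-- the centre of the ball -/
theorem g1c_centre {n k : ℕ} {c L Rb m As g : ℝ} {Rv A : Fin n → ℝ}
    {l u : Fin n → (Fin n → ℝ) → ℝ} {σ : (Fin n → ℝ) → ℝ} (hc : 0 < c) (hm : 0 < m)
    (h : TD c L Rv Rb k l u σ A As g) (hRv : ∀ j : Fin n, (j : ℕ) < k → m ≤ Rv j)
    (hRb : m ≤ Rb) {r : ℝ} (hr0 : 0 < r) (hcm : 2 * ((n : ℝ) + 1) * r = c * m) :
    ∃ a0 : Fin n → ℝ,
      (∀ j : Fin n, (j : ℕ) < k → l j a0 + c * m / 2 ≤ a0 j ∧ a0 j + c * m / 2 ≤ u j a0) ∧
      (∀ j : Fin n, k ≤ (j : ℕ) → r ≤ a0 j ∧ a0 j ≤ A j - r) ∧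
      (r ≤ σ a0 - bsum k n a0 ∧ σ a0 - bsum k n a0 ≤ As - r) := by
  classical
  obtain ⟨b, hb⟩ := g1c_mid h.sd.wl.dep h.sd.wu.dep k
  have hn0 : (0 : ℝ) ≤ n := Nat.cast_nonneg n
  have hcRb : c * m ≤ c * Rb := mul_le_mul_of_nonneg_left hRb hc.le
  have hσb := (g1c_pre hc hm h.sd hRv hb (fun _ _ => rfl)).1
  have hs1 := (h.sd.size b hσb).1
  have htot := h.tot b hσb
  obtain ⟨hc0, hc1⟩ := g1c_card (n := n) (k := k)
  set e : ℝ := bsum k n (fun _ : Fin n => (1 : ℝ)) with he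
  have her : (e + 1) * r ≤ c * m / 2 := by
    have h1 : (e + 1) * r ≤ (n + 1) * r :=
      mul_le_mul_of_nonneg_right (by linarith only [hc1]) hr0.le
    linarith only [h1, hcm]
  have hcm0 : 0 < c * m := mul_pos hc hm
  have hden : 0 < bsum k n A + As - 2 * (e + 1) * r := by
    linarith only [htot, her, hs1, hcRb, hcm0]
  have h2r : 2 * r ≤ c * m := by
    have : 0 ≤ (n : ℝ) * r := mul_nonneg hn0 hr0.le
    linarith only [this, hcm]
  set t : ℝ := (σ b - (e + 1) * r) / (bsum k n A + As - 2 * (e + 1) * r) with ht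
  have ht0 : 0 ≤ t := div_nonneg (by linarith only [hs1, hcRb, her, hcm0]) hden.le
  have ht1 : t ≤ 1 := by
    rw [ht, div_le_one hden]; linarith only [htot, her, hcRb, hcm0]
  have htF : (e + 1) * r + t * (bsum k n A + As - 2 * (e + 1) * r) = σ b := by
    rw [ht, div_mul_cancel₀ _ hden.ne']; ring
  set a0 : Fin n → ℝ := fun j => if (j : ℕ) < k then b j else r + t * (A j - 2 * r) with ha0
  have ha0k : ∀ j : Fin n, (j : ℕ) < k → a0 j = b j := fun j hj => by
    simp only [ha0]; rw [if_pos hj]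
  have ha0b : ∀ j : Fin n, k ≤ (j : ℕ) → a0 j = r + t * (A j - 2 * r) := fun j hj => by
    simp only [ha0]; rw [if_neg (not_lt.2 hj)]
  have hσ0 : σ a0 = σ b := d3s_congr h.sd.int ha0k
  have hbs := g1c_bsum (k := k) r t A a0 ha0b
  rw [← he] at hbs
  refine ⟨a0, (g1c_pre hc hm h.sd hRv hb ha0k).2, fun j hj => ?_, ?_⟩
  · have h1 := h.cap j hj
    rw [ha0b j hj]
    exact g1c_ineq ht0 ht1 (by linarith only [h1, h2r, hcRb])
  · have h1 : σ a0 - bsum k n a0 = r + t * (As - 2 * r) := by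
      rw [hσ0, hbs, ← htF]; ring
    have h2 := h.caps
    rw [h1]
    exact g1c_ineq ht0 ht1 (by linarith only [h2, h2r, hcRb])

/-- Lower bound for the volume of a truncated simplex block. -/
theorem TD.volume_ge {n : ℕ} (c L : ℝ) (hc : 0 < c) (hL : 0 ≤ L) : ∃ κ : ℝ, 0 < κ ∧
    ∀ (k : ℕ) (Rv : Fin n → ℝ) (Rb m : ℝ) (l u : Fin n → (Fin n → ℝ) → ℝ)
      (σ : (Fin n → ℝ) → ℝ) (A : Fin n → ℝ) (As g : ℝ), k ≤ n → 0 < m →
      (∀ j : Fin n, (j : ℕ) < k → m ≤ Rv j) → m ≤ Rb → TD c L Rv Rb k l u σ A As g →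
      (κ * m) ^ n ≤ (volume (TR k l u σ A As)).toReal := by
  have hn0 : (0 : ℝ) ≤ n := Nat.cast_nonneg n
  have hLn : 0 < L + n + 1 := by positivity
  refine ⟨c / (2 * (n + 1) * (L + n + 1)), by positivity, ?_⟩
  intro k Rv Rb m l u σ A As g hk hm hRv hRb h
  -- constants
  set r : ℝ := c * m / (2 * (n + 1)) with hr
  have hr0 : 0 < r := by positivity
  have hcm : 2 * ((n : ℝ) + 1) * r = c * m := by rw [hr]; field_simp
  set ρ : ℝ := r / (2 * (L + n + 1)) with hρ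
  have hρ0 : 0 < ρ := by positivity
  have hρr : (L + n + 1) * ρ = r / 2 := by rw [hρ]; field_simp
  have hκ : c / (2 * (n + 1) * (L + n + 1)) * m = 2 * ρ := by
    rw [hρ, hr]; field_simp
  have hrc : r ≤ c * m / 2 := by
    have : 0 ≤ (n : ℝ) * r := mul_nonneg hn0 hr0.le
    linarith only [this, hcm]
  obtain ⟨a0, h1, h2, h3⟩ := g1c_centre hc hm h hRv hRb hr0 hcm
  have hball : Metric.ball a0 ρ ⊆ TR k l u σ A As :=
    g1c_ball hL h hρ0.le (by rw [hρr]; linarith only [hr0]) hrc h1 h2 h3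
  have hfin := TR.finite (A := A) (As := As) (k := k) (σ := σ) hL h.sd.wl h.sd.wu
  have hvol : (volume (Metric.ball a0 ρ)).toReal = (2 * ρ) ^ n := by
    rw [Real.volume_pi_ball a0 hρ0, ENNReal.toReal_ofReal (by positivity), Fintype.card_fin]
  rw [hκ, ← hvol]
  exact ENNReal.toReal_mono hfin (measure_mono hball)

end Vale.Agent.P209.Strong
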