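import Vale.Agent.P209.Strong.G1a

namespace Vale.Agent.P209.Strong

open MeasureTheory

/-! G1d. Translation of the first block coordinate, and permutation of block coordinates. -/

section
variable {n k : ℕ} {c L Rb As g δ N : ℝ} {Rv A : Fin n → ℝ} {l u : Fin n → (Fin n → ℝ) → ℝ}
  {σ : (Fin n → ℝ) → ℝ}

/-- the walls before `k` only see the coordinates before `k` -/
theorem g1d_wall {F : Fin n → (Fin n → ℝ) → ℝ} (hF : Walls L F) {y y' : Fin n → ℝ}
    (hy : ∀ i : Fin n, (i : ℕ) < k → y i = y' i) (j : Fin n) (hj : (j : ℕ) < k) :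
    F j y = F j y' :=
  hF.dep j y y' fun i hi => hy i (lt_trans (Fin.lt_def.mp hi) hj)

theorem g1d_single_int (i j : Fin n) : ∃ z : ℤ, (Pi.single i (1 : ℝ) : Fin n → ℝ) j = z := by
  by_cases hij : j = i
  · subst hij
    exact ⟨1, by simp⟩
  · exact ⟨0, by simp [hij]⟩

theorem TR.fill_gt (hsd : SD c L Rv Rb k l u σ) {p : Fin n} (hp : k ≤ (p : ℕ)) {x : ℝ}
    (hx : 0 ≤ x)
    (h : Fill δ N (TR k l u (fun a => σ a - x) (Function.update A p (A p - x)) As)) :
    Fill δ N (TR k l u σ A As ∩ {a | x < a p}) := by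
  refine Fill.image (LinearEquiv.refl ℝ (Fin n → ℝ)) (fun i j => g1d_single_int i j)
    (fun i j => g1d_single_int i j) (Pi.single p (-x)) ?_
  have hT : ∀ a : Fin n → ℝ, (LinearEquiv.refl ℝ (Fin n → ℝ)) a + (Pi.single p (-x) : Fin n → ℝ) =
      Function.update a p (a p - x) := by
    intro a
    funext j
    rw [Pi.add_apply, LinearEquiv.refl_apply]
    by_cases hj : j = p
    · subst hj
      rw [Function.update_self, Pi.single_eq_same]
      ring
    · rw [Function.update_of_ne hj, Pi.single_eq_of_ne hj, add_zero]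
  have hlow : ∀ (a : Fin n → ℝ) (t : ℝ) (i : Fin n), (i : ℕ) < k →
      Function.update a p t i = a i := by
    intro a t i hi
    have : i ≠ p := by
      rintro rfl
      omega
    rw [Function.update_of_ne this]
  have e : (fun a => (LinearEquiv.refl ℝ (Fin n → ℝ)) a + (Pi.single p (-x) : Fin n → ℝ)) ''
      (TR k l u σ A As ∩ {a | x < a p}) =
      TR k l u (fun a => σ a - x) (Function.update A p (A p - x)) As := by
    ext y
    constructor
    · rintro ⟨a, ⟨⟨h1, h2, h3, h4⟩, h5⟩, rfl⟩
      have h5' : x < a p := h5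
      simp only [hT]
      refine ⟨fun j hj => ?_, fun j hj => ?_, ?_, ?_⟩
      · rw [g1d_wall hsd.wl (hlow a _) j hj, g1d_wall hsd.wu (hlow a _) j hj, hlow a _ j hj]
        exact h1 j hj
      · by_cases hjp : j = p
        · subst hjp
          rw [Function.update_self, Function.update_self]
          have := (h2 j hj).2
          constructor
          · linarith
          · linarith
        · rw [Function.update_of_ne hjp, Function.update_of_ne hjp]
          exact h2 j hj
      · show 0 < σ _ - x - bsum k n _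
        rw [hsd.dep (hlow a _), HM.bsum_update _ _ ⟨hp, p.2⟩]
        linarith
      · show σ _ - x - bsum k n _ < As
        rw [hsd.dep (hlow a _), HM.bsum_update _ _ ⟨hp, p.2⟩]
        linarith
    · rintro ⟨h1, h2, h3, h4⟩
      have h3' : 0 < σ y - x - bsum k n y := h3
      have h4' : σ y - x - bsum k n y < As := h4
      have h6 := h2 p hp
      rw [Function.update_self] at h6
      refine ⟨Function.update y p (y p + x), ⟨⟨fun j hj => ?_, fun j hj => ?_, ?_, ?_⟩, ?_⟩, ?_⟩
      · rw [g1d_wall hsd.wl (hlow y _) j hj, g1d_wall hsd.wu (hlow y _) j hj, hlow y _ j hj]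
        exact h1 j hj
      · by_cases hjp : j = p
        · subst hjp
          rw [Function.update_self]
          constructor
          · linarith [h6.1]
          · linarith [h6.2]
        · have h7 := h2 j hj
          rw [Function.update_of_ne hjp] at h7
          rw [Function.update_of_ne hjp]
          exact h7
      · rw [hsd.dep (hlow y _), HM.bsum_update _ _ ⟨hp, p.2⟩]
        linarith
      · rw [hsd.dep (hlow y _), HM.bsum_update _ _ ⟨hp, p.2⟩]
        linarith
      · show x < Function.update y p (y p + x) p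
        rw [Function.update_self]
        linarith [h6.1]
      · simp only [hT]
        rw [Function.update_idem, Function.update_self]
        have : y p + x - x = y p := by ring
        rw [this, Function.update_eq_self]
  rw [e]
  exact h

/-- swapping two block coordinates preserves the block sum -/
theorem g1d_bsum_swap {p q : Fin n} (hp : k ≤ (p : ℕ)) (hq : k ≤ (q : ℕ)) (a : Fin n → ℝ) :
    bsum k n (fun j => a (Equiv.swap p q j)) = bsum k n a := by
  unfold bsum
  rw [← Equiv.sum_comp (Equiv.swap p q)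
    (fun i : Fin n => if k ≤ (i : ℕ) ∧ (i : ℕ) < n then a i else 0)]
  refine Finset.sum_congr rfl fun i _ => ?_
  have h2 : (k ≤ (i : ℕ) ∧ (i : ℕ) < n) ↔
      (k ≤ ((Equiv.swap p q i : Fin n) : ℕ) ∧ ((Equiv.swap p q i : Fin n) : ℕ) < n) := by
    by_cases h3 : i = p
    · subst h3
      rw [Equiv.swap_apply_left]
      exact ⟨fun _ => ⟨hq, q.2⟩, fun _ => ⟨hp, i.2⟩⟩
    · by_cases h4 : i = q
      · subst h4
        rw [Equiv.swap_apply_right]
        exact ⟨fun _ => ⟨hp, p.2⟩, fun _ => ⟨hq, i.2⟩⟩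
      · rw [Equiv.swap_apply_of_ne_of_ne h3 h4]
  by_cases h3 : k ≤ (i : ℕ) ∧ (i : ℕ) < n
  · rw [if_pos h3, if_pos (h2.1 h3)]
  · rw [if_neg h3, if_neg (fun h4 => h3 (h2.2 h4))]

theorem g1d_swap_low {p q : Fin n} (hp : k ≤ (p : ℕ)) (hq : k ≤ (q : ℕ)) (a : Fin n → ℝ)
    (i : Fin n) (hi : (i : ℕ) < k) : (fun j => a (Equiv.swap p q j)) i = a i := by
  have h1 : i ≠ p := by
    rintro rfl
    omega
  have h2 : i ≠ q := by
    rintro rfl
    omega
  show a (Equiv.swap p q i) = a i
  rw [Equiv.swap_apply_of_ne_of_ne h1 h2]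

theorem g1d_swap_ge {p q : Fin n} (hp : k ≤ (p : ℕ)) (hq : k ≤ (q : ℕ)) {j : Fin n}
    (hj : k ≤ (j : ℕ)) : k ≤ ((Equiv.swap p q j : Fin n) : ℕ) := by
  by_cases h3 : j = p
  · subst h3
    rw [Equiv.swap_apply_left]
    exact hq
  · by_cases h4 : j = q
    · subst h4
      rw [Equiv.swap_apply_right]
      exact hp
    · rw [Equiv.swap_apply_of_ne_of_ne h3 h4]
      exact hj

theorem g1d_swap_mem (hsd : SD c L Rv Rb k l u σ) {p q : Fin n} (hp : k ≤ (p : ℕ))
    (hq : k ≤ (q : ℕ)) {a : Fin n → ℝ} (ha : a ∈ TR k l u σ A As) :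
    (fun j => a (Equiv.swap p q j)) ∈ TR k l u σ (fun j => A (Equiv.swap p q j)) As := by
  obtain ⟨h1, h2, h3, h4⟩ := ha
  have hlow := g1d_swap_low hp hq a
  refine ⟨fun j hj => ?_, fun j hj => ?_, ?_, ?_⟩
  · rw [g1d_wall hsd.wl hlow j hj, g1d_wall hsd.wu hlow j hj, hlow j hj]
    exact h1 j hj
  · exact h2 _ (g1d_swap_ge hp hq hj)
  · rw [hsd.dep hlow, g1d_bsum_swap hp hq]
    exact h3
  · rw [hsd.dep hlow, g1d_bsum_swap hp hq]
    exact h4

theorem TR.fill_swap (hsd : SD c L Rv Rb k l u σ) {p q : Fin n} (hp : k ≤ (p : ℕ))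
    (hq : k ≤ (q : ℕ)) (h : Fill δ N (TR k l u σ (fun j => A (Equiv.swap p q j)) As)) :
    Fill δ N (TR k l u σ A As) := by
  let S : (Fin n → ℝ) ≃ₗ[ℝ] (Fin n → ℝ) := LinearEquiv.funCongrLeft ℝ ℝ (Equiv.swap p q)
  have hSa : ∀ a, S a = fun j => a (Equiv.swap p q j) := fun a => rfl
  have hSa' : ∀ a, S.symm a = fun j => a (Equiv.swap p q j) := by
    intro a
    funext j
    show a ((Equiv.swap p q).symm j) = a (Equiv.swap p q j)
    rw [Equiv.symm_swap]
  refine Fill.image S ?_ ?_ 0 ?_
  · intro i j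
    rw [hSa]
    exact g1d_single_int _ _
  · intro i j
    rw [hSa']
    exact g1d_single_int _ _
  · have e : (fun a => S a + (0 : Fin n → ℝ)) '' TR k l u σ A As =
        TR k l u σ (fun j => A (Equiv.swap p q j)) As := by
      ext y
      constructor
      · rintro ⟨a, ha, rfl⟩
        simp only [add_zero, hSa]
        exact g1d_swap_mem hsd hp hq ha
      · intro hy
        refine ⟨fun j => y (Equiv.swap p q j), ?_, ?_⟩
        · have h1 := g1d_swap_mem hsd hp hq hy
          have h2 : (fun j => (fun j => A (Equiv.swap p q j)) (Equiv.swap p q j)) = A := by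
            funext j
            simp only [Equiv.swap_apply_self]
          rw [h2] at h1
          exact h1
        · simp only [add_zero, hSa, Equiv.swap_apply_self]
    rw [e]
    exact h

theorem TD.swap (h : TD c L Rv Rb k l u σ A As g) {p q : Fin n} (hp : k ≤ (p : ℕ))
    (hq : k ≤ (q : ℕ)) : TD c L Rv Rb k l u σ (fun j => A (Equiv.swap p q j)) As g where
  sd := h.sd
  cap := fun j hj => h.cap _ (g1d_swap_ge hp hq hj)
  caps := h.caps
  pair := fun a ha i j hij hi hj => h.pair a ha _ _
    (fun e => hij ((Equiv.swap p q).injective e)) (g1d_swap_ge hp hq hi) (g1d_swap_ge hp hq hj)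
  pairs := fun a ha j hj => h.pairs a ha _ (g1d_swap_ge hp hq hj)
  tot := fun a ha => by
    rw [g1d_bsum_swap hp hq]
    exact h.tot a ha

end

end Vale.Agent.P209.Strong
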