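import Vale.Agent.P209.Strong.G1a

namespace Vale.Agent.P209.Strong

open MeasureTheory

/-! G1e. Exchanging a block coordinate with the slack; reflection of a triangle. -/

section
variable {n k : ℕ} {c L Rb As g δ N : ℝ} {Rv A : Fin n → ℝ} {l u : Fin n → (Fin n → ℝ) → ℝ}
  {σ : (Fin n → ℝ) → ℝ}

/-- the walls before `k` only see the coordinates before `k` -/
theorem g1e_wall {F : Fin n → (Fin n → ℝ) → ℝ} (hF : Walls L F) {y y' : Fin n → ℝ}
    (hy : ∀ i : Fin n, (i : ℕ) < k → y i = y' i) (j : Fin n) (hj : (j : ℕ) < k) :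
    F j y = F j y' :=
  hF.dep j y y' fun i hi => hy i (lt_trans (Fin.lt_def.mp hi) hj)

theorem g1e_mem (hsd : SD c L Rv Rb k l u σ) {p : Fin n} (hp : k ≤ (p : ℕ)) {a : Fin n → ℝ}
    (ha : a ∈ TR k l u σ A As) :
    Function.update a p (σ a - bsum k n a) ∈ TR k l u σ (Function.update A p As) (A p) := by
  have hlow : ∀ i : Fin n, (i : ℕ) < k → Function.update a p (σ a - bsum k n a) i = a i := by
    intro i hi
    have : i ≠ p := by
      rintro rfl
      omega
    rw [Function.update_of_ne this]
  have hσ : σ (Function.update a p (σ a - bsum k n a)) = σ a := hsd.dep hlow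
  have hb : bsum k n (Function.update a p (σ a - bsum k n a)) = σ a - a p := by
    rw [HM.bsum_update _ _ ⟨hp, p.2⟩]
    ring
  obtain ⟨h1, h2, h3, h4⟩ := ha
  refine ⟨fun j hj => ?_, fun j hj => ?_, ?_, ?_⟩
  · rw [g1e_wall hsd.wl hlow j hj, g1e_wall hsd.wu hlow j hj, hlow j hj]
    exact h1 j hj
  · by_cases hjp : j = p
    · subst hjp
      rw [Function.update_self, Function.update_self]
      exact ⟨h3, h4⟩
    · rw [Function.update_of_ne hjp, Function.update_of_ne hjp]
      exact h2 j hj
  · rw [hσ, hb]
    have := (h2 p hp).1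
    linarith
  · rw [hσ, hb]
    have := (h2 p hp).2
    linarith

theorem g1e_invol (hsd : SD c L Rv Rb k l u σ) {p : Fin n} (hp : k ≤ (p : ℕ)) (a : Fin n → ℝ) :
    Function.update (Function.update a p (σ a - bsum k n a)) p
      (σ (Function.update a p (σ a - bsum k n a)) -
        bsum k n (Function.update a p (σ a - bsum k n a))) = a := by
  have hlow : ∀ i : Fin n, (i : ℕ) < k → Function.update a p (σ a - bsum k n a) i = a i := by
    intro i hi
    have : i ≠ p := by
      rintro rfl
      omega
    rw [Function.update_of_ne this]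
  have hσ : σ (Function.update a p (σ a - bsum k n a)) = σ a := hsd.dep hlow
  have hb : bsum k n (Function.update a p (σ a - bsum k n a)) = σ a - a p := by
    rw [HM.bsum_update _ _ ⟨hp, p.2⟩]
    ring
  rw [hσ, hb, Function.update_idem]
  have : σ a - (σ a - a p) = a p := by ring
  rw [this, Function.update_eq_self]

theorem g1e_single_int (i j : Fin n) : ∃ z : ℤ, (Pi.single i (1 : ℝ) : Fin n → ℝ) j = z := by
  by_cases hij : j = i
  · subst hij
    exact ⟨1, by simp⟩
  · exact ⟨0, by simp [hij]⟩

theorem TR.fill_slack (hsd : SD c L Rv Rb k l u σ) {p : Fin n} (hp : k ≤ (p : ℕ))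
    (h : Fill δ N (TR k l u σ (Function.update A p As) (A p))) : Fill δ N (TR k l u σ A As) := by
  obtain ⟨s, m, hm, hs⟩ := hsd.int
  have hkn : k + (n - k) = n := by
    have := p.2
    omega
  have hpb : k ≤ (p : ℕ) ∧ (p : ℕ) < k + (n - k) := by
    rw [hkn]
    exact ⟨hp, p.2⟩
  have hS := HM.SL_inv k (n - k) m p hpb (hm p hp)
  let S : (Fin n → ℝ) ≃ₗ[ℝ] (Fin n → ℝ) := LinearEquiv.ofInvolutive _ hS
  have hSa : ∀ a, S a = HM.SL k (n - k) m p a := fun a => rfl
  have hSa' : ∀ a, S.symm a = HM.SL k (n - k) m p a := fun a => rfl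
  refine Fill.image S ?_ ?_ (Pi.single p s) ?_
  · intro i j
    rw [hSa]
    exact HM.SL_int k (n - k) m p _ (fun i' => g1e_single_int i i') j
  · intro i j
    rw [hSa']
    exact HM.SL_int k (n - k) m p _ (fun i' => g1e_single_int i i') j
  · have hT : ∀ a : Fin n → ℝ, S a + (Pi.single p s : Fin n → ℝ) =
        Function.update a p (σ a - bsum k n a) := by
      intro a
      funext j
      rw [Pi.add_apply, hSa, HM.SL_apply, HM.eL_apply, hkn, hs a]
      by_cases hj : j = p
      · subst hj
        rw [Function.update_self, Function.update_self, Pi.single_eq_same]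
        ring
      · rw [Function.update_of_ne hj, Function.update_of_ne hj, Pi.single_eq_of_ne hj, add_zero]
    have e : (fun a => S a + (Pi.single p s : Fin n → ℝ)) '' TR k l u σ A As =
        TR k l u σ (Function.update A p As) (A p) := by
      ext y
      constructor
      · rintro ⟨a, ha, rfl⟩
        simp only [hT]
        exact g1e_mem hsd hp ha
      · intro hy
        refine ⟨Function.update y p (σ y - bsum k n y), ?_, ?_⟩
        · have h1 := g1e_mem hsd hp hy
          rwa [Function.update_idem, Function.update_eq_self, Function.update_self] at h1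
        · simp only [hT]
          exact g1e_invol hsd hp y
    rw [e]
    exact h

theorem TD.slack (h : TD c L Rv Rb k l u σ A As g) {p : Fin n} (hp : k ≤ (p : ℕ)) :
    TD c L Rv Rb k l u σ (Function.update A p As) (A p) g where
  sd := h.sd
  cap := fun j hj => by
    by_cases hjp : j = p
    · subst hjp
      rw [Function.update_self]
      exact h.caps
    · rw [Function.update_of_ne hjp]
      exact h.cap j hj
  caps := h.cap p hp
  pair := fun a ha i j hij hi hj => by
    by_cases hip : i = p
    · subst hip
      rw [Function.update_self, Function.update_of_ne (Ne.symm hij)]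
      have := h.pairs a ha j hj
      linarith
    · by_cases hjp : j = p
      · subst hjp
        rw [Function.update_self, Function.update_of_ne hip]
        exact h.pairs a ha i hi
      · rw [Function.update_of_ne hip, Function.update_of_ne hjp]
        exact h.pair a ha i j hij hi hj
  pairs := fun a ha j hj => by
    by_cases hjp : j = p
    · subst hjp
      rw [Function.update_self]
      have := h.pairs a ha j hj
      linarith
    · rw [Function.update_of_ne hjp]
      exact h.pair a ha j p hjp hj hp
  tot := fun a ha => by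
    have h1 := h.tot a ha
    rw [HM.bsum_update _ _ ⟨hp, p.2⟩]
    linarith

/-- the linear part of the reflection of the block -/
def g1e_R (n k : ℕ) : (Fin n → ℝ) →ₗ[ℝ] (Fin n → ℝ) :=
  LinearMap.pi fun j => if k ≤ (j : ℕ) then -LinearMap.proj j else LinearMap.proj j

theorem g1e_R_apply (a : Fin n → ℝ) (j : Fin n) :
    g1e_R n k a j = if k ≤ (j : ℕ) then -a j else a j := by
  unfold g1e_R
  rw [LinearMap.pi_apply]
  split_ifs
  · rfl
  · rfl

theorem g1e_R_inv : Function.Involutive (g1e_R n k) := by
  intro a
  funext j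
  rw [g1e_R_apply, g1e_R_apply]
  split_ifs
  · ring
  · rfl

theorem g1e_R_int (a : Fin n → ℝ) (ha : ∀ i, ∃ z : ℤ, a i = z) (j : Fin n) :
    ∃ z : ℤ, g1e_R n k a j = z := by
  rw [g1e_R_apply]
  obtain ⟨z, hz⟩ := ha j
  split_ifs
  · exact ⟨-z, by rw [hz]; push_cast; ring⟩
  · exact ⟨z, hz⟩

/-- reflection of the block -/
theorem g1e_bsum (a : Fin n → ℝ) :
    bsum k n (fun j => if k ≤ (j : ℕ) then A j - a j else a j) = bsum k n A - bsum k n a := by
  unfold bsum
  rw [← Finset.sum_sub_distrib]
  refine Finset.sum_congr rfl fun i _ => ?_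
  by_cases hi : k ≤ (i : ℕ)
  · have h1 : k ≤ (i : ℕ) ∧ (i : ℕ) < n := ⟨hi, i.2⟩
    simp only [if_pos h1, if_pos hi]
  · have h1 : ¬ (k ≤ (i : ℕ) ∧ (i : ℕ) < n) := fun h => hi h.1
    simp only [if_neg h1, sub_zero]

theorem g1e_refl_mem (hsd : SD c L Rv Rb k l u σ) (τ : (Fin n → ℝ) → ℝ)
    (hτ : ∀ a, τ a = bsum k n A + As - σ a) {a : Fin n → ℝ} (ha : a ∈ TR k l u σ A As) :
    (fun j : Fin n => if k ≤ (j : ℕ) then A j - a j else a j) ∈ TR k l u τ A As := by
  have hlow : ∀ i : Fin n, (i : ℕ) < k →
      (fun j : Fin n => if k ≤ (j : ℕ) then A j - a j else a j) i = a i := by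
    intro i hi
    exact if_neg (by omega)
  have hσ : σ (fun j : Fin n => if k ≤ (j : ℕ) then A j - a j else a j) = σ a := hsd.dep hlow
  obtain ⟨h1, h2, h3, h4⟩ := ha
  refine ⟨fun j hj => ?_, fun j hj => ?_, ?_, ?_⟩
  · rw [g1e_wall hsd.wl hlow j hj, g1e_wall hsd.wu hlow j hj, hlow j hj]
    exact h1 j hj
  · have h5 := h2 j hj
    simp only [if_pos hj]
    constructor
    · linarith
    · linarith
  · rw [hτ, g1e_bsum, hσ]
    linarith
  · rw [hτ, g1e_bsum, hσ]
    linarith

theorem g1e_refl_invol (a : Fin n → ℝ) :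
    (fun j : Fin n => if k ≤ (j : ℕ) then A j -
      (fun j : Fin n => if k ≤ (j : ℕ) then A j - a j else a j) j else
      (fun j : Fin n => if k ≤ (j : ℕ) then A j - a j else a j) j) = a := by
  funext j
  by_cases hj : k ≤ (j : ℕ)
  · simp only [if_pos hj]
    ring
  · simp only [if_neg hj]

/-- Reflection of a triangular block: `a ↦ A - a` in both coordinates (and in the slack). -/
theorem TR.fill_reflect (hsd : SD c L Rv Rb k l u σ) (hk : k + 2 = n)
    (h : Fill δ N (TR k l u (fun a => bsum k n A + As - σ a) A As)) :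
    Fill δ N (TR k l u σ A As) := by
  have hkn : k < n := by omega
  let S : (Fin n → ℝ) ≃ₗ[ℝ] (Fin n → ℝ) := LinearEquiv.ofInvolutive _ (g1e_R_inv (n := n) (k := k))
  have hSa : ∀ a, S a = g1e_R n k a := fun a => rfl
  have hSa' : ∀ a, S.symm a = g1e_R n k a := fun a => rfl
  refine Fill.image S ?_ ?_ (fun j => if k ≤ (j : ℕ) then A j else 0) ?_
  · intro i j
    rw [hSa]
    exact g1e_R_int _ (fun i' => g1e_single_int i i') j
  · intro i j
    rw [hSa']
    exact g1e_R_int _ (fun i' => g1e_single_int i i') j
  · have hT : ∀ a : Fin n → ℝ, S a + (fun j : Fin n => if k ≤ (j : ℕ) then A j else 0) =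
        fun j : Fin n => if k ≤ (j : ℕ) then A j - a j else a j := by
      intro a
      funext j
      rw [Pi.add_apply, hSa, g1e_R_apply]
      by_cases hj : k ≤ (j : ℕ)
      · simp only [if_pos hj]
        ring
      · simp only [if_neg hj, add_zero]
    have e : (fun a => S a + (fun j : Fin n => if k ≤ (j : ℕ) then A j else 0)) ''
        TR k l u σ A As = TR k l u (fun a => bsum k n A + As - σ a) A As := by
      ext y
      constructor
      · rintro ⟨a, ha, rfl⟩
        simp only [hT]
        exact g1e_refl_mem hsd _ (fun _ => rfl) ha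
      · intro hy
        refine ⟨fun j : Fin n => if k ≤ (j : ℕ) then A j - y j else y j, ?_, ?_⟩
        · obtain ⟨h1, h2, h3, h4⟩ := hy
          have hlow : ∀ i : Fin n, (i : ℕ) < k →
              (fun j : Fin n => if k ≤ (j : ℕ) then A j - y j else y j) i = y i := by
            intro i hi
            exact if_neg (by omega)
          have hσ : σ (fun j : Fin n => if k ≤ (j : ℕ) then A j - y j else y j) = σ y :=
            hsd.dep hlow
          refine ⟨fun j hj => ?_, fun j hj => ?_, ?_, ?_⟩
          · rw [g1e_wall hsd.wl hlow j hj, g1e_wall hsd.wu hlow j hj, hlow j hj]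
            exact h1 j hj
          · have h5 := h2 j hj
            simp only [if_pos hj]
            constructor
            · linarith
            · linarith
          · rw [g1e_bsum, hσ]
            linarith
          · rw [g1e_bsum, hσ]
            linarith
        · simp only [hT]
          exact g1e_refl_invol y
    rw [e]
    exact h

end

end Vale.Agent.P209.Strong
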