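import Vale.Agent.P209.Strong.G1a

namespace Vale.Agent.P209.Strong

open MeasureTheory

/-! G1g. Peeling off the first block coordinate. -/

/-- split off the first coordinate of a block -/
theorem g1g_bsum {n k : ℕ} (hk : k < n) (a : Fin n → ℝ) :
    bsum k n a = a ⟨k, hk⟩ + bsum (k + 1) n a := by
  have h1 := HM.bsum_split (k := k) (m := k + 1) (j := n) (by omega) (by omega) a
  have h2 := HM.bsum_succ (k := k) (⟨k, hk⟩ : Fin n) le_rfl a
  have h3 := HM.bsum_self (k := k) a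
  simp only at h2
  rw [h1, h2, h3]
  ring

/-- one coordinate is at most the block sum -/
theorem g1g_single {n k : ℕ} {A : Fin n → ℝ} (i : Fin n) (hi : k ≤ (i : ℕ))
    (hA : ∀ j : Fin n, k ≤ (j : ℕ) → 0 ≤ A j) : A i ≤ bsum k n A := by
  unfold bsum
  have h1 : A i = (if k ≤ (i : ℕ) ∧ (i : ℕ) < n then A i else 0) := by
    rw [if_pos ⟨hi, i.2⟩]
  rw [h1]
  refine Finset.single_le_sum (f := fun j : Fin n => if k ≤ (j : ℕ) ∧ (j : ℕ) < n then A j else 0)
    (fun j _ => ?_) (Finset.mem_univ i)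
  split_ifs with h2
  · exact hA j h2.1
  · exact le_rfl

/-- the first two coordinates are at most the block sum -/
theorem g1g_two {n k : ℕ} {A : Fin n → ℝ} (hk : k < n) (hk1 : k + 1 < n)
    (hA : ∀ j : Fin n, k ≤ (j : ℕ) → 0 ≤ A j) :
    A ⟨k, hk⟩ + A ⟨k + 1, hk1⟩ ≤ bsum k n A := by
  rw [g1g_bsum hk]
  have := g1g_single (k := k + 1) (A := A) ⟨k + 1, hk1⟩ le_rfl (fun j hj => hA j (by omega))
  linarith

theorem g1g_upd {n k : ℕ} (hk : k < n) (F : Fin n → (Fin n → ℝ) → ℝ) (x : ℝ) (j : Fin n)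
    (hj : (j : ℕ) < k) (a : Fin n → ℝ) :
    Function.update F ⟨k, hk⟩ (fun _ => x) j a = F j a := by
  rw [Function.update_of_ne]
  intro h
  rw [h] at hj
  exact absurd hj (lt_irrefl _)

theorem g1g_updk {n k : ℕ} (hk : k < n) (F : Fin n → (Fin n → ℝ) → ℝ) (x : ℝ)
    (a : Fin n → ℝ) :
    Function.update F ⟨k, hk⟩ (fun _ => x) ⟨k, hk⟩ a = x := by
  rw [Function.update_self]

theorem g1g_walls {n k : ℕ} {L : ℝ} (hk : k < n) (hL : 0 ≤ L) {F : Fin n → (Fin n → ℝ) → ℝ}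
    (hF : Walls L F) (x : ℝ) : Walls (L + 1) (Function.update F ⟨k, hk⟩ fun _ => x) := by
  constructor
  · intro j y y' h
    by_cases hj : j = ⟨k, hk⟩
    · subst hj
      rw [g1g_updk, g1g_updk]
    · rw [Function.update_of_ne hj]
      exact hF.dep j y y' h
  · intro j y y'
    by_cases hj : j = ⟨k, hk⟩
    · subst hj
      rw [g1g_updk, g1g_updk, sub_self, abs_zero]
      exact mul_nonneg (by linarith) dist_nonneg
    · rw [Function.update_of_ne hj]
      refine (hF.lip j y y').trans ?_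
      have : 0 ≤ dist y y' := dist_nonneg
      nlinarith

theorem g1g_pre {n k : ℕ} (hk : k < n) {l u : Fin n → (Fin n → ℝ) → ℝ} {x0 x1 : ℝ}
    {j : ℕ} (hj : j ≤ k) {a : Fin n → ℝ}
    (h : Pre (Function.update l ⟨k, hk⟩ fun _ => x0) (Function.update u ⟨k, hk⟩ fun _ => x1) j a) :
    Pre l u j a := by
  intro i hi
  have h1 := h i hi
  rw [g1g_upd hk l x0 i (by omega), g1g_upd hk u x1 i (by omega)] at h1
  exact h1

theorem g1g_prek {n k : ℕ} (hk : k < n) {l u : Fin n → (Fin n → ℝ) → ℝ} {x0 x1 : ℝ}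
    {a : Fin n → ℝ}
    (h : Pre (Function.update l ⟨k, hk⟩ fun _ => x0) (Function.update u ⟨k, hk⟩ fun _ => x1)
      (k + 1) a) :
    Pre l u k a ∧ x0 < a ⟨k, hk⟩ ∧ a ⟨k, hk⟩ < x1 := by
  refine ⟨g1g_pre hk le_rfl (fun i hi => h i (by omega)), ?_⟩
  have h1 := h ⟨k, hk⟩ (Nat.lt_succ_self k)
  rw [g1g_updk, g1g_updk] at h1
  exact h1

section
variable {n k : ℕ} {c L Rb As g : ℝ} {Rv A : Fin n → ℝ} {l u : Fin n → (Fin n → ℝ) → ℝ}
  {σ : (Fin n → ℝ) → ℝ}

theorem TR.peel_eq (hk : k < n) {x0 x1 : ℝ} (hx0 : 0 ≤ x0)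
    (hx1 : x1 ≤ A ⟨k, hk⟩) :
    TR k l u σ A As ∩ {a | x0 < a ⟨k, hk⟩ ∧ a ⟨k, hk⟩ < x1} =
      TR (k + 1) (Function.update l ⟨k, hk⟩ fun _ => x0) (Function.update u ⟨k, hk⟩ fun _ => x1)
        (fun a => σ a - a ⟨k, hk⟩) A As := by
  ext a
  have hb := g1g_bsum hk a
  constructor
  · rintro ⟨⟨h1, h2, h3, h4⟩, h5, h6⟩
    refine ⟨?_, ?_, ?_, ?_⟩
    · intro j hj
      rcases Nat.lt_succ_iff_lt_or_eq.1 hj with hj | hj
      · rw [g1g_upd hk l x0 j hj, g1g_upd hk u x1 j hj]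
        exact h1 j hj
      · have hjk : j = ⟨k, hk⟩ := Fin.ext hj
        subst hjk
        rw [g1g_updk, g1g_updk]
        exact ⟨h5, h6⟩
    · intro j hj
      exact h2 j (by omega)
    · linarith
    · linarith
  · rintro ⟨h1, h2, h3, h4⟩
    have hkk := h1 ⟨k, hk⟩ (Nat.lt_succ_self k)
    rw [g1g_updk, g1g_updk] at hkk
    refine ⟨⟨?_, ?_, ?_, ?_⟩, hkk.1, hkk.2⟩
    · intro j hj
      have h5 := h1 j (by omega)
      rw [g1g_upd hk l x0 j hj, g1g_upd hk u x1 j hj] at h5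
      exact h5
    · intro j hj
      by_cases hjk : j = ⟨k, hk⟩
      · subst hjk
        exact ⟨lt_of_le_of_lt hx0 hkk.1, lt_of_lt_of_le hkk.2 hx1⟩
      · refine h2 j ?_
        have : (j : ℕ) ≠ k := fun h => hjk (Fin.ext h)
        omega
    · dsimp only at h3
      linarith
    · dsimp only at h4
      linarith

theorem TD.peel (hk : k < n) (hL : 0 ≤ L) (hRb : 0 < Rb)
    (hRv : ∀ j : Fin n, (j : ℕ) < k → 0 ≤ Rv j) (h : TD c L Rv Rb k l u σ A As g)
    {c' x0 x1 g1 g' : ℝ} (hc' : 0 < c') (hcc : c' ≤ c) (hx0 : 0 ≤ x0) (hw : c' * Rb ≤ x1 - x0)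
    (hw2 : x1 - x0 ≤ Rb) (hs : ∀ a, Pre l u k a → x1 + c' * Rb ≤ σ a) (hg1 : 0 ≤ g1)
    (hp : ∀ a, Pre l u k a → ∀ i j : Fin n, i ≠ j → k + 1 ≤ (i : ℕ) → k + 1 ≤ (j : ℕ) →
      σ a + g1 ≤ A i + A j)
    (hps : ∀ a, Pre l u k a → ∀ j : Fin n, k + 1 ≤ (j : ℕ) → σ a + g1 ≤ A j + As)
    (hg' : g' ≤ g1 + x0) (htot : k + 3 ≤ n ∨ (k + 2 ≤ n ∧ c' * Rb ≤ g')) :
    TD c' (L + 1) (Function.update Rv ⟨k, hk⟩ Rb) Rb (k + 1)
      (Function.update l ⟨k, hk⟩ fun _ => x0) (Function.update u ⟨k, hk⟩ fun _ => x1)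
      (fun a => σ a - a ⟨k, hk⟩) A As g' := by
  have hcR : c' * Rb ≤ c * Rb := mul_le_mul_of_nonneg_right hcc hRb.le
  have hcR0 : 0 < c' * Rb := mul_pos hc' hRb
  have hA0 : ∀ j : Fin n, k + 1 ≤ (j : ℕ) → 0 ≤ A j := fun j hj => by
    have := h.cap j (by omega)
    linarith
  refine ⟨⟨g1g_walls hk hL h.sd.wl x0, g1g_walls hk hL h.sd.wu x1, ?_, ?_, ?_, ?_⟩, ?_, ?_, ?_,
    ?_, ?_⟩
  · obtain ⟨s, m, hm, hσ⟩ := h.sd.int
    refine ⟨s, fun j => m j - if j = ⟨k, hk⟩ then 1 else 0, ?_, ?_⟩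
    · intro j hj
      have hjk : j ≠ ⟨k, hk⟩ := by
        intro h
        rw [h] at hj
        simp only at hj
        omega
      change m j - (if j = ⟨k, hk⟩ then 1 else 0) = 0
      rw [hm j (by omega), if_neg hjk, sub_zero]
    · intro a
      change σ a - a ⟨k, hk⟩ =
        s + ∑ j : Fin n, ((m j - if j = ⟨k, hk⟩ then 1 else 0 : ℤ) : ℝ) * a j
      rw [hσ a]
      have : ∀ j : Fin n, (((m j - if j = ⟨k, hk⟩ then 1 else 0 : ℤ)) : ℝ) * a j
          = (m j : ℝ) * a j - if j = ⟨k, hk⟩ then a j else 0 := by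
        intro j
        split_ifs with hj
        · push_cast; ring
        · push_cast; ring
      rw [Finset.sum_congr rfl fun j _ => this j, Finset.sum_sub_distrib, Finset.sum_ite_eq']
      simp
      ring
  · intro y y'
    have h1 := h.sd.lip y y'
    have h2 : |y ⟨k, hk⟩ - y' ⟨k, hk⟩| ≤ dist y y' := by
      rw [← Real.dist_eq]
      exact dist_le_pi_dist y y' _
    have h3 : (σ y - y ⟨k, hk⟩) - (σ y' - y' ⟨k, hk⟩)
        = (σ y - σ y') - (y ⟨k, hk⟩ - y' ⟨k, hk⟩) := by ring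
    rw [h3]
    refine (abs_sub _ _).trans ?_
    linarith
  · intro j a hj hpre
    rcases Nat.lt_succ_iff_lt_or_eq.1 hj with hj | hj
    · have hjk : j ≠ ⟨k, hk⟩ := by
        intro h
        rw [h] at hj
        exact absurd hj (lt_irrefl _)
      rw [g1g_upd hk l x0 j hj, g1g_upd hk u x1 j hj, Function.update_of_ne hjk]
      have h1 := h.sd.fat j a hj (g1g_pre hk hj.le hpre)
      exact ⟨(mul_le_mul_of_nonneg_right hcc (hRv j hj)).trans h1.1, h1.2⟩
    · have hjk : j = ⟨k, hk⟩ := Fin.ext hj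
      subst hjk
      rw [g1g_updk, g1g_updk, Function.update_self]
      exact ⟨hw, hw2⟩
  · intro a hpre
    obtain ⟨h1, h2, h3⟩ := g1g_prek hk hpre
    have h4 := hs a h1
    have h5 := (h.sd.size a h1).2
    constructor <;> linarith
  · intro j hj
    exact hcR.trans (h.cap j (by omega))
  · exact hcR.trans h.caps
  · intro a hpre i j hij hi hj
    obtain ⟨h1, h2, h3⟩ := g1g_prek hk hpre
    have h4 := hp a h1 i j hij hi hj
    linarith
  · intro a hpre j hj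
    obtain ⟨h1, h2, h3⟩ := g1g_prek hk hpre
    have h4 := hps a h1 j hj
    linarith
  · intro a hpre
    obtain ⟨h1, h2, h3⟩ := g1g_prek hk hpre
    rcases htot with hn | ⟨hn, hg⟩
    · have h4 := hp a h1 ⟨k + 1, by omega⟩ ⟨k + 1 + 1, by omega⟩
        (by intro h; have := congrArg Fin.val h; simp at this) (by simp) (by simp)
      have h5 := g1g_two (k := k + 1) (A := A) (by omega) (by omega) hA0
      have h6 := h.caps
      linarith
    · have h4 := hps a h1 ⟨k + 1, by omega⟩ (by simp)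
      have h5 := g1g_single (k := k + 1) (A := A) ⟨k + 1, by omega⟩ (by simp) hA0
      linarith

end

end Vale.Agent.P209.Strong
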