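import Vale.Agent.P209.Strong.G1b
import Vale.Agent.P209.Strong.G1c
import Vale.Agent.P209.Strong.G1g

namespace Vale.Agent.P209.Strong

open MeasureTheory

/-! G1h. Cutting along the first block coordinate with a movable wall. -/

section
variable {n k : ℕ} {c L Rb As g δ N : ℝ} {Rv A : Fin n → ℝ} {l u : Fin n → (Fin n → ℝ) → ℝ}
  {σ : (Fin n → ℝ) → ℝ}

theorem g1h_null (j : Fin n) (x : ℝ) : volume {a : Fin n → ℝ | a j = x} = 0 :=
  volume_graph_zero j (fun _ => x) continuous_const (fun _ _ _ => rfl)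

theorem TR.cut (hn : 1 ≤ n) (hδ1 : δ ≤ 1) (hL : 0 ≤ L) (hsd : SD c L Rv Rb k l u σ)
    (hk : k < n) {x0 x1 : ℝ} (hx : x0 ≤ x1)
    (hmid : 1 / (n.factorial : ℝ) <
      (volume (TR k l u σ A As ∩ {a | x0 < a ⟨k, hk⟩ ∧ a ⟨k, hk⟩ < x1})).toReal)
    (hU : ∀ x, x0 ≤ x → x ≤ x1 → Fill δ N (TR k l u σ A As ∩ {a | a ⟨k, hk⟩ < x}))
    (hV : ∀ x, x0 ≤ x → x ≤ x1 → Fill δ N (TR k l u σ A As ∩ {a | x < a ⟨k, hk⟩})) :
    Fill δ N (TR k l u σ A As) := by
  have hfin : volume (TR k l u σ A As) ≠ ⊤ := TR.finite hL hsd.wl hsd.wu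
  have hmeas : MeasurableSet (TR k l u σ A As) :=
    (TR.isOpen hL hsd.wl hsd.wu (SD.continuous hL hsd)).measurableSet
  have hproj : Measurable fun a : Fin n → ℝ => a ⟨k, hk⟩ := measurable_pi_apply _
  have hfs : ∀ S : Set (Fin n → ℝ), volume (TR k l u σ A As ∩ S) ≠ ⊤ := fun S =>
    ne_top_of_le_ne_top hfin (measure_mono Set.inter_subset_left)
  refine Fill.split hn hδ1 hfin (fun x => TR k l u σ A As ∩ {a | a ⟨k, hk⟩ < x})
    (fun x => TR k l u σ A As ∩ {a | x < a ⟨k, hk⟩}) hx (fun _ _ _ => Set.inter_subset_left)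
    (fun _ _ _ => Set.inter_subset_left) ?_ ?_ ?_ ?_ hU hV
  · intro x _ _
    rw [Set.disjoint_left]
    rintro a ⟨_, h1⟩ ⟨_, h2⟩
    have h3 : a ⟨k, hk⟩ < x := h1
    have h4 : x < a ⟨k, hk⟩ := h2
    exact lt_asymm h3 h4
  · intro x _ _
    have h1 : volume (TR k l u σ A As) ≤ volume (TR k l u σ A As ∩ {a | a ⟨k, hk⟩ < x}) +
        volume (TR k l u σ A As ∩ {a | x < a ⟨k, hk⟩}) := by
      calc volume (TR k l u σ A As) ≤ volume (((TR k l u σ A As ∩ {a | a ⟨k, hk⟩ < x}) ∪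
            (TR k l u σ A As ∩ {a | x < a ⟨k, hk⟩})) ∪ {a : Fin n → ℝ | a ⟨k, hk⟩ = x}) := by
            refine measure_mono ?_
            intro a ha
            rcases lt_trichotomy (a ⟨k, hk⟩) x with h | h | h
            · exact Or.inl (Or.inl ⟨ha, h⟩)
            · exact Or.inr h
            · exact Or.inl (Or.inr ⟨ha, h⟩)
        _ ≤ volume ((TR k l u σ A As ∩ {a | a ⟨k, hk⟩ < x}) ∪
            (TR k l u σ A As ∩ {a | x < a ⟨k, hk⟩})) + volume {a : Fin n → ℝ | a ⟨k, hk⟩ = x} :=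
            measure_union_le _ _
        _ = volume ((TR k l u σ A As ∩ {a | a ⟨k, hk⟩ < x}) ∪
            (TR k l u σ A As ∩ {a | x < a ⟨k, hk⟩})) := by
            rw [g1h_null, add_zero]
        _ ≤ _ := measure_union_le _ _
    rw [← ENNReal.toReal_add (hfs _) (hfs _)]
    exact ENNReal.toReal_mono (ENNReal.add_ne_top.2 ⟨hfs _, hfs _⟩) h1
  · have h1 := volume_lt_continuous hfin hmeas (f := fun a : Fin n → ℝ => a ⟨k, hk⟩)
      (g := fun _ => (1 : ℝ)) hproj measurable_const (fun _ _ => one_pos) (fun x =>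
        measure_mono_null (Set.inter_subset_right.trans (fun a ha => by
          have h2 : a ⟨k, hk⟩ = x * 1 := ha
          rw [mul_one] at h2
          exact h2)) (g1h_null ⟨k, hk⟩ x))
    simp only [mul_one] at h1
    exact h1.continuousOn
  · have hms : MeasurableSet (TR k l u σ A As ∩ {a | x0 < a ⟨k, hk⟩ ∧ a ⟨k, hk⟩ < x1}) :=
      hmeas.inter ((measurableSet_lt measurable_const hproj).inter
        (measurableSet_lt hproj measurable_const))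
    have hdis : Disjoint (TR k l u σ A As ∩ {a | a ⟨k, hk⟩ < x0})
        (TR k l u σ A As ∩ {a | x0 < a ⟨k, hk⟩ ∧ a ⟨k, hk⟩ < x1}) := by
      rw [Set.disjoint_left]
      rintro a ⟨_, h1⟩ ⟨_, h2⟩
      have h3 : a ⟨k, hk⟩ < x0 := h1
      have h4 : x0 < a ⟨k, hk⟩ := h2.1
      exact lt_asymm h3 h4
    have h1 : volume (TR k l u σ A As ∩ {a | a ⟨k, hk⟩ < x0}) +
        volume (TR k l u σ A As ∩ {a | x0 < a ⟨k, hk⟩ ∧ a ⟨k, hk⟩ < x1}) ≤
        volume (TR k l u σ A As ∩ {a | a ⟨k, hk⟩ < x1}) := by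
      rw [← measure_union hdis hms]
      refine measure_mono ?_
      rintro a (⟨ha, h2⟩ | ⟨ha, h2⟩)
      · exact ⟨ha, lt_of_lt_of_le h2 hx⟩
      · exact ⟨ha, h2.2⟩
    have h2 := ENNReal.toReal_mono (hfs _) h1
    rw [ENNReal.toReal_add (hfs _) (hfs _)] at h2
    show (volume (TR k l u σ A As ∩ {a | a ⟨k, hk⟩ < x0})).toReal + _ <
      (volume (TR k l u σ A As ∩ {a | a ⟨k, hk⟩ < x1})).toReal
    linarith only [h2, hmid]

/-- The middle part has large volume (`c'` is the fatness of the middle part). -/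
theorem TD.mid_ge (c' L' : ℝ) (n : ℕ) (hc' : 0 < c') (hL' : 0 ≤ L') : ∃ M : ℝ, 0 < M ∧
    ∀ (k : ℕ) (hk : k < n) (c L Rb m : ℝ) (Rv : Fin n → ℝ) (l u : Fin n → (Fin n → ℝ) → ℝ)
      (σ : (Fin n → ℝ) → ℝ) (A : Fin n → ℝ) (As g x0 x1 : ℝ), 0 ≤ L → L ≤ L' → k + 2 ≤ n →
      c' ≤ c → M ≤ m → m ≤ Rb → (∀ j : Fin n, (j : ℕ) < k → m ≤ Rv j) →
      TD c L Rv Rb k l u σ A As g → 0 ≤ x0 → x1 ≤ A ⟨k, hk⟩ → c' * Rb ≤ x1 - x0 →
      x1 - x0 ≤ Rb → (∀ a, Pre l u k a → x1 + c' * Rb ≤ σ a) →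
      (c' * Rb ≤ g ∨ (0 ≤ g ∧ (k + 3 ≤ n ∨ c' * Rb ≤ x0))) →
      1 / (n.factorial : ℝ) <
        (volume (TR k l u σ A As ∩ {a | x0 < a ⟨k, hk⟩ ∧ a ⟨k, hk⟩ < x1})).toReal := by
  obtain ⟨κ, hκ, H⟩ := TD.volume_ge (n := n) c' (L' + 1) hc' (by linarith only [hL'])
  refine ⟨2 / κ, by positivity, ?_⟩
  intro k hk c L Rb m Rv l u σ A As g x0 x1 hL hLL hkn hcc hM hmR hRv hT hx0 hx1 hw hw2 hs hg
  have hm : 0 < m := lt_of_lt_of_le (by positivity) hM
  have hRb : 0 < Rb := lt_of_lt_of_le hm hmR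
  have hcR : 0 < c' * Rb := mul_pos hc' hRb
  have hg0 : 0 ≤ g := by
    rcases hg with h | h
    · exact hcR.le.trans h
    · exact h.1
  obtain ⟨g', hg1, hg2⟩ : ∃ g', g' ≤ g + x0 ∧ (k + 3 ≤ n ∨ (k + 2 ≤ n ∧ c' * Rb ≤ g')) := by
    rcases hg with h | ⟨_, h | h⟩
    · exact ⟨g, by linarith only [hx0], Or.inr ⟨hkn, h⟩⟩
    · exact ⟨g, by linarith only [hx0], Or.inl h⟩
    · exact ⟨x0, by linarith only [hg0], Or.inr ⟨hkn, h⟩⟩
  have h1 := TD.peel hk hL hRb (fun j hj => hm.le.trans (hRv j hj)) hT hc' hcc hx0 hw hw2 hs hg0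
    (fun a ha i j hij hi hj => hT.pair a ha i j hij (by omega) (by omega))
    (fun a ha j hj => hT.pairs a ha j (by omega)) hg1 hg2
  have hRv' : ∀ j : Fin n, (j : ℕ) < k + 1 → m ≤ Function.update Rv ⟨k, hk⟩ Rb j := by
    intro j hj
    by_cases hjk : j = ⟨k, hk⟩
    · rw [hjk, Function.update_self]
      exact hmR
    · rw [Function.update_of_ne hjk]
      refine hRv j ?_
      have h2 : (j : ℕ) ≠ k := fun h => hjk (Fin.ext h)
      omega
  have h2 := TD.mono h1 le_rfl (show L + 1 ≤ L' + 1 by linarith only [hLL]) le_rfl hRb.le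
    (fun j hj => hm.le.trans (hRv' j hj))
  have h3 := H (k + 1) _ Rb m _ _ _ A As g' hk hm hRv' hmR h2
  rw [TR.peel_eq hk hx0 hx1]
  refine lt_of_lt_of_le ?_ h3
  have h4 : 2 ≤ κ * m := by
    have h5 : κ * (2 / κ) = 2 := by
      field_simp
    have h6 := mul_le_mul_of_nonneg_left hM hκ.le
    linarith only [h5, h6]
  have h5 : (1 : ℝ) < (κ * m) ^ n := one_lt_pow₀ (by linarith only [h4]) (by omega)
  refine lt_of_le_of_lt ?_ h5
  rw [div_le_one (by positivity)]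
  exact_mod_cast Nat.succ_le_of_lt (Nat.factorial_pos n)

end

end Vale.Agent.P209.Strong
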