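import Vale.Agent.P209.Strong.G0

namespace Vale.Agent.P209.Strong

open MeasureTheory

/-- truncation of a point: the coordinates `≥ j` are replaced by `0` -/
noncomputable def g1i_tr {n : ℕ} (j : ℕ) (a : Fin n → ℝ) : Fin n → ℝ :=
  fun i => if (i : ℕ) < j then a i else 0

theorem g1i_tr_eq {n : ℕ} (j : ℕ) (a : Fin n → ℝ) (i : Fin n) (hi : (i : ℕ) < j) :
    a i = g1i_tr j a i := by
  simp only [g1i_tr, if_pos hi]

theorem g1i_dist {n : ℕ} (j : ℕ) (a a' : Fin n → ℝ) {D : ℝ} (hD : 0 ≤ D)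
    (h : ∀ i : Fin n, (i : ℕ) < j → |a i - a' i| ≤ D) :
    dist (g1i_tr j a) (g1i_tr j a') ≤ D := by
  rw [dist_pi_le_iff hD]
  intro i
  simp only [g1i_tr]
  split_ifs with hi
  · rw [Real.dist_eq]
    exact h i hi
  · rw [dist_self]
    exact hD

theorem g1i_main {n k : ℕ} {L η : ℝ} (hL : 0 ≤ L) (hη : 0 ≤ η)
    {l u : Fin n → (Fin n → ℝ) → ℝ} (hl : Walls L l)
    (hw : ∀ (j : Fin n) (a : Fin n → ℝ), (j : ℕ) < k → Pre l u j a → u j a - l j a ≤ η)
    {a a' : Fin n → ℝ} (ha : Pre l u k a) (ha' : Pre l u k a') (j : ℕ) (hj : j ≤ k) :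
    ∀ i : Fin n, (i : ℕ) < j → |a i - a' i| ≤ j * (1 + L) ^ j * η := by
  induction j with
  | zero => exact fun i hi => absurd hi (Nat.not_lt_zero _)
  | succ j ih =>
    have ih' := ih (by omega)
    have hL1 : 1 ≤ 1 + L := by linarith
    have hp : 1 ≤ (1 + L) ^ j := one_le_pow₀ hL1
    have hD : 0 ≤ (j : ℝ) * (1 + L) ^ j * η :=
      mul_nonneg (mul_nonneg (Nat.cast_nonneg j) (by linarith)) hη
    have key : η + L * ((j : ℝ) * (1 + L) ^ j * η) ≤ ((j + 1 : ℕ) : ℝ) * (1 + L) ^ (j + 1) * η := by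
      have e : ((j + 1 : ℕ) : ℝ) * (1 + L) ^ (j + 1) * η - (η + L * ((j : ℝ) * (1 + L) ^ j * η))
          = (j : ℝ) * (1 + L) ^ j * η + (((1 + L) ^ j - 1) * η + L * (1 + L) ^ j * η) := by
        push_cast
        ring
      have h1 : 0 ≤ ((1 + L) ^ j - 1) * η := mul_nonneg (by linarith) hη
      have h2 : 0 ≤ L * (1 + L) ^ j * η := mul_nonneg (mul_nonneg hL (by linarith)) hη
      linarith
    have hLD : 0 ≤ L * ((j : ℝ) * (1 + L) ^ j * η) := mul_nonneg hL hD
    intro i hi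
    by_cases hij : (i : ℕ) < j
    · have h3 : (j : ℝ) * (1 + L) ^ j * η ≤ ((j + 1 : ℕ) : ℝ) * (1 + L) ^ (j + 1) * η := by
        have e : ((j + 1 : ℕ) : ℝ) * (1 + L) ^ (j + 1) * η - (j : ℝ) * (1 + L) ^ j * η
            = L * ((j : ℝ) * (1 + L) ^ j * η) + (1 + L) ^ j * η + L * (1 + L) ^ j * η := by
          push_cast
          ring
        have h1 : 0 ≤ (1 + L) ^ j * η := mul_nonneg (by linarith) hη
        have h2 : 0 ≤ L * (1 + L) ^ j * η := mul_nonneg (mul_nonneg hL (by linarith)) hη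
        linarith
      exact (ih' i hij).trans h3
    · have hik : (i : ℕ) < k := by omega
      have hd := g1i_dist j a a' hD ih'
      have hdl : L * dist (g1i_tr j a) (g1i_tr j a') ≤ L * ((j : ℝ) * (1 + L) ^ j * η) :=
        mul_le_mul_of_nonneg_left hd hL
      have e1 : l i a = l i (g1i_tr j a) := hl.dep i a _ fun i' hi' => g1i_tr_eq j a i' (by
        have := Fin.lt_def.mp hi'
        omega)
      have e2 : l i a' = l i (g1i_tr j a') := hl.dep i a' _ fun i' hi' => g1i_tr_eq j a' i' (by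
        have := Fin.lt_def.mp hi'
        omega)
      have h4 : |l i a - l i a'| ≤ L * ((j : ℝ) * (1 + L) ^ j * η) := by
        rw [e1, e2]
        exact (hl.lip i _ _).trans hdl
      have h5 := abs_le.1 h4
      have h6 := ha i hik
      have h7 := ha' i hik
      have h8 := hw i a hik fun i' hi' => ha i' (by omega)
      have h9 := hw i a' hik fun i' hi' => ha' i' (by omega)
      refine le_trans ?_ key
      rw [abs_le]
      constructor
      · linarith [h6.1, h7.2, h5.1]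
      · linarith [h6.2, h7.1, h5.2]

/-- Oscillation of a function of the outer coordinates, when the outer widths are at most `η`. -/
theorem Pre.osc {n k : ℕ} {L η : ℝ} (hL : 0 ≤ L) (hη : 0 ≤ η) (hk : k ≤ n)
    {l u : Fin n → (Fin n → ℝ) → ℝ} (hl : Walls L l) (hu : Walls L u)
    (hw : ∀ (j : Fin n) (a : Fin n → ℝ), (j : ℕ) < k → Pre l u j a → u j a - l j a ≤ η)
    {σ : (Fin n → ℝ) → ℝ} (hσ : ∀ y y', |σ y - σ y'| ≤ L * dist y y')
    (hdep : ∀ y y' : Fin n → ℝ, (∀ i : Fin n, (i : ℕ) < k → y i = y' i) → σ y = σ y')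
    {a a' : Fin n → ℝ} (ha : Pre l u k a) (ha' : Pre l u k a') :
    |σ a - σ a'| ≤ L * (n * (1 + L) ^ n) * η := by
  have hL1 : 1 ≤ 1 + L := by linarith
  have hD : 0 ≤ (k : ℝ) * (1 + L) ^ k * η :=
    mul_nonneg (mul_nonneg (Nat.cast_nonneg k) (by positivity)) hη
  have hd := g1i_dist k a a' hD (g1i_main hL hη hl hw ha ha' k le_rfl)
  have e1 : σ a = σ (g1i_tr k a) := hdep a _ (g1i_tr_eq k a)
  have e2 : σ a' = σ (g1i_tr k a') := hdep a' _ (g1i_tr_eq k a')
  rw [e1, e2]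
  refine (hσ _ _).trans ((mul_le_mul_of_nonneg_left hd hL).trans ?_)
  rw [mul_assoc L]
  refine mul_le_mul_of_nonneg_left (mul_le_mul_of_nonneg_right ?_ hη) hL
  exact mul_le_mul (Nat.cast_le.2 hk) (pow_le_pow_right₀ hL1 hk) (by positivity)
    (Nat.cast_nonneg n)

end Vale.Agent.P209.Strong
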