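import Vale.Agent.P209.Strong.G1b
import Vale.Agent.P209.Strong.G1c

namespace Vale.Agent.P209.Strong

open MeasureTheory

section
variable {n k : ℕ} {c L Rb As g : ℝ} {Rv A : Fin n → ℝ} {l u : Fin n → (Fin n → ℝ) → ℝ}
  {σ : (Fin n → ℝ) → ℝ}

/-- the wall at the fraction `f` between the walls `l j` and `u j` -/
noncomputable def g2_w (l u : Fin n → (Fin n → ℝ) → ℝ) (j : Fin n) (f : ℝ) : (Fin n → ℝ) → ℝ :=
  fun a => l j a + f * (u j a - l j a)

theorem g2_dep {L : ℝ} (hl : Walls L l) (hu : Walls L u) (j : Fin n) (f : ℝ) {y y' : Fin n → ℝ}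
    (h : ∀ i, i < j → y i = y' i) : g2_w l u j f y = g2_w l u j f y' := by
  simp only [g2_w]
  rw [hl.dep j y y' h, hu.dep j y y' h]

theorem g2_lip {L : ℝ} (hl : Walls L l) (hu : Walls L u) (j : Fin n) {f : ℝ} (hf0 : 0 ≤ f)
    (hf1 : f ≤ 1) (y y' : Fin n → ℝ) : |g2_w l u j f y - g2_w l u j f y'| ≤ L * dist y y' := by
  have h1 := abs_le.1 (hl.lip j y y')
  have h2 := abs_le.1 (hu.lip j y y')
  have e : g2_w l u j f y - g2_w l u j f y' =
      (1 - f) * (l j y - l j y') + f * (u j y - u j y') := by
    simp only [g2_w]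
    ring
  rw [e, abs_le]
  have h3 : 0 ≤ 1 - f := by linarith
  constructor
  · have h4 := mul_le_mul_of_nonneg_left h1.1 h3
    have h5 := mul_le_mul_of_nonneg_left h2.1 hf0
    linarith
  · have h4 := mul_le_mul_of_nonneg_left h1.2 h3
    have h5 := mul_le_mul_of_nonneg_left h2.2 hf0
    linarith

theorem g2_walls {L : ℝ} (hl : Walls L l) (hu : Walls L u) (j : Fin n) {f : ℝ} (hf0 : 0 ≤ f)
    (hf1 : f ≤ 1) {F : Fin n → (Fin n → ℝ) → ℝ} (hF : Walls L F) :
    Walls L (Function.update F j (g2_w l u j f)) := by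
  constructor
  · intro i y y' h
    by_cases hi : i = j
    · subst hi
      simp only [Function.update_self]
      exact g2_dep hl hu i f h
    · simp only [Function.update_of_ne hi]
      exact hF.dep i y y' h
  · intro i y y'
    by_cases hi : i = j
    · subst hi
      simp only [Function.update_self]
      exact g2_lip hl hu i hf0 hf1 y y'
    · simp only [Function.update_of_ne hi]
      exact hF.lip i y y'

/-- positivity of the width -/
theorem g2_pos (hc : 0 < c) (h : SD c L Rv Rb k l u σ) {j : Fin n} (hj : (j : ℕ) < k)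
    (hR : 0 < Rv j) {a : Fin n → ℝ} (ha : Pre l u j a) : 0 < u j a - l j a :=
  lt_of_lt_of_le (by positivity) (h.fat j a hj ha).1

/-- the new conditions imply the old ones -/
theorem g2_pre (hc : 0 < c) (h : SD c L Rv Rb k l u σ) {j : Fin n} (hj : (j : ℕ) < k)
    (hR : 0 < Rv j) {f₀ f₁ : ℝ} (hf0 : 0 ≤ f₀) (hf1 : f₁ ≤ 1) {p : ℕ} {a : Fin n → ℝ}
    (ha : Pre (Function.update l j (g2_w l u j f₀)) (Function.update u j (g2_w l u j f₁)) p a) :
    Pre l u p a := by
  intro i hi
  have hne : ∀ i : Fin n, (i : ℕ) < p → i ≠ j → l i a < a i ∧ a i < u i a := by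
    intro i hi hij
    have := ha i hi
    simp only [Function.update_of_ne hij] at this
    exact this
  by_cases hij : i = j
  · subst hij
    have hpre : Pre l u i a := fun i' hi' =>
      hne i' (hi'.trans hi) (fun e => by rw [e] at hi'; exact lt_irrefl _ hi')
    have hw := g2_pos hc h hj hR hpre
    have h1 := ha i hi
    simp only [Function.update_self, g2_w] at h1
    have h2 := mul_nonneg hf0 hw.le
    have h3 : f₁ * (u i a - l i a) ≤ 1 * (u i a - l i a) :=
      mul_le_mul_of_nonneg_right hf1 hw.le
    constructor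
    · linarith [h1.1]
    · linarith [h1.2]
  · exact hne i hi hij

/-- the sub-block between two fractions -/
def g2_sub (k : ℕ) (l u : Fin n → (Fin n → ℝ) → ℝ) (σ : (Fin n → ℝ) → ℝ) (A : Fin n → ℝ)
    (As : ℝ) (j : Fin n) (f₀ f₁ : ℝ) : Set (Fin n → ℝ) :=
  TR k (Function.update l j (g2_w l u j f₀)) (Function.update u j (g2_w l u j f₁)) σ A As

theorem g2_mem (hc : 0 < c) (h : SD c L Rv Rb k l u σ) {j : Fin n} (hj : (j : ℕ) < k)
    (hR : 0 < Rv j) {f₀ f₁ : ℝ} (hf0 : 0 ≤ f₀) (hf1 : f₁ ≤ 1) {a : Fin n → ℝ} :
    a ∈ g2_sub k l u σ A As j f₀ f₁ ↔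
      a ∈ TR k l u σ A As ∧ g2_w l u j f₀ a < a j ∧ a j < g2_w l u j f₁ a := by
  constructor
  · intro ha
    have h1 := ha.1 j hj
    simp only [Function.update_self] at h1
    exact ⟨⟨g2_pre hc h hj hR hf0 hf1 ha.1, ha.2⟩, h1⟩
  · rintro ⟨ha, h1⟩
    refine ⟨fun i hi => ?_, ha.2⟩
    by_cases hij : i = j
    · subst hij
      simp only [Function.update_self]
      exact h1
    · simp only [Function.update_of_ne hij]
      exact ha.1 i hi

/-- data of the sub-block -/
theorem g2_data (hc : 0 < c) (h : TD c L Rv Rb k l u σ A As g) {j : Fin n}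
    (hj : (j : ℕ) < k) (hR : 0 < Rv j) {f₀ f₁ : ℝ} (hf0 : 0 ≤ f₀) (hf : f₀ ≤ f₁) (hf1 : f₁ ≤ 1) :
    TD c L (Function.update Rv j ((f₁ - f₀) * Rv j)) Rb k
      (Function.update l j (g2_w l u j f₀)) (Function.update u j (g2_w l u j f₁)) σ A As g := by
  have hp : ∀ {p : ℕ} {a : Fin n → ℝ},
      Pre (Function.update l j (g2_w l u j f₀)) (Function.update u j (g2_w l u j f₁)) p a →
      Pre l u p a := fun ha => g2_pre hc h.sd hj hR hf0 hf1 ha
  refine ⟨⟨g2_walls h.sd.wl h.sd.wu j hf0 (hf.trans hf1) h.sd.wl,
    g2_walls h.sd.wl h.sd.wu j (hf0.trans hf) hf1 h.sd.wu, h.sd.int, h.sd.lip, ?_,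
    fun a ha => h.sd.size a (hp ha)⟩, h.cap, h.caps, fun a ha => h.pair a (hp ha),
    fun a ha => h.pairs a (hp ha), fun a ha => h.tot a (hp ha)⟩
  intro i a hi ha
  have h1 := h.sd.fat i a hi (hp ha)
  by_cases hij : i = j
  · subst hij
    simp only [Function.update_self, g2_w]
    have e : l i a + f₁ * (u i a - l i a) - (l i a + f₀ * (u i a - l i a)) =
        (f₁ - f₀) * (u i a - l i a) := by ring
    rw [e]
    have h2 : 0 ≤ f₁ - f₀ := by linarith
    constructor
    · have := mul_le_mul_of_nonneg_left h1.1 h2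
      linarith
    · exact mul_le_mul_of_nonneg_left h1.2 h2
  · simp only [Function.update_of_ne hij]
    exact h1

end

/-- Refinement: it suffices to fill the blocks whose outer widths are small. -/
theorem TD.refine {n : ℕ} (hn : 1 ≤ n) (c L δ : ℝ) (hc : 0 < c) (hL : 0 ≤ L) (hδ1 : δ ≤ 1) :
    ∃ M0 : ℝ, 0 < M0 ∧ ∀ (N : ℝ) (k : ℕ) (m η Rb : ℝ) (σ : (Fin n → ℝ) → ℝ) (A : Fin n → ℝ)
      (As g : ℝ), k ≤ n → M0 ≤ m → 4 * m ≤ η → m ≤ Rb →
      (∀ (Rv : Fin n → ℝ) (l u : Fin n → (Fin n → ℝ) → ℝ),
        (∀ j : Fin n, (j : ℕ) < k → m ≤ Rv j ∧ Rv j ≤ η) → TD c L Rv Rb k l u σ A As g →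
        Fill δ N (TR k l u σ A As)) →
      ∀ (Rv : Fin n → ℝ) (l u : Fin n → (Fin n → ℝ) → ℝ), (∀ j : Fin n, (j : ℕ) < k → m ≤ Rv j) →
        TD c L Rv Rb k l u σ A As g → Fill δ N (TR k l u σ A As) := by
  obtain ⟨κ, hκ, hvolge⟩ := TD.volume_ge (n := n) c L hc hL
  refine ⟨2 / κ, by positivity, ?_⟩
  intro N k m η Rb σ A As g hk hm hη hRb hsmall
  have hm0 : 0 < m := lt_of_lt_of_le (by positivity) hm
  have hκm : 2 ≤ κ * m := by
    rw [div_le_iff₀ hκ] at hm
    linarith
  have hfac : 1 / (n.factorial : ℝ) < (κ * m) ^ n := by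
    have h1 : (1 : ℝ) / (n.factorial : ℝ) ≤ 1 := by
      rw [div_le_one (by positivity)]
      exact_mod_cast Nat.one_le_iff_ne_zero.2 (Nat.factorial_ne_zero n)
    have h2 : (2 : ℝ) ^ 1 ≤ (κ * m) ^ n :=
      (pow_le_pow_right₀ (by norm_num) hn).trans (pow_le_pow_left₀ (by norm_num) hκm n)
    linarith
  have key : ∀ (K : ℕ) (Rv : Fin n → ℝ) (l u : Fin n → (Fin n → ℝ) → ℝ),
      (∀ j : Fin n, (j : ℕ) < k → m ≤ Rv j) →
      (∑ j : Fin n, if (j : ℕ) < k then Rv j else 0) ≤ K * m →
      TD c L Rv Rb k l u σ A As g → Fill δ N (TR k l u σ A As) := by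
    intro K
    induction K with
    | zero =>
      intro Rv l u hRv hsum hTD
      refine hsmall Rv l u (fun j hj => ⟨hRv j hj, ?_⟩) hTD
      by_contra hcon
      rw [not_le] at hcon
      have h1 : Rv j ≤ ∑ j : Fin n, if (j : ℕ) < k then Rv j else 0 := by
        have h2 : (if (j : ℕ) < k then Rv j else 0) ≤
            ∑ j : Fin n, if (j : ℕ) < k then Rv j else 0 :=
          Finset.single_le_sum (f := fun j : Fin n => if (j : ℕ) < k then Rv j else 0)
            (fun i _ => by
              show 0 ≤ (if (i : ℕ) < k then Rv i else 0)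
              split_ifs with hi
              · exact hm0.le.trans (hRv i hi)
              · exact le_rfl) (Finset.mem_univ j)
        rwa [if_pos hj] at h2
      push_cast at hsum
      linarith
    | succ K ih =>
      intro Rv l u hRv hsum hTD
      by_cases hall : ∀ j : Fin n, (j : ℕ) < k → Rv j ≤ η
      · exact hsmall Rv l u (fun j hj => ⟨hRv j hj, hall j hj⟩) hTD
      push Not at hall
      obtain ⟨j, hj, hjη⟩ := hall
      have hRj : 0 < Rv j := by linarith
      have hwl := hTD.sd.wl
      have hwu := hTD.sd.wu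
      have hσc : Continuous σ := SD.continuous hL hTD.sd
      have hfin : volume (TR k l u σ A As) ≠ ⊤ := TR.finite hL hwl hwu
      have hopen : IsOpen (TR k l u σ A As) := TR.isOpen hL hwl hwu hσc
      have hmem : ∀ {f₀ f₁ : ℝ}, 0 ≤ f₀ → f₁ ≤ 1 → ∀ {a : Fin n → ℝ},
          (a ∈ g2_sub k l u σ A As j f₀ f₁ ↔
          a ∈ TR k l u σ A As ∧ g2_w l u j f₀ a < a j ∧ a j < g2_w l u j f₁ a) :=
        fun h0 h1 => g2_mem hc hTD.sd hj hRj h0 h1
      have hpos : ∀ a ∈ TR k l u σ A As, 0 < u j a - l j a := fun a ha =>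
        g2_pos hc hTD.sd hj hRj (fun i hi => ha.1 i (hi.trans hj))
      have hsub : ∀ {f₀ f₁ : ℝ}, 0 ≤ f₀ → f₁ ≤ 1 →
          g2_sub k l u σ A As j f₀ f₁ ⊆ TR k l u σ A As :=
        fun h0 h1 a ha => ((hmem h0 h1).1 ha).1
      have hlc : Continuous (l j) := hwl.continuous hL j
      have huc : Continuous (u j) := hwu.continuous hL j
      have hwc : ∀ f : ℝ, Continuous (g2_w l u j f) := fun f =>
        hlc.add (continuous_const.mul (huc.sub hlc))
      have hnull : ∀ f : ℝ, volume {a : Fin n → ℝ | a j = g2_w l u j f a} = 0 := fun f =>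
        volume_graph_zero j _ (hwc f) (fun y y' hy =>
          g2_dep hwl hwu j f (fun i hi => hy i (ne_of_lt hi)))
      have hsplitsum : ∀ x : ℝ,
          (∑ i : Fin n, if (i : ℕ) < k then Function.update Rv j (x * Rv j) i else 0) =
          (∑ i : Fin n, if (i : ℕ) < k then Rv i else 0) - (1 - x) * Rv j := by
        intro x
        have h1 : ∀ i : Fin n, (if (i : ℕ) < k then Function.update Rv j (x * Rv j) i else 0) =
            (if (i : ℕ) < k then Rv i else 0) - (if i = j then (1 - x) * Rv j else 0) := by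
          intro i
          by_cases hij : i = j
          · subst hij
            rw [if_pos hj, if_pos hj, if_pos rfl, Function.update_self]
            ring
          · rw [if_neg hij, Function.update_of_ne hij, sub_zero]
        rw [Finset.sum_congr rfl fun i _ => h1 i, Finset.sum_sub_distrib]
        congr 1
        simp
      have hfill : ∀ {f₀ f₁ : ℝ}, 0 ≤ f₀ → f₁ ≤ 1 → 1 / 4 ≤ f₁ - f₀ → f₁ - f₀ ≤ 3 / 4 →
          Fill δ N (g2_sub k l u σ A As j f₀ f₁) := by
        intro f₀ f₁ h0 h1 h2 h3
        refine ih (Function.update Rv j ((f₁ - f₀) * Rv j)) _ _ (fun i hi => ?_) ?_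
          (g2_data hc hTD hj hRj h0 (by linarith) h1)
        · by_cases hij : i = j
          · subst hij
            rw [Function.update_self]
            have h4 : 1 / 4 * Rv i ≤ (f₁ - f₀) * Rv i := mul_le_mul_of_nonneg_right h2 hRj.le
            linarith
          · rw [Function.update_of_ne hij]
            exact hRv i hi
        · rw [hsplitsum]
          have h4 : 1 / 4 * Rv j ≤ (1 - (f₁ - f₀)) * Rv j :=
            mul_le_mul_of_nonneg_right (by linarith) hRj.le
          push_cast at hsum
          linarith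
      refine Fill.split hn hδ1 hfin (fun f => g2_sub k l u σ A As j 0 f)
        (fun f => g2_sub k l u σ A As j f 1) (c₀ := 1 / 2) (c₁ := 3 / 4) (by norm_num)
        (fun f h0 h1 => hsub le_rfl (by linarith)) (fun f h0 h1 => hsub (by linarith) le_rfl)
        ?_ ?_ ?_ ?_ ?_ ?_
      · intro f h0 h1
        rw [Set.disjoint_left]
        intro a ha ha'
        have h2 := ((hmem le_rfl (by linarith)).1 ha).2.2
        have h3 := ((hmem (by linarith) le_rfl).1 ha').2.1
        linarith
      · intro f h0 h1
        have hcov : TR k l u σ A As ⊆ (g2_sub k l u σ A As j 0 f ∪ g2_sub k l u σ A As j f 1) ∪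
            {a : Fin n → ℝ | a j = g2_w l u j f a} := by
          intro a ha
          have hw := hpos a ha
          have hja := ha.1 j hj
          rcases lt_trichotomy (a j) (g2_w l u j f a) with h2 | h2 | h2
          · left; left
            refine (hmem le_rfl (by linarith)).2 ⟨ha, ?_, h2⟩
            simp only [g2_w]
            linarith [hja.1]
          · right
            exact h2
          · left; right
            refine (hmem (by linarith) le_rfl).2 ⟨ha, h2, ?_⟩
            simp only [g2_w]
            linarith [hja.2]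
        have h2 : volume (TR k l u σ A As) ≤
            volume (g2_sub k l u σ A As j 0 f) + volume (g2_sub k l u σ A As j f 1) := by
          refine (measure_mono hcov).trans ((measure_union_le _ _).trans ?_)
          rw [hnull f, add_zero]
          exact measure_union_le _ _
        have h3 : volume (g2_sub k l u σ A As j 0 f) ≠ ⊤ :=
          ne_top_of_le_ne_top hfin (measure_mono (hsub le_rfl (by linarith)))
        have h4 : volume (g2_sub k l u σ A As j f 1) ≠ ⊤ :=
          ne_top_of_le_ne_top hfin (measure_mono (hsub (by linarith) le_rfl))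
        rw [← ENNReal.toReal_add h3 h4]
        exact ENNReal.toReal_mono (ENNReal.add_ne_top.2 ⟨h3, h4⟩) h2
      · have h1 := volume_lt_continuous hfin hopen.measurableSet
          (f := fun a => a j - l j a) (g := fun a => u j a - l j a)
          ((measurable_pi_apply j).sub hlc.measurable) (huc.sub hlc).measurable hpos
          (fun f => measure_mono_null (fun a ha => by
            have h2 : a j - l j a = f * (u j a - l j a) := ha.2
            show a j = l j a + f * (u j a - l j a)
            linarith) (hnull f))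
        refine h1.continuousOn.congr fun f hf => ?_
        have h2 : g2_sub k l u σ A As j 0 f =
            TR k l u σ A As ∩ {a | a j - l j a < f * (u j a - l j a)} := by
          ext a
          rw [hmem le_rfl (by linarith [hf.2])]
          constructor
          · rintro ⟨ha, -, h4⟩
            simp only [g2_w] at h4
            exact ⟨ha, by show a j - l j a < f * (u j a - l j a); linarith⟩
          · rintro ⟨ha, h4⟩
            have h5 : a j - l j a < f * (u j a - l j a) := h4
            have hja := ha.1 j hj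
            refine ⟨ha, ?_, ?_⟩
            · simp only [g2_w]
              linarith [hja.1]
            · simp only [g2_w]
              linarith
        show (volume (g2_sub k l u σ A As j 0 f)).toReal = _
        rw [h2]
      · show (volume (g2_sub k l u σ A As j 0 (1 / 2))).toReal + 1 / (n.factorial : ℝ) <
          (volume (g2_sub k l u σ A As j 0 (3 / 4))).toReal
        have hdat := g2_data hc hTD hj hRj (f₀ := 1 / 2) (f₁ := 3 / 4) (by norm_num)
          (by norm_num) (by norm_num)
        have hmv : (κ * m) ^ n ≤ (volume (g2_sub k l u σ A As j (1 / 2) (3 / 4))).toReal := by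
          refine hvolge k _ Rb m _ _ σ A As g hk hm0 (fun i hi => ?_) hRb hdat
          by_cases hij : i = j
          · subst hij
            rw [Function.update_self]
            linarith
          · rw [Function.update_of_ne hij]
            exact hRv i hi
        have hmid : IsOpen (g2_sub k l u σ A As j (1 / 2) (3 / 4)) :=
          TR.isOpen hL hdat.sd.wl hdat.sd.wu hσc
        have hdis : Disjoint (g2_sub k l u σ A As j 0 (1 / 2))
            (g2_sub k l u σ A As j (1 / 2) (3 / 4)) := by
          rw [Set.disjoint_left]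
          intro a ha ha'
          have h2 := ((hmem le_rfl (by norm_num)).1 ha).2.2
          have h3 := ((hmem (by norm_num) (by norm_num)).1 ha').2.1
          linarith
        have hss : g2_sub k l u σ A As j 0 (1 / 2) ∪ g2_sub k l u σ A As j (1 / 2) (3 / 4) ⊆
            g2_sub k l u σ A As j 0 (3 / 4) := by
          rintro a (ha | ha)
          · obtain ⟨h2, h3, h4⟩ := (hmem le_rfl (by norm_num)).1 ha
            have hw := hpos a h2
            refine (hmem le_rfl (by norm_num)).2 ⟨h2, h3, h4.trans ?_⟩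
            simp only [g2_w]
            linarith
          · obtain ⟨h2, h3, h4⟩ := (hmem (by norm_num) (by norm_num)).1 ha
            have hw := hpos a h2
            refine (hmem le_rfl (by norm_num)).2 ⟨h2, ?_, h4⟩
            refine lt_trans ?_ h3
            simp only [g2_w]
            linarith
        have h3 : ∀ {f₀ f₁ : ℝ}, 0 ≤ f₀ → f₁ ≤ 1 →
            volume (g2_sub k l u σ A As j f₀ f₁) ≠ ⊤ := fun h0 h1 =>
          ne_top_of_le_ne_top hfin (measure_mono (hsub h0 h1))
        have h4 := ENNReal.toReal_mono (h3 le_rfl (by norm_num)) (measure_mono hss)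
        rw [measure_union hdis hmid.measurableSet,
          ENNReal.toReal_add (h3 le_rfl (by norm_num)) (h3 (by norm_num) (by norm_num))] at h4
        linarith
      · exact fun f h0 h1 => hfill le_rfl (by linarith) (by linarith) (by linarith)
      · exact fun f h0 h1 => hfill (by linarith) le_rfl (by linarith) (by linarith)
  intro Rv l u hRv hTD
  obtain ⟨K, hK⟩ := exists_nat_ge ((∑ j : Fin n, if (j : ℕ) < k then Rv j else 0) / m)
  rw [div_le_iff₀ hm0] at hK
  exact key K Rv l u hRv hK hTD

end Vale.Agent.P209.Strong
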