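import Vale.Agent.P209.Strong.G2

namespace Vale.Agent.P209.Strong

open MeasureTheory

theorem g3_bsum {n : ℕ} (a : Fin n → ℝ) : bsum n n a = 0 := by
  unfold bsum
  refine Finset.sum_eq_zero fun i _ => ?_
  rw [if_neg]
  intro h
  exact absurd h.2 (not_lt.2 h.1)

theorem g3_TR {n : ℕ} {l u : Fin n → (Fin n → ℝ) → ℝ} {A : Fin n → ℝ} {m : ℝ} (hm : 0 < m) :
    TR n l u (fun _ => m) A (2 * m) = boxSet l u := by
  ext a
  constructor
  · rintro ⟨h, -, -⟩ j
    exact h j j.2
  · intro h
    refine ⟨fun j _ => h j, fun j hj => absurd j.2 (not_lt.2 hj), ?_, ?_⟩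
    · rw [g3_bsum, sub_zero]
      exact hm
    · rw [g3_bsum, sub_zero]
      linarith

theorem CA_all (n : ℕ) (hn : 2 ≤ n) : CA n := by
  intro c L δ N hc hL hδ hδ1 hN
  obtain ⟨M0, hM0, href⟩ := TD.refine (n := n) (by omega) c L δ hc hL hδ1
  obtain ⟨R0, hR0, hcol⟩ := column_pre n hn (c / 4) L δ N (by positivity) hL hδ hδ1 hN
  obtain ⟨m, hm⟩ : ∃ m, m = max M0 R0 := ⟨_, rfl⟩
  have hmM : M0 ≤ m := hm ▸ le_max_left _ _
  have hmR : R0 ≤ m := hm ▸ le_max_right _ _
  have hm0 : 0 < m := hM0.trans_le hmM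
  refine ⟨m, hm0, fun Rv hRv l u hl hu hf => ?_⟩
  have hc1 : c ≤ 1 := by
    have h1 := hf ⟨0, by omega⟩ 0 (fun i hi => absurd hi (Nat.not_lt_zero _))
    have h2 : 0 < Rv ⟨0, by omega⟩ := hm0.trans_le (hRv _)
    have h3 : c * Rv ⟨0, by omega⟩ ≤ 1 * Rv ⟨0, by omega⟩ := by
      rw [one_mul]
      exact h1.1.trans h1.2
    exact le_of_mul_le_mul_right h3 h2
  have key := href N n m (4 * m) m (fun _ => m) (fun _ => 0) (2 * m) 0 le_rfl hmM le_rfl le_rfl
    (fun Rv' l' u' hRv' h => by
      rw [g3_TR hm0]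
      refine hcol (4 * m) (by linarith) l' u' h.sd.wl h.sd.wu fun j a hj => ?_
      have h1 := h.sd.fat j a j.2 hj
      have h2 := hRv' j j.2
      have h3 : c * m ≤ c * Rv' j := mul_le_mul_of_nonneg_left h2.1 hc.le
      constructor
      · linarith
      · linarith) Rv l u (fun j _ => hRv j)
    { sd :=
        { wl := hl
          wu := hu
          int := ⟨m, 0, fun _ _ => rfl, fun a => by simp⟩
          lip := fun y y' => by
            rw [sub_self, abs_zero]
            exact mul_nonneg hL dist_nonneg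
          fat := fun j a _ hj => hf j a hj
          size := fun a _ => ⟨mul_le_of_le_one_left hm0.le hc1, le_rfl⟩ }
      cap := fun j hj => absurd j.2 (not_lt.2 hj)
      caps := by
        have : c * m ≤ 1 * m := mul_le_mul_of_nonneg_right hc1 hm0.le
        linarith
      pair := fun a _ i j _ hi _ => absurd i.2 (not_lt.2 hi)
      pairs := fun a _ j hj => absurd j.2 (not_lt.2 hj)
      tot := fun a _ => by
        rw [g3_bsum]
        have : c * m ≤ 1 * m := mul_le_mul_of_nonneg_right hc1 hm0.le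
        linarith }
  rwa [g3_TR hm0] at key

end Vale.Agent.P209.Strong
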