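import Vale.Agent.P209.Strong.G1a

namespace Vale.Agent.P209.Strong

open MeasureTheory

/-- walls of the box: lower wall -/
noncomputable def g4L {n : ℕ} (p : Fin n) (l : Fin n → (Fin n → ℝ) → ℝ) (σ : (Fin n → ℝ) → ℝ)
    (As : ℝ) : Fin n → (Fin n → ℝ) → ℝ :=
  Function.update l p (fun a => max 0 (σ a - As))

/-- walls of the box: upper wall -/
noncomputable def g4U {n : ℕ} (p : Fin n) (u : Fin n → (Fin n → ℝ) → ℝ) (σ : (Fin n → ℝ) → ℝ)
    (A : Fin n → ℝ) : Fin n → (Fin n → ℝ) → ℝ :=
  Function.update u p (fun a => min (A p) (σ a))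

theorem g4_walls {n : ℕ} {L : ℝ} {F : Fin n → (Fin n → ℝ) → ℝ} (hF : Walls L F) (p : Fin n)
    (f : (Fin n → ℝ) → ℝ) (hdep : ∀ y y' : Fin n → ℝ, (∀ i, i < p → y i = y' i) → f y = f y')
    (hlip : ∀ y y', |f y - f y'| ≤ L * dist y y') : Walls L (Function.update F p f) := by
  constructor
  · intro j y y' h
    by_cases hj : j = p
    · subst hj
      rw [Function.update_self]
      exact hdep y y' h
    · rw [Function.update_of_ne hj]
      exact hF.dep j y y' h
  · intro j y y'
    by_cases hj : j = p
    · subst hj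
      rw [Function.update_self]
      exact hlip y y'
    · rw [Function.update_of_ne hj]
      exact hF.lip j y y'

theorem g4_bsum {n : ℕ} (p : Fin n) (hp : (p : ℕ) = n - 1) (a : Fin n → ℝ) :
    bsum (n - 1) n a = a p := by
  unfold bsum
  rw [Finset.sum_eq_single p]
  · rw [if_pos ⟨hp.ge, p.2⟩]
  · intro b _ hb
    rw [if_neg]
    rintro ⟨h1, h2⟩
    exact hb (Fin.ext (by omega))
  · intro h
    exact absurd (Finset.mem_univ p) h

theorem TS_base (n : ℕ) (hn : 2 ≤ n) (h : CA n) : TS n (n - 1) := by
  intro c L δ N hc hL hδ hδ1 hN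
  obtain ⟨R0, hR0, H⟩ := h c L δ N hc hL hδ hδ1 hN
  refine ⟨R0, hR0, fun Rv Rb hRv hRb l u σ A As hTD => ?_⟩
  obtain ⟨p, hp⟩ : ∃ p : Fin n, (p : ℕ) = n - 1 := ⟨⟨n - 1, by omega⟩, rfl⟩
  have hlt : ∀ j : Fin n, j ≠ p ↔ (j : ℕ) < n - 1 := by
    intro j
    constructor
    · intro hj
      have := j.2
      by_contra hcon
      exact hj (Fin.ext (by omega))
    · rintro hj rfl
      omega
  have hdep : ∀ y y' : Fin n → ℝ, (∀ i, i < p → y i = y' i) → σ y = σ y' := by
    intro y y' hy
    refine hTD.sd.dep fun i hi => hy i ?_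
    rw [Fin.lt_def]
    omega
  have hset : TR (n - 1) l u σ A As = boxSet (g4L p l σ As) (g4U p u σ A) := by
    ext a
    simp only [TR, boxSet, Set.mem_ofPred_eq, g4_bsum p hp a]
    constructor
    · rintro ⟨h1, h2, h3, h4⟩ j
      by_cases hj : j = p
      · subst hj
        simp only [g4L, g4U, Function.update_self]
        obtain ⟨h5, h6⟩ := h2 j hp.ge
        exact ⟨max_lt h5 (by linarith), lt_min h6 (by linarith)⟩
      · simp only [g4L, g4U, Function.update_of_ne hj]
        exact h1 j ((hlt j).1 hj)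
    · intro h1
      have h2 := h1 p
      simp only [g4L, g4U, Function.update_self] at h2
      obtain ⟨h3, h4⟩ := h2
      obtain ⟨h5, h6⟩ := max_lt_iff.1 h3
      obtain ⟨h7, h8⟩ := lt_min_iff.1 h4
      refine ⟨fun j hj => ?_, fun j hj => ?_, by linarith, by linarith⟩
      · have hjp := (hlt j).2 hj
        have h9 := h1 j
        simp only [g4L, g4U, Function.update_of_ne hjp] at h9
        exact h9
      · have hjp : j = p := by
          by_contra hcon
          have := (hlt j).1 hcon
          omega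
        subst hjp
        exact ⟨h5, h7⟩
  have hpre : ∀ (j : ℕ) (a : Fin n → ℝ), j ≤ n - 1 → Pre (g4L p l σ As) (g4U p u σ A) j a →
      Pre l u j a := by
    intro j a hj ha i hi
    have hip : i ≠ p := (hlt i).2 (by omega)
    have h1 := ha i hi
    simp only [g4L, g4U, Function.update_of_ne hip] at h1
    exact h1
  rw [hset]
  refine H (Function.update Rv p Rb) ?_ _ _ ?_ ?_ ?_
  · intro j
    by_cases hj : j = p
    · subst hj
      rw [Function.update_self]
      exact hRb
    · rw [Function.update_of_ne hj]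
      exact hRv j ((hlt j).1 hj)
  · refine g4_walls hTD.sd.wl p _ (fun y y' hy => ?_) fun y y' => ?_
    · simp only [hdep y y' hy]
    · refine le_trans ?_ (hTD.sd.lip y y')
      refine (abs_max_sub_max_le_max _ _ _ _).trans ?_
      rw [sub_self, abs_zero, sub_sub_sub_cancel_right]
      exact max_le (abs_nonneg _) le_rfl
  · refine g4_walls hTD.sd.wu p _ (fun y y' hy => ?_) fun y y' => ?_
    · simp only [hdep y y' hy]
    · refine le_trans ?_ (hTD.sd.lip y y')
      refine (abs_min_sub_min_le_max _ _ _ _).trans ?_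
      rw [sub_self, abs_zero]
      exact max_le (abs_nonneg _) le_rfl
  · intro j a ha
    by_cases hj : j = p
    · subst hj
      have hpa := hpre j a hp.le ha
      rw [hp] at hpa
      simp only [g4L, g4U, Function.update_self]
      obtain ⟨h1, h2⟩ := hTD.sd.size a hpa
      have h3 := hTD.cap j hp.ge
      have h4 := hTD.caps
      have h5 := hTD.pairs a hpa j hp.ge
      rcases le_total (A j) (σ a) with h6 | h6 <;> rcases le_total 0 (σ a - As) with h7 | h7 <;>
        simp only [min_eq_left h6, min_eq_right h6, max_eq_right h7, max_eq_left h7] <;>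
        constructor <;> linarith
    · simp only [g4L, g4U, Function.update_of_ne hj]
      have hjl := (hlt j).1 hj
      exact hTD.sd.fat j a hjl (hpre j a hjl.le ha)

end Vale.Agent.P209.Strong
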