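import Vale.Agent.P209.Strong.G1g

namespace Vale.Agent.P209.Strong

open MeasureTheory

theorem TSA_of (n k : ℕ) (hk : k + 2 ≤ n) (h : TS n (k + 1)) : TSA n k := by
  intro c L δ N hc hL hδ hδ1 hN
  obtain ⟨R0, hR0, H⟩ := h c (L + 1) δ N hc (by linarith) hδ hδ1 hN
  refine ⟨R0, hR0, fun Rv Rb hRv hRb l u σ A As hTD hA => ?_⟩
  have hkn : k < n := by omega
  have hRb0 : 0 < Rb := hR0.trans_le hRb
  have hcR : 0 < c * Rb := mul_pos hc hRb0
  have hRv0 : ∀ j : Fin n, (j : ℕ) < k → 0 ≤ Rv j := fun j hj => hR0.le.trans (hRv j hj)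
  rcases (TR k l u σ A As).eq_empty_or_nonempty with he | ⟨a0, ha0⟩
  · rw [he]
    intro ι _ r J hr _ _ hv
    exfalso
    rw [measure_empty, ENNReal.toReal_zero] at hv
    have : 0 ≤ ∑ i, r i ^ n / (n.factorial : ℝ) :=
      Finset.sum_nonneg fun i _ => div_nonneg (pow_nonneg (hr i).1.le _) (Nat.cast_nonneg _)
    linarith
  have hpre : Pre l u k a0 := fun i hi => ha0.1 i hi
  have hx1 : A ⟨k, hkn⟩ ≤ Rb := by
    have h1 := hA a0 hpre ⟨k, hkn⟩ rfl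
    have h2 := (hTD.sd.size a0 hpre).2
    linarith
  have hTR : TR k l u σ A As =
      TR k l u σ A As ∩ {a | 0 < a ⟨k, hkn⟩ ∧ a ⟨k, hkn⟩ < A ⟨k, hkn⟩} := by
    ext a
    constructor
    · intro ha
      exact ⟨ha, ha.2.1 ⟨k, hkn⟩ le_rfl⟩
    · intro ha
      exact ha.1
  rw [hTR, TR.peel_eq hkn le_rfl le_rfl]
  have hD := TD.peel hkn hL hRb0 hRv0 hTD (c' := c) (x0 := 0) (x1 := A ⟨k, hkn⟩) (g1 := c * Rb)
    (g' := c * Rb) hc le_rfl le_rfl (by
      rw [sub_zero]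
      exact hTD.cap ⟨k, hkn⟩ le_rfl) (by rw [sub_zero]; exact hx1)
    (fun a ha => hA a ha ⟨k, hkn⟩ rfl) hcR.le
    (fun a ha i j hij hi hj => hTD.pair a ha i j hij (by omega) (by omega))
    (fun a ha j hj => hTD.pairs a ha j (by omega)) (by linarith) (Or.inr ⟨hk, le_rfl⟩)
  refine H (Function.update Rv ⟨k, hkn⟩ Rb) Rb ?_ hRb _ _ _ A As hD
  intro j hj
  by_cases hjk : j = ⟨k, hkn⟩
  · rw [hjk, Function.update_self]
    exact hRb
  · rw [Function.update_of_ne hjk]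
    refine hRv j ?_
    have : (j : ℕ) ≠ k := fun h => hjk (Fin.ext h)
    omega

end Vale.Agent.P209.Strong
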