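import Vale.Agent.P209.Strong.G1d
import Vale.Agent.P209.Strong.G1e

namespace Vale.Agent.P209.Strong

open MeasureTheory

theorem TSI_of (n k : ℕ) (hk : k + 2 ≤ n) (h : TSA n k) : TSI n k := by
  intro c L δ N hc hL hδ hδ1 hN
  obtain ⟨R0, hR0, H⟩ := h c L δ N hc hL hδ hδ1 hN
  refine ⟨R0, hR0, fun Rv Rb hRv hRb l u σ A As hTD hor => ?_⟩
  have hkn : k < n := by omega
  rcases hor with ⟨j, hj, hlarge⟩ | hlarge
  · refine TR.fill_swap hTD.sd (p := ⟨k, hkn⟩) (q := j) le_rfl hj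
      (H Rv Rb hRv hRb l u σ _ As (hTD.swap (p := ⟨k, hkn⟩) (q := j) le_rfl hj)
        (fun a ha i hi => ?_))
    have hi' : i = ⟨k, hkn⟩ := Fin.ext hi
    rw [hi', Equiv.swap_apply_left]
    exact hlarge a ha
  · refine TR.fill_slack hTD.sd (p := ⟨k, hkn⟩) le_rfl
      (H Rv Rb hRv hRb l u σ _ _ (hTD.slack (p := ⟨k, hkn⟩) le_rfl) (fun a ha i hi => ?_))
    have hi' : i = ⟨k, hkn⟩ := Fin.ext hi
    rw [hi', Function.update_self]
    exact hlarge a ha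

end Vale.Agent.P209.Strong
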