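import Vale.Agent.P209.Strong.G1d
import Vale.Agent.P209.Strong.G1h
import Vale.Agent.P209.Strong.G1i
import Vale.Agent.P209.Strong.G2

namespace Vale.Agent.P209.Strong

open MeasureTheory

/-- the empty set is filled -/
theorem g5c_fill_empty {n : ℕ} {δ N : ℝ} : Fill δ N (∅ : Set (Fin n → ℝ)) := by
  intro ι _ r J hr _ _ hv
  exfalso
  rw [measure_empty, ENNReal.toReal_zero] at hv
  have : 0 ≤ ∑ i, r i ^ n / (n.factorial : ℝ) :=
    Finset.sum_nonneg fun i _ => div_nonneg (pow_nonneg (hr i).1.le _) (Nat.cast_nonneg _)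
  linarith

/-- a lower bound for the sum of the caps -/
theorem g5c_bsum_ge {n k : ℕ} (hk : k < n) {A : Fin n → ℝ}
    (hA : ∀ j : Fin n, k ≤ (j : ℕ) → 0 ≤ A j) : A ⟨k, hk⟩ ≤ bsum k n A := by
  unfold bsum
  have h1 : ∀ i ∈ (Finset.univ : Finset (Fin n)),
      0 ≤ (if k ≤ (i : ℕ) ∧ (i : ℕ) < n then A i else 0) := by
    intro i _
    split_ifs with h
    · exact hA i h.1
    · exact le_rfl
  have h2 := Finset.single_le_sum h1 (Finset.mem_univ (⟨k, hk⟩ : Fin n))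
  simp only [le_refl, hk, and_self, if_true] at h2
  exact h2

/-- shifting the size -/
theorem g5c_int {n k : ℕ} {σ : (Fin n → ℝ) → ℝ} (h : IntAff k σ) (x : ℝ) :
    IntAff k (fun a => σ a - x) := by
  obtain ⟨s, m, h1, h2⟩ := h
  refine ⟨s - x, m, h1, fun a => ?_⟩
  show σ a - x = _
  rw [h2]
  ring

section
variable {n k : ℕ} {c L Rb As σ0 w x : ℝ} {Rv A : Fin n → ℝ} {l u : Fin n → (Fin n → ℝ) → ℝ}
  {σ : (Fin n → ℝ) → ℝ}

/-- data of the lower part -/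
theorem g5c_TD (hk : k < n) (hc : 0 < c)
    (hRb : 0 < Rb) (hRv : ∀ j : Fin n, (j : ℕ) < k → 0 ≤ Rv j)
    (h : TD c L Rv Rb k l u σ A As (c * Rb)) (hw : w = c * Rb / 100)
    (hosc : ∀ a, Pre l u k a → |σ a - σ0| ≤ w / 10) (hσ0 : 100 * w ≤ σ0)
    (hx0 : σ0 - w ≤ x) :
    TD (c / 1000) L Rv Rb k l u σ (Function.update A ⟨k, hk⟩ x) As (c / 1000 * Rb) := by
  have hcR : 0 < c * Rb := mul_pos hc hRb
  have hw0 : 0 < w := by rw [hw]; linarith
  have e1 : c * Rb = 100 * w := by rw [hw]; ring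
  have e2 : c / 1000 * Rb = w / 10 := by rw [hw]; ring
  have hA0 : ∀ j : Fin n, k ≤ (j : ℕ) → 100 * w ≤ A j := fun j hj => by
    rw [← e1]; exact h.cap j hj
  have hAs0 : 100 * w ≤ As := by rw [← e1]; exact h.caps
  have hcap : ∀ j : Fin n, k ≤ (j : ℕ) → 99 * w ≤ Function.update A ⟨k, hk⟩ x j := by
    intro j hj
    by_cases hjk : j = ⟨k, hk⟩
    · rw [hjk, Function.update_self]; linarith
    · rw [Function.update_of_ne hjk]
      have := hA0 j hj
      linarith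
  refine ⟨h.sd.mono (by linarith) le_rfl hRb.le hRv, ?_, ?_, ?_, ?_, ?_⟩
  · intro j hj
    rw [e2]
    have := hcap j hj
    linarith
  · rw [e2]; linarith
  · intro a ha i j hij hi hj
    have h1 := abs_le.1 (hosc a ha)
    rw [e2]
    by_cases hik : i = ⟨k, hk⟩
    · have hjk : j ≠ ⟨k, hk⟩ := fun hh => hij (hik.trans hh.symm)
      rw [hik, Function.update_self, Function.update_of_ne hjk]
      have := hA0 j hj
      linarith [h1.2]
    · by_cases hjk : j = ⟨k, hk⟩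
      · rw [hjk, Function.update_self, Function.update_of_ne hik]
        have := hA0 i hi
        linarith [h1.2]
      · rw [Function.update_of_ne hik, Function.update_of_ne hjk]
        have h2 := h.pair a ha i j hij hi hj
        rw [e1] at h2
        linarith
  · intro a ha j hj
    have h1 := abs_le.1 (hosc a ha)
    rw [e2]
    by_cases hjk : j = ⟨k, hk⟩
    · rw [hjk, Function.update_self]
      linarith [h1.2]
    · rw [Function.update_of_ne hjk]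
      have h2 := h.pairs a ha j hj
      rw [e1] at h2
      linarith
  · intro a ha
    have h1 := abs_le.1 (hosc a ha)
    rw [e2]
    have h2 := g5c_bsum_ge (A := Function.update A ⟨k, hk⟩ x) hk (fun j hj => by
      have := hcap j hj
      linarith)
    rw [Function.update_self] at h2
    linarith [h1.2]

/-- data of the upper part -/
theorem g5c_SD (hc : 0 < c) (hc1 : c ≤ 1)
    (hRb : 0 < Rb) (hRv : ∀ j : Fin n, (j : ℕ) < k → 0 ≤ Rv j)
    (h : SD c L Rv Rb k l u σ) (hw : w = c * Rb / 100)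
    (hosc : ∀ a, Pre l u k a → |σ a - σ0| ≤ w / 10)
    (hx0 : σ0 - w ≤ x) (hx1 : x ≤ σ0 - w / 2) :
    SD (c / 1000) L Rv Rb k l u (fun a => σ a - x) := by
  have hcR : 0 < c * Rb := mul_pos hc hRb
  have hw0 : 0 < w := by rw [hw]; linarith
  have e2 : c / 1000 * Rb = w / 10 := by rw [hw]; ring
  have hcR1 : c * Rb ≤ Rb := by
    calc c * Rb ≤ 1 * Rb := by gcongr
      _ = Rb := one_mul _
  have h' : SD (c / 1000) L Rv Rb k l u σ := h.mono (by linarith) le_rfl hRb.le hRv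
  refine ⟨h.wl, h.wu, g5c_int h.int x, ?_, h'.fat, ?_⟩
  · intro y y'
    have := h.lip y y'
    rwa [sub_sub_sub_cancel_right]
  · intro a ha
    have h1 := abs_le.1 (hosc a ha)
    rw [e2]
    constructor
    · linarith [h1.1]
    · have h2 : 100 * w ≤ Rb := by rw [hw]; linarith
      linarith [h1.2]

/-- the case of small outer widths -/
theorem g5c_small (hn : 1 ≤ n) (hk2 : k + 2 ≤ n) (hk : k < n) {δ N m M : ℝ} (hδ1 : δ ≤ 1)
    (hc : 0 < c) (hL : 0 ≤ L)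
    (hM : ∀ (k : ℕ) (hk : k < n) (c₁ L₁ Rb m : ℝ) (Rv : Fin n → ℝ)
      (l u : Fin n → (Fin n → ℝ) → ℝ)
      (σ : (Fin n → ℝ) → ℝ) (A : Fin n → ℝ) (As g x0 x1 : ℝ), 0 ≤ L₁ → L₁ ≤ L → k + 2 ≤ n →
      c / 1000 ≤ c₁ → M ≤ m → m ≤ Rb → (∀ j : Fin n, (j : ℕ) < k → m ≤ Rv j) →
      TD c₁ L₁ Rv Rb k l u σ A As g → 0 ≤ x0 → x1 ≤ A ⟨k, hk⟩ → c / 1000 * Rb ≤ x1 - x0 →
      x1 - x0 ≤ Rb → (∀ a, Pre l u k a → x1 + c / 1000 * Rb ≤ σ a) →
      (c / 1000 * Rb ≤ g ∨ (0 ≤ g ∧ (k + 3 ≤ n ∨ c / 1000 * Rb ≤ x0))) →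
      1 / (n.factorial : ℝ) <
        (volume (TR k l u σ A As ∩ {a | x0 < a ⟨k, hk⟩ ∧ a ⟨k, hk⟩ < x1})).toReal)
    (hMm : M ≤ m) (hm0 : 0 < m) (hmRb : m ≤ Rb)
    (hRv : ∀ j : Fin n, (j : ℕ) < k → m ≤ Rv j)
    (hA : ∀ (Rv : Fin n → ℝ) (Rb : ℝ), (∀ j : Fin n, (j : ℕ) < k → m ≤ Rv j) → m ≤ Rb →
      ∀ (l u : Fin n → (Fin n → ℝ) → ℝ) (σ : (Fin n → ℝ) → ℝ) (A : Fin n → ℝ) (As : ℝ),
        TD (c / 1000) L Rv Rb k l u σ A As (c / 1000 * Rb) →
        (∀ a, Pre l u k a → ∀ j : Fin n, (j : ℕ) = k → A j + c / 1000 * Rb ≤ σ a) →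
        Fill δ N (TR k l u σ A As))
    (hP : ∀ (Rv : Fin n → ℝ) (Rb : ℝ), (∀ j : Fin n, (j : ℕ) < k → m ≤ Rv j) → m ≤ Rb →
      ∀ (l u : Fin n → (Fin n → ℝ) → ℝ) (σ : (Fin n → ℝ) → ℝ),
        SD (c / 1000) L Rv Rb k l u σ → Fill δ N (SR k l u σ))
    (h : TD c L Rv Rb k l u σ A As (c * Rb)) (hw : w = c * Rb / 100)
    (hosc : ∀ a, Pre l u k a → ∀ a', Pre l u k a' → |σ a - σ a'| ≤ w / 10)
    (hcap : ∀ j : Fin n, k ≤ (j : ℕ) → (j : ℕ) ≠ k + 1 → Rb ≤ A j) (hcaps : Rb ≤ As) :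
    Fill δ N (TR k l u σ A As) := by
  rcases (TR k l u σ A As).eq_empty_or_nonempty with he | ⟨a0, ha0⟩
  · rw [he]; exact g5c_fill_empty
  have hRb : 0 < Rb := lt_of_lt_of_le hm0 hmRb
  have hRv0 : ∀ j : Fin n, (j : ℕ) < k → 0 ≤ Rv j := fun j hj => hm0.le.trans (hRv j hj)
  have hp0 : Pre l u k a0 := TR.pre ha0
  obtain ⟨hs0, hs1⟩ := h.sd.size a0 hp0
  have hc1 : c ≤ 1 := by
    have h1 : c * Rb ≤ 1 * Rb := by linarith
    exact le_of_mul_le_mul_right h1 hRb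
  have hcR : 0 < c * Rb := mul_pos hc hRb
  have hw0 : 0 < w := by rw [hw]; linarith
  have e1 : c * Rb = 100 * w := by rw [hw]; ring
  have e2 : c / 1000 * Rb = w / 10 := by rw [hw]; ring
  have hwRb : 100 * w ≤ Rb := by rw [← e1]; linarith
  have hosc' : ∀ a, Pre l u k a → |σ a - σ a0| ≤ w / 10 := fun a ha => hosc a ha a0 hp0
  rw [e1] at hs0
  have hAk : Rb ≤ A ⟨k, hk⟩ := hcap ⟨k, hk⟩ le_rfl (by simp)
  refine TR.cut hn hδ1 hL h.sd hk (x0 := σ a0 - w) (x1 := σ a0 - w / 2) (by linarith) ?_ ?_ ?_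
  · -- the middle part
    refine hM k hk c L Rb m Rv l u σ A As (c * Rb) _ _ hL le_rfl hk2 (by linarith) hMm hmRb hRv h
      (by linarith) (by linarith) ?_ (by linarith) ?_ (Or.inl ?_)
    · rw [e2]; linarith
    · intro a ha
      have h1 := abs_le.1 (hosc' a ha)
      rw [e2]
      linarith [h1.1]
    · rw [e1, e2]; linarith
  · -- the lower part
    intro x hx0 hx1
    rw [TR.inter_lt (p := ⟨k, hk⟩) le_rfl (by linarith)]
    refine hA Rv Rb hRv hmRb l u σ _ As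
      (g5c_TD hk hc hRb hRv0 h hw hosc' hs0 hx0) ?_
    intro a ha j hj
    have hjk : j = ⟨k, hk⟩ := Fin.ext hj
    have h1 := abs_le.1 (hosc' a ha)
    rw [hjk, Function.update_self, e2]
    linarith [h1.1]
  · -- the upper part
    intro x hx0 hx1
    refine TR.fill_gt h.sd (p := ⟨k, hk⟩) le_rfl (by linarith) ?_
    rw [TR_eq_SR hk]
    · exact hP Rv Rb hRv hmRb l u _ (g5c_SD hc hc1 hRb hRv0 h.sd hw hosc' hx0 hx1)
    · intro a ha j hj
      have h1 := abs_le.1 (hosc' a ha)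
      by_cases hjk : j = ⟨k, hk⟩
      · rw [hjk, Function.update_self]
        have := (h.sd.size a ha).2
        linarith
      · rw [Function.update_of_ne hjk]
        have h2 := h.cap j hj
        rw [e1] at h2
        linarith [h1.2]
    · intro a ha
      have h1 := abs_le.1 (hosc' a ha)
      linarith [h1.2]

end

theorem TSC_of (n k : ℕ) (hk : k + 2 ≤ n) (hA : TSA n k) (hP : PS n k) : TSC n k := by
  intro c L δ N hc hL hδ hδ1 hN
  have hn : 1 ≤ n := by omega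
  have hkn : k < n := by omega
  have hc' : 0 < c / 1000 := by linarith
  obtain ⟨M0, hM0, href⟩ := TD.refine hn c L δ hc hL hδ1
  obtain ⟨R1, hR1, hA1⟩ := hA (c / 1000) L δ N hc' hL hδ hδ1 hN
  obtain ⟨R2, hR2, hP1⟩ := hP (c / 1000) L δ N hc' hL hδ hδ1 hN
  obtain ⟨M, hM, hmid⟩ := TD.mid_ge (c / 1000) L n hc' hL
  set K : ℝ := L * (n * (1 + L) ^ n) with hK
  have hK0 : 0 ≤ K := by rw [hK]; positivity
  set θ : ℝ := c / (1000 * (K + 1)) with hθ
  have hθ0 : 0 < θ := by rw [hθ]; positivity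
  obtain ⟨m, hm0, hmM0, hmR1, hmR2, hmM⟩ : ∃ m : ℝ, 0 < m ∧ M0 ≤ m ∧ R1 ≤ m ∧ R2 ≤ m ∧ M ≤ m :=
    ⟨M0 + R1 + R2 + M, by linarith, by linarith, by linarith, by linarith, by linarith⟩
  refine ⟨m + 4 * m / θ, by positivity, ?_⟩
  intro Rv Rb hRv hRb l u σ A As hTD hcap hcaps
  have h4 : 0 < 4 * m / θ := by positivity
  have hmRb : m ≤ Rb := by linarith
  have hη : 4 * m ≤ θ * Rb := by
    have h5 : 4 * m / θ ≤ Rb := by linarith
    rw [div_le_iff₀ hθ0] at h5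
    linarith
  refine href N k m (θ * Rb) Rb σ A As (c * Rb) (by omega) hmM0 hη hmRb ?_ Rv l u
    (fun j hj => by
      have := hRv j hj
      linarith) hTD
  intro Rv' l' u' hRv' hTD'
  have hRb0 : 0 < Rb := lt_of_lt_of_le hm0 hmRb
  refine g5c_small hn hk hkn hδ1 hc hL hmid hmM hm0 hmRb (fun j hj => (hRv' j hj).1)
    (fun Rv Rb h1 h2 => hA1 Rv Rb (fun j hj => hmR1.trans (h1 j hj)) (hmR1.trans h2))
    (fun Rv Rb h1 h2 => hP1 Rv Rb (fun j hj => hmR2.trans (h1 j hj)) (hmR2.trans h2))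
    hTD' rfl ?_ hcap hcaps
  intro a ha a' ha'
  have h6 := Pre.osc hL (η := θ * Rb) (by positivity) (by omega) hTD'.sd.wl hTD'.sd.wu
    (fun j a hj haj => (hTD'.sd.fat j a hj haj).2.trans (hRv' j hj).2) hTD'.sd.lip
    (fun y y' hy => hTD'.sd.dep hy) ha ha'
  refine h6.trans ?_
  rw [← hK, hθ]
  have h7 : K / (K + 1) ≤ 1 := by
    rw [div_le_one (by positivity)]; linarith
  calc K * (c / (1000 * (K + 1)) * Rb) = K / (K + 1) * (c * Rb / 1000) := by
        field_simp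
    _ ≤ 1 * (c * Rb / 1000) := by
        have : 0 ≤ c * Rb / 1000 := by positivity
        gcongr
    _ = c * Rb / 100 / 10 := by ring

end Vale.Agent.P209.Strong
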