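import Vale.Agent.P209.Strong.G1d
import Vale.Agent.P209.Strong.G1h
import Vale.Agent.P209.Strong.G1i
import Vale.Agent.P209.Strong.G2
import Vale.Agent.P209.Strong.G5b

namespace Vale.Agent.P209.Strong

open MeasureTheory

/-- an empty set is filled -/
theorem g5d_fill_empty {n : ℕ} {δ N : ℝ} {Ω : Set (Fin n → ℝ)} (h : Ω = ∅) : Fill δ N Ω := by
  subst h
  intro ι _ r J hr hJ hN hlt
  exfalso
  rw [measure_empty, ENNReal.toReal_zero] at hlt
  refine absurd hlt (not_lt.2 (Finset.sum_nonneg fun i _ => ?_))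
  have := (hr i).1
  positivity

theorem g5d_le_bsum {n k : ℕ} (A : Fin n → ℝ) (hA : ∀ j : Fin n, k ≤ (j : ℕ) → 0 ≤ A j)
    (p : Fin n) (hp : k ≤ (p : ℕ)) : A p ≤ bsum k n A := by
  unfold bsum
  have h := Finset.single_le_sum
    (f := fun i : Fin n => if k ≤ (i : ℕ) ∧ (i : ℕ) < n then A i else 0) (s := Finset.univ)
    (fun i _ => by
      by_cases hi : k ≤ (i : ℕ) ∧ (i : ℕ) < n
      · rw [if_pos hi]
        exact hA i hi.1
      · rw [if_neg hi]) (Finset.mem_univ p)
  simpa [hp, p.2] using h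

section

variable {n k : ℕ} {c L Rb As w s0 : ℝ} {Rv A : Fin n → ℝ} {l u : Fin n → (Fin n → ℝ) → ℝ}
  {σ : (Fin n → ℝ) → ℝ}

/-- the lower part: the cap of the coordinate `p` is lowered to `x` -/
theorem g5d_low (hc : 0 < c) (hRb : 0 < Rb) (hw : w = c / 100 * Rb)
    (hRv : ∀ j : Fin n, (j : ℕ) < k → 0 ≤ Rv j)
    (h : TD c L Rv Rb k l u σ A As (c * Rb)) (hs0 : 100 * w ≤ s0)
    (hosc : ∀ a, Pre l u k a → σ a ≤ s0 + w / 10)
    (hA : ∀ j : Fin n, k ≤ (j : ℕ) → s0 ≤ A j + 31 / 10 * w) (hAs : s0 ≤ As + 31 / 10 * w)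
    {p : Fin n} (hp : k ≤ (p : ℕ)) {x : ℝ} (hx : s0 - 6 * w ≤ x) :
    TD (c / 100) L Rv Rb k l u σ (Function.update A p x) As (c / 100 * Rb) := by
  have hw0 : 0 < w := by rw [hw]; positivity
  have hcR : c * Rb = 100 * w := by rw [hw]; ring
  have hcap : ∀ j : Fin n, k ≤ (j : ℕ) → s0 - 6 * w ≤ Function.update A p x j := by
    intro j hj
    by_cases hjp : j = p
    · subst hjp
      rw [Function.update_self]
      exact hx
    · rw [Function.update_of_ne hjp]
      have := hA j hj
      linarith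
  refine ⟨h.sd.mono (by linarith) le_rfl hRb.le hRv, ?_, ?_, ?_, ?_, ?_⟩
  · intro j hj
    have := hcap j hj
    rw [← hw]
    linarith
  · have := h.caps
    rw [← hw]
    linarith
  · intro a ha i j hij hi hj
    have h1 := hosc a ha
    rw [← hw]
    by_cases hip : i = p
    · have hjp : j ≠ p := fun e => hij (hip.trans e.symm)
      have h2 := hcap i hi
      have h3 : Function.update A p x j = A j := Function.update_of_ne hjp _ _
      have h4 := hA j hj
      rw [h3]
      linarith
    · by_cases hjp : j = p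
      · have h2 := hcap j hj
        have h3 : Function.update A p x i = A i := Function.update_of_ne hip _ _
        have h4 := hA i hi
        rw [h3]
        linarith
      · rw [Function.update_of_ne hip, Function.update_of_ne hjp]
        have := h.pair a ha i j hij hi hj
        linarith
  · intro a ha j hj
    have h1 := hosc a ha
    have h2 := hcap j hj
    rw [← hw]
    linarith
  · intro a ha
    have h1 := hosc a ha
    have h2 := hcap p hp
    have h3 := g5d_le_bsum (Function.update A p x) (k := k) (fun j hj => by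
      have := hcap j hj
      linarith) p hp
    rw [← hw]
    linarith

/-- the upper part: only one active cap -/
theorem g5d_high {c2 : ℝ} (hc : 0 < c) (hRb : 0 < Rb) (hw : w = c / 100 * Rb)
    (hc2c : c2 ≤ c) (hc21 : c2 ≤ 1 / 10)
    (hRv : ∀ j : Fin n, (j : ℕ) < k → 0 ≤ Rv j)
    (h : SD c L Rv Rb k l u σ) (hs0 : 100 * w ≤ s0)
    (hosc : ∀ a, Pre l u k a → s0 - w / 10 ≤ σ a ∧ σ a ≤ s0 + w / 10)
    {A' : Fin n → ℝ} (hAs : s0 ≤ As + 31 / 10 * w) {q : Fin n}
    (hA : ∀ j : Fin n, k ≤ (j : ℕ) → j ≠ q → s0 ≤ A' j + 31 / 10 * w) (hAq : w ≤ A' q)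
    {x : ℝ} (hx : s0 - 6 * w ≤ x) (hx1 : x ≤ s0 - 5 * w) :
    TD c2 L Rv (7 * w) k l u (fun a => σ a - x) A' As (c2 * (7 * w)) := by
  have hw0 : 0 < w := by rw [hw]; positivity
  have hc7 : c2 * (7 * w) ≤ 7 / 10 * w := by
    have h1 := mul_le_mul_of_nonneg_right hc21 (by positivity : 0 ≤ 7 * w)
    linarith
  have hcap : ∀ j : Fin n, k ≤ (j : ℕ) → w ≤ A' j := by
    intro j hj
    by_cases hjq : j = q
    · rw [hjq]
      exact hAq
    · have := hA j hj hjq
      linarith
  refine ⟨⟨h.wl, h.wu, ?_, ?_, ?_, ?_⟩, ?_, ?_, ?_, ?_, ?_⟩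
  · obtain ⟨s, m, hm, hs⟩ := h.int
    exact ⟨s - x, m, hm, fun a => by simp only [hs a]; ring⟩
  · intro y y'
    have := h.lip y y'
    rwa [sub_sub_sub_cancel_right]
  · intro j a hj ha
    have h1 := h.fat j a hj ha
    have h2 := mul_le_mul_of_nonneg_right hc2c (hRv j hj)
    exact ⟨h2.trans h1.1, h1.2⟩
  · intro a ha
    have h1 := hosc a ha
    constructor <;> linarith
  · intro j hj
    have := hcap j hj
    linarith
  · linarith
  · intro a ha i j hij hi hj
    have h1 := hosc a ha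
    by_cases hiq : i = q
    · have hjq : j ≠ q := fun e => hij (hiq.trans e.symm)
      have h2 := hA j hj hjq
      have h3 := hcap i hi
      linarith
    · have h2 := hA i hi hiq
      have h3 := hcap j hj
      linarith
  · intro a ha j hj
    have h1 := hosc a ha
    have h3 := hcap j hj
    linarith
  · intro a ha
    have h1 := hosc a ha
    have h3 := g5d_le_bsum A' (k := k) (fun j hj => hw0.le.trans (hcap j hj)) q
    by_cases hq : k ≤ (q : ℕ)
    · have := h3 hq
      linarith
    · have h4 : 0 ≤ bsum k n A' := by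
        unfold bsum
        refine Finset.sum_nonneg fun i _ => ?_
        by_cases hi : k ≤ (i : ℕ) ∧ (i : ℕ) < n
        · rw [if_pos hi]
          exact hw0.le.trans (hcap i hi.1)
        · rw [if_neg hi]
      linarith

end

theorem TSB_of (n k : ℕ) (hk : k + 2 ≤ n) (hA : TSA n k) (hC : TSC n k) : TSB n k := by
  have hI := TSI_of n k hk hA
  intro c L δ N hc hL hδ hδ1 hN
  have hn : 1 ≤ n := by omega
  have hkn : k < n := by omega
  set K : ℝ := L * (n * (1 + L) ^ n) with hK
  have hK0 : 0 ≤ K := by positivity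
  set θ : ℝ := c / (1000 * (K + 1)) with hθ
  have hθ0 : 0 < θ := by positivity
  set c2 : ℝ := min c (1 / 10) with hc2
  have hc20 : 0 < c2 := lt_min hc (by norm_num)
  obtain ⟨M0, hM0, HR⟩ := TD.refine hn c L δ hc hL hδ1
  obtain ⟨RA, hRA, HA⟩ := hA (c / 100) L δ N (by positivity) hL hδ hδ1 hN
  obtain ⟨RI, hRI, HI⟩ := hI (c / 100) L δ N (by positivity) hL hδ hδ1 hN
  obtain ⟨RC, hRC, HC⟩ := hC c2 L δ N hc20 hL hδ hδ1 hN
  obtain ⟨M, hM, HM⟩ := TD.mid_ge (c / 100) L n (by positivity) hL
  set m : ℝ := max M0 (max RA (max RI (max RC M))) with hm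
  have hmM0 : M0 ≤ m := le_max_left _ _
  have hmRA : RA ≤ m := (le_max_left _ _).trans (le_max_right _ _)
  have hmRI : RI ≤ m := ((le_max_left _ _).trans (le_max_right _ _)).trans (le_max_right _ _)
  have hmRC : RC ≤ m := (((le_max_left _ _).trans (le_max_right _ _)).trans
    (le_max_right _ _)).trans (le_max_right _ _)
  have hmM : M ≤ m := (((le_max_right _ _).trans (le_max_right _ _)).trans
    (le_max_right _ _)).trans (le_max_right _ _)
  have hm0 : 0 < m := hM0.trans_le hmM0
  refine ⟨max m (max (4 * m / θ) (100 * m / (7 * c))), lt_max_of_lt_left hm0, ?_⟩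
  intro Rv Rb hRv hRb l u σ A As h hx1 hx2
  clear hx1 hx2
  have hmRb : m ≤ Rb := (le_max_left _ _).trans hRb
  have hRb0 : 0 < Rb := hm0.trans_le hmRb
  have h4 : 4 * m ≤ θ * Rb := by
    have h5 : 4 * m / θ ≤ Rb := ((le_max_left _ _).trans (le_max_right _ _)).trans hRb
    rw [div_le_iff₀ hθ0] at h5
    linarith
  have h7 : m ≤ 7 * (c / 100 * Rb) := by
    have h5 : 100 * m / (7 * c) ≤ Rb := ((le_max_right _ _).trans (le_max_right _ _)).trans hRb
    rw [div_le_iff₀ (by positivity)] at h5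
    linarith
  refine HR N k m (θ * Rb) Rb σ A As (c * Rb) (by omega) hmM0 h4 hmRb ?_ Rv l u
    (fun j hj => (le_max_left _ _).trans (hRv j hj)) h
  clear h hRv l u Rv
  intro Rv l u hRv h
  have hRv0 : ∀ j : Fin n, (j : ℕ) < k → 0 ≤ Rv j := fun j hj => hm0.le.trans (hRv j hj).1
  by_cases hne : ∃ a0, Pre l u k a0
  swap
  · refine g5d_fill_empty ?_
    refine Set.eq_empty_of_forall_notMem fun a ha => ?_
    exact hne ⟨a, ha.1⟩
  obtain ⟨a0, ha0⟩ := hne
  set w : ℝ := c / 100 * Rb with hw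
  have hw0 : 0 < w := by positivity
  set s0 : ℝ := σ a0 with hs0
  have hsz := h.sd.size a0 ha0
  have hc1 : c ≤ 1 := by
    have h1 : c * Rb ≤ 1 * Rb := by linarith [hsz.1, hsz.2]
    exact le_of_mul_le_mul_right h1 hRb0
  have hs100 : 100 * w ≤ s0 := by
    have h1 : 100 * w = c * Rb := by rw [hw]; ring
    rw [h1]
    exact hsz.1
  have hcw : c * Rb = 100 * w := by rw [hw]; ring
  have hwg : c / 100 * Rb ≤ c * Rb := by
    rw [hcw, ← hw]
    linarith
  have hosc0 : ∀ a, Pre l u k a → |σ a - s0| ≤ w / 10 := by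
    intro a ha
    have h1 := Pre.osc (η := θ * Rb) hL (by positivity) (by omega : k ≤ n) h.sd.wl h.sd.wu
      (fun j a hj hja => (h.sd.fat j a hj hja).2.trans (hRv j hj).2) h.sd.lip
      (fun y y' hy => h.sd.dep hy) ha ha0
    refine h1.trans ?_
    rw [← hK]
    have h2 : K * (θ * Rb) = (K / (K + 1)) * (w / 10) := by
      rw [hθ, hw]
      field_simp
      ring
    rw [h2]
    have h3 : K / (K + 1) ≤ 1 := by
      rw [div_le_one (by positivity)]
      linarith
    exact mul_le_of_le_one_left (by positivity) h3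
  have hosc : ∀ a, Pre l u k a → s0 - w / 10 ≤ σ a ∧ σ a ≤ s0 + w / 10 := by
    intro a ha
    have h1 := abs_le.1 (hosc0 a ha)
    constructor <;> linarith [h1.1, h1.2]
  -- large corners
  by_cases hcA : ∀ j : Fin n, k ≤ (j : ℕ) → s0 ≤ A j + 31 / 10 * w
  swap
  · push Not at hcA
    obtain ⟨j, hj, hj2⟩ := hcA
    refine HI Rv Rb (fun j hj => hmRI.trans (hRv j hj).1) (hmRI.trans hmRb) l u σ A As
      (h.mono (by linarith) le_rfl hwg hRb0.le hRv0) (Or.inl ⟨j, hj, fun a ha => ?_⟩)
    rw [← hw]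
    have := (hosc a ha).1
    linarith
  by_cases hcs : s0 ≤ As + 31 / 10 * w
  swap
  · rw [not_le] at hcs
    refine HI Rv Rb (fun j hj => hmRI.trans (hRv j hj).1) (hmRI.trans hmRb) l u σ A As
      (h.mono (by linarith) le_rfl hwg hRb0.le hRv0) (Or.inr fun a ha => ?_)
    rw [← hw]
    have := (hosc a ha).1
    linarith
  -- small corners
  have hAk := hcA ⟨k, hkn⟩ le_rfl
  have hwRb : w ≤ Rb := by
    have h1 := hsz.2
    linarith
  refine TR.cut hn hδ1 hL h.sd hkn (x0 := s0 - 6 * w) (x1 := s0 - 5 * w) (by linarith) ?_ ?_ ?_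
  · refine HM k hkn c L Rb m Rv l u σ A As (c * Rb) (s0 - 6 * w) (s0 - 5 * w) hL le_rfl hk
      (by linarith) hmM hmRb (fun j hj => (hRv j hj).1) h (by linarith) (by linarith)
      (by rw [← hw]; linarith) (by linarith) (fun a ha => ?_) (Or.inl hwg)
    rw [← hw]
    have := (hosc a ha).1
    linarith
  · intro x hx0 hx1
    rw [TR.inter_lt (p := ⟨k, hkn⟩) le_rfl (by linarith)]
    refine HA Rv Rb (fun j hj => hmRA.trans (hRv j hj).1) (hmRA.trans hmRb) l u σ _ As
      (g5d_low hc hRb0 hw hRv0 h hs100 (fun a ha => (hosc a ha).2) hcA hcs le_rfl hx0) ?_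
    intro a ha j hj
    have hjk : j = ⟨k, hkn⟩ := Fin.ext hj
    rw [hjk, Function.update_self, ← hw]
    have := (hosc a ha).1
    linarith
  · intro x hx0 hx1
    refine TR.fill_gt h.sd le_rfl (by linarith) ?_
    set p : Fin n := ⟨k, hkn⟩ with hp
    set q : Fin n := ⟨k + 1, by omega⟩ with hq
    have hpq : p ≠ q := by
      intro e
      have := congrArg Fin.val e
      simp [hp, hq] at this
    set A' : Fin n → ℝ := fun j => Function.update A p (A p - x) (Equiv.swap p q j) with hA'
    have hA'q : A' q = A p - x := by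
      simp only [hA', Equiv.swap_apply_right, Function.update_self]
    have hA'j : ∀ j : Fin n, k ≤ (j : ℕ) → j ≠ q → s0 ≤ A' j + 31 / 10 * w := by
      intro j hj hjq
      by_cases hjp : j = p
      · have : A' j = A q := by
          simp only [hA', hjp, Equiv.swap_apply_left]
          exact Function.update_of_ne hpq.symm _ _
        rw [this]
        exact hcA q (by simp [hq])
      · have : A' j = A j := by
          simp only [hA', Equiv.swap_apply_of_ne_of_ne hjp hjq]
          exact Function.update_of_ne hjp _ _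
        rw [this]
        exact hcA j hj
    have htd : TD c2 L Rv (7 * w) k l u (fun a => σ a - x) A' As (c2 * (7 * w)) :=
      g5d_high hc hRb0 hw (min_le_left _ _) (min_le_right _ _) hRv0 h.sd hs100 hosc hcs
        hA'j (by rw [hA'q]; linarith) hx0 hx1
    refine TR.fill_swap (p := p) (q := q) htd.sd le_rfl (by simp [hq]) ?_
    refine HC Rv (7 * w) (fun j hj => hmRC.trans (hRv j hj).1) (hmRC.trans h7) l u _ A' As htd
      ?_ ?_
    · intro j hj hjk
      have := hA'j j hj (fun e => hjk (by rw [e]))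
      linarith
    · linarith

end Vale.Agent.P209.Strong
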