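import Vale.Agent.P209.Strong.G1i
import Vale.Agent.P209.Strong.G2

namespace Vale.Agent.P209.Strong

open MeasureTheory

theorem g5e_fill_empty {n : ℕ} {δ N : ℝ} {Ω : Set (Fin n → ℝ)} (h : Ω = ∅) : Fill δ N Ω := by
  intro ι _ r J hr _ _ hsum
  exfalso
  rw [h, measure_empty, ENNReal.toReal_zero] at hsum
  have h1 : 0 ≤ ∑ i, r i ^ n / (n.factorial : ℝ) :=
    Finset.sum_nonneg fun i _ => div_nonneg (pow_nonneg (hr i).1.le _) (Nat.cast_nonneg _)
  exact absurd hsum (not_lt.2 h1)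

theorem TS_of (n k : ℕ) (hk : k + 2 ≤ n) (hI : TSI n k) (hB : TSB n k) : TS n k := by
  intro c L δ N hc hL hδ hδ1 hN
  obtain ⟨R1, hR1, hI⟩ := hI (c / 100) L δ N (by positivity) hL hδ hδ1 hN
  obtain ⟨R2, hR2, hB⟩ := hB c L δ N hc hL hδ hδ1 hN
  obtain ⟨M0, hM0, href⟩ := TD.refine (n := n) (by omega) c L δ hc hL hδ1
  set K : ℝ := L * (n * (1 + L) ^ n) with hK
  have hK0 : 0 ≤ K := by positivity
  set θ : ℝ := c / (1000 * (K + 1)) with hθ
  have hθ0 : 0 < θ := by positivity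
  have hKθ : K * θ ≤ c / 1000 := by
    rw [hθ, mul_div_assoc', div_le_div_iff₀ (by positivity) (by norm_num)]
    nlinarith
  set m : ℝ := max M0 (max R1 R2) with hm
  have hm0 : 0 < m := lt_max_of_lt_left hM0
  have hmM : M0 ≤ m := le_max_left _ _
  have hm1 : R1 ≤ m := (le_max_left _ _).trans (le_max_right _ _)
  have hm2 : R2 ≤ m := (le_max_right _ _).trans (le_max_right _ _)
  refine ⟨max m (4 * m / θ), lt_max_of_lt_left hm0, ?_⟩
  intro Rv Rb hRv hRb l u σ A As hTD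
  have hmRb : m ≤ Rb := (le_max_left _ _).trans hRb
  have hRb0 : 0 < Rb := hm0.trans_le hmRb
  have h4 : 4 * m ≤ θ * Rb := by
    have h5 := (le_max_right m (4 * m / θ)).trans hRb
    rw [div_le_iff₀ hθ0] at h5
    linarith
  refine href N k m (θ * Rb) Rb σ A As (c * Rb) (by omega) hmM h4 hmRb ?_ Rv l u
    (fun j hj => (le_max_left _ _).trans (hRv j hj)) hTD
  clear hTD hRv l u Rv
  intro Rv l u hRv hTD
  by_cases hne : ∃ a, Pre l u k a
  swap
  · refine g5e_fill_empty ?_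
    ext a
    simp only [Set.mem_empty_iff_false, iff_false]
    exact fun ha => hne ⟨a, ha.1⟩
  obtain ⟨a0, ha0⟩ := hne
  have hosc : ∀ a, Pre l u k a → |σ a - σ a0| ≤ c * Rb / 1000 := by
    intro a ha
    have h6 := Pre.osc (η := θ * Rb) hL (by positivity) (by omega) hTD.sd.wl hTD.sd.wu
      (fun j a hj hp => (hTD.sd.fat j a hj hp).2.trans (hRv j hj).2) hTD.sd.lip
      (fun y y' hy => hTD.sd.dep hy) ha ha0
    refine h6.trans ?_
    calc L * (n * (1 + L) ^ n) * (θ * Rb) = (K * θ) * Rb := by rw [hK]; ring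
      _ ≤ c / 1000 * Rb := mul_le_mul_of_nonneg_right hKθ hRb0.le
      _ = c * Rb / 1000 := by ring
  have hcR : 0 < c * Rb := by positivity
  have hRv0 : ∀ j : Fin n, (j : ℕ) < k → 0 ≤ Rv j := fun j hj => hm0.le.trans (hRv j hj).1
  have hw : c / 100 * Rb = c * Rb / 100 := by ring
  have hmono : TD (c / 100) L Rv Rb k l u σ A As (c / 100 * Rb) :=
    hTD.mono (by linarith) le_rfl (by rw [hw]; linarith) hRb0.le hRv0
  by_cases h1 : ∃ j : Fin n, k ≤ (j : ℕ) ∧ A j + 2 * (c * Rb / 100) ≤ σ a0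
  · obtain ⟨j, hj, h2⟩ := h1
    refine hI Rv Rb (fun j hj => hm1.trans (hRv j hj).1) (hm1.trans hmRb) l u σ A As hmono
      (Or.inl ⟨j, hj, fun a ha => ?_⟩)
    have h3 := (abs_le.1 (hosc a ha)).1
    rw [hw]
    linarith
  by_cases h2 : As + 2 * (c * Rb / 100) ≤ σ a0
  · refine hI Rv Rb (fun j hj => hm1.trans (hRv j hj).1) (hm1.trans hmRb) l u σ A As hmono
      (Or.inr fun a ha => ?_)
    have h3 := (abs_le.1 (hosc a ha)).1
    rw [hw]
    linarith
  refine hB Rv Rb (fun j hj => hm2.trans (hRv j hj).1) (hm2.trans hmRb) l u σ A As hTD ?_ ?_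
  · intro a ha j hj
    have h3 := (abs_le.1 (hosc a ha)).2
    have h4 : σ a0 < A j + 2 * (c * Rb / 100) := not_le.1 fun h => h1 ⟨j, hj, h⟩
    rw [hw]
    linarith
  · intro a ha
    have h3 := (abs_le.1 (hosc a ha)).2
    have h4 : σ a0 < As + 2 * (c * Rb / 100) := not_le.1 h2
    rw [hw]
    linarith

end Vale.Agent.P209.Strong
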