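import Vale.Agent.P209.Strong.G1d
import Vale.Agent.P209.Strong.G1h
import Vale.Agent.P209.Strong.G1i
import Vale.Agent.P209.Strong.G2

namespace Vale.Agent.P209.Strong

open MeasureTheory

/-- lower walls of the block as an iterated box -/
noncomputable def g5f_l {n : ℕ} (k : ℕ) (l : Fin n → (Fin n → ℝ) → ℝ) :
    Fin n → (Fin n → ℝ) → ℝ :=
  fun j a => if (j : ℕ) < k then l j a else 0

/-- upper walls of the block as an iterated box -/
noncomputable def g5f_u {n : ℕ} (k : ℕ) (u : Fin n → (Fin n → ℝ) → ℝ) (σ : (Fin n → ℝ) → ℝ) :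
    Fin n → (Fin n → ℝ) → ℝ :=
  fun j a => if (j : ℕ) < k then u j a else σ a - bsum k j a

section
variable {n k : ℕ} {c L Rb : ℝ} {Rv : Fin n → ℝ} {l u : Fin n → (Fin n → ℝ) → ℝ}
  {σ : (Fin n → ℝ) → ℝ}

theorem g5f_pre {j : ℕ} (hj : j ≤ k) (a : Fin n → ℝ) :
    Pre (g5f_l k l) (g5f_u k u σ) j a ↔ Pre l u j a := by
  have h : ∀ i : Fin n, (i : ℕ) < j → g5f_l k l i a = l i a ∧ g5f_u k u σ i a = u i a := by
    intro i hi
    have hik : (i : ℕ) < k := lt_of_lt_of_le hi hj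
    exact ⟨if_pos hik, if_pos hik⟩
  constructor
  · intro hp i hi
    obtain ⟨h1, h2⟩ := h i hi
    have h3 := hp i hi
    rwa [h1, h2] at h3
  · intro hp i hi
    obtain ⟨h1, h2⟩ := h i hi
    rw [h1, h2]
    exact hp i hi

theorem g5f_walls_l (hL : 0 ≤ L) (h : Walls L l) : Walls (L + n) (g5f_l k l) := by
  have hn : (0 : ℝ) ≤ n := Nat.cast_nonneg n
  constructor
  · intro j y y' hy
    unfold g5f_l
    split_ifs with hj
    · exact h.dep j y y' hy
    · rfl
  · intro j y y'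
    have hd : 0 ≤ dist y y' := dist_nonneg
    unfold g5f_l
    split_ifs with hj
    · refine (h.lip j y y').trans (mul_le_mul_of_nonneg_right (by linarith) hd)
    · rw [sub_self, abs_zero]
      exact mul_nonneg (by linarith) hd

theorem g5f_walls_u (h : SD c L Rv Rb k l u σ) :
    Walls (L + n) (g5f_u k u σ) := by
  have hn : (0 : ℝ) ≤ n := Nat.cast_nonneg n
  constructor
  · intro j y y' hy
    unfold g5f_u
    split_ifs with hj
    · exact h.wu.dep j y y' hy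
    · have h1 : σ y = σ y' := HM.intAff_congr h.int fun i hi => hy i (Fin.lt_def.2 (by omega))
      have h2 : bsum k j y = bsum k j y' :=
        HM.bsum_congr fun i _ hi => hy i (Fin.lt_def.2 hi)
      rw [h1, h2]
  · intro j y y'
    have hd : 0 ≤ dist y y' := dist_nonneg
    unfold g5f_u
    split_ifs with hj
    · refine (h.wu.lip j y y').trans (mul_le_mul_of_nonneg_right (by linarith) hd)
    · have h1 := abs_le.1 (h.lip y y')
      have h2 := abs_le.1 (HM.bsum_lip (k := k) (j := (j : ℕ)) y y')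
      rw [abs_le, add_mul]
      constructor
      · linarith [h1.1, h2.2]
      · linarith [h1.2, h2.1]

theorem g5f_box (hk : k ≤ n) (hc : 0 < c) (hRb : 0 < Rb) (h : SD c L Rv Rb k l u σ) :
    boxSet (g5f_l k l) (g5f_u k u σ) = SR k l u σ := by
  ext a
  have hlt : ∀ j : Fin n, (j : ℕ) < k → g5f_l k l j a = l j a ∧ g5f_u k u σ j a = u j a :=
    fun j hj => ⟨if_pos hj, if_pos hj⟩
  have hge : ∀ j : Fin n, k ≤ (j : ℕ) →
      g5f_l k l j a = 0 ∧ g5f_u k u σ j a = σ a - bsum k j a :=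
    fun j hj => ⟨if_neg (not_lt.2 hj), if_neg (not_lt.2 hj)⟩
  have hout : (∀ j : Fin n, g5f_l k l j a < a j ∧ a j < g5f_u k u σ j a) ↔
      (∀ j : Fin n, (j : ℕ) < k → l j a < a j ∧ a j < u j a) ∧
        ∀ j : Fin n, k ≤ (j : ℕ) → 0 < a j ∧ a j < σ a - bsum k j a := by
    constructor
    · intro h1
      refine ⟨fun j hj => ?_, fun j hj => ?_⟩
      · have h2 := h1 j
        rwa [(hlt j hj).1, (hlt j hj).2] at h2
      · have h2 := h1 j
        rwa [(hge j hj).1, (hge j hj).2] at h2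
    · rintro ⟨h1, h2⟩ j
      by_cases hj : (j : ℕ) < k
      · rw [(hlt j hj).1, (hlt j hj).2]
        exact h1 j hj
      · rw [(hge j (not_lt.1 hj)).1, (hge j (not_lt.1 hj)).2]
        exact h2 j (not_lt.1 hj)
  show (∀ j : Fin n, g5f_l k l j a < a j ∧ a j < g5f_u k u σ j a) ↔
    (∀ j : Fin n, (j : ℕ) < k → l j a < a j ∧ a j < u j a) ∧
      (∀ j : Fin n, k ≤ (j : ℕ) → 0 < a j) ∧ bsum k n a < σ a
  rw [hout]
  refine and_congr_right fun hp => ?_
  rcases Nat.eq_or_lt_of_le hk with rfl | hkn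
  · constructor
    · intro _
      refine ⟨fun j hj => absurd j.2 (not_lt.2 hj), ?_⟩
      rw [HM.bsum_self]
      have h1 := (h.size a hp).1
      have h2 : 0 < c * Rb := mul_pos hc hRb
      linarith
    · intro _ j hj
      exact absurd j.2 (not_lt.2 hj)
  · have h1 := HM.block_iff (n := n) (k := k) (b := n - k) (by omega) (by omega) a (σ a)
    have h2 : k + (n - k) = n := by omega
    rw [h2] at h1
    constructor
    · intro h3
      obtain ⟨h4, h5⟩ := h1.1 fun j hj _ => h3 j hj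
      exact ⟨fun j hj => h4 j hj j.2, h5⟩
    · rintro ⟨h3, h4⟩ j hj
      exact h1.2 ⟨fun j hj _ => h3 j hj, h4⟩ j hj j.2

theorem g5f_geo {m M : ℝ} (hk : k ≤ n) (hc : 0 < c) (hL : 0 ≤ L) (hM : 1 ≤ M)
    (hRv : ∀ j : Fin n, (j : ℕ) < k → m ≤ Rv j ∧ Rv j ≤ M * m) (hRb : m ≤ Rb)
    (hRb' : Rb ≤ M * m) (h : SD c L Rv Rb k l u σ) :
    Geo1 (c / M) (L + n) (M * m) (g5f_l k l) (g5f_u k u σ) k (n - k) σ := by
  have hM0 : M ≠ 0 := by positivity
  have hcm : c / M * (M * m) = c * m := by field_simp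
  refine ⟨g5f_walls_l hL h.wl, g5f_walls_u h, by omega, h.int, ?_, ?_, ?_⟩
  · intro j hj _
    exact ⟨fun a => if_neg (not_lt.2 hj), fun a => if_neg (not_lt.2 hj)⟩
  · intro j a hj hp
    have hjk : (j : ℕ) < k := by
      rcases hj with hj | hj
      · exact hj
      · exact absurd j.2 (by omega)
    have h1 := h.fat j a hjk ((g5f_pre hjk.le a).1 hp)
    have h2 : g5f_l k l j a = l j a := if_pos hjk
    have h3 : g5f_u k u σ j a = u j a := if_pos hjk
    have h4 := hRv j hjk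
    have h5 : c * m ≤ c * Rv j := mul_le_mul_of_nonneg_left h4.1 hc.le
    rw [h2, h3, hcm]
    exact ⟨by linarith [h1.1], by linarith [h1.2]⟩
  · intro a hp
    have h1 := h.size a ((g5f_pre le_rfl a).1 hp)
    have h5 : c * m ≤ c * Rb := mul_le_mul_of_nonneg_left hRb hc.le
    rw [hcm]
    exact ⟨by linarith [h1.1], by linarith [h1.2]⟩

end

/-- Isotropic simplex blocks, from `S1`. -/
theorem PS_iso (n k : ℕ) (hk : k ≤ n) (hS : S1 n (n - k)) (c L δ N M : ℝ) (hc : 0 < c)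
    (hL : 0 ≤ L) (hδ : 0 < δ) (hδ1 : δ ≤ 1) (hN : 0 ≤ N) (hM : 1 ≤ M) : ∃ m0 : ℝ, 0 < m0 ∧
    ∀ (m : ℝ) (Rv : Fin n → ℝ) (Rb : ℝ), m0 ≤ m →
      (∀ j : Fin n, (j : ℕ) < k → m ≤ Rv j ∧ Rv j ≤ M * m) → m ≤ Rb → Rb ≤ M * m →
      ∀ (l u : Fin n → (Fin n → ℝ) → ℝ) (σ : (Fin n → ℝ) → ℝ),
        SD c L Rv Rb k l u σ → Fill δ N (SR k l u σ) := by
  have hn : (0 : ℝ) ≤ n := Nat.cast_nonneg n
  obtain ⟨R0, hR0, H⟩ := hS (c / M) (L + n) δ N (div_pos hc (by linarith)) (by linarith) hδ hδ1 hN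
  refine ⟨R0, hR0, fun m Rv Rb hm hRv hRb hRb' l u σ h => ?_⟩
  have hm0 : 0 < m := by linarith
  have hRm : R0 ≤ M * m := by
    have := mul_le_mul_of_nonneg_right hM hm0.le
    linarith
  rw [← g5f_box hk hc (by linarith) h]
  exact H (M * m) hRm _ _ k σ (g5f_geo hk hc hL hM hRv hRb hRb' h)

end Vale.Agent.P209.Strong
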