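import Vale.Agent.P209.Strong.G5f

namespace Vale.Agent.P209.Strong

open MeasureTheory

theorem g5g_fill_empty {n : ℕ} {δ N : ℝ} {Ω : Set (Fin n → ℝ)} (h : Ω = ∅) : Fill δ N Ω := by
  intro ι _ r J hr _ _ hlt
  rw [h, measure_empty, ENNReal.toReal_zero] at hlt
  exact absurd hlt (not_lt.2 (Finset.sum_nonneg fun i _ =>
    div_nonneg (pow_nonneg (hr i).1.le _) (Nat.cast_nonneg _)))

theorem g5g_bsum_nonneg {n k j : ℕ} {A : Fin n → ℝ} (hA : ∀ i, 0 ≤ A i) : 0 ≤ bsum k j A := by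
  unfold bsum
  refine Finset.sum_nonneg fun i _ => ?_
  split_ifs
  · exact hA i
  · exact le_rfl

/-- simplex block data give truncated data with large caps -/
theorem g5g_td {n k : ℕ} {c c' L Rb x : ℝ} {Rv : Fin n → ℝ} {l u : Fin n → (Fin n → ℝ) → ℝ}
    {σ : (Fin n → ℝ) → ℝ} (h : SD c L Rv Rb k l u σ) (hc : 0 < c) (hc1 : c ≤ 1 / 2)
    (hRb : 0 < Rb) (hRv : ∀ j : Fin n, (j : ℕ) < k → 0 ≤ Rv j) (p : Fin n)
    (hc' : 0 ≤ c') (hcc : c' ≤ c) (hx0 : c' * Rb ≤ x) :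
    TD c' L Rv Rb k l u σ (Function.update (fun _ => 2 * Rb) p x) (2 * Rb) (c' * Rb) := by
  have hc'R : c' * Rb ≤ Rb := by nlinarith
  have hc'0 : 0 ≤ c' * Rb := by positivity
  have hA0 : ∀ i, c' * Rb ≤ Function.update (fun _ : Fin n => 2 * Rb) p x i := by
    intro i
    by_cases hi : i = p
    · subst hi; rw [Function.update_self]; exact hx0
    · rw [Function.update_of_ne hi]; linarith
  refine ⟨h.mono hcc le_rfl hRb.le hRv, fun j _ => hA0 j, by linarith, ?_, ?_, ?_⟩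
  · intro a ha i j hij _ _
    have hs := (h.size a ha).2
    by_cases hi : i = p
    · have hj : j ≠ p := fun hj => hij (hi.trans hj.symm)
      rw [Function.update_of_ne hj]
      have := hA0 i
      linarith
    · rw [Function.update_of_ne hi]
      have := hA0 j
      linarith
  · intro a ha j _
    have hs := (h.size a ha).2
    have := hA0 j
    linarith
  · intro a ha
    have hs := (h.size a ha).2
    have : 0 ≤ bsum k n (Function.update (fun _ : Fin n => 2 * Rb) p x) :=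
      g5g_bsum_nonneg fun i => hc'0.trans (hA0 i)
    linarith

theorem g5g_intAff_sub {n k : ℕ} {σ : (Fin n → ℝ) → ℝ} (h : IntAff k σ) (x : ℝ) :
    IntAff k (fun a => σ a - x) := by
  obtain ⟨s, m, hm, h⟩ := h
  exact ⟨s - x, m, hm, fun a => by simp only [h a]; ring⟩

theorem g5g_sd_sub {n k : ℕ} {c L Rb Rb' x : ℝ} {Rv : Fin n → ℝ}
    {l u : Fin n → (Fin n → ℝ) → ℝ} {σ : (Fin n → ℝ) → ℝ} (h : SD c L Rv Rb k l u σ)
    (hs : ∀ a, Pre l u k a → c * Rb' ≤ σ a - x ∧ σ a - x ≤ Rb') :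
    SD c L Rv Rb' k l u (fun a => σ a - x) := by
  refine ⟨h.wl, h.wu, g5g_intAff_sub h.int x, fun y y' => ?_, h.fat, hs⟩
  have := h.lip y y'
  simpa using this

/-- one step of the scale induction: the data are refined -/
theorem g5g_step {n k : ℕ} (hk : k + 2 ≤ n) {c L δ N m Rb : ℝ} (hc : 0 < c) (hc1 : c ≤ 1 / 2)
    (hL : 0 ≤ L) (hδ1 : δ ≤ 1) {M1 RA : ℝ} (hRA : RA ≤ m) (hM1 : M1 ≤ m) (hm : 0 < m)
    (hmid : ∀ (k : ℕ) (hk : k < n) (c_ L_ Rb m : ℝ) (Rv : Fin n → ℝ) (l u : Fin n → (Fin n → ℝ) → ℝ)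
      (σ : (Fin n → ℝ) → ℝ) (A : Fin n → ℝ) (As g x0 x1 : ℝ), 0 ≤ L_ → L_ ≤ L → k + 2 ≤ n →
      c / 100 ≤ c_ → M1 ≤ m → m ≤ Rb → (∀ j : Fin n, (j : ℕ) < k → m ≤ Rv j) →
      TD c_ L_ Rv Rb k l u σ A As g → 0 ≤ x0 → x1 ≤ A ⟨k, hk⟩ → c / 100 * Rb ≤ x1 - x0 →
      x1 - x0 ≤ Rb → (∀ a, Pre l u k a → x1 + c / 100 * Rb ≤ σ a) →
      (c / 100 * Rb ≤ g ∨ (0 ≤ g ∧ (k + 3 ≤ n ∨ c / 100 * Rb ≤ x0))) →
      1 / (n.factorial : ℝ) <
        (volume (TR k l u σ A As ∩ {a | x0 < a ⟨k, hk⟩ ∧ a ⟨k, hk⟩ < x1})).toReal)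
    (hA : ∀ (Rv : Fin n → ℝ) (Rb : ℝ), (∀ j : Fin n, (j : ℕ) < k → RA ≤ Rv j) → RA ≤ Rb →
      ∀ (l u : Fin n → (Fin n → ℝ) → ℝ) (σ : (Fin n → ℝ) → ℝ) (A : Fin n → ℝ) (As : ℝ),
        TD (c / 100) L Rv Rb k l u σ A As (c / 100 * Rb) →
        (∀ a, Pre l u k a → ∀ j : Fin n, (j : ℕ) = k → A j + c / 100 * Rb ≤ σ a) →
        Fill δ N (TR k l u σ A As))
    (hmRb : m ≤ Rb) (hmRb2 : m ≤ 7 / 100 * (c * Rb))
    (hind : ∀ (Rv : Fin n → ℝ) (Rb' : ℝ) (l u : Fin n → (Fin n → ℝ) → ℝ) (σ : (Fin n → ℝ) → ℝ),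
      (∀ j : Fin n, (j : ℕ) < k → m ≤ Rv j) → m ≤ Rb' → Rb' ≤ Rb / 2 →
      SD c L Rv Rb' k l u σ → Fill δ N (SR k l u σ))
    {η : ℝ} (hη0 : 0 ≤ η) (hη : L * (n * (1 + L) ^ n) * η ≤ c * Rb / 1000)
    {Rv : Fin n → ℝ} {l u : Fin n → (Fin n → ℝ) → ℝ} {σ : (Fin n → ℝ) → ℝ}
    (hRv : ∀ j : Fin n, (j : ℕ) < k → m ≤ Rv j ∧ Rv j ≤ η) (h : SD c L Rv Rb k l u σ) :
    Fill δ N (SR k l u σ) := by
  by_cases hne : ∃ a0, Pre l u k a0
  swap
  · refine g5g_fill_empty (Set.eq_empty_iff_forall_notMem.2 fun a ha => hne ⟨a, ha.1⟩)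
  obtain ⟨a0, ha0⟩ := hne
  have hRb : 0 < Rb := hm.trans_le hmRb
  have hkn : k < n := by omega
  set p : Fin n := ⟨k, hkn⟩ with hp
  have hRv0 : ∀ j : Fin n, (j : ℕ) < k → 0 ≤ Rv j := fun j hj => hm.le.trans (hRv j hj).1
  set σ0 := σ a0 with hσ0
  have hs0 := h.size a0 ha0
  rw [← hσ0] at hs0
  have hcR : 0 < c * Rb := by positivity
  have hcR2 : c * Rb ≤ Rb / 2 := by nlinarith
  have hosc : ∀ a, Pre l u k a → |σ a - σ0| ≤ c * Rb / 1000 := by
    intro a ha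
    refine (Pre.osc hL hη0 (by omega) h.wl h.wu (fun j a hj hp => ?_) h.lip
      (fun y y' hy => h.dep hy) ha ha0).trans hη
    exact (h.fat j a hj hp).2.trans (hRv j hj).2
  have hlo : ∀ a, Pre l u k a → σ0 - c * Rb / 1000 ≤ σ a := fun a ha => by
    have := (abs_le.1 (hosc a ha)).1; linarith
  have hhi : ∀ a, Pre l u k a → σ a ≤ σ0 + c * Rb / 1000 := fun a ha => by
    have := (abs_le.1 (hosc a ha)).2; linarith
  have hupd : Function.update (fun _ : Fin n => 2 * Rb) p (2 * Rb) = fun _ => 2 * Rb := by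
    funext i
    by_cases hi : i = p
    · subst hi; rw [Function.update_self]
    · rw [Function.update_of_ne hi]
  have hTR : TR k l u σ (fun _ => 2 * Rb) (2 * Rb) = SR k l u σ :=
    TR_eq_SR hkn (fun a ha j _ => by linarith [(h.size a ha).2])
      (fun a ha => by linarith [(h.size a ha).2])
  rw [← hTR]
  have hTD : TD (c / 100) L Rv Rb k l u σ (fun _ => 2 * Rb) (2 * Rb) (c / 100 * Rb) := by
    have := g5g_td (c' := c / 100) (x := 2 * Rb) h hc hc1 hRb hRv0 p (by positivity)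
      (by linarith) (by nlinarith)
    rwa [hupd] at this
  refine TR.cut (x0 := σ0 - 6 * (σ0 / 100)) (x1 := σ0 - 5 * (σ0 / 100)) (by omega) hδ1 hL h hkn
    (by linarith) ?_ ?_ ?_
  · refine hmid k hkn (c / 100) L Rb m Rv l u σ _ _ _ _ _ hL le_rfl hk le_rfl hM1 hmRb
      (fun j hj => (hRv j hj).1) hTD (by linarith) (by linarith) (by linarith) (by linarith)
      (fun a ha => ?_) (Or.inl le_rfl)
    have := hlo a ha
    linarith
  · intro x hx0 hx1
    rw [TR.inter_lt (p := ⟨k, hkn⟩) le_rfl (by linarith : x ≤ 2 * Rb)]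
    refine hA Rv Rb (fun j hj => hRA.trans (hRv j hj).1) (hRA.trans hmRb) l u σ _ _
      (g5g_td (c' := c / 100) h hc hc1 hRb hRv0 _ (by positivity) (by linarith)
        (by linarith)) ?_
    intro a ha j hj
    have hjp : j = ⟨k, hkn⟩ := Fin.ext hj
    rw [hjp, Function.update_self]
    have := hlo a ha
    linarith
  · intro x hx0 hx1
    refine TR.fill_gt h (p := ⟨k, hkn⟩) le_rfl (by linarith) ?_
    have e : TR k l u (fun a => σ a - x) (Function.update (fun _ : Fin n => 2 * Rb) ⟨k, hkn⟩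
        (2 * Rb - x)) (2 * Rb) = SR k l u (fun a => σ a - x) := by
      refine TR_eq_SR hkn (fun a ha j _ => ?_) (fun a ha => by linarith [(h.size a ha).2])
      by_cases hj : j = ⟨k, hkn⟩
      · rw [hj, Function.update_self]
        linarith [(h.size a ha).2]
      · rw [Function.update_of_ne hj]
        linarith [(h.size a ha).2]
    rw [e]
    refine hind Rv (7 / 100 * σ0) l u _ (fun j hj => (hRv j hj).1) (by linarith) (by linarith)
      (g5g_sd_sub h fun a ha => ?_)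
    have h1 := hlo a ha
    have h2 := hhi a ha
    have h3 : c * (7 / 100 * σ0) ≤ 1 / 2 * (7 / 100 * σ0) :=
      mul_le_mul_of_nonneg_right hc1 (by linarith)
    constructor <;> linarith

/-- The scale induction. -/
theorem g5g_claim {n k : ℕ} (hk : k + 2 ≤ n) (hS : S1 n (n - k)) (hA : TSA n k) {c L δ N : ℝ}
    (hc : 0 < c) (hc1 : c ≤ 1 / 2) (hL : 0 ≤ L) (hδ : 0 < δ) (hδ1 : δ ≤ 1) (hN : 0 ≤ N) :
    ∃ m M : ℝ, 0 < m ∧ 0 < M ∧ ∀ (Q : ℕ) (Rv : Fin n → ℝ) (Rb : ℝ)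
      (l u : Fin n → (Fin n → ℝ) → ℝ) (σ : (Fin n → ℝ) → ℝ),
      (∀ j : Fin n, (j : ℕ) < k → m ≤ Rv j) → m ≤ Rb → Rb ≤ 2 ^ Q * (M * m) →
      SD c L Rv Rb k l u σ → Fill δ N (SR k l u σ) := by
  have hkn : k < n := by omega
  set K : ℝ := L * (n * (1 + L) ^ n) with hK
  have hK0 : 0 ≤ K := by positivity
  set M : ℝ := 4000 * (K + 1) / c with hM
  have hMc : c * M = 4000 * (K + 1) := by rw [hM]; field_simp
  have hM0 : 0 < M := by positivity
  have hM8000 : 8000 ≤ M := by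
    rw [hM, le_div_iff₀ hc]
    nlinarith
  obtain ⟨M0, hM00, hrefine⟩ := TD.refine (n := n) (by omega) c L δ hc hL hδ1
  obtain ⟨mi, hmi0, hiso⟩ := PS_iso n k (by omega) hS c L δ N M hc hL hδ hδ1 hN (by linarith)
  obtain ⟨RA, hRA0, hTSA⟩ := hA (c / 100) L δ N (by positivity) hL hδ hδ1 hN
  obtain ⟨M1, hM10, hmid⟩ := TD.mid_ge (c / 100) L n (by positivity) hL
  set m : ℝ := max (max M0 mi) (max RA M1) with hm
  have hm1 : M0 ≤ m := (le_max_left _ _).trans (le_max_left _ _)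
  have hm2 : mi ≤ m := (le_max_right _ _).trans (le_max_left _ _)
  have hm3 : RA ≤ m := (le_max_left _ _).trans (le_max_right _ _)
  have hm4 : M1 ≤ m := (le_max_right _ _).trans (le_max_right _ _)
  have hm0 : 0 < m := hM00.trans_le hm1
  refine ⟨m, M, hm0, hM0, ?_⟩
  -- common part: refinement
  have href : ∀ (η : ℝ), 4 * m ≤ η → ∀ (Rb : ℝ), m ≤ Rb → ∀ σ : (Fin n → ℝ) → ℝ,
      (∀ (Rv : Fin n → ℝ) (l u : Fin n → (Fin n → ℝ) → ℝ),
        (∀ j : Fin n, (j : ℕ) < k → m ≤ Rv j ∧ Rv j ≤ η) → SD c L Rv Rb k l u σ →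
        Fill δ N (SR k l u σ)) →
      ∀ (Rv : Fin n → ℝ) (l u : Fin n → (Fin n → ℝ) → ℝ),
        (∀ j : Fin n, (j : ℕ) < k → m ≤ Rv j) → SD c L Rv Rb k l u σ →
        Fill δ N (SR k l u σ) := by
    intro η hη Rb hmRb σ hin Rv l u hRv h
    have hRb : 0 < Rb := hm0.trans_le hmRb
    have hupd : Function.update (fun _ : Fin n => 2 * Rb) ⟨k, hkn⟩ (2 * Rb)
        = fun _ => 2 * Rb := by
      funext i
      by_cases hi : i = ⟨k, hkn⟩
      · subst hi; rw [Function.update_self]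
      · rw [Function.update_of_ne hi]
    have hTR : ∀ {l u : Fin n → (Fin n → ℝ) → ℝ}, (∀ a, Pre l u k a → σ a ≤ Rb) →
        TR k l u σ (fun _ => 2 * Rb) (2 * Rb) = SR k l u σ := fun hs =>
      TR_eq_SR hkn (fun a ha j _ => by linarith [hs a ha]) (fun a ha => by linarith [hs a ha])
    rw [← hTR fun a ha => (h.size a ha).2]
    refine hrefine N k m η Rb σ (fun _ => 2 * Rb) (2 * Rb) (c * Rb) (by omega) hm1 hη hmRb ?_
      Rv l u hRv ?_
    · intro Rv' l' u' hRv' h'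
      rw [hTR fun a ha => (h'.sd.size a ha).2]
      exact hin Rv' l' u' hRv' h'.sd
    · have := g5g_td (c' := c) (x := 2 * Rb) h hc hc1 hRb
        (fun j hj => hm0.le.trans (hRv j hj)) ⟨k, hkn⟩ hc.le le_rfl (by nlinarith)
      rwa [hupd] at this
  -- small scales
  have hsmall : ∀ (Rv : Fin n → ℝ) (Rb : ℝ) (l u : Fin n → (Fin n → ℝ) → ℝ)
      (σ : (Fin n → ℝ) → ℝ), (∀ j : Fin n, (j : ℕ) < k → m ≤ Rv j) → m ≤ Rb → Rb ≤ M * m →
      SD c L Rv Rb k l u σ → Fill δ N (SR k l u σ) := by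
    intro Rv Rb l u σ hRv hmRb hRbM h
    refine href (4 * m) le_rfl Rb hmRb σ ?_ Rv l u hRv h
    intro Rv' l' u' hRv' h'
    refine hiso m Rv' Rb hm2 (fun j hj => ⟨(hRv' j hj).1, (hRv' j hj).2.trans ?_⟩) hmRb hRbM
      l' u' σ h'
    exact mul_le_mul_of_nonneg_right (by linarith) hm0.le
  intro Q
  induction Q with
  | zero =>
    intro Rv Rb l u σ hRv hmRb hRbM h
    exact hsmall Rv Rb l u σ hRv hmRb (by simpa using hRbM) h
  | succ Q ih =>
    intro Rv Rb l u σ hRv hmRb hRbM h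
    by_cases hcase : Rb ≤ M * m
    · exact hsmall Rv Rb l u σ hRv hmRb hcase h
    · push Not at hcase
      have hRb : 0 < Rb := hm0.trans_le hmRb
      have hcRb : 4000 * (K + 1) * m ≤ c * Rb := by
        rw [← hMc, mul_assoc]
        exact mul_le_mul_of_nonneg_left hcase.le hc.le
      refine href (c * Rb / (1000 * (K + 1))) ?_ Rb hmRb σ ?_ Rv l u hRv h
      · rw [le_div_iff₀ (by positivity)]
        linarith
      · intro Rv' l' u' hRv' h'
        refine g5g_step hk hc hc1 hL hδ1 hm3 hm4 hm0 hmid hTSA hmRb ?_ ?_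
          (η := c * Rb / (1000 * (K + 1))) (by positivity) ?_ hRv' h'
        · nlinarith
        · intro Rv'' Rb'' l'' u'' σ'' hRv'' hm'' hRb'' h''
          refine ih Rv'' Rb'' l'' u'' σ'' hRv'' hm'' ?_ h''
          rw [pow_succ] at hRbM
          linarith
        · rw [← hK, mul_div_assoc', div_le_div_iff₀ (by positivity) (by norm_num)]
          have : 0 < c * Rb := by positivity
          nlinarith

theorem PS_of (n k : ℕ) (hk : k + 2 ≤ n) (hS : S1 n (n - k)) (hA : TSA n k) : PS n k := by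
  intro c L δ N hc hL hδ hδ1 hN
  obtain ⟨m, M, hm, hM, hcl⟩ := g5g_claim hk hS hA (c := min c (1 / 2)) (L := L)
    (lt_min hc (by norm_num)) (min_le_right _ _) hL hδ hδ1 hN
  refine ⟨m, hm, fun Rv Rb hRv hRb l u σ h => ?_⟩
  obtain ⟨Q, hQ⟩ := pow_unbounded_of_one_lt (Rb / (M * m)) (one_lt_two (α := ℝ))
  refine hcl Q Rv Rb l u σ hRv hRb ?_ (h.mono (min_le_left _ _) le_rfl (hm.le.trans hRb)
    fun j hj => hm.le.trans (hRv j hj))
  rw [div_lt_iff₀ (by positivity)] at hQ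
  exact hQ.le

end Vale.Agent.P209.Strong
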