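import Vale.Agent.P209.Strong.G1d
import Vale.Agent.P209.Strong.G1e
import Vale.Agent.P209.Strong.G1h
import Vale.Agent.P209.Strong.G1i
import Vale.Agent.P209.Strong.G2

namespace Vale.Agent.P209.Strong

open MeasureTheory

/-- The block sum over the last two coordinates. -/
theorem g6a_bsum (k : ℕ) (A : Fin (k + 2) → ℝ) :
    bsum k (k + 2) A = A ⟨k, by omega⟩ + A ⟨k + 1, by omega⟩ := by
  unfold bsum
  rw [Fin.sum_univ_castSucc, Fin.sum_univ_castSucc]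
  have h0 : ∑ i : Fin k, (if k ≤ ((i.castSucc.castSucc : Fin (k + 2)) : ℕ) ∧
      ((i.castSucc.castSucc : Fin (k + 2)) : ℕ) < k + 2 then A i.castSucc.castSucc else 0) = 0 := by
    refine Finset.sum_eq_zero fun i _ => ?_
    rw [if_neg]
    intro h
    have h1 : k ≤ (i : ℕ) := h.1
    have := i.2
    omega
  rw [h0, zero_add, if_pos, if_pos]
  · rfl
  · constructor <;> simp
  · constructor <;> simp

/-- The empty set is filled. -/
theorem g6a_empty {n : ℕ} {δ N : ℝ} {Ω : Set (Fin n → ℝ)} (h : Ω = ∅) : Fill δ N Ω := by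
  intro ι _ r J hr _ _ hlt
  exfalso
  rw [h, measure_empty, ENNReal.toReal_zero] at hlt
  have : 0 ≤ ∑ i, r i ^ n / (n.factorial : ℝ) :=
    Finset.sum_nonneg fun i _ => by
      have := (hr i).1
      positivity
  linarith

/-- Full peel of the first block coordinate. -/
theorem g6a_peel {k : ℕ} {c L δ N R1 Rb s0 : ℝ} (hc : 0 < c) (hL : 0 ≤ L) (hR1 : 0 < R1)
    (h2 : ∀ (Rv : Fin (k + 2) → ℝ) (Rb : ℝ), (∀ j : Fin (k + 2), (j : ℕ) < k + 1 → R1 ≤ Rv j) →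
      R1 ≤ Rb → ∀ (l u : Fin (k + 2) → (Fin (k + 2) → ℝ) → ℝ) (σ : (Fin (k + 2) → ℝ) → ℝ)
        (A : Fin (k + 2) → ℝ) (As : ℝ),
        TD (c / 10) (L + 1) Rv Rb (k + 1) l u σ A As (c / 10 * Rb) →
          Fill δ N (TR (k + 1) l u σ A As))
    {Rv : Fin (k + 2) → ℝ} {l u : Fin (k + 2) → (Fin (k + 2) → ℝ) → ℝ}
    {σ : (Fin (k + 2) → ℝ) → ℝ} {A : Fin (k + 2) → ℝ} {As : ℝ} (hRb : R1 ≤ Rb)
    (hRv : ∀ j : Fin (k + 2), (j : ℕ) < k → R1 ≤ Rv j)
    (h : TD c L Rv Rb k l u σ A As 0)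
    (hs0 : s0 ≤ Rb)
    (hosc : ∀ a, Pre l u k a → s0 - c / 10 * Rb ≤ σ a ∧ σ a ≤ s0 + c / 10 * Rb)
    (hA : A ⟨k, by omega⟩ + 8 * (c / 10 * Rb) ≤ s0)
    (hp : s0 + 2 * (c / 10 * Rb) ≤ A ⟨k + 1, by omega⟩ + As) :
    Fill δ N (TR k l u σ A As) := by
  have hkn : k < k + 2 := by omega
  have hRb0 : 0 < Rb := lt_of_lt_of_le hR1 hRb
  have hZ : 0 < c / 10 * Rb := by positivity
  have hcap := h.cap ⟨k, hkn⟩ le_rfl
  have e10 : c * Rb = 10 * (c / 10 * Rb) := by ring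
  have e1 : TR k l u σ A As =
      TR k l u σ A As ∩ {a | 0 < a ⟨k, hkn⟩ ∧ a ⟨k, hkn⟩ < A ⟨k, hkn⟩} := by
    refine (Set.inter_eq_left.2 ?_).symm
    intro a ha
    exact ha.2.1 ⟨k, hkn⟩ le_rfl
  rw [e1, TR.peel_eq hkn le_rfl le_rfl]
  refine h2 (Function.update Rv ⟨k, hkn⟩ Rb) Rb ?_ hRb _ _ _ _ _ ?_
  · intro j hj
    by_cases hjk : j = ⟨k, hkn⟩
    · rw [hjk, Function.update_self]
      exact hRb
    · rw [Function.update_of_ne hjk]
      refine hRv j ?_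
      have : (j : ℕ) ≠ k := fun h => hjk (Fin.ext h)
      omega
  · refine TD.peel hkn hL hRb0 (fun j hj => hR1.le.trans (hRv j hj)) h (g1 := c / 10 * Rb)
      (by positivity) (by linarith) le_rfl ?_ ?_ ?_ hZ.le ?_ ?_ ?_ ?_
    · rw [sub_zero]
      linarith
    · rw [sub_zero]
      linarith
    · intro a ha
      have := (hosc a ha).1
      linarith
    · intro a ha i j hij hi hj
      exfalso
      apply hij
      have := i.2
      have := j.2
      exact Fin.ext (by omega)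
    · intro a ha j hj
      have hj2 : j = ⟨k + 1, by omega⟩ := by
        have := j.2
        exact Fin.ext (by simp only; omega)
      rw [hj2]
      have := (hosc a ha).2
      linarith
    · linarith
    · right
      exact ⟨le_rfl, le_rfl⟩

/-- The case of small pair sums, by reflection. -/
theorem g6a_refl {k : ℕ} {c L δ N R1 Rb s0 : ℝ} (hc : 0 < c) (hR1 : 0 < R1)
    (h1 : ∀ (Rv : Fin (k + 2) → ℝ) (Rb : ℝ), (∀ j : Fin (k + 2), (j : ℕ) < k → R1 ≤ Rv j) →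
      R1 ≤ Rb → ∀ (l u : Fin (k + 2) → (Fin (k + 2) → ℝ) → ℝ) (σ : (Fin (k + 2) → ℝ) → ℝ)
        (A : Fin (k + 2) → ℝ) (As : ℝ),
        TD (c / 10) L Rv Rb k l u σ A As (c / 10 * Rb) →
          Fill δ N (TR k l u σ A As))
    {Rv : Fin (k + 2) → ℝ} {l u : Fin (k + 2) → (Fin (k + 2) → ℝ) → ℝ}
    {σ : (Fin (k + 2) → ℝ) → ℝ} {A : Fin (k + 2) → ℝ} {As : ℝ} (hRb : R1 ≤ Rb)
    (hRv : ∀ j : Fin (k + 2), (j : ℕ) < k → R1 ≤ Rv j)
    (h : TD c L Rv Rb k l u σ A As 0)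
    (hs0 : s0 ≤ Rb)
    (hosc : ∀ a, Pre l u k a → s0 - c / 10 * Rb ≤ σ a ∧ σ a ≤ s0 + c / 10 * Rb)
    (hp1 : A ⟨k, by omega⟩ + A ⟨k + 1, by omega⟩ ≤ s0 + 2 * (c / 10 * Rb))
    (hp2 : A ⟨k, by omega⟩ + As ≤ s0 + 2 * (c / 10 * Rb)) :
    Fill δ N (TR k l u σ A As) := by
  have hkn : k < k + 2 := by omega
  have hRb0 : 0 < Rb := lt_of_lt_of_le hR1 hRb
  have hZ : 0 < c / 10 * Rb := by positivity
  have hcap1 := h.cap ⟨k, hkn⟩ le_rfl
  have hcap2 := h.cap ⟨k + 1, by omega⟩ (by simp)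
  have hcap3 := h.caps
  have e10 : c * Rb = 10 * (c / 10 * Rb) := by ring
  have hb := g6a_bsum k A
  have hcases : ∀ j : Fin (k + 2), k ≤ (j : ℕ) → j = ⟨k, hkn⟩ ∨ j = ⟨k + 1, by omega⟩ := by
    intro j hj
    have := j.2
    rcases Nat.eq_or_lt_of_le hj with h' | h'
    · left
      exact Fin.ext h'.symm
    · right
      exact Fin.ext (by simp only; omega)
  refine TR.fill_reflect h.sd rfl ?_
  refine h1 Rv Rb hRv hRb l u _ A As ?_
  rw [hb]
  refine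
    { sd :=
      { wl := h.sd.wl
        wu := h.sd.wu
        int := ?_
        lip := ?_
        fat := ?_
        size := ?_ }
      cap := ?_
      caps := ?_
      pair := ?_
      pairs := ?_
      tot := ?_ }
  · obtain ⟨s, m, hm, hs⟩ := h.sd.int
    refine ⟨A ⟨k, by omega⟩ + A ⟨k + 1, by omega⟩ + As - s, fun j => -m j, fun j hj => ?_,
      fun a => ?_⟩
    · show -m j = 0
      rw [hm j hj, neg_zero]
    · show A ⟨k, by omega⟩ + A ⟨k + 1, by omega⟩ + As - σ a = _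
      rw [hs a]
      simp only [Int.cast_neg, neg_mul, Finset.sum_neg_distrib]
      ring
  · intro y y'
    have e : (A ⟨k, by omega⟩ + A ⟨k + 1, by omega⟩ + As - σ y) -
        (A ⟨k, by omega⟩ + A ⟨k + 1, by omega⟩ + As - σ y') = -(σ y - σ y') := by ring
    rw [e, abs_neg]
    exact h.sd.lip y y'
  · intro j a hj ha
    have h3 := h.sd.fat j a hj ha
    refine ⟨?_, h3.2⟩
    have h4 : 0 < Rv j := lt_of_lt_of_le hR1 (hRv j hj)
    have h5 : c / 10 * Rv j ≤ c * Rv j := mul_le_mul_of_nonneg_right (by linarith) h4.le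
    linarith [h3.1]
  · intro a ha
    have h4 := h.pair a ha ⟨k, hkn⟩ ⟨k + 1, by omega⟩ (by simp [Fin.ext_iff]) le_rfl (by simp)
    have h5 := (hosc a ha).1
    constructor
    · linarith
    · linarith
  · intro j hj
    have := h.cap j hj
    linarith
  · linarith
  · intro a ha i j hij hi hj
    have h5 := (hosc a ha).1
    rcases hcases i hi with h6 | h6 <;> rcases hcases j hj with h7 | h7
    · exact absurd (h6.trans h7.symm) hij
    · rw [h6, h7]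
      linarith
    · rw [h6, h7]
      linarith
    · exact absurd (h6.trans h7.symm) hij
  · intro a ha j hj
    have h5 := (hosc a ha).1
    rcases hcases j hj with h7 | h7
    · rw [h7]
      linarith
    · rw [h7]
      linarith
  · intro a ha
    rw [hb]
    have h5 := (h.sd.size a ha).1
    linarith

/-- The case of large pair sums. -/
theorem g6a_big {k : ℕ} {c L δ N R1 Rb s0 : ℝ} (hc : 0 < c) (hR1 : 0 < R1)
    (h1 : ∀ (Rv : Fin (k + 2) → ℝ) (Rb : ℝ), (∀ j : Fin (k + 2), (j : ℕ) < k → R1 ≤ Rv j) →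
      R1 ≤ Rb → ∀ (l u : Fin (k + 2) → (Fin (k + 2) → ℝ) → ℝ) (σ : (Fin (k + 2) → ℝ) → ℝ)
        (A : Fin (k + 2) → ℝ) (As : ℝ),
        TD (c / 10) L Rv Rb k l u σ A As (c / 10 * Rb) →
          Fill δ N (TR k l u σ A As))
    {Rv : Fin (k + 2) → ℝ} {l u : Fin (k + 2) → (Fin (k + 2) → ℝ) → ℝ}
    {σ : (Fin (k + 2) → ℝ) → ℝ} {A : Fin (k + 2) → ℝ} {As : ℝ} (hRb : R1 ≤ Rb)
    (hRv : ∀ j : Fin (k + 2), (j : ℕ) < k → R1 ≤ Rv j)
    (h : TD c L Rv Rb k l u σ A As 0)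
    (hosc : ∀ a, Pre l u k a → s0 - c / 10 * Rb ≤ σ a ∧ σ a ≤ s0 + c / 10 * Rb)
    (hp1 : s0 + 2 * (c / 10 * Rb) ≤ A ⟨k, by omega⟩ + A ⟨k + 1, by omega⟩)
    (hp2 : s0 + 2 * (c / 10 * Rb) ≤ A ⟨k, by omega⟩ + As)
    (hp3 : s0 + 2 * (c / 10 * Rb) ≤ A ⟨k + 1, by omega⟩ + As) :
    Fill δ N (TR k l u σ A As) := by
  have hkn : k < k + 2 := by omega
  have hRb0 : 0 < Rb := lt_of_lt_of_le hR1 hRb
  have hZ : 0 < c / 10 * Rb := by positivity
  have e10 : c * Rb = 10 * (c / 10 * Rb) := by ring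
  have hcases : ∀ j : Fin (k + 2), k ≤ (j : ℕ) → j = ⟨k, hkn⟩ ∨ j = ⟨k + 1, by omega⟩ := by
    intro j hj
    have := j.2
    rcases Nat.eq_or_lt_of_le hj with h' | h'
    · left
      exact Fin.ext h'.symm
    · right
      exact Fin.ext (by simp only; omega)
  have h3 := TD.mono (c' := c / 10) (L' := L) h (by linarith) le_rfl le_rfl hRb0.le
    (fun j hj => hR1.le.trans (hRv j hj))
  refine h1 Rv Rb hRv hRb l u σ A As ?_
  refine
    { sd := h3.sd
      cap := h3.cap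
      caps := h3.caps
      pair := ?_
      pairs := ?_
      tot := h3.tot }
  · intro a ha i j hij hi hj
    have h5 := (hosc a ha).2
    rcases hcases i hi with h6 | h6 <;> rcases hcases j hj with h7 | h7
    · exact absurd (h6.trans h7.symm) hij
    · rw [h6, h7]
      linarith
    · rw [h6, h7]
      linarith
    · exact absurd (h6.trans h7.symm) hij
  · intro a ha j hj
    have h5 := (hosc a ha).2
    rcases hcases j hj with h7 | h7
    · rw [h7]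
      linarith
    · rw [h7]
      linarith

theorem g6a_main (k : ℕ) (h1 : TS (k + 2) k) (h2 : TS (k + 2) (k + 1)) : TZ (k + 2) k := by
  intro c L δ N hc hL hδ hδ1 hN
  obtain ⟨M0, hM0, href⟩ := TD.refine (n := k + 2) (by omega) c L δ hc hL hδ1
  obtain ⟨R1, hR1, H1⟩ := h1 (c / 10) L δ N (by positivity) hL hδ hδ1 hN
  obtain ⟨R2, hR2, H2⟩ := h2 (c / 10) (L + 1) δ N (by positivity) (by positivity) hδ hδ1 hN
  set K : ℝ := L * (((k + 2 : ℕ) : ℝ) * (1 + L) ^ (k + 2)) with hK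
  have hK0 : 0 ≤ K := by positivity
  set θ : ℝ := c / (10 * (K + 1)) with hθ
  have hθ0 : 0 < θ := by positivity
  set m : ℝ := M0 + R1 + R2 with hm
  have hm0 : 0 < m := by positivity
  refine ⟨m + 4 * m / θ, by positivity, fun Rv Rb hRv hRb l u σ A As h => ?_⟩
  have hq : 0 < 4 * m / θ := by positivity
  have hmRb : m ≤ Rb := by linarith
  have hRb0 : 0 < Rb := by linarith
  have h4m : 4 * m ≤ θ * Rb := by
    have h3 : 4 * m / θ ≤ Rb := by linarith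
    rw [div_le_iff₀ hθ0] at h3
    linarith
  refine href N k m (θ * Rb) Rb σ A As 0 (by omega) (by linarith) h4m hmRb ?_ Rv l u
    (fun j hj => by linarith [hRv j hj]) h
  clear hRv h
  intro Rv l u hRv h
  rcases Set.eq_empty_or_nonempty (TR k l u σ A As) with hE | ⟨a0, ha0⟩
  · exact g6a_empty hE
  have hp0 : Pre l u k a0 := ha0.1
  have hkn : k < k + 2 := by omega
  have hZ : 0 < c / 10 * Rb := by positivity
  have e10 : c * Rb = 10 * (c / 10 * Rb) := by ring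
  have hosc : ∀ a, Pre l u k a → σ a0 - c / 10 * Rb ≤ σ a ∧ σ a ≤ σ a0 + c / 10 * Rb := by
    intro a ha
    have h3 := Pre.osc (η := θ * Rb) hL (by positivity) (by omega) h.sd.wl h.sd.wu
      (fun j a hj hp => (h.sd.fat j a hj hp).2.trans (hRv j hj).2) h.sd.lip
      (fun y y' hy => h.sd.dep hy) ha hp0
    have h4 : L * (((k + 2 : ℕ) : ℝ) * (1 + L) ^ (k + 2)) * (θ * Rb) ≤ c / 10 * Rb := by
      rw [← hK, ← mul_assoc]
      refine mul_le_mul_of_nonneg_right ?_ hRb0.le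
      rw [hθ, ← mul_div_assoc, div_le_div_iff₀ (by positivity) (by positivity)]
      nlinarith
    have h5 := abs_le.1 (h3.trans h4)
    constructor <;> linarith [h5.1, h5.2]
  have hs0 : σ a0 ≤ Rb := (h.sd.size a0 hp0).2
  have hcap1 := h.cap ⟨k, hkn⟩ le_rfl
  have hcap2 := h.cap ⟨k + 1, by omega⟩ (by simp)
  have hcap3 := h.caps
  have H1' := fun (Rv : Fin (k + 2) → ℝ) (Rb : ℝ)
    (hRv : ∀ j : Fin (k + 2), (j : ℕ) < k → m ≤ Rv j) (hRb : m ≤ Rb) =>
    H1 Rv Rb (fun j hj => by linarith [hRv j hj]) (by linarith)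
  have H2' := fun (Rv : Fin (k + 2) → ℝ) (Rb : ℝ)
    (hRv : ∀ j : Fin (k + 2), (j : ℕ) < k + 1 → m ≤ Rv j) (hRb : m ≤ Rb) =>
    H2 Rv Rb (fun j hj => by linarith [hRv j hj]) (by linarith)
  have hRv' : ∀ j : Fin (k + 2), (j : ℕ) < k → m ≤ Rv j := fun j hj => (hRv j hj).1
  -- peel the coordinate `k`
  have B1 : A ⟨k, by omega⟩ + 8 * (c / 10 * Rb) ≤ σ a0 →
      σ a0 + 2 * (c / 10 * Rb) ≤ A ⟨k + 1, by omega⟩ + As → Fill δ N (TR k l u σ A As) :=
    fun ha hb => g6a_peel hc hL hm0 H2' hmRb hRv' h hs0 hosc ha hb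
  -- peel the coordinate `k + 1`
  have B2 : A ⟨k + 1, by omega⟩ + 8 * (c / 10 * Rb) ≤ σ a0 →
      σ a0 + 2 * (c / 10 * Rb) ≤ A ⟨k, by omega⟩ + As → Fill δ N (TR k l u σ A As) := by
    intro ha hb
    have hp : k ≤ ((⟨k, hkn⟩ : Fin (k + 2)) : ℕ) := le_rfl
    have hq : k ≤ ((⟨k + 1, by omega⟩ : Fin (k + 2)) : ℕ) := by simp
    refine TR.fill_swap h.sd hp hq ?_
    refine g6a_peel hc hL hm0 H2' hmRb hRv' (TD.swap h hp hq) hs0 hosc ?_ ?_
    · simpa using ha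
    · simpa using hb
  -- peel the slack
  have B3 : As + 8 * (c / 10 * Rb) ≤ σ a0 →
      σ a0 + 2 * (c / 10 * Rb) ≤ A ⟨k, by omega⟩ + A ⟨k + 1, by omega⟩ →
      Fill δ N (TR k l u σ A As) := by
    intro ha hb
    have hp : k ≤ ((⟨k, hkn⟩ : Fin (k + 2)) : ℕ) := le_rfl
    refine TR.fill_slack h.sd hp ?_
    refine g6a_peel hc hL hm0 H2' hmRb hRv' (TD.slack h hp) hs0 hosc ?_ ?_
    · rw [Function.update_self]
      exact ha
    · rw [Function.update_of_ne (by simp [Fin.ext_iff])]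
      linarith
  by_cases P1 : σ a0 + 2 * (c / 10 * Rb) ≤ A ⟨k, by omega⟩ + A ⟨k + 1, by omega⟩ <;>
  by_cases P2 : σ a0 + 2 * (c / 10 * Rb) ≤ A ⟨k, by omega⟩ + As <;>
  by_cases P3 : σ a0 + 2 * (c / 10 * Rb) ≤ A ⟨k + 1, by omega⟩ + As
  · exact g6a_big hc hm0 H1' hmRb hRv' h hosc P1 P2 P3
  · exact B3 (by linarith [not_le.1 P3]) P1
  · exact B3 (by linarith [not_le.1 P2]) P1
  · exact B3 (by linarith [not_le.1 P2]) P1
  · exact B1 (by linarith [not_le.1 P1]) P3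
  · exact B2 (by linarith [not_le.1 P1]) P2
  · exact B1 (by linarith [not_le.1 P1]) P3
  · exact g6a_refl hc hm0 H1' hmRb hRv' h hs0 hosc (not_le.1 P1).le (not_le.1 P2).le

theorem TZ_two (n : ℕ) (hn : 2 ≤ n) (h1 : TS n (n - 2)) (h2 : TS n (n - 1)) : TZ n (n - 2) := by
  obtain ⟨k, rfl⟩ : ∃ k, n = k + 2 := ⟨n - 2, by omega⟩
  have e1 : k + 2 - 2 = k := by omega
  have e2 : k + 2 - 1 = k + 1 := by omega
  rw [e1] at h1 ⊢
  rw [e2] at h2
  exact g6a_main k h1 h2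

end Vale.Agent.P209.Strong
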