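import Vale.Agent.P209.Strong.G1d
import Vale.Agent.P209.Strong.G1e
import Vale.Agent.P209.Strong.G1h
import Vale.Agent.P209.Strong.G1i
import Vale.Agent.P209.Strong.G2

namespace Vale.Agent.P209.Strong

open MeasureTheory

/-- the empty set is filled -/
theorem g6b_fill_empty {n : ℕ} {δ N : ℝ} {Ω : Set (Fin n → ℝ)} (h : Ω = ∅) : Fill δ N Ω := by
  intro ι _ r J hr _ _ hsum
  exfalso
  rw [h] at hsum
  simp only [measure_empty, ENNReal.toReal_zero] at hsum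
  have : 0 ≤ ∑ i, r i ^ n / (n.factorial : ℝ) :=
    Finset.sum_nonneg fun i _ => div_nonneg (pow_nonneg (hr i).1.le _) (Nat.cast_nonneg _)
  linarith only [this, hsum]

/-- the case where the first block coordinate has a large corner -/
theorem g6b_core {n k : ℕ} (hkn : k + 3 ≤ n) {c L δ N m Rb As s0 : ℝ} {Rv A : Fin n → ℝ}
    {l u : Fin n → (Fin n → ℝ) → ℝ} {σ : (Fin n → ℝ) → ℝ} (hc : 0 < c) (hc1 : c ≤ 1)
    (hL : 0 ≤ L) (hδ1 : δ ≤ 1) (hm : 0 < m) (hRb : m ≤ Rb)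
    (hRv : ∀ j : Fin n, (j : ℕ) < k → m ≤ Rv j)
    (hmid : ∀ (k : ℕ) (hk : k < n) (c₁ L₁ Rb m₁ : ℝ) (Rv : Fin n → ℝ)
      (l u : Fin n → (Fin n → ℝ) → ℝ)
      (σ : (Fin n → ℝ) → ℝ) (A : Fin n → ℝ) (As g x0 x1 : ℝ), 0 ≤ L₁ → L₁ ≤ L → k + 2 ≤ n →
      c / 10 ≤ c₁ → m ≤ m₁ → m₁ ≤ Rb → (∀ j : Fin n, (j : ℕ) < k → m₁ ≤ Rv j) →
      TD c₁ L₁ Rv Rb k l u σ A As g → 0 ≤ x0 → x1 ≤ A ⟨k, hk⟩ → c / 10 * Rb ≤ x1 - x0 →
      x1 - x0 ≤ Rb → (∀ a, Pre l u k a → x1 + c / 10 * Rb ≤ σ a) →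
      (c / 10 * Rb ≤ g ∨ (0 ≤ g ∧ (k + 3 ≤ n ∨ c / 10 * Rb ≤ x0))) →
      1 / (n.factorial : ℝ) <
        (volume (TR k l u σ A As ∩ {a | x0 < a ⟨k, hk⟩ ∧ a ⟨k, hk⟩ < x1})).toReal)
    (hS : ∀ (Rv : Fin n → ℝ) (Rb : ℝ), (∀ j : Fin n, (j : ℕ) < k + 1 → m ≤ Rv j) → m ≤ Rb →
      ∀ (l u : Fin n → (Fin n → ℝ) → ℝ) (σ : (Fin n → ℝ) → ℝ) (A : Fin n → ℝ) (As : ℝ),
        TD (c / 10) (L + 1) Rv Rb (k + 1) l u σ A As (c / 10 * Rb) →
        Fill δ N (TR (k + 1) l u σ A As))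
    (hZ : ∀ (Rv : Fin n → ℝ) (Rb : ℝ), (∀ j : Fin n, (j : ℕ) < k + 1 → m ≤ Rv j) → m ≤ Rb →
      ∀ (l u : Fin n → (Fin n → ℝ) → ℝ) (σ : (Fin n → ℝ) → ℝ) (A : Fin n → ℝ) (As : ℝ),
        TD (c / 10) (L + 1) Rv Rb (k + 1) l u σ A As 0 →
        Fill δ N (TR (k + 1) l u σ A As))
    (h : TD c L Rv Rb k l u σ A As 0) (hk : k < n)
    (hs0 : s0 ≤ Rb) (hAk : A ⟨k, hk⟩ + 8 * (c / 10 * Rb) ≤ s0)
    (hσ : ∀ a, Pre l u k a → A ⟨k, hk⟩ + 7 * (c / 10 * Rb) ≤ σ a) :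
    Fill δ N (TR k l u σ A As) := by
  have hRb0 : 0 < Rb := lt_of_lt_of_le hm hRb
  have hz : 0 < c / 10 * Rb := by positivity
  have hcRb : c * Rb ≤ Rb := by nlinarith only [hc1, hRb0]
  have hcap : c * Rb ≤ A ⟨k, hk⟩ := h.cap ⟨k, hk⟩ le_rfl
  have hRv0 : ∀ j : Fin n, (j : ℕ) < k → 0 ≤ Rv j := fun j hj => hm.le.trans (hRv j hj)
  have hRv' : ∀ j : Fin n, (j : ℕ) < k + 1 → m ≤ Function.update Rv ⟨k, hk⟩ Rb j := by
    intro j hj
    by_cases hjk : j = ⟨k, hk⟩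
    · rw [hjk, Function.update_self]
      exact hRb
    · rw [Function.update_of_ne hjk]
      refine hRv j ?_
      have : (j : ℕ) ≠ k := fun e => hjk (Fin.ext e)
      omega
  have hcc : c / 10 ≤ c := by linarith only [hc]
  refine TR.cut (by omega) hδ1 hL h.sd hk (x0 := c / 10 * Rb) (x1 := 2 * (c / 10 * Rb))
    (by linarith only [hz]) ?_ ?_ ?_
  · refine hmid k hk c L Rb m Rv l u σ A As 0 _ _ hL le_rfl (by omega) hcc le_rfl hRb hRv h hz.le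
      (by linarith only [hcap, hz]) (by linarith only) (by linarith only [hcRb, hz]) ?_
      (Or.inr ⟨le_rfl, Or.inl hkn⟩)
    intro a ha
    linarith only [(h.sd.size a ha).1, hz]
  · intro x hx0 hx1
    have hset : TR k l u σ A As ∩ {a | a ⟨k, hk⟩ < x} =
        TR k l u σ A As ∩ {a | 0 < a ⟨k, hk⟩ ∧ a ⟨k, hk⟩ < x} := by
      ext a
      constructor
      · rintro ⟨h1, h2⟩
        exact ⟨h1, (h1.2.1 ⟨k, hk⟩ le_rfl).1, h2⟩
      · rintro ⟨h1, _, h2⟩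
        exact ⟨h1, h2⟩
    rw [hset, TR.peel_eq hk le_rfl (by linarith only [hx1, hcap, hz])]
    refine hZ _ Rb hRv' hRb _ _ _ _ _ (TD.peel hk hL hRb0 hRv0 h (c' := c / 10) (g1 := 0)
      (by positivity) hcc le_rfl (by linarith only [hx0]) (by linarith only [hx1, hcRb, hz]) ?_
      le_rfl ?_ ?_ (by norm_num) (Or.inl hkn))
    · intro a ha
      linarith only [(h.sd.size a ha).1, hx1, hz]
    · intro a ha i j hij hi hj
      exact h.pair a ha i j hij (by omega) (by omega)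
    · intro a ha j hj
      exact h.pairs a ha j (by omega)
  · intro x hx0 hx1
    have hset : TR k l u σ A As ∩ {a | x < a ⟨k, hk⟩} =
        TR k l u σ A As ∩ {a | x < a ⟨k, hk⟩ ∧ a ⟨k, hk⟩ < A ⟨k, hk⟩} := by
      ext a
      constructor
      · rintro ⟨h1, h2⟩
        exact ⟨h1, h2, (h1.2.1 ⟨k, hk⟩ le_rfl).2⟩
      · rintro ⟨h1, h2, _⟩
        exact ⟨h1, h2⟩
    rw [hset, TR.peel_eq hk (hz.le.trans hx0) le_rfl]
    refine hS _ Rb hRv' hRb _ _ _ _ _ (TD.peel hk hL hRb0 hRv0 h (c' := c / 10) (g1 := 0)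
      (by positivity) hcc (hz.le.trans hx0) (by linarith only [hx1, hcap, hz])
      (by linarith only [hx0, hs0, hAk, hz]) ?_
      le_rfl ?_ ?_ (by linarith only [hx0]) (Or.inl hkn))
    · intro a ha
      linarith only [hσ a ha, hz]
    · intro a ha i j hij hi hj
      exact h.pair a ha i j hij (by omega) (by omega)
    · intro a ha j hj
      exact h.pairs a ha j (by omega)

theorem TZ_of (n k : ℕ) (hk : k + 3 ≤ n) (h1 : TS n k) (h2 : TS n (k + 1)) (h3 : TZ n (k + 1)) :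
    TZ n k := by
  intro c L δ N hc hL hδ hδ1 hN
  obtain ⟨R1, hR1, H1⟩ := h1 (c / 10) L δ N (by positivity) hL hδ hδ1 hN
  obtain ⟨R2, hR2, H2⟩ := h2 (c / 10) (L + 1) δ N (by positivity) (by positivity) hδ hδ1 hN
  obtain ⟨R3, hR3, H3⟩ := h3 (c / 10) (L + 1) δ N (by positivity) (by positivity) hδ hδ1 hN
  obtain ⟨M, hM, HM⟩ := TD.mid_ge (c / 10) L n (by positivity) hL
  obtain ⟨M0, hM0, H0⟩ := TD.refine (n := n) (by omega) c L δ hc hL hδ1
  obtain ⟨m, hmR1, hmR2, hmR3, hmM, hmM0⟩ : ∃ m : ℝ, R1 ≤ m ∧ R2 ≤ m ∧ R3 ≤ m ∧ M ≤ m ∧ M0 ≤ m :=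
    ⟨max R1 (max R2 (max R3 (max M M0))), le_max_left _ _,
      (le_max_left _ _).trans (le_max_right _ _),
      (le_max_left _ _).trans ((le_max_right _ _).trans (le_max_right _ _)),
      (le_max_left _ _).trans ((le_max_right _ _).trans ((le_max_right _ _).trans
        (le_max_right _ _))),
      (le_max_right _ _).trans ((le_max_right _ _).trans ((le_max_right _ _).trans
        (le_max_right _ _)))⟩
  have hm : 0 < m := lt_of_lt_of_le hM0 hmM0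
  obtain ⟨K, hKdef⟩ : ∃ K : ℝ, K = L * (n * (1 + L) ^ n) := ⟨_, rfl⟩
  have hK : 0 ≤ K := by rw [hKdef]; positivity
  obtain ⟨θ, hθdef⟩ : ∃ θ : ℝ, θ = c / (1000 * (K + 1)) := ⟨_, rfl⟩
  have hθ : 0 < θ := by rw [hθdef]; positivity
  have hKθ : K * θ ≤ c / 1000 := by
    rw [hθdef, mul_div_assoc', div_le_div_iff₀ (by positivity) (by norm_num)]
    nlinarith only [hc, hK]
  refine ⟨max m (4 * m / θ), lt_of_lt_of_le hm (le_max_left _ _), ?_⟩
  intro Rv Rb hRv hRb l u σ A As hTD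
  have hmRb : m ≤ Rb := (le_max_left _ _).trans hRb
  have hRb0 : 0 < Rb := lt_of_lt_of_le hm hmRb
  have hη : 4 * m ≤ θ * Rb := by
    have h4 : 4 * m / θ ≤ Rb := (le_max_right _ _).trans hRb
    rw [div_le_iff₀ hθ] at h4
    linarith only [h4]
  refine H0 N k m (θ * Rb) Rb σ A As 0 (by omega) hmM0 hη hmRb ?_ Rv l u
    (fun j hj => (le_max_left _ _).trans (hRv j hj)) hTD
  clear hTD hRv l u Rv
  intro Rv l u hRv h
  have hkn : k < n := by omega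
  have hRv0 : ∀ j : Fin n, (j : ℕ) < k → 0 ≤ Rv j := fun j hj => hm.le.trans (hRv j hj).1
  by_cases hex : ∃ a0, Pre l u k a0
  swap
  · refine g6b_fill_empty (Set.eq_empty_iff_forall_notMem.2 fun a ha => hex ⟨a, ha.1⟩)
  obtain ⟨a0, ha0⟩ := hex
  have hs0 := h.sd.size a0 ha0
  have hc1 : c ≤ 1 := by
    by_contra hcon
    push Not at hcon
    nlinarith only [hs0.1, hs0.2, hcon, hRb0]
  have hz : 0 < c / 10 * Rb := by positivity
  have hosc : ∀ a, Pre l u k a → |σ a - σ a0| ≤ c / 1000 * Rb := by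
    intro a ha
    have := Pre.osc hL (η := θ * Rb) (by positivity) (by omega : k ≤ n) h.sd.wl h.sd.wu
      (fun j a hj hp => ((h.sd.fat j a hj hp).2.trans (hRv j hj).2)) h.sd.lip
      (fun y y' hy => h.sd.dep hy) ha ha0
    refine this.trans ?_
    rw [← hKdef]
    nlinarith only [hKθ, hRb0]
  by_cases hall : (∀ i j : Fin n, i ≠ j → k ≤ (i : ℕ) → k ≤ (j : ℕ) →
      σ a0 + 2 * (c / 10 * Rb) ≤ A i + A j) ∧
      ∀ j : Fin n, k ≤ (j : ℕ) → σ a0 + 2 * (c / 10 * Rb) ≤ A j + As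
  · -- gap everywhere
    refine H1 Rv Rb (fun j hj => hmR1.trans (hRv j hj).1) (hmR1.trans hmRb) l u σ A As ?_
    refine ⟨h.sd.mono (by linarith only [hc]) le_rfl hRb0.le hRv0, ?_, ?_, ?_, ?_, ?_⟩
    · intro j hj
      linarith only [h.cap j hj, hz]
    · linarith only [h.caps, hz]
    · intro a ha i j hij hi hj
      have h5 := (abs_le.1 (hosc a ha)).2
      linarith only [hall.1 i j hij hi hj, h5, hz]
    · intro a ha j hj
      have h5 := (abs_le.1 (hosc a ha)).2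
      linarith only [hall.2 j hj, h5, hz]
    · intro a ha
      linarith only [h.tot a ha, hz]
  · -- some coordinate has a large corner
    obtain ⟨p, hp, hAp⟩ : ∃ p : Fin n, k ≤ (p : ℕ) ∧ A p + 8 * (c / 10 * Rb) ≤ σ a0 := by
      by_contra hcon
      push Not at hcon
      apply hall
      constructor
      · intro i j hij hi hj
        linarith only [hcon i hi, h.cap j hj]
      · intro j hj
        linarith only [hcon j hj, h.caps]
    refine TR.fill_swap h.sd hp (q := ⟨k, hkn⟩) le_rfl ?_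
    have hsw := h.swap hp (q := ⟨k, hkn⟩) le_rfl
    have hAk : A (Equiv.swap p ⟨k, hkn⟩ ⟨k, hkn⟩) = A p := by
      rw [Equiv.swap_apply_right]
    refine g6b_core hk (m := m) (s0 := σ a0) hc hc1 hL hδ1 hm hmRb (fun j hj => (hRv j hj).1)
      ?_ ?_ ?_ hsw hkn hs0.2 ?_ ?_
    · intro k' hk' c₁ L₁ Rb' m₁ Rv' l' u' σ' A' As' g x0 x1 hL1 hL2 hkk hcc1 hmm
      exact HM k' hk' c₁ L₁ Rb' m₁ Rv' l' u' σ' A' As' g x0 x1 hL1 hL2 hkk hcc1 (hmM.trans hmm)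
    · intro Rv' Rb' hRv' hRb'
      exact H2 Rv' Rb' (fun j hj => hmR2.trans (hRv' j hj)) (hmR2.trans hRb')
    · intro Rv' Rb' hRv' hRb'
      exact H3 Rv' Rb' (fun j hj => hmR3.trans (hRv' j hj)) (hmR3.trans hRb')
    · simp only [hAk]
      exact hAp
    · intro a ha
      simp only [hAk]
      have h5 := (abs_le.1 (hosc a ha)).1
      linarith only [hAp, h5, hz]

end Vale.Agent.P209.Strong
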