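import Vale.Agent.P209.Strong.G3
import Vale.Agent.P209.Strong.G4
import Vale.Agent.P209.Strong.G5a
import Vale.Agent.P209.Strong.G5b
import Vale.Agent.P209.Strong.G5c
import Vale.Agent.P209.Strong.G5d
import Vale.Agent.P209.Strong.G5e
import Vale.Agent.P209.Strong.G5g
import Vale.Agent.P209.Strong.G6a
import Vale.Agent.P209.Strong.G6b

namespace Vale.Agent.P209.Strong

open MeasureTheory

theorem TS_all (n : ℕ) (hn : 2 ≤ n) (k : ℕ) (hk : k < n) : TS n k := by
  obtain ⟨d, hd⟩ : ∃ d, k + 1 + d = n := ⟨n - (k + 1), by omega⟩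
  induction d generalizing k with
  | zero =>
    have : k = n - 1 := by omega
    rw [this]
    exact TS_base n hn (CA_all n hn)
  | succ d ih =>
    have h1 := ih (k + 1) (by omega) (by omega)
    have hA := TSA_of n k (by omega) h1
    have hP := PS_of n k (by omega) (S1_all n hn (n - k)) hA
    exact TS_of n k (by omega) (TSI_of n k (by omega) hA)
      (TSB_of n k (by omega) hA (TSC_of n k (by omega) hA hP))

theorem TZ_all (n : ℕ) (hn : 2 ≤ n) (k : ℕ) (hk : k + 2 ≤ n) : TZ n k := by
  obtain ⟨d, hd⟩ : ∃ d, k + 2 + d = n := ⟨n - (k + 2), by omega⟩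
  induction d generalizing k with
  | zero =>
    have : k = n - 2 := by omega
    rw [this]
    exact TZ_two n hn (TS_all n hn _ (by omega)) (TS_all n hn _ (by omega))
  | succ d ih =>
    exact TZ_of n k (by omega) (TS_all n hn _ (by omega)) (TS_all n hn _ (by omega))
      (ih (k + 1) (by omega) (by omega))

end Vale.Agent.P209.Strong
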