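import Vale.Agent.P209.Strong.H1b

namespace Vale.Agent.P209.Strong

open MeasureTheory

theorem CR_fill (n : ℕ) (hn : 2 ≤ n) (δ N : ℝ) (hδ : 0 < δ) (hδ1 : δ ≤ 1) (hN : 0 ≤ N) :
    ∃ H0 : ℝ, 0 < H0 ∧ ∀ (R : ℝ) (s : Fin n → ℝ) (s0 : ℝ), (∀ j, 0 ≤ s j) → (∀ j, s j ≤ s0) →
      (∀ i j, i ≠ j → s i + s j ≤ R) → (∀ j, s j + s0 ≤ R) → H0 ≤ R - s0 →
      Fill δ N (CR n R s s0) := by
  obtain ⟨H1, h1, F1⟩ := CR_fill_thick n hn δ N hδ hδ1 hN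
  obtain ⟨H2, _, F2⟩ := CR_fill_thin n hn δ N hδ hδ1 hN
  refine ⟨max H1 H2, lt_max_of_lt_left h1, fun R s s0 a b c d e => ?_⟩
  rcases le_total (R / 8) (R - s0) with h | h
  · exact F1 R s s0 a b c d ((le_max_left _ _).trans e) h
  · exact F2 R s s0 a b c d ((le_max_right _ _).trans e) h

end Vale.Agent.P209.Strong
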