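import Vale.Agent.P209.Strong.G7

namespace Vale.Agent.P209.Strong

open MeasureTheory

/-! H1. The simplex of size `R` minus `n + 1` corner simplices. -/

/-- The simplex of size `R` without the corner simplices of size `s j` (at the vertex `R e_j`) and
`s0` (at the origin). -/
def CR (n : ℕ) (R : ℝ) (s : Fin n → ℝ) (s0 : ℝ) : Set (Fin n → ℝ) :=
  {a | (∀ j, 0 < a j ∧ a j < R - s j) ∧ s0 < ∑ j, a j ∧ ∑ j, a j < R}

theorem h1a_bsum {n : ℕ} (a : Fin n → ℝ) : bsum 0 n a = ∑ j, a j := by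
  unfold bsum
  exact Finset.sum_congr rfl fun i _ => if_pos ⟨Nat.zero_le _, i.2⟩

theorem h1a_eq {n : ℕ} (R : ℝ) (s : Fin n → ℝ) (s0 : ℝ) :
    CR n R s s0 = TR 0 (fun _ _ => 0) (fun _ _ => 0) (fun _ => R) (fun j => R - s j) (R - s0) := by
  ext a
  simp only [CR, TR, Set.mem_ofPred_eq, h1a_bsum]
  constructor
  · rintro ⟨h1, h2, h3⟩
    exact ⟨fun j hj => absurd hj (Nat.not_lt_zero _), fun j _ => h1 j, by linarith, by linarith⟩
  · rintro ⟨-, h1, h2, h3⟩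
    exact ⟨fun j => h1 j (Nat.zero_le _), by linarith, by linarith⟩

theorem h1a_walls {n : ℕ} : Walls (n := n) 1 (fun _ _ => 0) := by
  constructor
  · intro j y y' _
    rfl
  · intro j y y'
    simp

theorem h1a_td {n : ℕ} (hn : 2 ≤ n) {R : ℝ} {s : Fin n → ℝ} {s0 : ℝ} (hs : ∀ j, 0 ≤ s j)
    (hs0 : ∀ j, s j ≤ s0) (hp : ∀ i j, i ≠ j → s i + s j ≤ R) (hp0 : ∀ j, s j + s0 ≤ R)
    (hR : 0 ≤ R) (h8 : R / 8 ≤ R - s0) :
    TD (n := n) (1 / 8) 1 (fun _ => R) R 0 (fun _ _ => 0) (fun _ _ => 0) (fun _ => R)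
      (fun j => R - s j) (R - s0) 0 where
  sd :=
    { wl := h1a_walls
      wu := h1a_walls
      int := ⟨R, fun _ => 0, fun _ _ => rfl, fun a => by simp⟩
      lip := fun y y' => by simp
      fat := fun j a hj => absurd hj (Nat.not_lt_zero _)
      size := fun a _ => ⟨by linarith, le_rfl⟩ }
  cap := fun j _ => by
    have := hs0 j
    linarith
  caps := by linarith
  pair := fun a _ i j hij _ _ => by
    have := hp i j hij
    linarith
  pairs := fun a _ j _ => by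
    have := hp0 j
    linarith
  tot := fun a _ => by
    have hpos : ∀ j, 0 ≤ R - s j := fun j => by
      have := hs0 j
      linarith
    rw [h1a_bsum]
    have h1 : (R - s ⟨0, by omega⟩) + (R - s ⟨1, by omega⟩) ≤ ∑ j, (R - s j) := by
      have hne : (⟨0, by omega⟩ : Fin n) ≠ ⟨1, by omega⟩ := by
        intro h
        exact absurd (congrArg Fin.val h) (by simp)
      have h2 : ∑ j ∈ ({⟨0, by omega⟩, ⟨1, by omega⟩} : Finset (Fin n)), (R - s j) ≤
          ∑ j, (R - s j) :=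
        Finset.sum_le_sum_of_subset_of_nonneg (Finset.subset_univ _) fun j _ _ => hpos j
      rwa [Finset.sum_pair hne] at h2
    have h3 := hp ⟨0, by omega⟩ ⟨1, by omega⟩ (by
      intro h
      exact absurd (congrArg Fin.val h) (by simp))
    linarith

/-- no corner is very large -/
theorem CR_fill_thick (n : ℕ) (hn : 2 ≤ n) (δ N : ℝ) (hδ : 0 < δ) (hδ1 : δ ≤ 1) (hN : 0 ≤ N) :
    ∃ H0 : ℝ, 0 < H0 ∧ ∀ (R : ℝ) (s : Fin n → ℝ) (s0 : ℝ), (∀ j, 0 ≤ s j) → (∀ j, s j ≤ s0) →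
      (∀ i j, i ≠ j → s i + s j ≤ R) → (∀ j, s j + s0 ≤ R) → H0 ≤ R - s0 → R / 8 ≤ R - s0 →
      Fill δ N (CR n R s s0) := by
  obtain ⟨R0, hR0, H⟩ := TZ_all n hn 0 (by omega) (1 / 8) 1 δ N (by norm_num) (by norm_num)
    hδ hδ1 hN
  refine ⟨R0, hR0, fun R s s0 hs hs0 hp hp0 hH h8 => ?_⟩
  have h0 : 0 ≤ s0 := (hs ⟨0, by omega⟩).trans (hs0 ⟨0, by omega⟩)
  have hR : R0 ≤ R := by linarith
  rw [h1a_eq]
  exact H (fun _ => R) R (fun j hj => absurd hj (Nat.not_lt_zero _)) hR _ _ _ _ _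
    (h1a_td hn hs hs0 hp hp0 (by linarith) h8)

end Vale.Agent.P209.Strong
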