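import Vale.Agent.P209.Strong.H1a

namespace Vale.Agent.P209.Strong

open MeasureTheory

/-- The coordinate change: the sum of all coordinates first, then all coordinates but the last. -/
noncomputable def h1b_G (m : ℕ) : (Fin (m + 1) → ℝ) ≃ₗ[ℝ] (Fin (m + 1) → ℝ) where
  toFun a := Fin.cons (∑ j, a j) fun j : Fin m => a j.castSucc
  invFun y := Fin.snoc (fun j : Fin m => y j.succ) (y 0 - ∑ j : Fin m, y j.succ)
  map_add' a b := by
    funext j
    refine Fin.cases ?_ (fun i => ?_) j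
    · simp [Finset.sum_add_distrib]
    · simp
  map_smul' t a := by
    funext j
    refine Fin.cases ?_ (fun i => ?_) j
    · simp [Finset.mul_sum]
    · simp
  left_inv a := by
    funext j
    refine Fin.lastCases ?_ (fun i => ?_) j
    · simp only [Fin.snoc_last, Fin.cons_zero, Fin.cons_succ]
      rw [Fin.sum_univ_castSucc]
      ring
    · simp only [Fin.snoc_castSucc, Fin.cons_succ]
  right_inv y := by
    funext j
    refine Fin.cases ?_ (fun i => ?_) j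
    · simp only [Fin.cons_zero]
      rw [Fin.sum_univ_castSucc]
      simp only [Fin.snoc_castSucc, Fin.snoc_last]
      ring
    · simp only [Fin.cons_succ, Fin.snoc_castSucc]

theorem h1b_G_zero (m : ℕ) (a : Fin (m + 1) → ℝ) : h1b_G m a 0 = ∑ j, a j := rfl

theorem h1b_G_succ (m : ℕ) (a : Fin (m + 1) → ℝ) (j : Fin m) :
    h1b_G m a j.succ = a j.castSucc := rfl

theorem h1b_single {n : ℕ} (i : Fin n) : (Pi.single i (1 : ℝ) : Fin n → ℝ) =
    fun k => (((Pi.single i (1 : ℤ) : Fin n → ℤ) k : ℤ) : ℝ) := by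
  funext k
  by_cases h : k = i
  · subst h; simp
  · simp [Pi.single_eq_of_ne h]

theorem h1b_int (m : ℕ) (i j : Fin (m + 1)) : ∃ z : ℤ, h1b_G m (Pi.single i 1) j = z := by
  rw [h1b_single]
  refine Fin.cases ?_ (fun k => ?_) j
  · refine ⟨∑ j, (Pi.single i (1 : ℤ) : Fin (m + 1) → ℤ) j, ?_⟩
    rw [h1b_G_zero]
    push_cast
    rfl
  · exact ⟨(Pi.single i (1 : ℤ) : Fin (m + 1) → ℤ) k.castSucc, rfl⟩

theorem h1b_symm_last (m : ℕ) (y : Fin (m + 1) → ℝ) :
    (h1b_G m).symm y (Fin.last m) = y 0 - ∑ j : Fin m, y j.succ := by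
  show (Fin.snoc (fun j : Fin m => y j.succ) (y 0 - ∑ j : Fin m, y j.succ) :
    Fin (m + 1) → ℝ) (Fin.last m) = _
  rw [Fin.snoc_last]

theorem h1b_symm_cast (m : ℕ) (y : Fin (m + 1) → ℝ) (j : Fin m) :
    (h1b_G m).symm y j.castSucc = y j.succ := by
  show (Fin.snoc (fun j : Fin m => y j.succ) (y 0 - ∑ j : Fin m, y j.succ) :
    Fin (m + 1) → ℝ) j.castSucc = _
  rw [Fin.snoc_castSucc]

theorem h1b_int' (m : ℕ) (i j : Fin (m + 1)) :
    ∃ z : ℤ, (h1b_G m).symm (Pi.single i 1) j = z := by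
  rw [h1b_single]
  refine Fin.lastCases ?_ (fun k => ?_) j
  · refine ⟨(Pi.single i (1 : ℤ) : Fin (m + 1) → ℤ) 0 -
      ∑ j : Fin m, (Pi.single i (1 : ℤ) : Fin (m + 1) → ℤ) j.succ, ?_⟩
    rw [h1b_symm_last]
    push_cast
    rfl
  · exact ⟨(Pi.single i (1 : ℤ) : Fin (m + 1) → ℤ) k.succ, by rw [h1b_symm_cast]⟩

theorem h1b_bsum (m : ℕ) (y : Fin (m + 1) → ℝ) :
    bsum 1 (m + 1) y = ∑ j : Fin m, y j.succ := by
  unfold bsum
  rw [Fin.sum_univ_succ]
  simp

/-- The caps. -/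
noncomputable def h1b_A {m : ℕ} (R : ℝ) (s : Fin (m + 1) → ℝ) : Fin (m + 1) → ℝ :=
  Fin.cons R fun j : Fin m => R - s j.castSucc

theorem h1b_image {m : ℕ} (R : ℝ) (s : Fin (m + 1) → ℝ) (s0 : ℝ) :
    (fun a => h1b_G m a + 0) '' CR (m + 1) R s s0 =
      TR 1 (fun _ _ => s0) (fun _ _ => R) (fun y => y 0) (h1b_A R s) (R - s (Fin.last m)) := by
  ext y
  constructor
  · rintro ⟨a, ⟨h1, h2, h3⟩, rfl⟩
    simp only [add_zero]
    have hslack : h1b_G m a 0 - bsum 1 (m + 1) (h1b_G m a) = a (Fin.last m) := by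
      rw [h1b_bsum, h1b_G_zero, Fin.sum_univ_castSucc]
      simp only [h1b_G_succ]
      ring
    refine ⟨fun j hj => ?_, fun j hj => ?_, ?_, ?_⟩
    · have hj0 : j = 0 := Fin.ext (by show (j : ℕ) = 0; omega)
      subst hj0
      exact ⟨h2, h3⟩
    · obtain ⟨i, rfl⟩ : ∃ i : Fin m, j = i.succ :=
        ⟨j.pred (by intro h; rw [h] at hj; simp at hj), by simp⟩
      rw [h1b_G_succ]
      show 0 < a i.castSucc ∧ a i.castSucc < R - s i.castSucc
      exact h1 _
    · show 0 < h1b_G m a 0 - bsum 1 (m + 1) (h1b_G m a)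
      rw [hslack]; exact (h1 _).1
    · show h1b_G m a 0 - bsum 1 (m + 1) (h1b_G m a) < R - s (Fin.last m)
      rw [hslack]; exact (h1 _).2
  · rintro ⟨h1, h2, h3, h4⟩
    have e : h1b_G m ((h1b_G m).symm y) = y := (h1b_G m).apply_symm_apply y
    refine ⟨(h1b_G m).symm y, ⟨fun j => ?_, ?_, ?_⟩, ?_⟩
    · refine Fin.lastCases ?_ (fun i => ?_) j
      · rw [h1b_symm_last, ← h1b_bsum]
        exact ⟨h3, h4⟩
      · rw [h1b_symm_cast]
        exact h2 i.succ (by simp)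
    · have := (h1 0 (by simp)).1
      have h0 := h1b_G_zero m ((h1b_G m).symm y)
      rw [e] at h0
      rw [← h0]; exact this
    · have := (h1 0 (by simp)).2
      have h0 := h1b_G_zero m ((h1b_G m).symm y)
      rw [e] at h0
      rw [← h0]; exact this
    · simp only [add_zero]
      exact e

/-- one corner is very large -/
theorem CR_fill_thin (n : ℕ) (hn : 2 ≤ n) (δ N : ℝ) (hδ : 0 < δ) (hδ1 : δ ≤ 1) (hN : 0 ≤ N) :
    ∃ H0 : ℝ, 0 < H0 ∧ ∀ (R : ℝ) (s : Fin n → ℝ) (s0 : ℝ), (∀ j, 0 ≤ s j) → (∀ j, s j ≤ s0) →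
      (∀ i j, i ≠ j → s i + s j ≤ R) → (∀ j, s j + s0 ≤ R) → H0 ≤ R - s0 → R - s0 ≤ R / 8 →
      Fill δ N (CR n R s s0) := by
  obtain ⟨m, rfl⟩ : ∃ m, n = m + 1 := ⟨n - 1, by omega⟩
  have hm : 1 ≤ m := by omega
  obtain ⟨R0, hR0, H⟩ := TS_all (m + 1) hn 1 (by omega) (1 / 2) 1 δ N (by norm_num)
    (by norm_num) hδ hδ1 hN
  refine ⟨R0, hR0, fun R s s0 hs0 hs1 hs2 hs3 h1 h2 => ?_⟩
  have hs00 : 0 ≤ s0 := (hs0 0).trans (hs1 0)
  have hRpos : 0 < R := by linarith
  have hcap : ∀ j, 7 / 8 * R ≤ R - s j := fun j => by have := hs3 j; linarith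
  have hA : ∀ j : Fin (m + 1), 1 ≤ (j : ℕ) → 7 / 8 * R ≤ h1b_A R s j := by
    intro j hj
    obtain ⟨i, rfl⟩ : ∃ i : Fin m, j = i.succ :=
      ⟨j.pred (by intro h; rw [h] at hj; simp at hj), by simp⟩
    exact hcap _
  refine Fill.image (h1b_G m) (h1b_int m) (h1b_int' m) 0 ?_
  rw [h1b_image]
  refine H (fun _ => R - s0) R (fun _ _ => h1) (by linarith) _ _ _ _ _ ?_
  have hpre : ∀ a : Fin (m + 1) → ℝ, Pre (fun _ _ => s0) (fun _ _ => R) 1 a →
      s0 < a 0 ∧ a 0 < R := fun a ha => ha 0 (by simp)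
  refine ⟨⟨⟨fun _ _ _ _ => rfl, fun _ y y' => ?_⟩, ⟨fun _ _ _ _ => rfl, fun _ y y' => ?_⟩, ?_,
    fun y y' => ?_, fun j a _ _ => ?_, fun a ha => ?_⟩, fun j hj => ?_, ?_,
    fun a ha i j hij hi hj => ?_, fun a ha j hj => ?_, fun a ha => ?_⟩
  · simp
  · simp
  · refine ⟨0, Pi.single 0 1, fun j hj => ?_, fun a => ?_⟩
    · exact Pi.single_eq_of_ne (by intro h; rw [h] at hj; simp at hj) _
    · rw [Fin.sum_univ_succ]
      simp
  · rw [one_mul, ← Real.dist_eq]
    exact dist_le_pi_dist y y' 0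
  · constructor
    · nlinarith
    · exact le_rfl
  · have := hpre a ha
    constructor <;> linarith
  · have := hA j hj
    linarith
  · have := hcap (Fin.last m)
    linarith
  · have := hA i hi
    have := hA j hj
    have := hpre a ha
    linarith
  · have := hA j hj
    have := hcap (Fin.last m)
    have := hpre a ha
    linarith
  · have h3 := hcap (Fin.last m)
    have h4 := hpre a ha
    have h5 : 7 / 8 * R ≤ bsum 1 (m + 1) (h1b_A R s) := by
      rw [h1b_bsum]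
      have h6 : ∀ j ∈ (Finset.univ : Finset (Fin m)), 0 ≤ h1b_A R s j.succ := by
        intro j _
        have := hA j.succ (by simp)
        linarith
      have h7 := Finset.single_le_sum h6 (Finset.mem_univ (⟨0, hm⟩ : Fin m))
      have h8 := hA (Fin.succ (⟨0, hm⟩ : Fin m)) (by simp)
      linarith
    linarith

end Vale.Agent.P209.Strong
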