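import Vale.Agent.P209.Strong.H1a
import Vale.Agent.P209.Strong.E1

namespace Vale.Agent.P209.Strong

open MeasureTheory

/-- The closed simplex. -/
def h2aK (n : ℕ) (s : ℝ) : Set (Fin n → ℝ) := {a | (∀ j, 0 ≤ a j) ∧ ∑ j, a j ≤ s}

theorem h2aK_volume (n : ℕ) (hn : 1 ≤ n) (s : ℝ) (hs : 0 ≤ s) :
    volume (h2aK n s) ≤ ENNReal.ofReal (s ^ n / (n.factorial : ℝ)) := by
  have hn' : (1 : ℝ) ≤ n := by exact_mod_cast hn
  have key : ∀ e : ℝ, 0 < e → volume (h2aK n s) ≤
      ENNReal.ofReal ((s + 2 * n * e) ^ n / (n.factorial : ℝ)) := by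
    intro e he
    have hne : 0 < (n : ℝ) * e := by positivity
    rw [← volume_simplex_ofReal n (s + 2 * n * e) (by linarith)]
    rw [← measure_preimage_add_right volume (fun _ : Fin n => e) (simplex n (s + 2 * n * e))]
    refine measure_mono fun a ha => ?_
    refine ⟨fun j => ?_, ?_⟩
    · have := ha.1 j
      show 0 < a j + e
      linarith
    · have h1 : ∑ j, (a + fun _ : Fin n => e) j = ∑ j, a j + n * e := by
        simp only [Pi.add_apply]
        rw [Finset.sum_add_distrib, Finset.sum_const, Finset.card_univ, Fintype.card_fin,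
          nsmul_eq_mul]
      have h2 := ha.2
      show ∑ j, (a + fun _ : Fin n => e) j < s + 2 * n * e
      rw [h1]
      linarith
  have hcont : Continuous fun e : ℝ => ENNReal.ofReal ((s + 2 * n * e) ^ n / (n.factorial : ℝ)) :=
    ENNReal.continuous_ofReal.comp (by fun_prop)
  have hlim : Filter.Tendsto (fun e : ℝ =>
      ENNReal.ofReal ((s + 2 * n * e) ^ n / (n.factorial : ℝ))) (nhdsWithin 0 (Set.Ioi 0))
      (nhds (ENNReal.ofReal (s ^ n / (n.factorial : ℝ)))) := by
    have h1 := hcont.tendsto 0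
    simp only [mul_zero, add_zero] at h1
    exact h1.mono_left nhdsWithin_le_nhds
  refine ge_of_tendsto hlim ?_
  filter_upwards [self_mem_nhdsWithin] with e he using key e he

theorem h2a_piece (n : ℕ) (R : ℝ) (s : Fin n → ℝ) (j : Fin n) :
    volume {a | a ∈ simplex n R ∧ R - s j ≤ a j} ≤ volume (h2aK n (s j)) := by
  rw [← measure_preimage_add_right volume (Pi.single j (-(R - s j)) : Fin n → ℝ) (h2aK n (s j))]
  refine measure_mono fun a ha => ?_
  obtain ⟨⟨h1, h2⟩, h3⟩ := ha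
  refine ⟨fun i => ?_, ?_⟩
  · by_cases hij : i = j
    · subst hij
      show 0 ≤ a i + (Pi.single i (-(R - s i)) : Fin n → ℝ) i
      rw [Pi.single_eq_same]
      linarith
    · show 0 ≤ a i + (Pi.single j (-(R - s j)) : Fin n → ℝ) i
      rw [Pi.single_eq_of_ne hij]
      have := h1 i
      linarith
  · have h4 : ∑ i, (a + (Pi.single j (-(R - s j)) : Fin n → ℝ)) i = ∑ i, a i + -(R - s j) := by
      simp only [Pi.add_apply]
      rw [Finset.sum_add_distrib, Finset.sum_pi_single']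
      simp
    show ∑ i, (a + (Pi.single j (-(R - s j)) : Fin n → ℝ)) i ≤ s j
    rw [h4]
    linarith

/-- Lower bound for the volume of the simplex minus the corners. -/
theorem CR_volume (n : ℕ) (hn : 1 ≤ n) (R : ℝ) (s : Fin n → ℝ) (s0 : ℝ) (hs : ∀ j, 0 ≤ s j)
    (hs0 : 0 ≤ s0) (hsR : ∀ j, s j ≤ R) (hs0R : s0 ≤ R) (hR : 0 < R) :
    (R ^ n - (∑ j, s j ^ n + s0 ^ n)) / (n.factorial : ℝ) ≤ (volume (CR n R s s0)).toReal := by
  have hsub : CR n R s s0 ⊆ simplex n R := fun a ha => ⟨fun j => (ha.1 j).1, ha.2.2⟩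
  have hfin : volume (CR n R s s0) ≠ ⊤ := by
    refine ne_top_of_le_ne_top ?_ (measure_mono hsub)
    rw [volume_simplex_ofReal n R hR]
    exact ENNReal.ofReal_ne_top
  have hcov : simplex n R ⊆ CR n R s s0 ∪ ((⋃ j : Fin n, {a | a ∈ simplex n R ∧ R - s j ≤ a j}) ∪
      h2aK n s0) := by
    intro a ha
    by_cases h1 : ∃ j, R - s j ≤ a j
    · obtain ⟨j, hj⟩ := h1
      exact Or.inr (Or.inl (Set.mem_iUnion.2 ⟨j, ha, hj⟩))
    · push Not at h1
      by_cases h2 : ∑ j, a j ≤ s0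
      · exact Or.inr (Or.inr ⟨fun j => (ha.1 j).le, h2⟩)
      · push Not at h2
        exact Or.inl ⟨fun j => ⟨ha.1 j, h1 j⟩, h2, ha.2⟩
  have hle : volume (simplex n R) ≤ volume (CR n R s s0) +
      ((∑ j, ENNReal.ofReal (s j ^ n / (n.factorial : ℝ))) +
        ENNReal.ofReal (s0 ^ n / (n.factorial : ℝ))) := by
    refine (measure_mono hcov).trans ((measure_union_le _ _).trans (add_le_add le_rfl ?_))
    refine (measure_union_le _ _).trans (add_le_add ?_ (h2aK_volume n hn s0 hs0))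
    refine (measure_iUnion_fintype_le _ _).trans (Finset.sum_le_sum fun j _ => ?_)
    exact (h2a_piece n R s j).trans (h2aK_volume n hn (s j) (hs j))
  have hf : (0 : ℝ) < n.factorial := by exact_mod_cast n.factorial_pos
  have hsn : ∀ j, 0 ≤ s j ^ n / (n.factorial : ℝ) := fun j => by
    have := hs j
    positivity
  have hsum : 0 ≤ ∑ j, s j ^ n / (n.factorial : ℝ) := Finset.sum_nonneg fun j _ => hsn j
  have hs0n : 0 ≤ s0 ^ n / (n.factorial : ℝ) := by positivity
  obtain ⟨v, hv⟩ : ∃ v : ℝ, v = (volume (CR n R s s0)).toReal := ⟨_, rfl⟩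
  have hv0 : 0 ≤ v := by rw [hv]; exact ENNReal.toReal_nonneg
  have hvV : volume (CR n R s s0) = ENNReal.ofReal v := by
    rw [hv]; exact (ENNReal.ofReal_toReal hfin).symm
  rw [hvV, volume_simplex_ofReal n R hR, ← ENNReal.ofReal_sum_of_nonneg (fun j _ => hsn j),
    ← ENNReal.ofReal_add hsum hs0n, ← ENNReal.ofReal_add hv0 (add_nonneg hsum hs0n),
    ENNReal.ofReal_le_ofReal_iff (add_nonneg hv0 (add_nonneg hsum hs0n)),
    ← Finset.sum_div] at hle
  rw [← hv, sub_div, add_div]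
  linarith

end Vale.Agent.P209.Strong
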