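import Vale.Agent.P209.Strong.A7
import Vale.Agent.P209.Strong.A8

namespace Vale.Agent.P209.Strong

open Vale.Agent.P209

theorem h2b_open {n : ℕ} (R : ℝ) : IsOpen (simplex n R) := by
  have h : simplex n R = (⋂ j, {a | 0 < a j}) ∩ {a | ∑ j, a j < R} := by
    ext a
    simp [simplex]
  rw [h]
  refine (isOpen_iInter_of_finite fun j => ?_).inter ?_
  · exact isOpen_lt continuous_const (continuous_apply j)
  · exact isOpen_lt (continuous_finsetSum _ fun j _ => continuous_apply j) continuous_const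

theorem h2b_mono {n : ℕ} {r : ℝ} {f : (Fin n → ℂ) → (Fin n → ℂ)} {A B : Set (Fin n → ℝ)}
    (h : TEmb r f A) (hAB : A ⊆ B) : TEmb r f B := by
  obtain ⟨U, h1, h2, h3, h4, h5, h6⟩ := h
  exact ⟨U, h1, h2, h3, h4, fun z hz => hAB (h5 z hz), h6⟩

/-- A ball at the corner `v`. -/
theorem h2b_emb {n : ℕ} {r : ℝ} (hr : 0 ≤ r) (v : Fin n → ℝ) {A : Set (Fin n → ℝ)}
    (hA : IsOpen A) (h : ∀ a : Fin n → ℝ, (∀ j, v j ≤ a j) → ∑ j, a j ≤ ∑ j, v j + r → a ∈ A) :
    ∃ f, TEmb r f A := by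
  refine exists_TEmb (fun j _ _ => v j) (fun j => continuous_const) (fun j y y' _ => rfl) r hr hA ?_
  rintro a ⟨x, hx0, hx, hxn, ha⟩
  refine h a (fun j => (ha j).1) ?_
  have h1 : ∑ j, a j ≤ ∑ j : Fin n, (v j + (x j - x (j + 1))) :=
    Finset.sum_le_sum fun j _ => (ha j).2
  have h2 : ∑ j : Fin n, (x (j : ℕ) - x ((j : ℕ) + 1)) = x 0 - x n := by
    rw [Fin.sum_univ_eq_sum_range (fun i => x i - x (i + 1)) n, Finset.sum_range_sub']
  rw [Finset.sum_add_distrib, h2, hxn] at h1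
  linarith

theorem h2b_tau {n : ℕ} {r s : ℝ} (hrs : r < s) :
    0 < (s - r) / (2 * n + 2) ∧ n * ((s - r) / (2 * n + 2)) + r < s := by
  have h0 : 0 < s - r := by linarith
  have hn : (0 : ℝ) ≤ n := Nat.cast_nonneg n
  refine ⟨by positivity, ?_⟩
  have h1 : n * ((s - r) / (2 * n + 2)) = (s - r) * (n / (2 * n + 2)) := by ring
  have h2 : (n : ℝ) / (2 * n + 2) < 1 := by
    rw [div_lt_one (by positivity)]
    linarith
  have h3 : (s - r) * (n / (2 * n + 2)) < (s - r) * 1 := mul_lt_mul_of_pos_left h2 h0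
  linarith

/-- A ball in the corner simplex at the origin. -/
theorem corner_emb_zero {n : ℕ} {r s : ℝ} (hr : 0 ≤ r) (hrs : r < s) :
    ∃ f, TEmb r f (simplex n s) := by
  obtain ⟨h1, h2⟩ := h2b_tau (n := n) hrs
  refine h2b_emb hr (fun _ => (s - r) / (2 * n + 2)) (h2b_open s) fun a ha hs => ?_
  refine ⟨fun j => h1.trans_le (ha j), ?_⟩
  rw [Finset.sum_const, Finset.card_univ, Fintype.card_fin, nsmul_eq_mul] at hs
  linarith

/-- A ball in the corner simplex at the vertex `R e_j`. -/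
theorem corner_emb {n : ℕ} (j : Fin n) {r s R : ℝ} (hr : 0 ≤ r) (hrs : r < s) (hsR : s ≤ R) :
    ∃ f, TEmb r f {a | a ∈ simplex n R ∧ R - s < a j} := by
  obtain ⟨h1, h2⟩ := h2b_tau (n := n) hrs
  refine h2b_emb hr (fun i => (s - r) / (2 * n + 2) + if i = j then R - s else 0)
    ((h2b_open R).inter (isOpen_lt continuous_const (continuous_apply j))) fun a ha hs => ?_
  refine ⟨⟨fun i => h1.trans_le (le_trans ?_ (ha i)), ?_⟩, ?_⟩
  · have : 0 ≤ if i = j then R - s else 0 := by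
      split_ifs <;> linarith
    linarith
  · rw [Finset.sum_add_distrib, Finset.sum_const, Finset.card_univ, Fintype.card_fin,
      nsmul_eq_mul, Finset.sum_ite_eq' Finset.univ j, if_pos (Finset.mem_univ j)] at hs
    linarith
  · have := ha j
    simp only [if_true] at this
    show R - s < a j
    linarith

/-- Gluing of a packing and of balls in separate regions. -/
theorem TPk.glue {n : ℕ} {ι κ : Type} (Ω Ω0 : Set (Fin n → ℝ)) (C : κ → Set (Fin n → ℝ))
    (b : κ → ℝ) (r : ι → ℝ) (hb : ∀ p, ∃ f, TEmb (b p) f (C p)) (hr : TPk Ω0 r)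
    (hC : ∀ p, C p ⊆ Ω) (h0 : Ω0 ⊆ Ω) (hCC : ∀ p q, p ≠ q → Disjoint (C p) (C q))
    (hC0 : ∀ p, Disjoint (C p) Ω0) : TPk Ω (Sum.elim b r) := by
  choose g hg using hb
  obtain ⟨f, hf, hd⟩ := hr
  have hact : ∀ {r : ℝ} {f : (Fin n → ℂ) → (Fin n → ℂ)} {A : Set (Fin n → ℝ)}, TEmb r f A →
      ∀ z ∈ closedBall n r, act (f z) ∈ A := by
    rintro r f A ⟨U, -, h2, -, -, h5, -⟩ z hz
    exact h5 z (h2 hz)
  refine ⟨Sum.elim g f, ?_, ?_⟩
  · rintro (p | i)
    · exact h2b_mono (hg p) (hC p)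
    · exact h2b_mono (hf i) h0
  · rintro (p | i) (q | j) hij z hz w hw heq
    · exact Set.disjoint_left.mp (hCC p q fun h => hij (congrArg Sum.inl h))
        (hact (hg p) z hz) (heq ▸ hact (hg q) w hw)
    · exact Set.disjoint_left.mp (hC0 p) (hact (hg p) z hz) (heq ▸ hact (hf j) w hw)
    · exact Set.disjoint_left.mp (hC0 q) (heq ▸ hact (hg q) w hw) (hact (hf i) z hz)
    · exact hd i j (fun h => hij (congrArg Sum.inr h)) z hz w hw heq

end Vale.Agent.P209.Strong
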