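import Vale.Agent.P209.Strong.H1
import Vale.Agent.P209.Strong.H2a
import Vale.Agent.P209.Strong.H2b

namespace Vale.Agent.P209.Strong

open MeasureTheory

/-- The enlarged size of the corner `p`. -/
noncomputable def h3s {n : ℕ} (P : Finset (Option (Fin n))) (b : Option (Fin n) → ℝ) (τ : ℝ)
    (p : Option (Fin n)) : ℝ := if p ∈ P then b p + τ else 0

/-- The corner regions. -/
def h3C {n : ℕ} (R : ℝ) (s : Option (Fin n) → ℝ) : Option (Fin n) → Set (Fin n → ℝ)
  | none => simplex n (s none)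
  | some j => {a | a ∈ simplex n R ∧ R - s (some j) < a j}

theorem h3_single_le {n : ℕ} {a : Fin n → ℝ} (ha : ∀ j, 0 < a j) (j : Fin n) :
    a j ≤ ∑ i, a i :=
  Finset.single_le_sum (fun i _ => (ha i).le) (Finset.mem_univ j)

theorem h3_pair_le {n : ℕ} {a : Fin n → ℝ} (ha : ∀ j, 0 < a j) {i j : Fin n} (hij : i ≠ j) :
    a i + a j ≤ ∑ i, a i := by
  classical
  rw [← Finset.sum_pair hij]
  exact Finset.sum_le_sum_of_subset_of_nonneg (Finset.subset_univ _) fun k _ _ => (ha k).le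

theorem h3_disj {n : ℕ} {R : ℝ} {s : Option (Fin n) → ℝ}
    (hs : ∀ p q, p ≠ q → s p + s q ≤ R) {p q : Option (Fin n)} (hpq : p ≠ q) :
    Disjoint (h3C R s p) (h3C R s q) := by
  rw [Set.disjoint_left]
  intro a ha hb
  rcases p with _ | i
  · rcases q with _ | j
    · exact hpq rfl
    · have h1 : ∑ k, a k < s none := ha.2
      have h2 : R - s (some j) < a j := hb.2
      have h3 := h3_single_le ha.1 j
      have h4 := hs none (some j) hpq
      linarith
  · rcases q with _ | j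
    · have h1 : ∑ k, a k < s none := hb.2
      have h2 : R - s (some i) < a i := ha.2
      have h3 := h3_single_le hb.1 i
      have h4 := hs (some i) none hpq
      linarith
    · have hij : i ≠ j := fun h => hpq (by rw [h])
      have h1 : R - s (some i) < a i := ha.2
      have h2 : R - s (some j) < a j := hb.2
      have h3 := h3_pair_le ha.1.1 hij
      have h4 := hs (some i) (some j) hpq
      have h5 : ∑ k, a k < R := ha.1.2
      linarith

theorem h3_disj0 {n : ℕ} {R : ℝ} {s : Option (Fin n) → ℝ} (p : Option (Fin n)) :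
    Disjoint (h3C R s p) (CR n R (fun j => s (some j)) (s none)) := by
  rw [Set.disjoint_left]
  intro a ha hb
  rcases p with _ | j
  · have h1 : ∑ k, a k < s none := ha.2
    have h2 : s none < ∑ k, a k := hb.2.1
    exact lt_asymm h1 h2
  · have h1 : R - s (some j) < a j := ha.2
    have h2 : a j < R - s (some j) := (hb.1 j).2
    exact lt_asymm h1 h2

/-- The choice of the enlargement. -/
theorem h3_tau {n : ℕ} {H R : ℝ} (hH : 0 < H) {P : Finset (Option (Fin n))}
    {b : Option (Fin n) → ℝ} (hpair : ∀ p ∈ P, ∀ q ∈ P, p ≠ q → b p + b q < R) {V : ℝ}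
    (hV : ∑ p ∈ P, b p ^ n + V < R ^ n) :
    ∃ τ : ℝ, 0 < τ ∧ τ ≤ H ∧ (∀ p ∈ P, ∀ q ∈ P, p ≠ q → (b p + τ) + (b q + τ) ≤ R) ∧
      ∑ p ∈ P, (b p + τ) ^ n + V < R ^ n := by
  have e1 : ∀ᶠ τ : ℝ in nhdsWithin 0 (Set.Ioi 0), τ < H :=
    nhdsWithin_le_nhds (Iio_mem_nhds hH)
  have e2 : ∀ᶠ τ : ℝ in nhdsWithin 0 (Set.Ioi 0), ∀ p ∈ P, ∀ q ∈ P, p ≠ q →
      (b p + τ) + (b q + τ) < R := by
    rw [Filter.eventually_all_finset]
    intro p hp
    rw [Filter.eventually_all_finset]
    intro q hq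
    by_cases hpq : p = q
    · exact Filter.Eventually.of_forall fun τ h => absurd hpq h
    · have hc : Continuous fun τ : ℝ => (b p + τ) + (b q + τ) := by fun_prop
      have h0 : (b p + 0) + (b q + 0) < R := by
        rw [add_zero, add_zero]
        exact hpair p hp q hq hpq
      have h1 : ∀ᶠ τ : ℝ in nhds 0, (b p + τ) + (b q + τ) < R :=
        hc.continuousAt.eventually_lt continuousAt_const h0
      filter_upwards [nhdsWithin_le_nhds h1] with τ h _ using h
  have e3 : ∀ᶠ τ : ℝ in nhdsWithin 0 (Set.Ioi 0), ∑ p ∈ P, (b p + τ) ^ n + V < R ^ n := by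
    have hc : Continuous fun τ : ℝ => ∑ p ∈ P, (b p + τ) ^ n + V := by fun_prop
    have h0 : ∑ p ∈ P, (b p + 0) ^ n + V < R ^ n := by
      simp only [add_zero]
      exact hV
    have h1 : ∀ᶠ τ : ℝ in nhds 0, ∑ p ∈ P, (b p + τ) ^ n + V < R ^ n :=
      hc.continuousAt.eventually_lt continuousAt_const h0
    exact nhdsWithin_le_nhds h1
  obtain ⟨τ, ⟨⟨h1, h2⟩, h3⟩, h4⟩ :=
    (((e1.and e2).and e3).and (self_mem_nhdsWithin (a := (0 : ℝ)) (s := Set.Ioi 0))).exists
  exact ⟨τ, h4, h1.le, fun p hp q hq hpq => (h2 p hp q hq hpq).le, h3⟩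

/-- At most `n + 1` balls in the corners, and many small balls. The corner `none` is the one at
the origin. -/
theorem corner_packs (n : ℕ) (hn : 2 ≤ n) (δ N : ℝ) (hδ : 0 < δ) (hδ1 : δ ≤ 1) (hN : 0 ≤ N) :
    ∃ H0 : ℝ, 0 < H0 ∧ ∀ (R : ℝ) (P : Finset (Option (Fin n))) (b : Option (Fin n) → ℝ),
      none ∈ P → (∀ p ∈ P, 0 < b p) → (∀ p ∈ P, b p ≤ b none) →
      (∀ p ∈ P, ∀ q ∈ P, p ≠ q → b p + b q < R) → H0 ≤ R - b none →
      ∀ (ι : Type) [Fintype ι] (r : ι → ℝ) (J : Finset ι), (∀ i, 0 < r i ∧ r i ≤ 1) →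
        (∀ i, i ∉ J → δ ≤ r i) → ∑ i ∈ J, r i ≤ N → ∑ p ∈ P, b p ^ n + ∑ i, r i ^ n < R ^ n →
        TPk (simplex n R) (Sum.elim (fun p : P => b p) r) := by
  classical
  obtain ⟨H, hH, hF⟩ := CR_fill n hn δ N hδ hδ1 hN
  refine ⟨2 * H, by positivity, ?_⟩
  intro R P b hnone hb hbn hpair hgap ι _ r J hr hδr hJ hvol
  obtain ⟨τ, hτ, hτH, hτp, hτv⟩ := h3_tau hH hpair hvol
  set s := h3s P b τ with hs
  have hsP : ∀ p ∈ P, s p = b p + τ := fun p hp => by rw [hs, h3s, if_pos hp]
  have hsN : ∀ p, p ∉ P → s p = 0 := fun p hp => by rw [hs, h3s, if_neg hp]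
  have hsnone := hsP none hnone
  have hb0 := hb none hnone
  have hs0 : ∀ p, 0 ≤ s p := by
    intro p
    by_cases hp : p ∈ P
    · rw [hsP p hp]
      exact (add_pos (hb p hp) hτ).le
    · rw [hsN p hp]
  have hsle : ∀ p, s p ≤ s none := by
    intro p
    by_cases hp : p ∈ P
    · rw [hsP p hp, hsnone]
      exact add_le_add_left (hbn p hp) τ
    · rw [hsN p hp]
      exact hs0 none
  have hgap' : H ≤ R - s none := by
    rw [hsnone]
    linarith
  have hR : 0 < R := by linarith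
  have hsR : ∀ p, s p ≤ R := fun p => (hsle p).trans (by linarith)
  have hsum : ∀ p q, p ≠ q → s p + s q ≤ R := by
    intro p q hpq
    by_cases hp : p ∈ P
    · by_cases hq : q ∈ P
      · rw [hsP p hp, hsP q hq]
        exact hτp p hp q hq hpq
      · rw [hsN q hq, add_zero]
        exact hsR p
    · rw [hsN p hp, zero_add]
      exact hsR q
  have hn1 : 1 ≤ n := by omega
  have hsumpow : ∑ j, s (some j) ^ n + s none ^ n = ∑ p ∈ P, (b p + τ) ^ n := by
    have h1 : ∑ p : Option (Fin n), s p ^ n = ∑ p ∈ P, (b p + τ) ^ n := by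
      rw [← Finset.sum_subset (Finset.subset_univ P) (fun p _ hp => by
        rw [hsN p hp, zero_pow (by omega)])]
      exact Finset.sum_congr rfl fun p hp => by rw [hsP p hp]
    rw [← h1, Fintype.sum_option, add_comm]
  have hvol' : ∑ i, r i ^ n / (n.factorial : ℝ) <
      (volume (CR n R (fun j => s (some j)) (s none))).toReal := by
    refine lt_of_lt_of_le ?_ (CR_volume n hn1 R (fun j => s (some j)) (s none)
      (fun j => hs0 _) (hs0 _) (fun j => hsR _) (hsR _) hR)
    rw [← Finset.sum_div]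
    apply div_lt_div_of_pos_right _ (by exact_mod_cast n.factorial_pos)
    rw [hsumpow]
    linarith
  have hfill := hF R (fun j => s (some j)) (s none) (fun j => hs0 _) (fun j => hsle _)
    (fun i j hij => hsum _ _ (fun h => hij (Option.some_injective _ h)))
    (fun j => hsum _ _ (by simp)) hgap' ι r J hr hδr hJ hvol'
  refine TPk.glue (simplex n R) (CR n R (fun j => s (some j)) (s none))
    (fun p : P => h3C R s p) (fun p : P => b p) r ?_ hfill ?_ ?_ ?_ ?_
  · rintro ⟨p, hp⟩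
    rcases p with _ | j
    · exact corner_emb_zero (hb _ hp).le (by rw [hsP _ hp]; linarith)
    · exact corner_emb j (hb _ hp).le (by rw [hsP _ hp]; linarith) (hsR _)
  · rintro ⟨p, hp⟩ a ha
    rcases p with _ | j
    · exact ⟨ha.1, lt_of_lt_of_le ha.2 (hsR none)⟩
    · exact ha.1
  · intro a ha
    exact ⟨fun j => (ha.1 j).1, ha.2.2⟩
  · rintro ⟨p, hp⟩ ⟨q, hq⟩ hpq
    exact h3_disj hsum fun h => hpq (Subtype.ext h)
  · rintro ⟨p, hp⟩
    exact h3_disj0 p

end Vale.Agent.P209.Strong
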