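import Vale.Agent.P209.Strong.H3
import Vale.Agent.P209.Strong.H4

namespace Vale.Agent.P209.Strong

open Vale.Agent.P209

/-- An injection into the corners which sends a given index to the corner at the origin. -/
theorem h5_inj {n : ℕ} {κ : Type} [Fintype κ] (h : Fintype.card κ ≤ n + 1) (p0 : κ) :
    ∃ e : κ → Option (Fin n), Function.Injective e ∧ e p0 = none := by
  classical
  have h1 : Fintype.card κ ≤ Fintype.card (Option (Fin n)) := by
    rw [Fintype.card_option, Fintype.card_fin]
    exact h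
  obtain ⟨e0⟩ := Function.Embedding.nonempty_of_card_le h1
  refine ⟨fun p => Equiv.swap (e0 p0) none (e0 p), ?_, Equiv.swap_apply_left _ _⟩
  exact (Equiv.swap (e0 p0) none).injective.comp e0.injective

/-- Conjecture A holds when all but at most `n + 1` capacities are small compared with
`R - max r`. -/
theorem corner_stability (n : ℕ) (hn : 2 ≤ n) : ∃ ε : ℝ, 0 < ε ∧
    ∀ (ι : Type) [Fintype ι] (R : ℝ) (r : ι → ℝ) (B : Finset ι) (i0 : ι), (∀ i, 0 < r i) →
      B.card ≤ n + 1 → i0 ∈ B → (∀ i ∈ B, r i ≤ r i0) → r i0 < R →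
      (∀ i ∈ B, ∀ j ∈ B, i ≠ j → r i + r j < R) → (∀ i, i ∉ B → r i ≤ ε * (R - r i0)) →
      ∑ i, r i ^ n < R ^ n → Packs (openBall n R) r := by
  classical
  obtain ⟨Nr, δ1, hδ1, hδ1', hM⟩ := merging n hn
  obtain ⟨H0, hH0, hC⟩ := corner_packs n hn δ1 (2 * Nr) hδ1 hδ1' (by positivity)
  refine ⟨1 / H0, by positivity, ?_⟩
  intro ι _ R r B i0 hr hB hi0 hmax hlt hpair hsmall hsum
  set s : ℝ := 1 / H0 * (R - r i0) with hs
  have hgap : 0 < R - r i0 := by linarith
  have hs0 : 0 < s := by positivity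
  have hR : 0 < R := lt_trans (hr i0) hlt
  have hHs : H0 * s = R - r i0 := by
    rw [hs]
    field_simp
  let κ : Type := {i // i ∈ B}
  let b : κ → ℝ := fun p => r p.1
  have hbase : ∀ (ι : Type) [Fintype ι] (r : ι → ℝ) (J : Finset ι), (∀ i, 0 < r i ∧ r i ≤ s) →
      (∀ i, i ∉ J → δ1 * s ≤ r i) → ∑ i ∈ J, r i ≤ 2 * Nr * s →
      ∑ p, b p ^ n + ∑ i, r i ^ n < R ^ n → Packs (openBall n R) (Sum.elim b r) := by
    intro ι' _ r' J h1 h2 h3 h4
    obtain ⟨e, he, he0⟩ := h5_inj (n := n) (κ := κ) (by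
      rw [Fintype.card_coe]
      exact hB) ⟨i0, hi0⟩
    let bb : Option (Fin n) → ℝ := Function.extend e (fun p => r p.1 / s) 0
    have hbb : ∀ p, bb (e p) = r p.1 / s := fun p => he.extend_apply _ _ p
    have hb0 : bb none = r i0 / s := by
      rw [← he0]
      exact hbb _
    let P : Finset (Option (Fin n)) := Finset.univ.image e
    have hP : ∀ p, p ∈ P → ∃ q : κ, e q = p := by
      intro p hp
      obtain ⟨q, -, hq⟩ := Finset.mem_image.1 hp
      exact ⟨q, hq⟩
    have hPe : ∀ q, e q ∈ P := fun q => Finset.mem_image_of_mem e (Finset.mem_univ q)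
    have hsn : 0 < s ^ n := pow_pos hs0 n
    have hT := hC (R / s) P bb (by
        rw [← he0]
        exact hPe _)
      (by
        intro p hp
        obtain ⟨q, rfl⟩ := hP p hp
        rw [hbb]
        exact div_pos (hr _) hs0)
      (by
        intro p hp
        obtain ⟨q, rfl⟩ := hP p hp
        rw [hbb, hb0]
        exact div_le_div_of_nonneg_right (hmax _ q.2) hs0.le)
      (by
        intro p hp p' hp' hne
        obtain ⟨q, rfl⟩ := hP p hp
        obtain ⟨q', rfl⟩ := hP p' hp'
        rw [hbb, hbb, ← add_div]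
        refine div_lt_div_of_pos_right (hpair _ q.2 _ q'.2 fun h => hne ?_) hs0
        rw [Subtype.ext h])
      (by
        rw [hb0, ← sub_div, le_div_iff₀ hs0]
        exact hHs.le)
      ι' (fun i => r' i / s) J
      (fun i => ⟨div_pos (h1 i).1 hs0, (div_le_one hs0).2 (h1 i).2⟩)
      (fun i hi => by
        rw [le_div_iff₀ hs0]
        exact h2 i hi)
      (by
        rw [← Finset.sum_div, div_le_iff₀ hs0]
        exact h3)
      (by
        have e1 : ∑ p ∈ P, bb p ^ n = ∑ q : κ, (r q.1) ^ n / s ^ n := by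
          rw [Finset.sum_image (fun a _ c _ h => he h)]
          exact Finset.sum_congr rfl fun q _ => by rw [hbb, div_pow]
        have e2 : ∑ i, (r' i / s) ^ n = ∑ i, (r' i) ^ n / s ^ n :=
          Finset.sum_congr rfl fun q _ => by rw [div_pow]
        rw [e1, e2, ← Finset.sum_div, ← Finset.sum_div, ← add_div, div_pow]
        exact div_lt_div_of_pos_right h4 hsn)
    have hK := Packs.scale hs0 (packs_of_TPk hT)
    have hRs : s * (R / s) = R := by field_simp
    rw [hRs] at hK
    let f : κ ⊕ ι' → P ⊕ ι' := Sum.map (fun q => ⟨e q, hPe q⟩) id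
    have hf : Function.Injective f :=
      Function.Injective.sumMap (fun a c h => he (Subtype.ext_iff.1 h)) Function.injective_id
    have hK2 := Packs.comp_inj hK f hf
    have e3 : (fun k => s * Sum.elim (fun p : P => bb p) (fun i => r' i / s) (f k)) =
        Sum.elim b r' := by
      funext k
      rcases k with q | i
      · simp only [f, Sum.map_inl, Sum.elim_inl, hbb, b]
        field_simp
      · simp only [f, Sum.map_inr, Sum.elim_inr, id]
        field_simp
    rw [e3] at hK2
    exact hK2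
  have hfin := hM R s κ b hR hs0 (fun p => hr _) hbase {i // i ∉ B} (fun i => r i.1)
    (fun i => ⟨hr _, hsmall _ i.2⟩)
    (by
      have e1 : ∑ i, r i ^ n = (∑ i ∈ B, r i ^ n) + ∑ i ∈ Bᶜ, r i ^ n :=
        (Finset.sum_add_sum_compl B _).symm
      have e2 : ∑ p : κ, b p ^ n = ∑ i ∈ B, r i ^ n := Finset.sum_coe_sort B (fun i => r i ^ n)
      have e3 : ∑ i : {i // i ∉ B}, r i.1 ^ n = ∑ i ∈ Bᶜ, r i ^ n :=
        (Finset.sum_subtype Bᶜ (fun i => Finset.mem_compl) (fun i => r i ^ n)).symm
      rw [e2, e3, ← e1]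
      exact hsum)
  let g : ι → κ ⊕ {i // i ∉ B} := fun i => if h : i ∈ B then Sum.inl ⟨i, h⟩ else Sum.inr ⟨i, h⟩
  have hg : Function.Injective g := by
    intro i j h
    by_cases hi : i ∈ B <;> by_cases hj : j ∈ B
    · simp only [g, hi, hj, dif_pos, Sum.inl.injEq] at h
      exact Subtype.ext_iff.1 h
    · simp [g, hi, hj] at h
    · simp [g, hi, hj] at h
    · simp only [g, hi, hj, not_false_eq_true, dif_neg, Sum.inr.injEq, Subtype.mk.injEq] at h
      exact h
  have hfin2 := Packs.comp_inj hfin g hg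
  have e4 : (fun k => Sum.elim b (fun i : {i // i ∉ B} => r i.1) (g k)) = r := by
    funext i
    by_cases hi : i ∈ B
    · simp only [g, hi, dif_pos, Sum.elim_inl, b]
    · simp only [g, hi, not_false_eq_true, dif_neg, Sum.elim_inr]
  rw [e4] at hfin2
  exact hfin2

end Vale.Agent.P209.Strong
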