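import Vale.Agent.P209.Strong.D3
import Vale.Agent.P209.Strong.H2b

namespace Vale.Agent.P209.Strong

open MeasureTheory

/-! J0. Regions between graphs over a simplex in the first `d` coordinates: definitions. -/

/-- `f` only depends on the first `d` coordinates and is `L`-Lipschitz. -/
structure GF {d : ℕ} (L : ℝ) (f : (Fin (d + 1) → ℝ) → ℝ) : Prop where
  dep : ∀ y y', (∀ i : Fin (d + 1), (i : ℕ) < d → y i = y' i) → f y = f y'
  lip : ∀ y y', |f y - f y'| ≤ L * dist y y'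

/-- Points over the open simplex of size `ρ` in the first `d` coordinates. -/
def BS (d : ℕ) (ρ : ℝ) : Set (Fin (d + 1) → ℝ) :=
  {a | (∀ j : Fin (d + 1), (j : ℕ) < d → 0 < a j) ∧ bsum 0 d a < ρ}

/-- The layer between two graphs over the simplex of size `ρ`. -/
def LY {d : ℕ} (ρ : ℝ) (F G : (Fin (d + 1) → ℝ) → ℝ) : Set (Fin (d + 1) → ℝ) :=
  {a | a ∈ BS d ρ ∧ F a < a (Fin.last d) ∧ a (Fin.last d) < G a}

/-- The points over the simplex of size `ρ`, between `0` and `h`, outside the bodies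
`β i ≤ a_d ≤ τ i`, `i < M`. -/
def ST {d : ℕ} (ρ : ℝ) (h : (Fin (d + 1) → ℝ) → ℝ) (M : ℕ)
    (β τ : ℕ → (Fin (d + 1) → ℝ) → ℝ) : Set (Fin (d + 1) → ℝ) :=
  {a | a ∈ BS d ρ ∧ 0 < a (Fin.last d) ∧ a (Fin.last d) < h a ∧
    ∀ i < M, ¬ (β i a ≤ a (Fin.last d) ∧ a (Fin.last d) ≤ τ i a)}

/-- The wedge over the complement of the simplex of size `ρ`. -/
def WD (d : ℕ) (ρ R : ℝ) : Set (Fin (d + 1) → ℝ) :=
  {a | a ∈ simplex (d + 1) R ∧ ρ < bsum 0 d a}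

/-- Stack data: the bodies `β i ≤ a_d ≤ τ i` lie in the slabs `lo i ≤ a_d ≤ hi i`, which are
separated by at least `c * R`, and away from `a_0 = 0`. -/
structure SK {d : ℕ} (c L R ρ : ℝ) (M : ℕ) (β τ lo hi : ℕ → (Fin (d + 1) → ℝ) → ℝ) : Prop where
  gβ : ∀ i < M, GF L (β i)
  gτ : ∀ i < M, GF L (τ i)
  glo : ∀ i < M, GF L (lo i)
  ghi : ∀ i < M, GF L (hi i)
  floor : ∀ i < M, ∀ a ∈ BS d ρ, c * R ≤ lo i a
  lohi : ∀ i < M, ∀ a ∈ BS d ρ, lo i a ≤ hi i a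
  step : ∀ i j, i < j → j < M → ∀ a ∈ BS d ρ, hi i a + c * R ≤ lo j a
  body : ∀ i < M, ∀ a ∈ BS d ρ, β i a ≤ τ i a → lo i a ≤ β i a ∧ τ i a ≤ hi i a ∧ c * R ≤ a 0

end Vale.Agent.P209.Strong
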