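import Vale.Agent.P209.Strong.J0

namespace Vale.Agent.P209.Strong

open MeasureTheory

/-! J1. Elementary properties of graph functions. -/

section
variable {d : ℕ} {L L' : ℝ} {f g : (Fin (d + 1) → ℝ) → ℝ}

theorem GF.mono (h : GF L f) (hL : L ≤ L') : GF L' f :=
  ⟨h.dep, fun y y' => (h.lip y y').trans (mul_le_mul_of_nonneg_right hL dist_nonneg)⟩

theorem GF.const (x : ℝ) (hL : 0 ≤ L) : GF (d := d) L (fun _ => x) :=
  ⟨fun _ _ _ => rfl, fun y y' => by
    rw [sub_self, abs_zero]
    exact mul_nonneg hL dist_nonneg⟩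

theorem GF.add (h : GF L f) (h' : GF L' g) : GF (L + L') (fun a => f a + g a) :=
  ⟨fun y y' hy => by simp only [h.dep y y' hy, h'.dep y y' hy], fun y y' => by
    have h1 := h.lip y y'
    have h2 := h'.lip y y'
    have h3 : f y + g y - (f y' + g y') = (f y - f y') + (g y - g y') := by ring
    have h4 := abs_add_le (f y - f y') (g y - g y')
    simp only [h3]
    linarith [add_mul L L' (dist y y')]⟩

theorem GF.sub (h : GF L f) (h' : GF L' g) : GF (L + L') (fun a => f a - g a) :=
  ⟨fun y y' hy => by simp only [h.dep y y' hy, h'.dep y y' hy], fun y y' => by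
    have h1 := h.lip y y'
    have h2 := h'.lip y y'
    have h3 : f y - g y - (f y' - g y') = (f y - f y') - (g y - g y') := by ring
    have h4 := abs_sub (f y - f y') (g y - g y')
    simp only [h3]
    linarith [add_mul L L' (dist y y')]⟩

theorem GF.smul (h : GF L f) (x : ℝ) : GF (|x| * L) (fun a => x * f a) :=
  ⟨fun y y' hy => by simp only [h.dep y y' hy], fun y y' => by
    have h1 := h.lip y y'
    have h3 : x * f y - x * f y' = x * (f y - f y') := by ring
    simp only [h3, abs_mul]
    rw [mul_assoc]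
    exact mul_le_mul_of_nonneg_left h1 (abs_nonneg x)⟩

theorem GF.max (h : GF L f) (h' : GF L g) : GF L (fun a => max (f a) (g a)) :=
  ⟨fun y y' hy => by simp only [h.dep y y' hy, h'.dep y y' hy], fun y y' =>
    (abs_max_sub_max_le_max _ _ _ _).trans (max_le (h.lip y y') (h'.lip y y'))⟩

theorem GF.min (h : GF L f) (h' : GF L g) : GF L (fun a => min (f a) (g a)) :=
  ⟨fun y y' hy => by simp only [h.dep y y' hy, h'.dep y y' hy], fun y y' =>
    (abs_min_sub_min_le_max _ _ _ _).trans (max_le (h.lip y y') (h'.lip y y'))⟩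

theorem GF.half (h : GF L f) (h' : GF L g) : GF L (fun a => (f a + g a) / 2) :=
  ⟨fun y y' hy => by simp only [h.dep y y' hy, h'.dep y y' hy], fun y y' => by
    have h1 := abs_le.1 (h.lip y y')
    have h2 := abs_le.1 (h'.lip y y')
    exact abs_le.2 ⟨by linarith [h1.1, h2.1], by linarith [h1.2, h2.2]⟩⟩

theorem GF.continuous (h : GF L f) : Continuous f := by
  have h1 : LipschitzWith (Real.toNNReal |L|) f := LipschitzWith.of_dist_le_mul fun y y' => by
    rw [Real.coe_toNNReal _ (abs_nonneg L), Real.dist_eq]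
    exact (h.lip y y').trans (mul_le_mul_of_nonneg_right (le_abs_self L) dist_nonneg)
  exact h1.continuous

private theorem j1_bsum (a : Fin (d + 1) → ℝ) : bsum 0 d a = ∑ i : Fin d, a (Fin.castSucc i) := by
  unfold bsum
  rw [Fin.sum_univ_castSucc]
  have h1 : ¬ (0 ≤ ((Fin.last d : Fin (d + 1)) : ℕ) ∧ ((Fin.last d : Fin (d + 1)) : ℕ) < d) := by
    simp
  rw [if_neg h1, add_zero]
  refine Finset.sum_congr rfl fun i _ => ?_
  rw [if_pos ⟨Nat.zero_le _, by simp⟩]

theorem GF_bsum (d : ℕ) : GF (d := d) (d : ℝ) (fun a => bsum 0 d a) :=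
  ⟨fun y y' hy => by
    simp only [j1_bsum]
    exact Finset.sum_congr rfl fun i _ => hy _ (by simp), fun y y' => by
    simp only [j1_bsum]
    rw [← Finset.sum_sub_distrib]
    refine (Finset.abs_sum_le_sum_abs _ _).trans ?_
    refine (Finset.sum_le_card_nsmul _ _ (dist y y') fun i _ => ?_).trans ?_
    · rw [← Real.dist_eq]
      exact dist_le_pi_dist y y' _
    · simp⟩

/-- The bump near `a_0 = 0`. -/
theorem GF_bump (hd : 1 ≤ d) (x : ℝ) : GF (d := d) 1 (fun a => Max.max 0 (x - |a 0|)) :=
  ⟨fun y y' hy => by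
    have h1 : y 0 = y' 0 := hy 0 (by rw [Fin.val_zero]; omega)
    simp only [h1], fun y y' => by
    refine (abs_max_sub_max_le_max _ _ _ _).trans ?_
    rw [one_mul]
    refine max_le ?_ ?_
    · rw [sub_self, abs_zero]
      exact dist_nonneg
    · have h1 : x - |y 0| - (x - |y' 0|) = |y' 0| - |y 0| := by ring
      rw [h1]
      refine (abs_abs_sub_abs_le _ _).trans ?_
      rw [abs_sub_comm, ← Real.dist_eq]
      exact dist_le_pi_dist y y' 0⟩

/-- Rescaling. -/
theorem GF.scale (h : GF L f) {R : ℝ} (hR : 0 < R) :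
    GF L (fun a => R * f (fun k => a k / R)) :=
  ⟨fun y y' hy => by
    have h1 : f (fun k => y k / R) = f (fun k => y' k / R) := h.dep _ _ fun i hi => by
      simp only [hy i hi]
    simp only [h1], fun y y' => by
    have h1 := h.lip (fun k => y k / R) (fun k => y' k / R)
    have e : ∀ z : Fin (d + 1) → ℝ, (fun k => z k / R) = R⁻¹ • z := fun z => by
      funext k
      simp [div_eq_inv_mul]
    have h2 : dist (fun k => y k / R) (fun k => y' k / R) = dist y y' / R := by
      rw [e, e, dist_smul₀, Real.norm_eq_abs, abs_of_pos (inv_pos.2 hR), div_eq_inv_mul]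
    have h3 : R * f (fun k => y k / R) - R * f (fun k => y' k / R) =
      R * (f (fun k => y k / R) - f (fun k => y' k / R)) := by ring
    simp only [h3, abs_mul, abs_of_pos hR]
    rw [h2] at h1
    calc R * |f (fun k => y k / R) - f (fun k => y' k / R)| ≤ R * (L * (dist y y' / R)) :=
          mul_le_mul_of_nonneg_left h1 hR.le
      _ = L * dist y y' := by field_simp⟩

end

end Vale.Agent.P209.Strong
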