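import Vale.Agent.P209.Strong.J1
import Vale.Agent.P209.Strong.G1b

namespace Vale.Agent.P209.Strong

open MeasureTheory

/-- Graphs are null sets. -/
theorem GF.volume_graph {d : ℕ} {L : ℝ} {f : (Fin (d + 1) → ℝ) → ℝ} (h : GF L f) :
    volume {a : Fin (d + 1) → ℝ | a (Fin.last d) = f a} = 0 := by
  refine volume_graph_zero (Fin.last d) f (GF.continuous h) fun y y' hy => h.dep y y' fun i hi => ?_
  refine hy i fun hl => ?_
  rw [hl] at hi
  simp at hi

end Vale.Agent.P209.Strong
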