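import Vale.Agent.P209.Strong.J1

namespace Vale.Agent.P209.Strong

open MeasureTheory

/-! J1s. Elementary properties of the stack regions. -/

private theorem j1s_bsum_cont (d : ℕ) :
    Continuous (fun a : Fin (d + 1) → ℝ => bsum 0 d a) := by
  unfold bsum
  refine continuous_finset_sum _ fun i _ => ?_
  split_ifs
  · exact continuous_apply i
  · exact continuous_const

theorem BS_open (d : ℕ) (ρ : ℝ) : IsOpen (BS d ρ) := by
  have h1 : BS d ρ = (⋂ j : Fin (d + 1), {a : Fin (d + 1) → ℝ | (j : ℕ) < d → 0 < a j}) ∩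
      {a | bsum 0 d a < ρ} := by
    ext a
    simp only [BS, Set.mem_setOf_eq, Set.mem_inter_iff, Set.mem_iInter]
  rw [h1]
  refine IsOpen.inter (isOpen_iInter_of_finite fun j => ?_)
    (isOpen_lt (j1s_bsum_cont d) continuous_const)
  by_cases hj : (j : ℕ) < d
  · simp only [hj, true_imp_iff]
    exact isOpen_lt continuous_const (continuous_apply j)
  · simp only [hj, false_imp_iff, Set.setOf_true]
    exact isOpen_univ

theorem BS_mono (d : ℕ) {ρ ρ' : ℝ} (h : ρ ≤ ρ') : BS d ρ ⊆ BS d ρ' :=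
  fun _ ha => ⟨ha.1, ha.2.trans_le h⟩

/-- `BS` only depends on the first `d` coordinates. -/
theorem BS_congr (d : ℕ) {ρ : ℝ} {a a' : Fin (d + 1) → ℝ}
    (h : ∀ i : Fin (d + 1), (i : ℕ) < d → a i = a' i)
    (ha : a ∈ BS d ρ) : a' ∈ BS d ρ := by
  refine ⟨fun j hj => ?_, ?_⟩
  · rw [← h j hj]
    exact ha.1 j hj
  · have : bsum 0 d a' = bsum 0 d a := HM.bsum_congr fun i _ hi => (h i hi).symm
    rw [this]
    exact ha.2

/-- The part of the cylinder over the simplex between the heights `0` and `K` has finite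
volume. -/
theorem BS_finite (d : ℕ) (ρ K : ℝ) :
    volume {a : Fin (d + 1) → ℝ | a ∈ BS d ρ ∧ 0 < a (Fin.last d) ∧ a (Fin.last d) < K} ≠ ⊤ := by
  have hsub : {a : Fin (d + 1) → ℝ | a ∈ BS d ρ ∧ 0 < a (Fin.last d) ∧ a (Fin.last d) < K} ⊆
      Set.Icc (fun _ => (0 : ℝ)) (fun _ => max ρ K) := by
    intro a ha
    obtain ⟨⟨h1, h2⟩, h3, h4⟩ := ha
    have hj : ∀ j : Fin (d + 1), 0 < a j ∧ a j ≤ max ρ K := by
      intro j
      by_cases hjd : (j : ℕ) < d
      · refine ⟨h1 j hjd, ?_⟩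
        have h5 : a j ≤ bsum 0 d a := by
          unfold bsum
          have h6 : (if 0 ≤ (j : ℕ) ∧ (j : ℕ) < d then a j else 0) ≤
              ∑ i : Fin (d + 1), if 0 ≤ (i : ℕ) ∧ (i : ℕ) < d then a i else 0 := by
            refine Finset.single_le_sum
              (f := fun i : Fin (d + 1) => if 0 ≤ (i : ℕ) ∧ (i : ℕ) < d then a i else 0)
              (fun i _ => ?_) (Finset.mem_univ j)
            show 0 ≤ (if 0 ≤ (i : ℕ) ∧ (i : ℕ) < d then a i else 0)
            split_ifs with h7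
            · exact (h1 i h7.2).le
            · exact le_rfl
          rw [if_pos ⟨Nat.zero_le _, hjd⟩] at h6
          exact h6
        exact (h5.trans h2.le).trans (le_max_left _ _)
      · have : j = Fin.last d := by
          apply Fin.ext
          have := j.2
          simp only [Fin.val_last]
          omega
        rw [this]
        exact ⟨h3, h4.le.trans (le_max_right _ _)⟩
    exact ⟨fun j => (hj j).1.le, fun j => (hj j).2⟩
  exact ((measure_mono hsub).trans_lt isCompact_Icc.measure_lt_top).ne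

theorem ST_open {d : ℕ} {L L' ρ : ℝ} {h : (Fin (d + 1) → ℝ) → ℝ} (hh : GF L' h) {M : ℕ}
    {β τ : ℕ → (Fin (d + 1) → ℝ) → ℝ} (hβ : ∀ i < M, GF L (β i)) (hτ : ∀ i < M, GF L (τ i)) :
    IsOpen (ST ρ h M β τ) := by
  have hl : Continuous (fun a : Fin (d + 1) → ℝ => a (Fin.last d)) := continuous_apply _
  have h1 : ST ρ h M β τ = BS d ρ ∩ {a | 0 < a (Fin.last d)} ∩ {a | a (Fin.last d) < h a} ∩
      ⋂ i ∈ Finset.range M, ({a | a (Fin.last d) < β i a} ∪ {a | τ i a < a (Fin.last d)}) := by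
    ext a
    simp only [ST, Set.mem_setOf_eq, Set.mem_inter_iff, Set.mem_iInter, Set.mem_union,
      Finset.mem_range, and_assoc]
    refine and_congr_right fun _ => and_congr_right fun _ => and_congr_right fun _ =>
      forall₂_congr fun i _ => ?_
    rw [not_and_or, not_le, not_le]
  rw [h1]
  refine IsOpen.inter (IsOpen.inter (IsOpen.inter (BS_open d ρ)
    (isOpen_lt continuous_const hl)) (isOpen_lt hl hh.continuous)) ?_
  refine isOpen_biInter_finset fun i hi => ?_
  have hi' := Finset.mem_range.1 hi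
  exact (isOpen_lt hl (hβ i hi').continuous).union (isOpen_lt (hτ i hi').continuous hl)

theorem ST_finite {d : ℕ} {ρ K : ℝ} {h : (Fin (d + 1) → ℝ) → ℝ} (hK : ∀ a ∈ BS d ρ, h a ≤ K)
    {M : ℕ} {β τ : ℕ → (Fin (d + 1) → ℝ) → ℝ} : volume (ST ρ h M β τ) ≠ ⊤ := by
  refine ne_top_of_le_ne_top (BS_finite d ρ K) (measure_mono fun a ha => ?_)
  exact ⟨ha.1, ha.2.1, ha.2.2.1.trans_le (hK a ha.1)⟩

end Vale.Agent.P209.Strong
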