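import Vale.Agent.P209.Strong.J1

namespace Vale.Agent.P209.Strong

open MeasureTheory

/-! J2. Fat layers over a simplex are filled. -/

/-- base coordinates in a prefix -/
theorem j2_pre {d : ℕ} (hd : 1 ≤ d) {ρ : ℝ} {F G : (Fin (d + 1) → ℝ) → ℝ} {a : Fin (d + 1) → ℝ}
    (h : ∀ i : Fin (d + 1), (i : ℕ) < d →
      (if (i : ℕ) < d then 0 else F a) < a i ∧
        a i < (if (i : ℕ) < d then ρ - bsum 0 (i : ℕ) a else G a)) : a ∈ BS d ρ := by
  have h1 := (HM.block_iff (n := d + 1) (k := 0) (b := d) hd (by omega) a ρ).1 (by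
    intro j _ hj
    have hj' : (j : ℕ) < d := by omega
    have h2 := h j hj'
    rw [if_pos hj', if_pos hj'] at h2
    exact h2)
  rw [zero_add] at h1
  exact ⟨fun j hj => h1.1 j (Nat.zero_le _) hj, h1.2⟩

theorem j2_pre' {d : ℕ} (hd : 1 ≤ d) {ρ : ℝ} {a : Fin (d + 1) → ℝ}
    (h : a ∈ BS d ρ) (j : Fin (d + 1)) (hj : (j : ℕ) < d) : 0 < a j ∧ a j < ρ - bsum 0 (j : ℕ) a :=
  (HM.block_iff (n := d + 1) (k := 0) (b := d) hd (by omega) a ρ).2
    ⟨fun i _ hi => h.1 i (by omega), by rw [zero_add]; exact h.2⟩ j (Nat.zero_le _) (by omega)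

theorem LY_fill (d : ℕ) (hd : 1 ≤ d) (c L δ N : ℝ) (hc : 0 < c) (hL : 0 ≤ L) (hδ : 0 < δ)
    (hδ1 : δ ≤ 1) (hN : 0 ≤ N) : ∃ R0 : ℝ, 0 < R0 ∧ ∀ R, R0 ≤ R →
      ∀ (ρ : ℝ) (F G : (Fin (d + 1) → ℝ) → ℝ), GF L F → GF L G → c * R ≤ ρ → ρ ≤ R →
        (∀ a ∈ BS d ρ, c * R ≤ G a - F a ∧ G a - F a ≤ R) → Fill δ N (LY ρ F G) := by
  have hL' : 0 ≤ L + (d + 1) := by positivity
  obtain ⟨R0, h0, h⟩ := S1_all (d + 1) (by omega) d c (L + (d + 1)) δ N hc hL' hδ hδ1 hN
  refine ⟨R0, h0, fun R hR ρ F G hF hG hρ1 hρ2 hFG => ?_⟩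
  set l : Fin (d + 1) → (Fin (d + 1) → ℝ) → ℝ := fun j a => if (j : ℕ) < d then 0 else F a with hl
  set u : Fin (d + 1) → (Fin (d + 1) → ℝ) → ℝ := fun j a =>
    if (j : ℕ) < d then ρ - bsum 0 (j : ℕ) a else G a with hu
  have hlast : ∀ j : Fin (d + 1), ¬ (j : ℕ) < d → j = Fin.last d := by
    intro j hj
    refine Fin.ext ?_
    rw [Fin.val_last]
    have := j.2
    omega
  have hset : LY ρ F G = boxSet l u := by
    ext a
    constructor
    · rintro ⟨h1, h2, h3⟩ j
      by_cases hj : (j : ℕ) < d
      · simp only [hl, hu, if_pos hj]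
        exact j2_pre' hd h1 j hj
      · simp only [hl, hu, if_neg hj]
        rw [hlast j hj]
        exact ⟨h2, h3⟩
    · intro h1
      refine ⟨j2_pre hd (fun i _ => h1 i), ?_⟩
      have h2 := h1 (Fin.last d)
      have h3 : ¬ ((Fin.last d : Fin (d + 1)) : ℕ) < d := by rw [Fin.val_last]; omega
      simp only [hl, hu, if_neg h3] at h2
      exact h2
  rw [hset]
  refine h R hR l u 0 (fun _ => ρ) ?_
  exact
    { wl := by
        constructor
        · intro j y y' hy
          simp only [hl]
          split_ifs with hj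
          · rfl
          · refine hF.dep y y' fun i hi => hy i ?_
            rw [Fin.lt_def]
            omega
        · intro j y y'
          have h1 : (0 : ℝ) ≤ dist y y' := dist_nonneg
          simp only [hl]
          split_ifs with hj
          · rw [sub_self, abs_zero]
            positivity
          · refine (hF.lip y y').trans (mul_le_mul_of_nonneg_right ?_ h1)
            have : (0 : ℝ) ≤ d := Nat.cast_nonneg d
            linarith
      wu := by
        constructor
        · intro j y y' hy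
          simp only [hu]
          split_ifs with hj
          · rw [D3_bsum_dep 0 j hy]
          · refine hG.dep y y' fun i hi => hy i ?_
            rw [Fin.lt_def]
            omega
        · intro j y y'
          have h1 : (0 : ℝ) ≤ dist y y' := dist_nonneg
          simp only [hu]
          split_ifs with hj
          · have h2 := D3_bsum_lip 0 (j : ℕ) y y'
            rw [show ρ - bsum 0 (j : ℕ) y - (ρ - bsum 0 (j : ℕ) y') =
              -(bsum 0 (j : ℕ) y - bsum 0 (j : ℕ) y') by ring, abs_neg]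
            refine h2.trans (mul_le_mul_of_nonneg_right ?_ h1)
            push_cast
            linarith
          · refine (hG.lip y y').trans (mul_le_mul_of_nonneg_right ?_ h1)
            have : (0 : ℝ) ≤ d := Nat.cast_nonneg d
            linarith
      kb := by omega
      int := ⟨ρ, fun _ => 0, fun _ _ => rfl, fun a => by simp⟩
      sim := fun j _ hj => by
        have hj' : (j : ℕ) < d := by omega
        exact ⟨fun a => by simp only [hl, if_pos hj'], fun a => by simp only [hu, if_pos hj']⟩
      fat := fun j a hj hp => by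
        have hj' : ¬ (j : ℕ) < d := by omega
        have hb : a ∈ BS d ρ := j2_pre hd fun i hi => hp i (by omega)
        simp only [hl, hu, if_neg hj']
        exact hFG a hb
      size := fun a _ => ⟨hρ1, hρ2⟩ }

end Vale.Agent.P209.Strong
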