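import Vale.Agent.P209.Strong.J1g
import Vale.Agent.P209.Strong.J1s

namespace Vale.Agent.P209.Strong

open MeasureTheory

/-! J3a. The volume of a stack region depends continuously on the top. -/

/-- Continuity of the volume of `{f < c * g}` (no sign condition on `g`). -/
theorem j3a_volume_lt {n : ℕ} {Ω : Set (Fin n → ℝ)} (hfin : volume Ω ≠ ⊤)
    {f g : (Fin n → ℝ) → ℝ} (hf : Measurable f) (hg : Measurable g)
    (hnull : ∀ c : ℝ, volume (Ω ∩ {a | f a = c * g a}) = 0) :
    Continuous fun c : ℝ => (volume (Ω ∩ {a | f a < c * g a})).toReal := by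
  have hms : ∀ c : ℝ, MeasurableSet {a | f a < c * g a} := fun c =>
    measurableSet_lt hf (hg.const_mul c)
  have : IsFiniteMeasure (volume.restrict Ω) :=
    ⟨by rw [Measure.restrict_apply_univ]; exact lt_top_iff_ne_top.2 hfin⟩
  have e : ∀ c : ℝ, (volume (Ω ∩ {a | f a < c * g a})).toReal =
      ∫ a, ({a | f a < c * g a}.indicator (fun _ => (1 : ℝ)) a) ∂(volume.restrict Ω) := by
    intro c
    rw [integral_indicator (hms c), setIntegral_const, smul_eq_mul, mul_one, Measure.real,
      Measure.restrict_apply (hms c), Set.inter_comm]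
  simp only [e]
  rw [continuous_iff_continuousAt]
  intro c₀
  refine continuousAt_of_dominated (bound := fun _ => (1 : ℝ)) ?_ ?_ ?_ ?_
  · exact Filter.Eventually.of_forall fun c =>
      (measurable_const.indicator (hms c)).aestronglyMeasurable
  · refine Filter.Eventually.of_forall fun c => Filter.Eventually.of_forall fun a => ?_
    by_cases h : a ∈ {a | f a < c * g a}
    · rw [Set.indicator_of_mem h, norm_one]
    · rw [Set.indicator_of_notMem h, norm_zero]
      exact zero_le_one
  · exact integrable_const _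
  · have h0 : ∀ᵐ a ∂(volume.restrict Ω), f a ≠ c₀ * g a := by
      rw [ae_iff]
      have h1 : {a | ¬ f a ≠ c₀ * g a} = {a | f a = c₀ * g a} := by
        ext a
        simp
      rw [h1, Measure.restrict_apply (measurableSet_eq_fun hf (hg.const_mul c₀)),
        Set.inter_comm]
      exact hnull c₀
    filter_upwards [h0] with a ha
    have hc : ContinuousAt (fun c : ℝ => c * g a) c₀ := by fun_prop
    rcases lt_or_gt_of_ne ha with h | h
    · have h1 : ∀ᶠ c in nhds c₀, f a < c * g a := hc.eventually_const_lt h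
      refine ContinuousAt.congr (f := fun _ => (1 : ℝ)) continuousAt_const ?_
      filter_upwards [h1] with c hc
      rw [Set.indicator_of_mem (show a ∈ {a | f a < c * g a} from hc)]
    · have h1 : ∀ᶠ c in nhds c₀, c * g a < f a := hc.eventually_lt_const h
      refine ContinuousAt.congr (f := fun _ => (0 : ℝ)) continuousAt_const ?_
      filter_upwards [h1] with c hc
      rw [Set.indicator_of_notMem (show a ∉ {a | f a < c * g a} from not_lt.2 hc.le)]

theorem ST_volume_continuous {d : ℕ} {L ρ K : ℝ} {D ψ : (Fin (d + 1) → ℝ) → ℝ} {M : ℕ}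
    {β τ : ℕ → (Fin (d + 1) → ℝ) → ℝ} (hD : GF L D) (hψ : GF L ψ) (hψ0 : ∀ a, 0 ≤ ψ a)
    (hβ : ∀ i < M, GF L (β i)) (hτ : ∀ i < M, GF L (τ i))
    (hK : ∀ a ∈ BS d ρ, D a + ψ a ≤ K) :
    ContinuousOn (fun t : ℝ => (volume (ST ρ (fun a => D a + t * ψ a) M β τ)).toReal)
      (Set.Icc 0 1) := by
  have hfin : volume (ST ρ (fun _ => K) M β τ) ≠ ⊤ :=
    ST_finite (K := K) fun _ _ => le_rfl
  have hDm : Measurable D := hD.continuous.measurable
  have hψm : Measurable ψ := hψ.continuous.measurable
  have hf : Measurable fun a : Fin (d + 1) → ℝ => a (Fin.last d) - D a :=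
    (measurable_pi_apply _).sub hDm
  have hnull : ∀ c : ℝ, volume (ST ρ (fun _ => K) M β τ ∩
      {a | a (Fin.last d) - D a = c * ψ a}) = 0 := by
    intro c
    refine measure_mono_null ?_ (hD.add (hψ.smul c)).volume_graph
    rintro a ⟨_, ha⟩
    have h1 : a (Fin.last d) - D a = c * ψ a := ha
    show a (Fin.last d) = D a + c * ψ a
    linarith only [h1]
  refine (j3a_volume_lt hfin hf hψm hnull).continuousOn.congr ?_
  intro t ht
  have hset : ST ρ (fun a => D a + t * ψ a) M β τ =
      ST ρ (fun _ => K) M β τ ∩ {a | a (Fin.last d) - D a < t * ψ a} := by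
    ext a
    constructor
    · rintro ⟨h1, h2, h3, h4⟩
      have h3' : a (Fin.last d) < D a + t * ψ a := h3
      have h5 : t * ψ a ≤ 1 * ψ a := mul_le_mul_of_nonneg_right ht.2 (hψ0 a)
      have h6 := hK a h1
      refine ⟨⟨h1, h2, ?_, h4⟩, ?_⟩
      · show a (Fin.last d) < K
        linarith only [h3', h5, h6]
      · show a (Fin.last d) - D a < t * ψ a
        linarith only [h3']
    · rintro ⟨⟨h1, h2, _, h4⟩, h3⟩
      have h3' : a (Fin.last d) - D a < t * ψ a := h3
      refine ⟨h1, h2, ?_, h4⟩
      show a (Fin.last d) < D a + t * ψ a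
      linarith only [h3']
  show (volume (ST ρ (fun a => D a + t * ψ a) M β τ)).toReal = _
  rw [hset]

end Vale.Agent.P209.Strong
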