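import Vale.Agent.P209.Strong.J1s

set_option linter.all false

namespace Vale.Agent.P209.Strong

open MeasureTheory

/-! J3b. Raising the top near `a_0 = 0` increases the volume by more than a ball. -/

/-- lower walls -/
private def j3b_l (d : ℕ) (D : (Fin (d + 1) → ℝ) → ℝ) : Fin (d + 1) → (Fin (d + 1) → ℝ) → ℝ :=
  fun j a => if (j : ℕ) < d then 0 else D a

/-- upper walls -/
private def j3b_u (d : ℕ) (x y : ℝ) (D : (Fin (d + 1) → ℝ) → ℝ) :
    Fin (d + 1) → (Fin (d + 1) → ℝ) → ℝ :=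
  fun j a => if (j : ℕ) < d then x else D a + y

private theorem j3b_dep {d : ℕ} {L : ℝ} {D : (Fin (d + 1) → ℝ) → ℝ} (hD : GF L D)
    {j : Fin (d + 1)} (hj : ¬ (j : ℕ) < d) {y y' : Fin (d + 1) → ℝ}
    (h : ∀ i, i < j → y i = y' i) : D y = D y' := by
  refine hD.dep y y' fun i hi => h i ?_
  rw [Fin.lt_def]
  omega

private theorem j3b_walls_l {d : ℕ} {L : ℝ} (hL : 0 ≤ L) {D : (Fin (d + 1) → ℝ) → ℝ}
    (hD : GF L D) : Walls L (j3b_l d D) where
  dep := by
    intro j y y' h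
    unfold j3b_l
    by_cases hj : (j : ℕ) < d
    · rw [if_pos hj, if_pos hj]
    · rw [if_neg hj, if_neg hj]
      exact j3b_dep hD hj h
  lip := by
    intro j y y'
    unfold j3b_l
    by_cases hj : (j : ℕ) < d
    · rw [if_pos hj, if_pos hj, sub_zero, abs_zero]
      positivity
    · rw [if_neg hj, if_neg hj]
      exact hD.lip y y'

private theorem j3b_walls_u {d : ℕ} {L : ℝ} (hL : 0 ≤ L) (p q : ℝ)
    {D : (Fin (d + 1) → ℝ) → ℝ} (hD : GF L D) : Walls L (j3b_u d p q D) where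
  dep := by
    intro j y y' h
    unfold j3b_u
    by_cases hj : (j : ℕ) < d
    · rw [if_pos hj, if_pos hj]
    · rw [if_neg hj, if_neg hj, j3b_dep hD hj h]
  lip := by
    intro j y y'
    unfold j3b_u
    by_cases hj : (j : ℕ) < d
    · rw [if_pos hj, if_pos hj, sub_self, abs_zero]
      positivity
    · rw [if_neg hj, if_neg hj]
      have e : D y + q - (D y' + q) = D y - D y' := by ring
      rw [e]
      exact hD.lip y y'

private theorem j3b_bsum {d : ℕ} {a : Fin (d + 1) → ℝ} {x : ℝ} (hx : 0 ≤ x)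
    (h : ∀ i : Fin (d + 1), (i : ℕ) < d → a i ≤ x) : bsum 0 d a ≤ (d + 1 : ℝ) * x := by
  unfold bsum
  have h1 : ∀ i ∈ (Finset.univ : Finset (Fin (d + 1))),
      (if 0 ≤ (i : ℕ) ∧ (i : ℕ) < d then a i else 0) ≤ x := by
    intro i _
    split_ifs with h2
    · exact h i h2.2
    · exact hx
  refine (Finset.sum_le_card_nsmul _ _ _ h1).trans (le_of_eq ?_)
  rw [Finset.card_univ, Fintype.card_fin, nsmul_eq_mul]
  push_cast
  ring

theorem ST_bump (d : ℕ) (hd : 1 ≤ d) (c L : ℝ) (hc : 0 < c) (hL : 0 ≤ L) :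
    ∃ R0 : ℝ, 0 < R0 ∧ ∀ R, R0 ≤ R → ∀ (ρ : ℝ) (M : ℕ)
      (β τ lo hi : ℕ → (Fin (d + 1) → ℝ) → ℝ) (D : (Fin (d + 1) → ℝ) → ℝ),
      SK c L R ρ M β τ lo hi → c * R ≤ ρ → ρ ≤ R → GF L D →
      (∀ a ∈ BS d ρ, c * R ≤ D a ∧ D a ≤ R) →
      (volume (ST ρ D M β τ)).toReal + 1 / ((d + 1).factorial : ℝ) <
        (volume (ST ρ (fun a => D a + max 0 (c * R / 2 - |a 0|)) M β τ)).toReal := by
  obtain ⟨c', hc'⟩ : ∃ c', c' = c / (4 * (d + 1)) := ⟨_, rfl⟩
  have hc0 : 0 < c' := by rw [hc']; positivity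
  have hcc : (d + 1 : ℝ) * c' = c / 4 := by
    rw [hc']
    field_simp
  have hcc1 : c' ≤ c / 4 := by
    rw [← hcc]
    have : (0 : ℝ) ≤ d := Nat.cast_nonneg d
    nlinarith
  refine ⟨2 / c', by positivity, fun R hR ρ M β τ lo hi D hS h1 h2 hD h3 => ?_⟩
  have hR0 : 0 < R := lt_of_lt_of_le (by positivity) hR
  have hc1 : c ≤ 1 := by
    by_contra hcon
    push Not at hcon
    have : R < c * R := by nlinarith
    linarith
  have hcR : 2 ≤ c' * R := by
    rw [div_le_iff₀ hc0] at hR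
    linarith
  have hcR0 : 0 < c * R := by positivity
  have e1 : c' * R ≤ c * R / 4 := by nlinarith
  have key : ∀ a : Fin (d + 1) → ℝ, (∀ i : Fin (d + 1), (i : ℕ) < d → 0 < a i ∧ a i < c' * R) →
      a ∈ BS d ρ := by
    intro a ha
    refine ⟨fun j hj => (ha j hj).1, ?_⟩
    have h4 := j3b_bsum (d := d) (a := a) (x := c' * R) (by linarith)
      (fun i hi => (ha i hi).2.le)
    have h5 : (d + 1 : ℝ) * (c' * R) = c * R / 4 := by
      rw [← mul_assoc, hcc]
      ring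
    linarith
  have hw : ∀ (j : Fin (d + 1)) (a : Fin (d + 1) → ℝ),
      Pre (j3b_l d D) (j3b_u d (c' * R) (c * R / 4) D) j a →
      c' * R ≤ j3b_u d (c' * R) (c * R / 4) D j a - j3b_l d D j a ∧
        j3b_u d (c' * R) (c * R / 4) D j a - j3b_l d D j a ≤ R := by
    intro j a _
    unfold j3b_u j3b_l
    by_cases hj : (j : ℕ) < d
    · rw [if_pos hj, if_pos hj, sub_zero]
      exact ⟨le_rfl, by nlinarith⟩
    · rw [if_neg hj, if_neg hj]
      exact ⟨by linarith, by nlinarith⟩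
  obtain ⟨v1, v2⟩ := volume_pre_ge (d + 1) hc0 hR0 hL (j3b_walls_l hL hD)
    (j3b_walls_u hL (c' * R) (c * R / 4) hD) hw
  have hlast : ¬ ((Fin.last d : Fin (d + 1)) : ℕ) < d := by simp
  have hbox : ∀ a ∈ boxSet (j3b_l d D) (j3b_u d (c' * R) (c * R / 4) D),
      (∀ i : Fin (d + 1), (i : ℕ) < d → 0 < a i ∧ a i < c' * R) ∧
        D a < a (Fin.last d) ∧ a (Fin.last d) < D a + c * R / 4 := by
    intro a ha
    refine ⟨fun i hi => ?_, ?_⟩
    · have := ha i
      unfold j3b_l j3b_u at this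
      rw [if_pos hi, if_pos hi] at this
      exact this
    · have := ha (Fin.last d)
      unfold j3b_l j3b_u at this
      rw [if_neg hlast, if_neg hlast] at this
      exact this
  have hzero : ((0 : Fin (d + 1)) : ℕ) < d := by rw [Fin.val_zero]; omega
  have hsub1 : boxSet (j3b_l d D) (j3b_u d (c' * R) (c * R / 4) D) ⊆
      ST ρ (fun a => D a + max 0 (c * R / 2 - |a 0|)) M β τ := by
    intro a ha
    obtain ⟨b1, b2, b3⟩ := hbox a ha
    have hB := key a b1
    obtain ⟨b4, b5⟩ := h3 a hB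
    obtain ⟨b6, b7⟩ := b1 0 hzero
    refine ⟨hB, by linarith, ?_, ?_⟩
    · show a (Fin.last d) < D a + max 0 (c * R / 2 - |a 0|)
      have := le_max_right 0 (c * R / 2 - |a 0|)
      rw [abs_of_pos b6] at this ⊢
      linarith
    · rintro i hi ⟨b8, b9⟩
      have := (hS.body i hi a hB (b8.trans b9)).2.2
      linarith
  have hsub2 : ST ρ D M β τ ⊆ ST ρ (fun a => D a + max 0 (c * R / 2 - |a 0|)) M β τ := by
    rintro a ⟨b1, b2, b3, b4⟩
    refine ⟨b1, b2, ?_, b4⟩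
    show a (Fin.last d) < D a + max 0 (c * R / 2 - |a 0|)
    have := le_max_left 0 (c * R / 2 - |a 0|)
    linarith
  have hdis : Disjoint (boxSet (j3b_l d D) (j3b_u d (c' * R) (c * R / 4) D)) (ST ρ D M β τ) := by
    rw [Set.disjoint_left]
    rintro a ha ⟨_, _, b3, _⟩
    exact absurd (hbox a ha).2.1 (not_lt.2 b3.le)
  have hmeas : MeasurableSet (ST ρ D M β τ) := (ST_open hD hS.gβ hS.gτ).measurableSet
  have hfin : volume (ST ρ (fun a => D a + max 0 (c * R / 2 - |a 0|)) M β τ) ≠ ⊤ := by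
    refine ST_finite (K := R + c * R / 2) fun a ha => ?_
    show D a + max 0 (c * R / 2 - |a 0|) ≤ R + c * R / 2
    have b1 := (h3 a ha).2
    have b2 : max 0 (c * R / 2 - |a 0|) ≤ c * R / 2 :=
      max_le (by linarith) (by linarith [abs_nonneg (a 0)])
    linarith
  have hfin2 : volume (ST ρ D M β τ) ≠ ⊤ := ST_finite (K := R) fun a ha => (h3 a ha).2
  have hle : volume (boxSet (j3b_l d D) (j3b_u d (c' * R) (c * R / 4) D)) +
      volume (ST ρ D M β τ) ≤
      volume (ST ρ (fun a => D a + max 0 (c * R / 2 - |a 0|)) M β τ) := by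
    rw [← measure_union hdis hmeas]
    exact measure_mono (Set.union_subset hsub1 hsub2)
  have hle2 := ENNReal.toReal_mono hfin hle
  rw [ENNReal.toReal_add v2 hfin2] at hle2
  have hp : (2 : ℝ) ≤ (c' * R) ^ (d + 1) := by
    calc (2 : ℝ) = 2 ^ 1 := by norm_num
      _ ≤ 2 ^ (d + 1) := pow_le_pow_right₀ (by norm_num) (by omega)
      _ ≤ (c' * R) ^ (d + 1) := pow_le_pow_left₀ (by norm_num) hcR _
  have hf : 1 / ((d + 1).factorial : ℝ) ≤ 1 := by
    rw [div_le_one (by exact_mod_cast Nat.factorial_pos _)]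
    exact_mod_cast Nat.one_le_iff_ne_zero.2 (Nat.factorial_ne_zero _)
  linarith

end Vale.Agent.P209.Strong
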