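import Vale.Agent.P209.Strong.J2
import Vale.Agent.P209.Strong.J3a
import Vale.Agent.P209.Strong.J3b

namespace Vale.Agent.P209.Strong

open MeasureTheory

/-! J4. Stack regions are filled. -/

theorem j4_restrict {d : ℕ} {c L R ρ : ℝ} {M : ℕ} {β τ lo hi : ℕ → (Fin (d + 1) → ℝ) → ℝ}
    (h : SK c L R ρ (M + 1) β τ lo hi) : SK c L R ρ M β τ lo hi where
  gβ i hi' := h.gβ i (by omega)
  gτ i hi' := h.gτ i (by omega)
  glo i hi' := h.glo i (by omega)
  ghi i hi' := h.ghi i (by omega)
  floor i hi' := h.floor i (by omega)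
  lohi i hi' := h.lohi i (by omega)
  step i j hij hj := h.step i j hij (by omega)
  body i hi' := h.body i (by omega)

/-- bottom of the top body, clamped -/
noncomputable def j4_D {d : ℕ} (b t l h : (Fin (d + 1) → ℝ) → ℝ) (a : Fin (d + 1) → ℝ) : ℝ :=
  max (l a) (min (h a) (min (b a) ((b a + t a) / 2)))

/-- top of the top body, clamped -/
noncomputable def j4_U {d : ℕ} (b t l h : (Fin (d + 1) → ℝ) → ℝ) (a : Fin (d + 1) → ℝ) : ℝ :=
  max (l a) (min (h a) (max (t a) ((b a + t a) / 2)))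

section
variable {d : ℕ} {L : ℝ} {b t l h : (Fin (d + 1) → ℝ) → ℝ} {a : Fin (d + 1) → ℝ}

theorem j4_D_GF (hb : GF L b) (ht : GF L t) (hl : GF L l) (hh : GF L h) :
    GF L (j4_D b t l h) :=
  GF.max hl (GF.min hh (GF.min hb (GF.half hb ht)))

theorem j4_U_GF (hb : GF L b) (ht : GF L t) (hl : GF L l) (hh : GF L h) :
    GF L (j4_U b t l h) :=
  GF.max hl (GF.min hh (GF.max ht (GF.half hb ht)))

theorem j4_lo_le_D : l a ≤ j4_D b t l h a := le_max_left _ _

theorem j4_lo_le_U : l a ≤ j4_U b t l h a := le_max_left _ _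

theorem j4_D_le_hi (hlh : l a ≤ h a) : j4_D b t l h a ≤ h a :=
  max_le hlh (min_le_left _ _)

theorem j4_U_le_hi (hlh : l a ≤ h a) : j4_U b t l h a ≤ h a :=
  max_le hlh (min_le_left _ _)

theorem j4_D_le_U : j4_D b t l h a ≤ j4_U b t l h a :=
  max_le_max le_rfl (min_le_min le_rfl ((min_le_right _ _).trans (le_max_right _ _)))

theorem j4_D_eq (hbt : b a ≤ t a) (h1 : l a ≤ b a) (h2 : t a ≤ h a) :
    j4_D b t l h a = b a := by
  unfold j4_D
  rw [min_eq_left (by linarith : b a ≤ (b a + t a) / 2), min_eq_right (by linarith), max_eq_right h1]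

theorem j4_U_eq (hbt : b a ≤ t a) (h1 : l a ≤ b a) (h2 : t a ≤ h a) :
    j4_U b t l h a = t a := by
  unfold j4_U
  rw [max_eq_left (by linarith : (b a + t a) / 2 ≤ t a), min_eq_right h2,
    max_eq_right (h1.trans hbt)]

theorem j4_D_eq_U (hbt : t a < b a) : j4_D b t l h a = j4_U b t l h a := by
  unfold j4_D j4_U
  rw [min_eq_right (by linarith : (b a + t a) / 2 ≤ b a),
    max_eq_right (by linarith : t a ≤ (b a + t a) / 2)]

end

theorem ST_fill (d : ℕ) (hd : 1 ≤ d) (c L δ N : ℝ) (hc : 0 < c) (hL : 0 ≤ L) (hδ : 0 < δ)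
    (hδ1 : δ ≤ 1) (hN : 0 ≤ N) (M : ℕ) : ∃ R0 : ℝ, 0 < R0 ∧ ∀ R, R0 ≤ R →
      ∀ (ρ : ℝ) (β τ lo hi : ℕ → (Fin (d + 1) → ℝ) → ℝ) (h : (Fin (d + 1) → ℝ) → ℝ),
        SK c L R ρ M β τ lo hi → c * R ≤ ρ → ρ ≤ R → GF (L + 1) h →
        (∀ a ∈ BS d ρ, c * R ≤ h a ∧ h a ≤ R) → (∀ i < M, ∀ a ∈ BS d ρ, hi i a + c * R ≤ h a) →
        Fill δ N (ST ρ h M β τ) := by
  induction M with
  | zero =>
    obtain ⟨R0, hR0, H⟩ := LY_fill d hd c (L + 1) δ N hc (by linarith) hδ hδ1 hN
    refine ⟨R0, hR0, fun R hR ρ β τ lo hi h _ h1 h2 hh h3 _ => ?_⟩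
    have e : ST ρ h 0 β τ = LY ρ (fun _ => 0) h := by
      ext a
      simp only [ST, LY, Set.mem_ofPred_eq, Nat.not_lt_zero, false_imp_iff, implies_true, and_true]
    rw [e]
    refine H R hR ρ (fun _ => 0) h (GF.const 0 (by linarith)) hh h1 h2 fun a ha => ?_
    simpa using h3 a ha
  | succ M ih =>
    obtain ⟨R1, hR1, H1⟩ := ih
    obtain ⟨R2, hR2, H2⟩ := LY_fill d hd (c / 2) (L + 1) δ N (by positivity) (by linarith)
      hδ hδ1 hN
    obtain ⟨R3, hR3, H3⟩ := ST_bump d hd c L hc hL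
    refine ⟨max R1 (max R2 R3), lt_max_of_lt_left hR1, ?_⟩
    intro R hR ρ β τ lo hi h hsk hρ1 hρ2 hh hh1 hh2
    have hRR1 : R1 ≤ R := (le_max_left _ _).trans hR
    have hRR2 : R2 ≤ R := ((le_max_left _ _).trans (le_max_right _ _)).trans hR
    have hRR3 : R3 ≤ R := ((le_max_right _ _).trans (le_max_right _ _)).trans hR
    have hR0 : 0 < R := hR1.trans_le hRR1
    have hcR : 0 < c * R := by positivity
    have hskM := j4_restrict hsk
    have gb := hsk.gβ M (by omega)
    have gt := hsk.gτ M (by omega)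
    have gl := hsk.glo M (by omega)
    have gh := hsk.ghi M (by omega)
    set D : (Fin (d + 1) → ℝ) → ℝ := j4_D (β M) (τ M) (lo M) (hi M) with hDdef
    set U : (Fin (d + 1) → ℝ) → ℝ := j4_U (β M) (τ M) (lo M) (hi M) with hUdef
    set ψ : (Fin (d + 1) → ℝ) → ℝ := fun a => max 0 (c * R / 2 - |a 0|) with hψdef
    have gD : GF L D := j4_D_GF gb gt gl gh
    have gU : GF L U := j4_U_GF gb gt gl gh
    have gψ : GF 1 ψ := GF_bump hd (c * R / 2)
    have hψ0 : ∀ a, 0 ≤ ψ a := fun a => le_max_left _ _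
    have hψ1 : ∀ a, ψ a ≤ c * R / 2 := fun a => by
      refine max_le (by positivity) ?_
      have := abs_nonneg (a 0)
      linarith
    have hψz : ∀ a : Fin (d + 1) → ℝ, c * R ≤ a 0 → ψ a = 0 := fun a ha => by
      refine max_eq_left ?_
      have := le_abs_self (a 0)
      linarith
    have lohi : ∀ a ∈ BS d ρ, lo M a ≤ hi M a := hsk.lohi M (by omega)
    have hfloor : ∀ a ∈ BS d ρ, c * R ≤ lo M a := hsk.floor M (by omega)
    have hbody : ∀ a ∈ BS d ρ, β M a ≤ τ M a →
        lo M a ≤ β M a ∧ τ M a ≤ hi M a ∧ c * R ≤ a 0 := hsk.body M (by omega)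
    have hloD : ∀ a, lo M a ≤ D a := fun a => j4_lo_le_D
    have hloU : ∀ a, lo M a ≤ U a := fun a => j4_lo_le_U
    have hDhi : ∀ a ∈ BS d ρ, D a ≤ hi M a := fun a ha => j4_D_le_hi (lohi a ha)
    have hUhi : ∀ a ∈ BS d ρ, U a ≤ hi M a := fun a ha => j4_U_le_hi (lohi a ha)
    have hDU : ∀ a, D a ≤ U a := fun a => j4_D_le_U
    have htop : ∀ a ∈ BS d ρ, hi M a + c * R ≤ h a := hh2 M (by omega)
    have htψ : ∀ t : ℝ, 0 ≤ t → t ≤ 1 → ∀ a, 0 ≤ t * ψ a ∧ t * ψ a ≤ c * R / 2 := by
      intro t ht0 ht1 a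
      refine ⟨mul_nonneg ht0 (hψ0 a), ?_⟩
      calc t * ψ a ≤ 1 * ψ a := mul_le_mul_of_nonneg_right ht1 (hψ0 a)
        _ = ψ a := one_mul _
        _ ≤ _ := hψ1 a
    have gfD : ∀ t : ℝ, 0 ≤ t → t ≤ 1 → GF (L + 1) (fun a => D a + t * ψ a) := by
      intro t ht0 ht1
      refine (GF.add gD (GF.smul gψ t)).mono ?_
      rw [abs_of_nonneg ht0, mul_one]
      linarith
    have gfU : ∀ t : ℝ, 0 ≤ t → t ≤ 1 → GF (L + 1) (fun a => U a + t * ψ a) := by
      intro t ht0 ht1
      refine (GF.add gU (GF.smul gψ t)).mono ?_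
      rw [abs_of_nonneg ht0, mul_one]
      linarith
    have hUsub : ∀ t : ℝ, 0 ≤ t → t ≤ 1 →
        ST ρ (fun a => D a + t * ψ a) M β τ ⊆ ST ρ h (M + 1) β τ := by
      rintro t ht0 ht1 a ⟨ha, h0, h1, h2⟩
      have h3 := htψ t ht0 ht1 a
      have h4 := hDhi a ha
      have h5 := htop a ha
      refine ⟨ha, h0, by simp only at h1; linarith, fun i hi' => ?_⟩
      rcases Nat.lt_succ_iff_lt_or_eq.1 hi' with h6 | rfl
      · exact h2 i h6
      · rintro ⟨h7, h8⟩
        obtain ⟨h9, h10, h11⟩ := hbody a ha (h7.trans h8)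
        have h12 : D a = β i a := j4_D_eq (h7.trans h8) h9 h10
        have h13 := hψz a h11
        simp only [h12, h13, mul_zero, add_zero] at h1
        linarith
    have hVsub : ∀ t : ℝ, 0 ≤ t → t ≤ 1 →
        LY ρ (fun a => U a + t * ψ a) h ⊆ ST ρ h (M + 1) β τ := by
      rintro t ht0 ht1 a ⟨ha, h1, h2⟩
      simp only at h1
      have h3 := htψ t ht0 ht1 a
      have h4 := hloU a
      have h5 := hfloor a ha
      refine ⟨ha, by linarith, h2, fun i hi' => ?_⟩
      rintro ⟨h7, h8⟩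
      rcases Nat.lt_succ_iff_lt_or_eq.1 hi' with h6 | rfl
      · obtain ⟨-, h10, -⟩ := hsk.body i (by omega) a ha (h7.trans h8)
        have h11 := hsk.step i M h6 (by omega) a ha
        linarith
      · obtain ⟨h9, h10, h11⟩ := hbody a ha (h7.trans h8)
        have h12 : U a = τ i a := j4_U_eq (h7.trans h8) h9 h10
        have h13 := hψz a h11
        simp only [h12, h13, mul_zero, add_zero] at h1
        linarith
    have hfin : volume (ST ρ h (M + 1) β τ) ≠ ⊤ := ST_finite (K := R) fun a ha => (hh1 a ha).2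
    have gfD' : GF (L + 1) D := gD.mono (by linarith)
    have hgoal : ∀ t : ℝ, 0 ≤ t → t ≤ 1 → (volume (ST ρ h (M + 1) β τ)).toReal ≤
        (volume (ST ρ (fun a => D a + t * ψ a) M β τ)).toReal +
          (volume (LY ρ (fun a => U a + t * ψ a) h)).toReal := by
      intro t ht0 ht1
      have hs : ST ρ h (M + 1) β τ ⊆ (ST ρ (fun a => D a + t * ψ a) M β τ ∪
          LY ρ (fun a => U a + t * ψ a) h) ∪ {a | a (Fin.last d) = D a + t * ψ a} := by
        rintro a ⟨ha, h0, h1, h2⟩
        rcases lt_trichotomy (a (Fin.last d)) (D a + t * ψ a) with h3 | h3 | h3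
        · exact Or.inl (Or.inl ⟨ha, h0, h3, fun i hi' => h2 i (by omega)⟩)
        · exact Or.inr h3
        · refine Or.inl (Or.inr ⟨ha, ?_, h1⟩)
          by_contra h4
          simp only [not_lt] at h4
          have h5 : D a < U a := by linarith
          have h6 : β M a ≤ τ M a := by
            by_contra h7
            have h8 : D a = U a := j4_D_eq_U (not_le.1 h7)
            linarith
          obtain ⟨h9, h10, h11⟩ := hbody a ha h6
          have h12 : D a = β M a := j4_D_eq h6 h9 h10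
          have h13 : U a = τ M a := j4_U_eq h6 h9 h10
          have h14 := hψz a h11
          rw [h12, h14, mul_zero, add_zero] at h3
          rw [h13, h14, mul_zero, add_zero] at h4
          exact h2 M (by omega) ⟨h3.le, h4⟩
      have h0 : volume {a : Fin (d + 1) → ℝ | a (Fin.last d) = D a + t * ψ a} = 0 :=
        GF.volume_graph (gfD t ht0 ht1)
      have hU' : volume (ST ρ (fun a => D a + t * ψ a) M β τ) ≠ ⊤ :=
        ne_top_of_le_ne_top hfin (measure_mono (hUsub t ht0 ht1))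
      have hV' : volume (LY ρ (fun a => U a + t * ψ a) h) ≠ ⊤ :=
        ne_top_of_le_ne_top hfin (measure_mono (hVsub t ht0 ht1))
      have h1 : volume (ST ρ h (M + 1) β τ) ≤ volume (ST ρ (fun a => D a + t * ψ a) M β τ) +
          volume (LY ρ (fun a => U a + t * ψ a) h) := by
        refine (measure_mono hs).trans ((measure_union_le _ _).trans ?_)
        rw [h0, add_zero]
        exact measure_union_le _ _
      rw [← ENNReal.toReal_add hU' hV']
      exact ENNReal.toReal_mono (ENNReal.add_ne_top.2 ⟨hU', hV'⟩) h1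
    refine Fill.split (by omega) hδ1 hfin (fun t => ST ρ (fun a => D a + t * ψ a) M β τ)
      (fun t => LY ρ (fun a => U a + t * ψ a) h) (zero_le_one) hUsub hVsub ?_ hgoal ?_ ?_ ?_ ?_
    · intro t ht0 ht1
      rw [Set.disjoint_left]
      rintro a ⟨_, _, h1, _⟩ ⟨_, h2, _⟩
      simp only at h1 h2
      have := hDU a
      linarith
    · refine ST_volume_continuous (L := L + 1) (K := R) gfD' (gψ.mono (by linarith)) hψ0
        (fun i hi' => (hskM.gβ i hi').mono (by linarith))
        (fun i hi' => (hskM.gτ i hi').mono (by linarith)) fun a ha => ?_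
      have h1 := hDhi a ha
      have h2 := hψ1 a
      have h3 := htop a ha
      have h4 := (hh1 a ha).2
      linarith
    · have h1 := H3 R hRR3 ρ M β τ lo hi D hskM hρ1 hρ2 gD fun a ha => by
        have h1 := hDhi a ha
        have h3 := htop a ha
        have h4 := (hh1 a ha).2
        have h5 := hfloor a ha
        have h6 := hloD a
        exact ⟨by linarith, by linarith⟩
      have e0 : (fun a => D a + 0 * ψ a) = D := by
        funext a
        ring
      have e1 : (fun a => D a + 1 * ψ a) = fun a => D a + max 0 (c * R / 2 - |a 0|) := by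
        funext a
        rw [one_mul]
      simp only [e0, e1]
      exact h1
    · intro t ht0 ht1
      refine H1 R hRR1 ρ β τ lo hi _ hskM hρ1 hρ2 (gfD t ht0 ht1) (fun a ha => ?_)
        fun i hi' a ha => ?_
      · have h1 := hDhi a ha
        have h3 := htop a ha
        have h4 := (hh1 a ha).2
        have h5 := hfloor a ha
        have h6 := hloD a
        have h7 := htψ t ht0 ht1 a
        exact ⟨by linarith, by linarith⟩
      · have h1 := hsk.step i M hi' (by omega) a ha
        have h6 := hloD a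
        have h7 := htψ t ht0 ht1 a
        linarith
    · intro t ht0 ht1
      refine H2 R hRR2 ρ _ h (gfU t ht0 ht1) hh (by linarith) hρ2 fun a ha => ?_
      have h1 := hUhi a ha
      have h3 := htop a ha
      have h4 := (hh1 a ha).2
      have h5 := hfloor a ha
      have h6 := hloU a
      have h7 := htψ t ht0 ht1 a
      exact ⟨by linarith, by linarith⟩

end Vale.Agent.P209.Strong
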