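import Vale.Agent.P209.Strong.J0

namespace Vale.Agent.P209.Strong

open MeasureTheory

/-! J5. The wedge is filled. -/

/-- The coordinate change: last coordinate, minus the sum, then the coordinates `1, …, d - 1`. -/
noncomputable def j5_G (e : ℕ) : (Fin (e + 2) → ℝ) ≃ₗ[ℝ] (Fin (e + 2) → ℝ) where
  toFun a := Fin.cons (a (Fin.last (e + 1)))
    (Fin.cons (-∑ j, a j) fun i : Fin e => a i.succ.castSucc : Fin (e + 1) → ℝ)
  invFun y := Fin.snoc (Fin.cons (-∑ j, y j) fun i : Fin e => y i.succ.succ : Fin (e + 1) → ℝ)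
    (y 0)
  map_add' a b := by
    funext j
    refine Fin.cases ?_ (fun i => Fin.cases ?_ (fun k => ?_) i) j
    · simp
    · simp [Finset.sum_add_distrib]; ring
    · simp
  map_smul' t a := by
    funext j
    refine Fin.cases ?_ (fun i => Fin.cases ?_ (fun k => ?_) i) j
    · simp
    · simp [Finset.mul_sum]
    · simp
  left_inv a := by
    funext j
    refine Fin.lastCases ?_ (fun i => Fin.cases ?_ (fun k => ?_) i) j
    · simp only [Fin.snoc_last, Fin.cons_zero]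
    · simp only [Fin.snoc_castSucc, Fin.cons_zero]
      rw [Fin.sum_univ_succ, Fin.cons_zero, Fin.sum_univ_succ]
      simp only [Fin.cons_succ, Fin.cons_zero]
      rw [Fin.sum_univ_castSucc (f := a), Fin.sum_univ_succ (f := fun i => a (Fin.castSucc i))]
      ring
    · simp only [Fin.snoc_castSucc, Fin.cons_succ]
  right_inv y := by
    funext j
    refine Fin.cases ?_ (fun i => Fin.cases ?_ (fun k => ?_) i) j
    · simp only [Fin.cons_zero, Fin.snoc_last]
    · simp only [Fin.cons_zero, Fin.cons_succ]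
      rw [Fin.sum_univ_castSucc]
      simp only [Fin.snoc_castSucc, Fin.snoc_last]
      rw [Fin.sum_univ_succ, Fin.cons_zero]
      simp only [Fin.cons_succ]
      rw [Fin.sum_univ_succ (f := y), Fin.sum_univ_succ (f := fun i => y (Fin.succ i))]
      ring
    · simp only [Fin.snoc_castSucc, Fin.cons_succ]

theorem j5_G_zero (e : ℕ) (a : Fin (e + 2) → ℝ) : j5_G e a 0 = a (Fin.last (e + 1)) := rfl

theorem j5_G_one (e : ℕ) (a : Fin (e + 2) → ℝ) : j5_G e a (Fin.succ 0) = -∑ j, a j := rfl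

theorem j5_G_succ (e : ℕ) (a : Fin (e + 2) → ℝ) (i : Fin e) :
    j5_G e a i.succ.succ = a i.succ.castSucc := rfl

theorem j5_symm_last (e : ℕ) (y : Fin (e + 2) → ℝ) :
    (j5_G e).symm y (Fin.last (e + 1)) = y 0 := by
  show (Fin.snoc (Fin.cons (-∑ j, y j) fun i : Fin e => y i.succ.succ : Fin (e + 1) → ℝ)
    (y 0) : Fin (e + 2) → ℝ) (Fin.last (e + 1)) = _
  rw [Fin.snoc_last]

theorem j5_symm_zero (e : ℕ) (y : Fin (e + 2) → ℝ) :
    (j5_G e).symm y (Fin.castSucc 0) = -∑ j, y j := by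
  show (Fin.snoc (Fin.cons (-∑ j, y j) fun i : Fin e => y i.succ.succ : Fin (e + 1) → ℝ)
    (y 0) : Fin (e + 2) → ℝ) (Fin.castSucc 0) = _
  rw [Fin.snoc_castSucc, Fin.cons_zero]

theorem j5_symm_succ (e : ℕ) (y : Fin (e + 2) → ℝ) (i : Fin e) :
    (j5_G e).symm y i.succ.castSucc = y i.succ.succ := by
  show (Fin.snoc (Fin.cons (-∑ j, y j) fun i : Fin e => y i.succ.succ : Fin (e + 1) → ℝ)
    (y 0) : Fin (e + 2) → ℝ) i.succ.castSucc = _
  rw [Fin.snoc_castSucc, Fin.cons_succ]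

theorem j5_single {n : ℕ} (i : Fin n) : (Pi.single i (1 : ℝ) : Fin n → ℝ) =
    fun k => (((Pi.single i (1 : ℤ) : Fin n → ℤ) k : ℤ) : ℝ) := by
  funext k
  by_cases h : k = i
  · subst h; simp
  · simp [Pi.single_eq_of_ne h]

theorem j5_int (e : ℕ) (i j : Fin (e + 2)) : ∃ z : ℤ, j5_G e (Pi.single i 1) j = z := by
  rw [j5_single]
  refine Fin.cases ?_ (fun k => Fin.cases ?_ (fun k => ?_) k) j
  · exact ⟨_, rfl⟩
  · refine ⟨-∑ j, (Pi.single i (1 : ℤ) : Fin (e + 2) → ℤ) j, ?_⟩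
    rw [j5_G_one]
    push_cast
    rfl
  · exact ⟨_, rfl⟩

theorem j5_int' (e : ℕ) (i j : Fin (e + 2)) :
    ∃ z : ℤ, (j5_G e).symm (Pi.single i 1) j = z := by
  rw [j5_single]
  refine Fin.lastCases ?_ (fun k => Fin.cases ?_ (fun k => ?_) k) j
  · exact ⟨_, by rw [j5_symm_last]⟩
  · refine ⟨-∑ j, (Pi.single i (1 : ℤ) : Fin (e + 2) → ℤ) j, ?_⟩
    rw [j5_symm_zero]
    push_cast
    rfl
  · exact ⟨_, by rw [j5_symm_succ]⟩

theorem j5_bsum (e : ℕ) (y : Fin (e + 2) → ℝ) :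
    bsum 2 (2 + e) y = ∑ i : Fin e, y i.succ.succ := by
  unfold bsum
  rw [Fin.sum_univ_succ, Fin.sum_univ_succ]
  have h : ∀ i : Fin e, (i : ℕ) + 1 + 1 < 2 + e := fun i => by have := i.2; omega
  simp [h]

theorem j5_bsum0 (e : ℕ) (a : Fin (e + 2) → ℝ) :
    bsum 0 (e + 1) a = ∑ k : Fin (e + 1), a k.castSucc := by
  unfold bsum
  rw [Fin.sum_univ_castSucc, if_neg (by rw [Fin.val_last]; omega), add_zero]
  refine Finset.sum_congr rfl fun k _ => ?_
  have := k.2
  rw [if_pos ⟨Nat.zero_le _, by rw [Fin.val_castSucc]; exact k.2⟩]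

theorem j5_bsum02 (e : ℕ) (a : Fin (e + 2) → ℝ) : bsum 0 2 a = a 0 + a (Fin.succ 0) := by
  unfold bsum
  rw [Fin.sum_univ_succ, Fin.sum_univ_succ]
  simp

theorem j5_bsum01 (e : ℕ) (a : Fin (e + 2) → ℝ) : bsum 0 1 a = a 0 := by
  unfold bsum
  rw [Fin.sum_univ_succ, Fin.sum_univ_succ]
  simp

/-- upper walls -/
noncomputable def j5_u (e : ℕ) (τ R : ℝ) : Fin (e + 2) → (Fin (e + 2) → ℝ) → ℝ :=
  fun j a => if (j : ℕ) < 2 then τ - bsum 0 j a else (R - bsum 0 2 a) - bsum 2 j a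

theorem j5_u_zero (e : ℕ) (τ R : ℝ) (a : Fin (e + 2) → ℝ) : j5_u e τ R 0 a = τ := by
  unfold j5_u
  rw [if_pos (by simp)]
  show τ - bsum 0 0 a = τ
  rw [HM.bsum_self, sub_zero]

theorem j5_u_one (e : ℕ) (τ R : ℝ) (a : Fin (e + 2) → ℝ) :
    j5_u e τ R (Fin.succ 0) a = τ - a 0 := by
  unfold j5_u
  rw [if_pos (by simp)]
  show τ - bsum 0 1 a = τ - a 0
  rw [j5_bsum01]

theorem j5_u_ge (e : ℕ) (τ R : ℝ) (j : Fin (e + 2)) (hj : 2 ≤ (j : ℕ)) (a : Fin (e + 2) → ℝ) :
    j5_u e τ R j a = (R - bsum 0 2 a) - bsum 2 j a := by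
  unfold j5_u
  rw [if_neg (by omega)]

/-- translation vector -/
noncomputable def j5_v (e : ℕ) (R : ℝ) : Fin (e + 2) → ℝ :=
  Fin.cons 0 (Fin.cons R fun _ : Fin e => 0 : Fin (e + 1) → ℝ)

theorem j5_iff (e : ℕ) {ρ R : ℝ} (hρ : 0 < ρ) (a : Fin (e + 2) → ℝ) :
    a ∈ WD (e + 1) ρ R ↔
      j5_G e a + j5_v e R ∈ boxSet (fun _ _ => 0) (j5_u e (R - ρ) R) := by
  set y := j5_G e a + j5_v e R with hy
  have y0 : y 0 = a (Fin.last (e + 1)) := by
    rw [hy, Pi.add_apply, j5_G_zero]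
    simp [j5_v]
  have y1 : y (Fin.succ 0) = R - ∑ j, a j := by
    rw [hy, Pi.add_apply, j5_G_one]
    simp only [j5_v, Fin.cons_succ, Fin.cons_zero]
    ring
  have y2 : ∀ i : Fin e, y i.succ.succ = a i.succ.castSucc := by
    intro i
    rw [hy, Pi.add_apply, j5_G_succ]
    simp [j5_v]
  have s1 : ∑ j, a j = a (Fin.castSucc 0) + ∑ i : Fin e, a i.succ.castSucc +
      a (Fin.last (e + 1)) := by
    rw [Fin.sum_univ_castSucc, Fin.sum_univ_succ]
  have s2 : bsum 0 (e + 1) a = ∑ j, a j - a (Fin.last (e + 1)) := by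
    rw [j5_bsum0, Fin.sum_univ_castSucc (f := a)]
    ring
  have s3 : bsum 2 (2 + e) y = ∑ i : Fin e, a i.succ.castSucc := by
    rw [j5_bsum]
    exact Finset.sum_congr rfl fun i _ => y2 i
  have hbox : y ∈ boxSet (fun _ _ => 0) (j5_u e (R - ρ) R) ↔
      (0 < y 0 ∧ y 0 < R - ρ) ∧ (0 < y (Fin.succ 0) ∧ y (Fin.succ 0) < R - ρ - y 0) ∧
      ∀ j : Fin (e + 2), 2 ≤ (j : ℕ) → (j : ℕ) < 2 + e →
        0 < y j ∧ y j < (R - bsum 0 2 y) - bsum 2 j y := by
    constructor
    · intro h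
      refine ⟨?_, ?_, fun j h1 h2 => ?_⟩
      · have h3 := h 0
        rw [j5_u_zero] at h3
        exact h3
      · have h3 := h (Fin.succ 0)
        rw [j5_u_one] at h3
        exact h3
      · have h3 := h j
        rw [j5_u_ge e _ _ j h1] at h3
        exact h3
    · rintro ⟨h1, h2, h3⟩ j
      by_cases hj : (j : ℕ) < 2
      · by_cases hj0 : (j : ℕ) = 0
        · have : j = 0 := Fin.ext hj0
          rw [this, j5_u_zero]
          exact h1
        · have : j = Fin.succ 0 := Fin.ext (by rw [Fin.val_succ, Fin.val_zero]; omega)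
          rw [this, j5_u_one]
          exact h2
      · rw [j5_u_ge e _ _ j (by omega)]
        exact h3 j (by omega) (by omega)
  rw [hbox, j5_bsum02]
  constructor
  · rintro ⟨⟨h1, h2⟩, h3⟩
    rw [s2] at h3
    have hl := h1 (Fin.last (e + 1))
    have hz := h1 (Fin.castSucc 0)
    refine ⟨⟨by rw [y0]; exact hl, by rw [y0]; linarith⟩,
      ⟨by rw [y1]; linarith, by rw [y1, y0]; linarith⟩, ?_⟩
    by_cases he : e = 0
    · intro j hj1 hj2
      omega
    · rw [HM.block_iff (by omega) (by omega)]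
      refine ⟨fun j hj1 hj2 => ?_, ?_⟩
      · obtain ⟨i, rfl⟩ : ∃ i : Fin e, j = i.succ.succ :=
          ⟨⟨(j : ℕ) - 2, by omega⟩, Fin.ext (by simp only [Fin.val_succ]; omega)⟩
        rw [y2]
        exact h1 _
      · rw [s3, y0, y1]
        linarith
  · rintro ⟨⟨h1, h2⟩, ⟨h3, h4⟩, h5⟩
    rw [y0] at h1 h2 h4
    rw [y1] at h3 h4
    have hcase : ∑ i : Fin e, a i.succ.castSucc < ∑ j, a j - a (Fin.last (e + 1)) ∧
        ∀ i : Fin e, 0 < a i.succ.castSucc := by
      by_cases he : e = 0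
      · subst he
        refine ⟨?_, fun i => i.elim0⟩
        simp only [Finset.univ_eq_empty, Finset.sum_empty]
        linarith
      · rw [HM.block_iff (by omega) (by omega)] at h5
        refine ⟨?_, fun i => ?_⟩
        · have h6 := h5.2
          rw [s3, y0, y1] at h6
          linarith
        · rw [← y2]
          exact h5.1 _ (by simp only [Fin.val_succ]; omega)
            (by have := i.2; simp only [Fin.val_succ]; omega)
    obtain ⟨h6, h7⟩ := hcase
    refine ⟨⟨fun j => ?_, by linarith⟩, ?_⟩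
    · refine Fin.lastCases ?_ (fun i => Fin.cases ?_ (fun k => ?_) i) j
      · exact h1
      · linarith
      · exact h7 k
    · rw [s2]
      linarith

theorem j5_image (e : ℕ) {ρ R : ℝ} (hρ : 0 < ρ) :
    (fun a => j5_G e a + j5_v e R) '' WD (e + 1) ρ R =
      boxSet (fun _ _ => 0) (j5_u e (R - ρ) R) := by
  ext y
  constructor
  · rintro ⟨a, ha, rfl⟩
    exact (j5_iff e hρ a).1 ha
  · intro h
    have e1 : j5_G e ((j5_G e).symm (y - j5_v e R)) + j5_v e R = y := by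
      rw [(j5_G e).apply_symm_apply, sub_add_cancel]
    refine ⟨(j5_G e).symm (y - j5_v e R), (j5_iff e hρ _).2 ?_, e1⟩
    rw [e1]
    exact h

theorem j5_u_walls (e : ℕ) (τ R : ℝ) : Walls (2 * ((e : ℝ) + 2)) (j5_u e τ R) := by
  constructor
  · intro j y y' h
    simp only [j5_u]
    split_ifs with hj
    · rw [D3_bsum_dep 0 j h]
    · rw [D3_bsum_dep 2 j h, HM.bsum_congr (k := 0) (j := 2) fun i _ hi => h i
        (Fin.lt_def.2 (by omega))]
  · intro j y y'
    have h0 : (0 : ℝ) ≤ dist y y' := dist_nonneg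
    have h1 := D3_bsum_lip 0 (j : ℕ) y y'
    have h2 := D3_bsum_lip 0 2 y y'
    have h3 := D3_bsum_lip 2 (j : ℕ) y y'
    push_cast at h1 h2 h3
    simp only [j5_u]
    split_ifs with hj
    · rw [show τ - bsum 0 (j : ℕ) y - (τ - bsum 0 (j : ℕ) y') =
        -(bsum 0 (j : ℕ) y - bsum 0 (j : ℕ) y') by ring, abs_neg]
      nlinarith
    · rw [show R - bsum 0 2 y - bsum 2 (j : ℕ) y - (R - bsum 0 2 y' - bsum 2 (j : ℕ) y') =
        -((bsum 0 2 y - bsum 0 2 y') + (bsum 2 (j : ℕ) y - bsum 2 (j : ℕ) y')) by ring, abs_neg]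
      refine (abs_add_le _ _).trans ?_
      linarith

theorem WD_fill (d : ℕ) (hd : 1 ≤ d) (c δ N : ℝ) (hc : 0 < c) (hδ : 0 < δ)
    (hδ1 : δ ≤ 1) (hN : 0 ≤ N) : ∃ R0 : ℝ, 0 < R0 ∧ ∀ R, R0 ≤ R →
      ∀ ρ : ℝ, c * R ≤ ρ → c * R ≤ R - ρ → Fill δ N (WD d ρ R) := by
  obtain ⟨e, rfl⟩ : ∃ e, d = e + 1 := ⟨d - 1, by omega⟩
  obtain ⟨R0, hR0, H⟩ := S2_of_S1 (e + 2) e (by omega) (S1_all (e + 2) (by omega) e) c
    (2 * ((e : ℝ) + 2)) δ N hc (by positivity) hδ hδ1 hN
  refine ⟨R0, hR0, fun R hR ρ h1 h2 => ?_⟩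
  have hRpos : 0 < R := hR0.trans_le hR
  have hcR : 0 < c * R := mul_pos hc hRpos
  have hρ : 0 < ρ := hcR.trans_le h1
  refine Fill.image (j5_G e) (j5_int e) (j5_int' e) (j5_v e R) ?_
  rw [j5_image e hρ]
  refine H R hR _ _ 0 (fun _ => R - ρ) (fun a => R - bsum 0 2 a) ?_
  exact
    { wl := ⟨fun _ _ _ _ => rfl, fun j y y' => by
        simp only [sub_self, abs_zero]
        exact mul_nonneg (by positivity) dist_nonneg⟩
      wu := j5_u_walls e _ _
      kb := by omega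
      intτ := ⟨R - ρ, fun _ => 0, fun _ _ => rfl, fun a => by simp⟩
      intσ := by
        refine ⟨R, fun j => if (j : ℕ) < 2 then -1 else 0, fun j hj => ?_, fun a => ?_⟩
        · simp only
          rw [if_neg (by omega)]
        · show R - bsum 0 2 a = _
          unfold bsum
          rw [sub_eq_add_neg, ← Finset.sum_neg_distrib]
          congr 1
          refine Finset.sum_congr rfl fun i _ => ?_
          by_cases hi : (i : ℕ) < 2
          · rw [if_pos ⟨Nat.zero_le _, hi⟩]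
            show -a i = (((if (i : ℕ) < 2 then -1 else 0 : ℤ)) : ℝ) * a i
            rw [if_pos hi]
            push_cast
            ring
          · rw [if_neg (fun h => hi h.2)]
            show -0 = (((if (i : ℕ) < 2 then -1 else 0 : ℤ)) : ℝ) * a i
            rw [if_neg hi]
            simp
      simτ := fun j _ hj => ⟨fun _ => rfl, fun a => by
        simp only [j5_u]
        rw [if_pos (by omega)]⟩
      simσ := fun j hj _ => ⟨fun _ => rfl, fun a => by
        simp only [j5_u]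
        rw [if_neg (by omega)]⟩
      fat := fun j a hj => by
        have := j.2
        omega
      sizeτ := fun a _ => ⟨h2, by linarith⟩
      sizeσ := fun a ha => by
        have h3 := ha 0 (by simp)
        have h4 := ha (Fin.succ 0) (by simp)
        rw [j5_u_zero] at h3
        rw [j5_u_one] at h4
        show c * R ≤ R - bsum 0 2 a ∧ R - bsum 0 2 a ≤ R
        rw [j5_bsum02]
        constructor
        · linarith [h4.2]
        · linarith [h3.1, h4.1] }

end Vale.Agent.P209.Strong
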