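import Vale.Agent.P209.Strong.J4
import Vale.Agent.P209.Strong.J5

namespace Vale.Agent.P209.Strong

open MeasureTheory

/-! J6. A simplex minus a stack of bodies is filled. -/

private theorem j6_sum {d : ℕ} (a : Fin (d + 1) → ℝ) :
    ∑ j, a j = bsum 0 d a + a (Fin.last d) := by
  unfold bsum
  rw [Fin.sum_univ_castSucc, Fin.sum_univ_castSucc]
  simp

private theorem j6_simplex {d : ℕ} {R : ℝ} (a : Fin (d + 1) → ℝ) :
    a ∈ simplex (d + 1) R ↔ (∀ j : Fin (d + 1), (j : ℕ) < d → 0 < a j) ∧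
      0 < a (Fin.last d) ∧ a (Fin.last d) < R - bsum 0 d a := by
  constructor
  · rintro ⟨h1, h2⟩
    rw [j6_sum] at h2
    exact ⟨fun j _ => h1 j, h1 _, by linarith⟩
  · rintro ⟨h1, h2, h3⟩
    refine ⟨fun j => ?_, ?_⟩
    · by_cases hj : (j : ℕ) < d
      · exact h1 j hj
      · have : j = Fin.last d := by
          apply Fin.ext
          have := j.2
          simp only [Fin.val_last]
          omega
        rw [this]
        exact h2
    · rw [j6_sum]
      linarith

private theorem j6_bsum_nonneg {d : ℕ} {a : Fin (d + 1) → ℝ}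
    (h : ∀ j : Fin (d + 1), (j : ℕ) < d → 0 < a j) : 0 ≤ bsum 0 d a := by
  unfold bsum
  refine Finset.sum_nonneg fun i _ => ?_
  split_ifs with h1
  · exact (h i h1.2).le
  · exact le_rfl

private theorem j6_le_bsum {d : ℕ} (hd : 1 ≤ d) {a : Fin (d + 1) → ℝ}
    (h : ∀ j : Fin (d + 1), (j : ℕ) < d → 0 < a j) : a 0 ≤ bsum 0 d a := by
  unfold bsum
  have h6 : (if 0 ≤ ((0 : Fin (d + 1)) : ℕ) ∧ ((0 : Fin (d + 1)) : ℕ) < d then a 0 else 0) ≤
      ∑ i : Fin (d + 1), if 0 ≤ (i : ℕ) ∧ (i : ℕ) < d then a i else 0 := by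
    refine Finset.single_le_sum
      (f := fun i : Fin (d + 1) => if 0 ≤ (i : ℕ) ∧ (i : ℕ) < d then a i else 0)
      (fun i _ => ?_) (Finset.mem_univ 0)
    show 0 ≤ (if 0 ≤ (i : ℕ) ∧ (i : ℕ) < d then a i else 0)
    split_ifs with h7
    · exact (h i h7.2).le
    · exact le_rfl
  rw [if_pos ⟨Nat.zero_le _, by rw [Fin.val_zero]; omega⟩] at h6
  exact h6

private theorem j6_bsum_le {d : ℕ} (hd : 1 ≤ d) {a : Fin (d + 1) → ℝ} {x e : ℝ}
    (h0 : a 0 ≤ x + e) (h : ∀ j : Fin (d + 1), j ≠ 0 → (j : ℕ) < d → a j ≤ e) (he : 0 ≤ e) :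
    bsum 0 d a ≤ x + (d + 1 : ℝ) * e := by
  unfold bsum
  rw [Fin.sum_univ_succ, if_pos ⟨Nat.zero_le _, by rw [Fin.val_zero]; omega⟩]
  have h1 : ∑ i : Fin d, (if 0 ≤ ((i.succ : Fin (d + 1)) : ℕ) ∧
      ((i.succ : Fin (d + 1)) : ℕ) < d then a i.succ else 0) ≤ ∑ _i : Fin d, e := by
    refine Finset.sum_le_sum fun i _ => ?_
    split_ifs with h2
    · exact h _ (Fin.succ_ne_zero i) h2.2
    · exact he
  rw [Finset.sum_const, Finset.card_univ, Fintype.card_fin, nsmul_eq_mul] at h1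
  linarith

private theorem j6_null {d : ℕ} (hd : 1 ≤ d) (x : ℝ) :
    volume {a : Fin (d + 1) → ℝ | bsum 0 d a = x} = 0 := by
  have h := volume_affine_zero (n := d + 1) (fun i => if (i : ℕ) < d then (1 : ℝ) else 0) (by
    intro h0
    have := congrFun h0 0
    rw [if_pos (by rw [Fin.val_zero]; omega)] at this
    simp at this) x
  have e : {a : Fin (d + 1) → ℝ | bsum 0 d a = x} =
      {a | ∑ i : Fin (d + 1), (if (i : ℕ) < d then (1 : ℝ) else 0) * a i = x} := by
    ext a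
    have : bsum 0 d a = ∑ i : Fin (d + 1), (if (i : ℕ) < d then (1 : ℝ) else 0) * a i := by
      unfold bsum
      refine Finset.sum_congr rfl fun i _ => ?_
      by_cases hi : (i : ℕ) < d
      · rw [if_pos ⟨Nat.zero_le _, hi⟩, if_pos hi, one_mul]
      · rw [if_neg (fun h => hi h.2), if_neg hi, zero_mul]
    simp only [Set.mem_ofPred_eq, this]
  rw [e]
  exact h

theorem SX_fill (d : ℕ) (hd : 1 ≤ d) (c κ L δ N : ℝ) (hc : 0 < c) (hcκ : c ≤ κ) (hκ : κ ≤ 1 / 4)
    (hL : (d : ℝ) ≤ L) (hδ : 0 < δ) (hδ1 : δ ≤ 1) (hN : 0 ≤ N) (M : ℕ) :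
    ∃ R0 : ℝ, 0 < R0 ∧ ∀ R, R0 ≤ R → ∀ β τ lo hi : ℕ → (Fin (d + 1) → ℝ) → ℝ,
      SK c L R ((1 - κ) * R) M β τ lo hi →
      (∀ i < M, ∀ a ∈ BS d ((1 - κ) * R), hi i a + c * R ≤ R - bsum 0 d a) →
      (∀ i < M, ∀ a ∈ simplex (d + 1) R, β i a ≤ a (Fin.last d) → a (Fin.last d) ≤ τ i a →
        bsum 0 d a ≤ (1 - 2 * κ) * R) →
      Fill δ N {a | a ∈ simplex (d + 1) R ∧
        ∀ i < M, ¬ (β i a ≤ a (Fin.last d) ∧ a (Fin.last d) ≤ τ i a)} := by
  have hd0 : (0 : ℝ) ≤ d := Nat.cast_nonneg d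
  have hL0 : 0 ≤ L := hd0.trans hL
  have hκ0 : 0 < κ := hc.trans_le hcκ
  obtain ⟨R1, hR1, H1⟩ := ST_fill d hd c L δ N hc hL0 hδ hδ1 hN M
  obtain ⟨R2, hR2, H2⟩ := WD_fill d hd c δ N hc hδ hδ1 hN
  refine ⟨max R1 (max R2 (16 * (d + 1) / κ)), lt_max_of_lt_left hR1, ?_⟩
  intro R hR β τ lo hi hsk hhi hbody
  have hRR1 : R1 ≤ R := (le_max_left _ _).trans hR
  have hRR2 : R2 ≤ R := ((le_max_left _ _).trans (le_max_right _ _)).trans hR
  have hRR3 : 16 * (d + 1) / κ ≤ R := ((le_max_right _ _).trans (le_max_right _ _)).trans hR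
  have hR0 : 0 < R := hR1.trans_le hRR1
  have hcR : c * R ≤ κ * R := mul_le_mul_of_nonneg_right hcκ hR0.le
  have hκR : 0 < κ * R := mul_pos hκ0 hR0
  have hκR4 : κ * R ≤ R / 4 := by nlinarith
  obtain ⟨h, hh⟩ : ∃ h : (Fin (d + 1) → ℝ) → ℝ, h = fun a => R - bsum 0 d a := ⟨_, rfl⟩
  have hha : ∀ a, h a = R - bsum 0 d a := fun a => by rw [hh]
  have gh : GF (L + 1) h := by
    rw [hh]
    exact ((GF.const (d := d) R le_rfl).sub (GF_bsum d)).mono (by linarith)
  have hhR : ∀ x, ∀ a ∈ BS d x, h a ≤ R := fun x a ha => by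
    rw [hha]
    linarith [j6_bsum_nonneg ha.1]
  have hΩ : {a | a ∈ simplex (d + 1) R ∧
      ∀ i < M, ¬ (β i a ≤ a (Fin.last d) ∧ a (Fin.last d) ≤ τ i a)} = ST R h M β τ := by
    ext a
    simp only [ST, BS, Set.mem_ofPred_eq, j6_simplex, hha]
    constructor
    · rintro ⟨⟨h1, h2, h3⟩, h4⟩
      exact ⟨⟨h1, by linarith⟩, h2, h3, h4⟩
    · rintro ⟨⟨h1, _⟩, h2, h3, h4⟩
      exact ⟨⟨h1, h2, h3⟩, h4⟩
  have hU : ∀ x, x ≤ R → ST x h M β τ = ST R h M β τ ∩ {a | bsum 0 d a < x} := by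
    intro x hx
    ext a
    simp only [ST, BS, Set.mem_ofPred_eq, Set.mem_inter_iff]
    constructor
    · rintro ⟨⟨h1, h2⟩, h3⟩
      exact ⟨⟨⟨h1, h2.trans_le hx⟩, h3⟩, h2⟩
    · rintro ⟨⟨⟨h1, _⟩, h3⟩, h2⟩
      exact ⟨⟨h1, h2⟩, h3⟩
  have hsimp : ∀ a ∈ ST R h M β τ, a ∈ simplex (d + 1) R := by
    intro a ha
    rw [← hΩ] at ha
    exact ha.1
  have hfin : ∀ x, volume (ST x h M β τ) ≠ ⊤ := fun x => ST_finite (hhR x)
  rw [hΩ]
  have hopen : IsOpen (ST R h M β τ) := ST_open gh hsk.gβ hsk.gτ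
  refine Fill.split (n := d + 1) (by omega) hδ1 (hfin R) (fun x => ST x h M β τ)
    (fun x => WD d x R) (c₀ := (1 - 2 * κ) * R) (c₁ := (1 - κ) * R) (by nlinarith)
    ?_ ?_ ?_ ?_ ?_ ?_ ?_ ?_
  · intro x _ hx1
    show ST x h M β τ ⊆ _
    rw [hU x (by nlinarith)]
    exact Set.inter_subset_left
  · intro x hx0 _ a ha
    rw [← hΩ]
    refine ⟨ha.1, fun i hiM hb => ?_⟩
    have h1 := hbody i hiM a ha.1 hb.1 hb.2
    have h2 : x < bsum 0 d a := ha.2
    linarith
  · intro x _ _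
    rw [Set.disjoint_left]
    intro a ha hb
    have h1 : bsum 0 d a < x := ha.1.2
    have h2 : x < bsum 0 d a := hb.2
    linarith
  · intro x hx0 hx1
    have hsub : ST R h M β τ ⊆ (ST x h M β τ ∪ WD d x R) ∪ {a | bsum 0 d a = x} := by
      intro a ha
      rcases lt_trichotomy (bsum 0 d a) x with h1 | h1 | h1
      · refine Or.inl (Or.inl ?_)
        rw [hU x (by nlinarith)]
        exact ⟨ha, h1⟩
      · exact Or.inr h1
      · exact Or.inl (Or.inr ⟨hsimp a ha, h1⟩)
    have hW : volume (WD d x R) ≠ ⊤ := by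
      refine ne_top_of_le_ne_top (hfin R) (measure_mono fun a ha => ?_)
      rw [← hΩ]
      refine ⟨ha.1, fun i hiM hb => ?_⟩
      have h1 := hbody i hiM a ha.1 hb.1 hb.2
      have h2 : x < bsum 0 d a := ha.2
      linarith
    have h1 : volume (ST R h M β τ) ≤ volume (ST x h M β τ) + volume (WD d x R) := by
      refine (measure_mono hsub).trans ((measure_union_le _ _).trans ?_)
      rw [j6_null hd, add_zero]
      exact measure_union_le _ _
    rw [← ENNReal.toReal_add (hfin x) hW]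
    exact ENNReal.toReal_mono (ENNReal.add_ne_top.2 ⟨hfin x, hW⟩) h1
  · have hcont := volume_lt_continuous (hfin R) hopen.measurableSet
      (f := fun a => bsum 0 d a) (g := fun _ => (1 : ℝ)) (GF_bsum d).continuous.measurable
      measurable_const (fun _ _ => one_pos) (fun x => by
        refine measure_mono_null ?_ (j6_null hd x)
        rintro a ⟨_, ha⟩
        simpa using ha)
    refine hcont.continuousOn.congr fun x hx => ?_
    have hx1 := hx.2
    show (volume (ST x h M β τ)).toReal = _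
    rw [hU x (by nlinarith)]
    simp only [mul_one]
  · show (volume (ST ((1 - 2 * κ) * R) h M β τ)).toReal + 1 / ((d + 1).factorial : ℝ) <
      (volume (ST ((1 - κ) * R) h M β τ)).toReal
    set e : ℝ := κ * R / (8 * (d + 1)) with he
    have hd1 : (0 : ℝ) < d + 1 := by linarith
    have he8 : 8 * ((d + 1 : ℝ) * e) = κ * R := by
      rw [he]; field_simp
    have he2 : 2 ≤ e := by
      rw [he, le_div_iff₀ (by positivity)]
      rw [div_le_iff₀ hκ0] at hRR3
      linarith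
    have he0 : 0 < e := by linarith
    have hee : e ≤ (d + 1 : ℝ) * e := by nlinarith
    set l : Fin (d + 1) → ℝ := fun j => if j = 0 then (1 - 2 * κ) * R else 0 with hl
    set B : Set (Fin (d + 1) → ℝ) := Set.pi Set.univ fun j => Set.Ioo (l j) (l j + e) with hB
    have hBm : MeasurableSet B := MeasurableSet.univ_pi fun _ => measurableSet_Ioo
    have hBv : volume B = ENNReal.ofReal (e ^ (d + 1)) := by
      rw [hB, Real.volume_pi_Ioo]
      simp only [add_sub_cancel_left, Finset.prod_const, Finset.card_univ, Fintype.card_fin]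
      rw [ENNReal.ofReal_pow he0.le]
    have hBa : ∀ a ∈ B, (∀ j, 0 < a j) ∧ (1 - 2 * κ) * R < bsum 0 d a ∧
        bsum 0 d a ≤ (1 - 2 * κ) * R + (d + 1 : ℝ) * e ∧ a (Fin.last d) < e := by
      intro a ha
      have h1 : ∀ j, l j < a j ∧ a j < l j + e := fun j => ha j (Set.mem_univ j)
      have h0 := h1 0
      rw [hl] at h0
      simp only [if_pos] at h0
      have h2 : ∀ j, 0 < a j := by
        intro j
        by_cases hj : j = 0
        · rw [hj]; nlinarith [h0.1]
        · have := h1 j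
          rw [hl] at this
          simp only [if_neg hj] at this
          exact this.1
      refine ⟨h2, h0.1.trans_le (j6_le_bsum hd fun j _ => h2 j), ?_, ?_⟩
      · refine j6_bsum_le hd h0.2.le (fun j hj _ => ?_) he0.le
        have := h1 j
        rw [hl] at this
        simp only [if_neg hj] at this
        linarith [this.2]
      · have := h1 (Fin.last d)
        rw [hl] at this
        have hne : Fin.last d ≠ 0 := by
          intro h0
          have := congrArg Fin.val h0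
          simp at this
          omega
        simp only [if_neg hne] at this
        linarith [this.2]
    have hsub : ST ((1 - 2 * κ) * R) h M β τ ∪ B ⊆ ST ((1 - κ) * R) h M β τ := by
      rintro a (ha | ha)
      · exact ⟨BS_mono d (by nlinarith) ha.1, ha.2⟩
      · obtain ⟨h1, h2, h3, h4⟩ := hBa a ha
        have h5 : a ∈ simplex (d + 1) R := by
          rw [j6_simplex]
          exact ⟨fun j _ => h1 j, h1 _, by linarith⟩
        refine ⟨⟨fun j _ => h1 j, by linarith⟩, h1 _, ?_, fun i hiM hb => ?_⟩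
        · rw [hha]; linarith
        · have h6 := hbody i hiM a h5 hb.1 hb.2
          linarith
    have hdisj : Disjoint (ST ((1 - 2 * κ) * R) h M β τ) B := by
      rw [Set.disjoint_left]
      intro a ha hb
      have h1 : bsum 0 d a < (1 - 2 * κ) * R := ha.1.2
      linarith [(hBa a hb).2.1]
    have h1 : volume (ST ((1 - 2 * κ) * R) h M β τ) + volume B ≤
        volume (ST ((1 - κ) * R) h M β τ) := by
      rw [← measure_union hdisj hBm]
      exact measure_mono hsub
    have h2 := ENNReal.toReal_mono (hfin _) h1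
    have hBt : volume B ≠ ⊤ := by rw [hBv]; exact ENNReal.ofReal_ne_top
    rw [ENNReal.toReal_add (hfin _) hBt, hBv, ENNReal.toReal_ofReal (by positivity)] at h2
    have h3 : 1 / ((d + 1).factorial : ℝ) ≤ 1 := by
      rw [div_le_one (by positivity)]
      exact_mod_cast Nat.one_le_iff_ne_zero.2 (Nat.factorial_ne_zero _)
    have h4 : 1 < e ^ (d + 1) := one_lt_pow₀ (by linarith) (by omega)
    linarith
  · intro x hx0 hx1
    show Fill δ N (ST x h M β τ)
    have hsub : BS d x ⊆ BS d ((1 - κ) * R) := BS_mono d hx1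
    refine H1 R hRR1 x β τ lo hi h ⟨hsk.gβ, hsk.gτ, hsk.glo, hsk.ghi,
      fun i hiM a ha => hsk.floor i hiM a (hsub ha), fun i hiM a ha => hsk.lohi i hiM a (hsub ha),
      fun i j hij hj a ha => hsk.step i j hij hj a (hsub ha),
      fun i hiM a ha => hsk.body i hiM a (hsub ha)⟩ (by nlinarith) (by nlinarith) gh
      (fun a ha => ⟨?_, hhR x a ha⟩) (fun i hiM a ha => ?_)
    · rw [hha]
      have := ha.2
      nlinarith
    · rw [hha]
      exact hhi i hiM a (hsub ha)
  · intro x hx0 hx1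
    exact H2 R hRR2 x (by nlinarith) (by nlinarith)

end Vale.Agent.P209.Strong
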