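import Vale.Agent.P209.Strong.J1

namespace Vale.Agent.P209.Strong

open MeasureTheory

/-! J7. Separation of vertically ordered compact sets by Lipschitz graphs. -/

theorem j7_upd_eq {d : ℕ} {y y' : Fin (d + 1) → ℝ}
    (h : ∀ i : Fin (d + 1), (i : ℕ) < d → y i = y' i) :
    Function.update y (Fin.last d) 0 = Function.update y' (Fin.last d) 0 := by
  funext i
  by_cases hi : i = Fin.last d
  · rw [hi, Function.update_self, Function.update_self]
  · rw [Function.update_of_ne hi, Function.update_of_ne hi]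
    refine h i ?_
    have h1 := i.2
    have h2 : (i : ℕ) ≠ d := fun hc => hi (Fin.ext hc)
    omega

theorem j7_upd_inv {d : ℕ} {y y' : Fin (d + 1) → ℝ}
    (h : Function.update y (Fin.last d) 0 = Function.update y' (Fin.last d) 0)
    (i : Fin (d + 1)) (hi : (i : ℕ) < d) : y i = y' i := by
  have hi' : i ≠ Fin.last d := fun hc => by
    rw [hc, Fin.val_last] at hi
    exact lt_irrefl _ hi
  have h1 := congrFun h i
  rwa [Function.update_of_ne hi', Function.update_of_ne hi'] at h1

theorem j7_upd_dist {d : ℕ} (y y' : Fin (d + 1) → ℝ) :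
    dist (Function.update y (Fin.last d) 0) (Function.update y' (Fin.last d) 0) ≤ dist y y' := by
  refine (dist_pi_le_iff dist_nonneg).2 fun i => ?_
  by_cases hi : i = Fin.last d
  · rw [hi, Function.update_self, Function.update_self, dist_self]
    exact dist_nonneg
  · rw [Function.update_of_ne hi, Function.update_of_ne hi]
    exact dist_le_pi_dist y y' i

theorem j7_upd_cont (d : ℕ) :
    Continuous fun y : Fin (d + 1) → ℝ => Function.update y (Fin.last d) (0 : ℝ) :=
  continuous_id.update _ continuous_const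

/-- Two compact sets, the first below the second. -/
theorem sep_pair {d : ℕ} {A B : Set (Fin (d + 1) → ℝ)} (hA : IsCompact A) (hB : IsCompact B)
    (h : ∀ a ∈ A, ∀ b ∈ B, (∀ k : Fin (d + 1), (k : ℕ) < d → a k = b k) →
      a (Fin.last d) < b (Fin.last d)) :
    ∃ K g : ℝ, 0 ≤ K ∧ 0 < g ∧ ∀ a ∈ A, ∀ b ∈ B, a (Fin.last d) + g ≤
      b (Fin.last d) + K * dist (Function.update a (Fin.last d) 0)
        (Function.update b (Fin.last d) 0) := by
  rcases (A ×ˢ B).eq_empty_or_nonempty with he | hne
  · refine ⟨0, 1, le_rfl, one_pos, fun a ha b hb => ?_⟩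
    have : (a, b) ∈ A ×ˢ B := ⟨ha, hb⟩
    rw [he] at this
    exact absurd this (Set.notMem_empty _)
  have hAB : IsCompact (A ×ˢ B) := hA.prod hB
  have hu : Continuous fun p : (Fin (d + 1) → ℝ) × (Fin (d + 1) → ℝ) =>
      p.2 (Fin.last d) - p.1 (Fin.last d) := by fun_prop
  have hD : Continuous fun p : (Fin (d + 1) → ℝ) × (Fin (d + 1) → ℝ) =>
      dist (Function.update p.1 (Fin.last d) (0 : ℝ)) (Function.update p.2 (Fin.last d) (0 : ℝ)) :=
    ((j7_upd_cont d).comp continuous_fst).dist ((j7_upd_cont d).comp continuous_snd)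
  obtain ⟨p, hp, hpmin⟩ := hAB.exists_isMinOn hne
    (f := fun p => dist (Function.update p.1 (Fin.last d) (0 : ℝ))
      (Function.update p.2 (Fin.last d) (0 : ℝ)) + max (p.2 (Fin.last d) - p.1 (Fin.last d)) 0)
    (hD.add (hu.max continuous_const)).continuousOn
  obtain ⟨p', hp', hmin'⟩ := hAB.exists_isMinOn hne hu.continuousOn
  obtain ⟨m, hm⟩ : ∃ m, m = dist (Function.update p.1 (Fin.last d) (0 : ℝ))
      (Function.update p.2 (Fin.last d) (0 : ℝ)) + max (p.2 (Fin.last d) - p.1 (Fin.last d)) 0 :=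
    ⟨_, rfl⟩
  have hm0 : 0 < m := by
    rw [hm]
    by_contra hc
    have h1 : 0 ≤ dist (Function.update p.1 (Fin.last d) (0 : ℝ))
      (Function.update p.2 (Fin.last d) (0 : ℝ)) := dist_nonneg
    have h2 := le_max_right (p.2 (Fin.last d) - p.1 (Fin.last d)) 0
    have h3 := le_max_left (p.2 (Fin.last d) - p.1 (Fin.last d)) 0
    have h4 : dist (Function.update p.1 (Fin.last d) (0 : ℝ))
      (Function.update p.2 (Fin.last d) (0 : ℝ)) = 0 := by linarith
    have h5 := h p.1 hp.1 p.2 hp.2 (j7_upd_inv (dist_eq_zero.1 h4))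
    linarith
  obtain ⟨c, hc⟩ : ∃ c, c = |p'.2 (Fin.last d) - p'.1 (Fin.last d)| := ⟨_, rfl⟩
  have hc0 : 0 ≤ c := hc ▸ abs_nonneg _
  refine ⟨(c + m / 2) * (2 / m), m / 2, by positivity, by positivity, fun a ha b hb => ?_⟩
  have h1 : m ≤ dist (Function.update a (Fin.last d) (0 : ℝ))
      (Function.update b (Fin.last d) (0 : ℝ)) + max (b (Fin.last d) - a (Fin.last d)) 0 := by
    rw [hm]
    exact hpmin (a := (a, b)) ⟨ha, hb⟩
  have h2 : -c ≤ b (Fin.last d) - a (Fin.last d) := by
    have h3 : p'.2 (Fin.last d) - p'.1 (Fin.last d) ≤ b (Fin.last d) - a (Fin.last d) :=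
      hmin' (a := (a, b)) ⟨ha, hb⟩
    have h4 := neg_abs_le (p'.2 (Fin.last d) - p'.1 (Fin.last d))
    rw [← hc] at h4
    linarith
  have hK : 0 ≤ (c + m / 2) * (2 / m) := by positivity
  rcases le_or_gt (m / 2) (b (Fin.last d) - a (Fin.last d)) with h3 | h3
  · have h4 := mul_nonneg hK (dist_nonneg (x := Function.update a (Fin.last d) (0 : ℝ))
      (y := Function.update b (Fin.last d) (0 : ℝ)))
    linarith
  · have h4 : max (b (Fin.last d) - a (Fin.last d)) 0 ≤ m / 2 := max_le h3.le (by positivity)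
    have h5 : m / 2 ≤ dist (Function.update a (Fin.last d) (0 : ℝ))
      (Function.update b (Fin.last d) (0 : ℝ)) := by linarith
    have h6 : (c + m / 2) * (2 / m) * (m / 2) ≤ (c + m / 2) * (2 / m) *
        dist (Function.update a (Fin.last d) (0 : ℝ)) (Function.update b (Fin.last d) (0 : ℝ)) :=
      mul_le_mul_of_nonneg_left h5 hK
    have h7 : (c + m / 2) * (2 / m) * (m / 2) = c + m / 2 := by
      field_simp
    linarith

/-- The upper envelope of a compact set. -/
theorem exists_envelope {d : ℕ} {A : Set (Fin (d + 1) → ℝ)} (hA : IsCompact A)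
    (hA' : A.Nonempty) {K : ℝ} (hK : 0 ≤ K) :
    ∃ T : (Fin (d + 1) → ℝ) → ℝ, GF K T ∧ (∀ a ∈ A, a (Fin.last d) ≤ T a) ∧
      (∀ (x : Fin (d + 1) → ℝ) (m : ℝ), (∀ a ∈ A, a (Fin.last d) ≤
        m + K * dist (Function.update a (Fin.last d) 0) (Function.update x (Fin.last d) 0)) →
        T x ≤ m) := by
  have hbdd : ∀ x : Fin (d + 1) → ℝ, BddAbove ((fun a : Fin (d + 1) → ℝ => a (Fin.last d) -
      K * dist (Function.update a (Fin.last d) (0 : ℝ))
        (Function.update x (Fin.last d) (0 : ℝ))) '' A) := fun x =>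
    hA.bddAbove_image ((continuous_apply _).sub (continuous_const.mul
      ((j7_upd_cont d).dist continuous_const))).continuousOn
  have hle : ∀ y y' : Fin (d + 1) → ℝ,
      sSup ((fun a : Fin (d + 1) → ℝ => a (Fin.last d) -
        K * dist (Function.update a (Fin.last d) (0 : ℝ))
          (Function.update y (Fin.last d) (0 : ℝ))) '' A) ≤
      sSup ((fun a : Fin (d + 1) → ℝ => a (Fin.last d) -
        K * dist (Function.update a (Fin.last d) (0 : ℝ))
          (Function.update y' (Fin.last d) (0 : ℝ))) '' A) + K * dist y y' := by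
    intro y y'
    refine csSup_le (hA'.image _) ?_
    rintro _ ⟨a, ha, rfl⟩
    have h1 := le_csSup (hbdd y') ⟨a, ha, rfl⟩
    have h2 : dist (Function.update a (Fin.last d) (0 : ℝ))
        (Function.update y' (Fin.last d) (0 : ℝ)) ≤
        dist (Function.update a (Fin.last d) (0 : ℝ)) (Function.update y (Fin.last d) (0 : ℝ)) +
        dist y y' := (dist_triangle _ _ _).trans (add_le_add le_rfl (j7_upd_dist y y'))
    have h3 := mul_le_mul_of_nonneg_left h2 hK
    simp only at h1 ⊢
    linarith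
  refine ⟨fun x => sSup ((fun a : Fin (d + 1) → ℝ => a (Fin.last d) -
      K * dist (Function.update a (Fin.last d) (0 : ℝ))
        (Function.update x (Fin.last d) (0 : ℝ))) '' A), ⟨fun y y' hy => ?_, fun y y' => ?_⟩,
    fun a ha => ?_, fun x m hx => ?_⟩
  · simp only [j7_upd_eq hy]
  · have h1 := hle y y'
    have h2 := hle y' y
    rw [dist_comm y' y] at h2
    exact abs_le.2 ⟨by linarith, by linarith⟩
  · have h1 := le_csSup (hbdd a) ⟨a, ha, rfl⟩
    simp only [dist_self, mul_zero, sub_zero] at h1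
    exact h1
  · refine csSup_le (hA'.image _) ?_
    rintro _ ⟨a, ha, rfl⟩
    have h1 := hx a ha
    simp only
    linarith

end Vale.Agent.P209.Strong
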