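import Vale.Agent.P209.Strong.J7

namespace Vale.Agent.P209.Strong

open MeasureTheory

/-! J8. Separation of the bodies, the floor and the ceiling. -/

theorem j8_bsum_sum {d : ℕ} (a : Fin (d + 1) → ℝ) :
    ∑ j, a j = bsum 0 d a + a (Fin.last d) := by
  unfold bsum
  rw [Fin.sum_univ_castSucc, Fin.sum_univ_castSucc
    (f := fun i : Fin (d + 1) => if 0 ≤ (i : ℕ) ∧ (i : ℕ) < d then a i else 0)]
  simp

theorem j8_bsum_congr {d : ℕ} {a b : Fin (d + 1) → ℝ}
    (h : ∀ k : Fin (d + 1), (k : ℕ) < d → a k = b k) : bsum 0 d a = bsum 0 d b := by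
  unfold bsum
  refine Finset.sum_congr rfl fun i _ => ?_
  split_ifs with h1
  · exact h i h1.2
  · rfl

theorem j8_update {d : ℕ} (a : Fin (d + 1) → ℝ) (t : ℝ) (k : Fin (d + 1)) (hk : (k : ℕ) < d) :
    Function.update a (Fin.last d) t k = a k := by
  refine Function.update_of_ne (fun h => ?_) _ _
  rw [h] at hk
  simp at hk

theorem j8_le_bsum {d : ℕ} {a : Fin (d + 1) → ℝ}
    (h : ∀ j : Fin (d + 1), (j : ℕ) < d → 0 ≤ a j) (j : Fin (d + 1)) (hj : (j : ℕ) < d) :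
    a j ≤ bsum 0 d a := by
  have h1 := Finset.single_le_sum
    (f := fun i : Fin (d + 1) => if 0 ≤ (i : ℕ) ∧ (i : ℕ) < d then a i else 0)
    (fun i _ => by
      split_ifs with h2
      · exact h i h2.2
      · exact le_rfl) (Finset.mem_univ j)
  simpa [hj, bsum] using h1

theorem j8_bsum_nonneg {d : ℕ} {a : Fin (d + 1) → ℝ}
    (h : ∀ j : Fin (d + 1), (j : ℕ) < d → 0 ≤ a j) : 0 ≤ bsum 0 d a := by
  unfold bsum
  refine Finset.sum_nonneg fun i _ => ?_
  split_ifs with h1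
  · exact h i h1.2
  · exact le_rfl

theorem j8_bsum_cont {d : ℕ} : Continuous fun a : Fin (d + 1) → ℝ => bsum 0 d a := by
  unfold bsum
  refine continuous_finsetSum _ fun i _ => ?_
  split_ifs
  · exact continuous_apply i
  · exact continuous_const

theorem j8_compact {d : ℕ} {ρ : ℝ} (hρ : ρ ≤ 1) {f : (Fin (d + 1) → ℝ) → ℝ}
    (hf : Continuous f)
    (h0 : ∀ a : Fin (d + 1) → ℝ, 0 ≤ bsum 0 d a → bsum 0 d a ≤ ρ → 0 ≤ f a ∧ f a ≤ 1) :
    IsCompact {a : Fin (d + 1) → ℝ | (∀ j : Fin (d + 1), (j : ℕ) < d → 0 ≤ a j) ∧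
      bsum 0 d a ≤ ρ ∧ a (Fin.last d) = f a} := by
  have h1 : {a : Fin (d + 1) → ℝ | (∀ j : Fin (d + 1), (j : ℕ) < d → 0 ≤ a j) ∧
      bsum 0 d a ≤ ρ ∧ a (Fin.last d) = f a} =
      (⋂ j : Fin (d + 1), ⋂ _ : (j : ℕ) < d, {a : Fin (d + 1) → ℝ | 0 ≤ a j}) ∩
        ({a | bsum 0 d a ≤ ρ} ∩ {a | a (Fin.last d) = f a}) := by
    ext a
    simp
  have h2 : IsClosed {a : Fin (d + 1) → ℝ | (∀ j : Fin (d + 1), (j : ℕ) < d → 0 ≤ a j) ∧
      bsum 0 d a ≤ ρ ∧ a (Fin.last d) = f a} := by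
    rw [h1]
    refine IsClosed.inter ?_ (IsClosed.inter ?_ ?_)
    · exact isClosed_iInter fun j => isClosed_iInter fun _ =>
        isClosed_le continuous_const (continuous_apply j)
    · exact isClosed_le j8_bsum_cont continuous_const
    · exact isClosed_eq (continuous_apply _) hf
  refine (isCompact_Icc (a := (0 : Fin (d + 1) → ℝ)) (b := 1)).of_isClosed_subset h2 ?_
  rintro a ⟨ha1, ha2, ha3⟩
  have h3 := j8_bsum_nonneg ha1
  have h4 := h0 a h3 ha2
  refine ⟨fun j => ?_, fun j => ?_⟩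
  · induction j using Fin.lastCases with
    | last => rw [ha3]; exact h4.1
    | cast j => exact ha1 _ (by simp)
  · induction j using Fin.lastCases with
    | last => rw [ha3]; exact h4.2
    | cast j => exact (j8_le_bsum ha1 _ (by simp)).trans (ha2.trans hρ)

theorem j8_pos {X : Type*} [TopologicalSpace X] {U : Set X} (hU : IsCompact U) {f : X → ℝ}
    (hf : Continuous f) (h : ∀ a ∈ U, 0 < f a) : ∃ t, 0 < t ∧ ∀ a ∈ U, t ≤ f a := by
  rcases U.eq_empty_or_nonempty with h1 | h1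
  · exact ⟨1, one_pos, fun a ha => by rw [h1] at ha; exact absurd ha (Set.notMem_empty a)⟩
  · obtain ⟨x, hx, hmin⟩ := hU.exists_isMinOn h1 hf.continuousOn
    exact ⟨f x, h x hx, fun a ha => hmin ha⟩

theorem j8_min (g : ℕ → ℝ) (hg : ∀ i, 0 < g i) (M : ℕ) : ∃ t, 0 < t ∧ ∀ i ≤ M, t ≤ g i := by
  induction M with
  | zero => exact ⟨g 0, hg 0, fun i hi => by rw [Nat.le_zero.mp hi]⟩
  | succ M ih =>
    obtain ⟨t, ht, h⟩ := ih
    refine ⟨min t (g (M + 1)), lt_min ht (hg _), fun i hi => ?_⟩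
    rcases Nat.lt_or_ge M i with h1 | h1
    · have : i = M + 1 := by omega
      rw [this]
      exact min_le_right _ _
    · exact (min_le_left _ _).trans (h i h1)

/-- The recursion for the levels. -/
noncomputable def j8H {X : Type*} (T : ℕ → X → ℝ) (e : ℝ) : ℕ → X → ℝ
  | 0 => T 0
  | i + 1 => fun x => max (T (i + 1) x) (j8H T e i x + 2 * e)

theorem j8H_succ_le {X : Type*} (T : ℕ → X → ℝ) (e : ℝ) (i : ℕ) (x : X) :
    j8H T e i x + 2 * e ≤ j8H T e (i + 1) x := le_max_right _ _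

theorem j8H_mono {X : Type*} (T : ℕ → X → ℝ) {e : ℝ} (he : 0 ≤ e) {i j : ℕ} (h : i ≤ j) (x : X) :
    j8H T e i x ≤ j8H T e j x := by
  induction j, h using Nat.le_induction with
  | base => exact le_rfl
  | succ j _ ih => have := j8H_succ_le T e j x; linarith

theorem j8H_ge {X : Type*} (T : ℕ → X → ℝ) (e : ℝ) (i : ℕ) (x : X) : T i x ≤ j8H T e i x := by
  cases i with
  | zero => exact le_rfl
  | succ i => exact le_max_left _ _

theorem j8H_le {X : Type*} (T : ℕ → X → ℝ) {e : ℝ} (he : 0 ≤ e) (i : ℕ) (x : X) (m : ℝ)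
    (h : ∀ i' ≤ i, T i' x ≤ m) : j8H T e i x ≤ m + 2 * e * i := by
  induction i with
  | zero =>
    have := h 0 le_rfl
    change T 0 x ≤ _
    simpa using this
  | succ i ih =>
    have h1 := ih fun i' hi' => h i' (by omega)
    have h2 := h (i + 1) le_rfl
    refine max_le ?_ ?_
    · have : 0 ≤ 2 * e * ((i + 1 : ℕ) : ℝ) := by positivity
      linarith
    · push_cast
      linarith

theorem j8H_GF {d : ℕ} {K : ℝ} (T : ℕ → (Fin (d + 1) → ℝ) → ℝ) (e : ℝ) (h : ∀ i, GF K (T i))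
    (i : ℕ) : GF K (j8H T e i) := by
  induction i with
  | zero => exact h 0
  | succ i ih =>
    have h1 : GF (K + 0) (fun a => j8H T e i a + 2 * e) := ih.add (GF.const (2 * e) le_rfl)
    rw [add_zero] at h1
    exact (h (i + 1)).max h1

theorem separation (d : ℕ) (hd : 1 ≤ d) (M : ℕ) (B : ℕ → Set (Fin (d + 1) → ℝ))
    (hB : ∀ i < M, IsCompact (B i)) (hs : ∀ i < M, B i ⊆ simplex (d + 1) 1)
    (ho : ∀ i j, i < j → j < M → ∀ a ∈ B i, ∀ b ∈ B j,
      (∀ k : Fin (d + 1), (k : ℕ) < d → a k = b k) → a (Fin.last d) < b (Fin.last d)) :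
    ∃ (c κ L : ℝ) (lo hi : ℕ → (Fin (d + 1) → ℝ) → ℝ), 0 < c ∧ c ≤ κ ∧ κ ≤ 1 / 4 ∧ 0 ≤ L ∧
      (∀ i < M, GF L (lo i)) ∧ (∀ i < M, GF L (hi i)) ∧
      (∀ i < M, ∀ a ∈ BS d (1 - κ), c ≤ lo i a) ∧
      (∀ i < M, ∀ a ∈ BS d (1 - κ), lo i a ≤ hi i a) ∧
      (∀ i j, i < j → j < M → ∀ a ∈ BS d (1 - κ), hi i a + c ≤ lo j a) ∧
      (∀ i < M, ∀ a ∈ B i, lo i a ≤ a (Fin.last d) ∧ a (Fin.last d) ≤ hi i a ∧ c ≤ a 0 ∧
        bsum 0 d a ≤ 1 - 2 * κ) ∧
      (∀ i < M, ∀ a ∈ BS d (1 - κ), hi i a + c ≤ 1 - bsum 0 d a) := by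
  classical
  have hU : IsCompact (⋃ i ∈ {i | i < M}, B i) := (Set.finite_lt_nat M).isCompact_biUnion hB
  have hfc : Continuous fun a : Fin (d + 1) → ℝ => min (a 0) ((1 - bsum 0 d a) / 2) :=
    (continuous_apply 0).min ((continuous_const.sub j8_bsum_cont).div_const 2)
  obtain ⟨t, ht, htU⟩ := j8_pos hU hfc (by
    intro a ha
    simp only [Set.mem_iUnion] at ha
    obtain ⟨i, hi, ha⟩ := ha
    have h1 := hs i hi ha
    refine lt_min (h1.1 0) ?_
    have h2 := j8_bsum_sum a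
    have h3 := h1.2
    have h4 := h1.1 (Fin.last d)
    linarith)
  obtain ⟨κ, hκ0, hκ1, hκt⟩ : ∃ κ : ℝ, 0 < κ ∧ κ ≤ 1 / 4 ∧ κ ≤ t :=
    ⟨min t (1 / 4), lt_min ht (by norm_num), min_le_right _ _, min_le_left _ _⟩
  have hκB : ∀ i < M, ∀ a ∈ B i, κ ≤ a 0 ∧ bsum 0 d a ≤ 1 - 2 * κ := by
    intro i hi a ha
    have h1 := htU a (by
      simp only [Set.mem_iUnion]
      exact ⟨i, hi, ha⟩)
    have h2 := h1.trans (min_le_left _ _)
    have h3 := h1.trans (min_le_right _ _)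
    refine ⟨hκt.trans h2, ?_⟩
    linarith
  obtain ⟨K0, hK0def⟩ : ∃ K0 : Set (Fin (d + 1) → ℝ), K0 =
      {a : Fin (d + 1) → ℝ | (∀ j : Fin (d + 1), (j : ℕ) < d → 0 ≤ a j) ∧
        bsum 0 d a ≤ 1 - κ ∧ a (Fin.last d) = (fun _ => (0 : ℝ)) a} := ⟨_, rfl⟩
  obtain ⟨Kc, hKcdef⟩ : ∃ Kc : Set (Fin (d + 1) → ℝ), Kc =
      {a : Fin (d + 1) → ℝ | (∀ j : Fin (d + 1), (j : ℕ) < d → 0 ≤ a j) ∧
        bsum 0 d a ≤ 1 - κ ∧ a (Fin.last d) = (fun a => 1 - bsum 0 d a) a} := ⟨_, rfl⟩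
  have hK0 : IsCompact K0 := by
    rw [hK0def]
    exact j8_compact (by linarith) continuous_const
      (fun a _ _ => ⟨le_rfl, zero_le_one⟩)
  have hKc : IsCompact Kc := by
    rw [hKcdef]
    exact j8_compact (by linarith) (continuous_const.sub j8_bsum_cont)
      (fun a h1 h2 => ⟨by linarith, by linarith⟩)
  have hK0' : (0 : Fin (d + 1) → ℝ) ∈ K0 := by
    rw [hK0def]
    refine ⟨fun j _ => le_rfl, ?_, rfl⟩
    have : bsum 0 d (0 : Fin (d + 1) → ℝ) = 0 := by simp [bsum]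
    rw [this]
    linarith
  obtain ⟨C, hCdef⟩ : ∃ C : ℕ → Set (Fin (d + 1) → ℝ),
      C = fun i => K0 ∪ ⋃ i' ∈ {i' | i' < i ∧ i' < M}, B i' := ⟨_, rfl⟩
  obtain ⟨D, hDdef⟩ : ∃ D : ℕ → Set (Fin (d + 1) → ℝ),
      D = fun i => Kc ∪ ⋃ j ∈ {j | i ≤ j ∧ j < M}, B j := ⟨_, rfl⟩
  have hC : ∀ i, IsCompact (C i) := by
    intro i
    rw [hCdef]
    exact hK0.union (((Set.finite_lt_nat M).subset fun j hj => hj.2).isCompact_biUnion
      fun j hj => hB j hj.2)
  have hD : ∀ i, IsCompact (D i) := by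
    intro i
    rw [hDdef]
    exact hKc.union (((Set.finite_lt_nat M).subset fun j hj => hj.2).isCompact_biUnion
      fun j hj => hB j hj.2)
  have memC0 : ∀ i, ∀ a ∈ K0, a ∈ C i := by
    intro i a ha
    rw [hCdef]
    exact Or.inl ha
  have memCB : ∀ i j, j < i → j < M → ∀ a ∈ B j, a ∈ C i := by
    intro i j h1 h2 a ha
    rw [hCdef]
    refine Or.inr ?_
    simp only [Set.mem_iUnion]
    exact ⟨j, ⟨h1, h2⟩, ha⟩
  have memDc : ∀ i, ∀ a ∈ Kc, a ∈ D i := by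
    intro i a ha
    rw [hDdef]
    exact Or.inl ha
  have memDB : ∀ i j, i ≤ j → j < M → ∀ a ∈ B j, a ∈ D i := by
    intro i j h1 h2 a ha
    rw [hDdef]
    refine Or.inr ?_
    simp only [Set.mem_iUnion]
    exact ⟨j, ⟨h1, h2⟩, ha⟩
  have hCD : ∀ i, ∀ a ∈ C i, ∀ b ∈ D i, (∀ k : Fin (d + 1), (k : ℕ) < d → a k = b k) →
      a (Fin.last d) < b (Fin.last d) := by
    intro i a ha b hb hab
    have hbs := j8_bsum_congr hab
    rw [hCdef] at ha
    rw [hDdef] at hb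
    rcases ha with ha | ha <;> rcases hb with hb | hb
    · rw [hK0def] at ha
      rw [hKcdef] at hb
      have h1 : a (Fin.last d) = 0 := ha.2.2
      have h2 : b (Fin.last d) = 1 - bsum 0 d b := hb.2.2
      have h3 := hb.2.1
      rw [h1, h2]
      linarith
    · rw [hK0def] at ha
      simp only [Set.mem_iUnion] at hb
      obtain ⟨j, hj, hb⟩ := hb
      have h1 : a (Fin.last d) = 0 := ha.2.2
      rw [h1]
      exact (hs j hj.2 hb).1 _
    · rw [hKcdef] at hb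
      simp only [Set.mem_iUnion] at ha
      obtain ⟨j, hj, ha⟩ := ha
      have h1 : b (Fin.last d) = 1 - bsum 0 d b := hb.2.2
      have h2 := (hs j hj.2 ha).2
      rw [j8_bsum_sum] at h2
      rw [h1, ← hbs]
      linarith
    · simp only [Set.mem_iUnion] at ha hb
      obtain ⟨j, hj, ha⟩ := ha
      obtain ⟨k, hk, hb⟩ := hb
      exact ho j k (hj.1.trans_le hk.1) hk.2 a ha b hb hab
  choose K g hK hg hsep using fun i => sep_pair (hC i) (hD i) (hCD i)
  obtain ⟨Kt, hKt0, hKt⟩ : ∃ Kt : ℝ, 0 ≤ Kt ∧ ∀ i ≤ M, K i ≤ Kt :=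
    ⟨∑ i ∈ Finset.range (M + 1), K i, Finset.sum_nonneg fun i _ => hK i, fun i hi =>
      Finset.single_le_sum (f := K) (fun i _ => hK i) (Finset.mem_range.mpr (by omega))⟩
  obtain ⟨g0, hg0, hg0'⟩ := j8_min g hg M
  choose T hT1 hT2 hT3 using fun i => exists_envelope (hC i) ⟨0, memC0 i 0 hK0'⟩ hKt0
  obtain ⟨e, hedef⟩ : ∃ e : ℝ, e = g0 / (4 * ((M : ℝ) + 2)) := ⟨_, rfl⟩
  have hM0 : (0 : ℝ) ≤ M := Nat.cast_nonneg M
  have he0 : 0 < e := by rw [hedef]; positivity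
  have hg0e : g0 = 4 * ((M : ℝ) + 2) * e := by rw [hedef]; field_simp
  -- upper bound of the levels on the sets `D i`
  have hTD : ∀ i ≤ M, ∀ b ∈ D i, T i b ≤ b (Fin.last d) - g0 := by
    intro i hi b hb
    refine hT3 i b _ fun a ha => ?_
    have h1 := hsep i a ha b hb
    have h2 := hg0' i hi
    have h3 : K i * dist (Function.update a (Fin.last d) 0) (Function.update b (Fin.last d) 0) ≤
        Kt * dist (Function.update a (Fin.last d) 0) (Function.update b (Fin.last d) 0) :=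
      mul_le_mul_of_nonneg_right (hKt i hi) dist_nonneg
    linarith
  have hHup : ∀ i ≤ M, ∀ b : Fin (d + 1) → ℝ, (∀ i' ≤ i, b ∈ D i') →
      j8H T e i b + e ≤ b (Fin.last d) := by
    intro i hi b hb
    have h1 := j8H_le T he0.le i b (b (Fin.last d) - g0)
      fun i' hi' => hTD i' (hi'.trans hi) b (hb i' hi')
    have h2 : (i : ℝ) ≤ M := by exact_mod_cast hi
    rw [hg0e] at h1
    nlinarith
  have hGF : ∀ i, GF Kt (j8H T e i) := j8H_GF T e hT1
  refine ⟨min e κ, κ, Kt, fun i a => j8H T e i a + e, fun i => j8H T e (i + 1),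
    lt_min he0 hκ0, min_le_right _ _, hκ1, hKt0, ?_, ?_, ?_, ?_, ?_, ?_, ?_⟩
  · intro i _
    have h1 : GF (Kt + 0) (fun a => j8H T e i a + e) := (hGF i).add (GF.const e le_rfl)
    rwa [add_zero] at h1
  · intro i _
    exact hGF (i + 1)
  · intro i _ a ha
    have h1 := j8H_mono T he0.le (Nat.zero_le i) a
    have h2 : T 0 a = T 0 (Function.update a (Fin.last d) 0) :=
      (hT1 0).dep _ _ fun k hk => (j8_update a 0 k hk).symm
    have h3 : Function.update a (Fin.last d) 0 ∈ K0 := by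
      rw [hK0def]
      refine ⟨fun j hj => ?_, ?_, ?_⟩
      · rw [j8_update a 0 j hj]
        exact (ha.1 j hj).le
      · rw [j8_bsum_congr (b := a) fun k hk => j8_update a 0 k hk]
        exact ha.2.le
      · simp
    have h4 := hT2 0 _ (memC0 0 _ h3)
    rw [Function.update_self] at h4
    have h5 : T 0 a ≤ j8H T e 0 a := le_rfl
    have h6 := min_le_left e κ
    dsimp only
    linarith
  · intro i _ a _
    have h1 := j8H_succ_le T e i a
    dsimp only
    linarith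
  · intro i j hij _ a _
    have h1 := j8H_mono T he0.le (Nat.succ_le_of_lt hij) a
    have h2 := min_le_left e κ
    rw [Nat.succ_eq_add_one] at h1
    dsimp only
    linarith
  · intro i hi a ha
    refine ⟨?_, ?_, ?_, (hκB i hi a ha).2⟩
    · exact hHup i hi.le a fun i' hi' => memDB i' i hi' hi a ha
    · exact (hT2 (i + 1) a (memCB (i + 1) i (Nat.lt_succ_self i) hi a ha)).trans
        (j8H_ge T e (i + 1) a)
    · exact (min_le_right _ _).trans (hκB i hi a ha).1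
  · intro i hi a ha
    have h1 : bsum 0 d (Function.update a (Fin.last d) (1 - bsum 0 d a)) = bsum 0 d a :=
      j8_bsum_congr fun k hk => j8_update a _ k hk
    have h2 : Function.update a (Fin.last d) (1 - bsum 0 d a) ∈ Kc := by
      rw [hKcdef]
      refine ⟨fun j hj => ?_, ?_, ?_⟩
      · rw [j8_update a _ j hj]
        exact (ha.1 j hj).le
      · rw [h1]
        exact ha.2.le
      · rw [Function.update_self]
        dsimp only
        rw [h1]
    have h3 := hHup (i + 1) hi _ fun i' _ => memDc i' _ h2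
    rw [Function.update_self] at h3
    have h4 : j8H T e (i + 1) a =
        j8H T e (i + 1) (Function.update a (Fin.last d) (1 - bsum 0 d a)) :=
      (hGF (i + 1)).dep _ _ fun k hk => (j8_update a _ k hk).symm
    have h5 := min_le_left e κ
    dsimp only
    rw [h4]
    linarith

end Vale.Agent.P209.Strong
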