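import Vale.Agent.P209.Strong.J6
import Vale.Agent.P209.Strong.J8

namespace Vale.Agent.P209.Strong

open MeasureTheory

/-! J9. A large simplex minus bodies contained in fixed compact sets is filled. -/

theorem j9_bsum_div (d : ℕ) (a : Fin (d + 1) → ℝ) (R : ℝ) :
    bsum 0 d (fun k => a k / R) = bsum 0 d a / R := by
  unfold bsum
  rw [Finset.sum_div]
  refine Finset.sum_congr rfl fun i _ => ?_
  split_ifs with h
  · rfl
  · rw [zero_div]

theorem j9_BS {d : ℕ} {κ R : ℝ} (hR : 0 < R) {a : Fin (d + 1) → ℝ}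
    (ha : a ∈ BS d ((1 - κ) * R)) : (fun k => a k / R) ∈ BS d (1 - κ) := by
  refine ⟨fun j hj => div_pos (ha.1 j hj) hR, ?_⟩
  rw [j9_bsum_div, div_lt_iff₀ hR]
  exact ha.2

theorem j9_update {d : ℕ} {L : ℝ} {f : (Fin (d + 1) → ℝ) → ℝ} (h : GF L f)
    (a : Fin (d + 1) → ℝ) (x : ℝ) : f (Function.update a (Fin.last d) x) = f a := by
  refine h.dep _ _ fun i hi => ?_
  rw [Function.update_of_ne]
  intro h0
  rw [h0, Fin.val_last] at hi
  exact lt_irrefl _ hi

theorem j9_update' {d : ℕ} {L R : ℝ} {f : (Fin (d + 1) → ℝ) → ℝ} (h : GF L f)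
    (a : Fin (d + 1) → ℝ) (x : ℝ) :
    f (fun k => Function.update a (Fin.last d) x k / R) = f (fun k => a k / R) := by
  refine h.dep _ _ fun i hi => ?_
  rw [Function.update_of_ne]
  intro h0
  rw [h0, Fin.val_last] at hi
  exact lt_irrefl _ hi

theorem SF_fill (d : ℕ) (hd : 1 ≤ d) (M : ℕ) (B : ℕ → Set (Fin (d + 1) → ℝ))
    (hB : ∀ i < M, IsCompact (B i)) (hs : ∀ i < M, B i ⊆ simplex (d + 1) 1)
    (ho : ∀ i j, i < j → j < M → ∀ a ∈ B i, ∀ b ∈ B j,
      (∀ k : Fin (d + 1), (k : ℕ) < d → a k = b k) → a (Fin.last d) < b (Fin.last d))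
    (L δ N : ℝ) (hδ : 0 < δ) (hδ1 : δ ≤ 1) (hN : 0 ≤ N) :
    ∃ R0 : ℝ, 0 < R0 ∧ ∀ R, R0 ≤ R → ∀ β τ : ℕ → (Fin (d + 1) → ℝ) → ℝ,
      (∀ i < M, GF L (β i)) → (∀ i < M, GF L (τ i)) →
      (∀ i < M, ∀ a, β i a ≤ a (Fin.last d) → a (Fin.last d) ≤ τ i a →
        (fun k => a k / R) ∈ B i) →
      Fill δ N {a | a ∈ simplex (d + 1) R ∧
        ∀ i < M, ¬ (β i a ≤ a (Fin.last d) ∧ a (Fin.last d) ≤ τ i a)} := by
  obtain ⟨c, κ, L1, lo, hi, hc, hcκ, hκ, hL1, hlo, hhi, hfloor, hlohi, hstep, hbody, hceil⟩ :=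
    separation d hd M B hB hs ho
  set L2 : ℝ := max L (max L1 d) with hL2
  have hLL2 : L ≤ L2 := le_max_left _ _
  have hL1L2 : L1 ≤ L2 := (le_max_left L1 (d : ℝ)).trans (le_max_right _ _)
  have hdL2 : (d : ℝ) ≤ L2 := (le_max_right L1 (d : ℝ)).trans (le_max_right _ _)
  obtain ⟨R0, hR0, hfill⟩ := SX_fill d hd c κ L2 δ N hc hcκ hκ hdL2 hδ hδ1 hN M
  refine ⟨R0, hR0, fun R hRR β τ hβ hτ hin => ?_⟩
  have hR : 0 < R := hR0.trans_le hRR
  refine hfill R hRR β τ (fun i a => R * lo i (fun k => a k / R))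
    (fun i a => R * hi i (fun k => a k / R)) ⟨?_, ?_, ?_, ?_, ?_, ?_, ?_, ?_⟩ ?_ ?_
  · exact fun i hi' => (hβ i hi').mono hLL2
  · exact fun i hi' => (hτ i hi').mono hLL2
  · exact fun i hi' => ((hlo i hi').scale hR).mono hL1L2
  · exact fun i hi' => ((hhi i hi').scale hR).mono hL1L2
  · intro i hi' a ha
    have h1 := hfloor i hi' _ (j9_BS hR ha)
    have h2 := mul_le_mul_of_nonneg_left h1 hR.le
    linarith
  · intro i hi' a ha
    exact mul_le_mul_of_nonneg_left (hlohi i hi' _ (j9_BS hR ha)) hR.le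
  · intro i j hij hj a ha
    have h1 := hstep i j hij hj _ (j9_BS hR ha)
    have h2 := mul_le_mul_of_nonneg_left h1 hR.le
    linarith
  · intro i hi' a ha hle
    have key : ∀ x : ℝ, β i a ≤ x → x ≤ τ i a →
        R * lo i (fun k => a k / R) ≤ x ∧ x ≤ R * hi i (fun k => a k / R) ∧ c * R ≤ a 0 := by
      intro x hx1 hx2
      have h1 := hin i hi' (Function.update a (Fin.last d) x)
        (by rw [j9_update (hβ i hi'), Function.update_self]; exact hx1)
        (by rw [j9_update (hτ i hi'), Function.update_self]; exact hx2)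
      obtain ⟨h2, h3, h4, -⟩ := hbody i hi' _ h1
      rw [j9_update' (hlo i hi')] at h2
      rw [j9_update' (hhi i hi')] at h3
      simp only [Function.update_self] at h2 h3
      have h5 : (0 : Fin (d + 1)) ≠ Fin.last d := by
        intro h0
        have := congrArg Fin.val h0
        rw [Fin.val_last] at this
        simp at this
        omega
      simp only [Function.update_of_ne h5] at h4
      rw [le_div_iff₀ hR] at h2
      rw [div_le_iff₀ hR] at h3
      rw [le_div_iff₀ hR] at h4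
      refine ⟨by linarith, by linarith, h4⟩
    exact ⟨(key _ le_rfl hle).1, (key _ hle le_rfl).2.1, (key _ le_rfl hle).2.2⟩
  · intro i hi' a ha
    have h1 := hceil i hi' _ (j9_BS hR ha)
    rw [j9_bsum_div] at h1
    have h2 := mul_le_mul_of_nonneg_left h1 hR.le
    have h3 : R * (1 - bsum 0 d a / R) = R - bsum 0 d a := by
      field_simp
    rw [h3] at h2
    linarith
  · intro i hi' a ha h1 h2
    have h3 := (hbody i hi' _ (hin i hi' a h1 h2)).2.2.2
    rw [j9_bsum_div, div_le_iff₀ hR] at h3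
    exact h3

end Vale.Agent.P209.Strong
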