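import Vale.Agent.P209.Strong.J0

namespace Vale.Agent.P209.Strong

open MeasureTheory

/-! K0. Unimodular charts and tilted balls: definitions. -/

/-- An integral unimodular chart which sends the vertical vector to `e_0 - e_d`. -/
structure CH {d : ℕ} (Λ : (Fin (d + 1) → ℝ) ≃ₗ[ℝ] (Fin (d + 1) → ℝ)) : Prop where
  int : ∀ i j, ∃ m : ℤ, Λ (Pi.single i 1) j = m
  int' : ∀ i j, ∃ m : ℤ, Λ.symm (Pi.single i 1) j = m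
  vert : Λ (Pi.single (Fin.last d) 1) = Pi.single 0 1 - Pi.single (Fin.last d) 1

/-- The open cell of size `s` of a chart. -/
def CE {d : ℕ} (Λ : (Fin (d + 1) → ℝ) ≃ₗ[ℝ] (Fin (d + 1) → ℝ)) (v : Fin (d + 1) → ℝ) (s : ℝ) :
    Set (Fin (d + 1) → ℝ) :=
  {a | (∀ j, 0 < (Λ a + v) j) ∧ ∑ j, (Λ a + v) j < s}

/-- The closed tilted body of size `r` of a chart. -/
def BD {d : ℕ} (Λ : (Fin (d + 1) → ℝ) ≃ₗ[ℝ] (Fin (d + 1) → ℝ)) (v : Fin (d + 1) → ℝ) (δ r : ℝ) :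
    Set (Fin (d + 1) → ℝ) :=
  {a | 0 ≤ (Λ a + v) 0 ∧ (∀ j, j ≠ 0 → δ * (Λ a + v) 0 ≤ (Λ a + v) j) ∧
    ∑ j, (Λ a + v) j - δ * d * (Λ a + v) 0 ≤ r}

/-- The open tilted body of size `r` of a chart. -/
def OD {d : ℕ} (Λ : (Fin (d + 1) → ℝ) ≃ₗ[ℝ] (Fin (d + 1) → ℝ)) (v : Fin (d + 1) → ℝ) (δ r : ℝ) :
    Set (Fin (d + 1) → ℝ) :=
  {a | 0 < (Λ a + v) 0 ∧ (∀ j, j ≠ 0 → δ * (Λ a + v) 0 < (Λ a + v) j) ∧
    ∑ j, (Λ a + v) j - δ * d * (Λ a + v) 0 < r}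

end Vale.Agent.P209.Strong
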