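import Vale.Agent.P209.Strong.K0
import Vale.Agent.P209.Strong.J1

namespace Vale.Agent.P209.Strong

open MeasureTheory

/-! K1. Envelopes of the tilted bodies. -/

/-- an affine function of the base coordinates -/
theorem k1_lin {d : ℕ} (φ : (Fin (d + 1) → ℝ) →ₗ[ℝ] ℝ) :
    ∃ C : ℝ, 0 ≤ C ∧ ∀ x : ℝ,
      GF C (fun a : Fin (d + 1) → ℝ => φ (Function.update a (Fin.last d) 0) + x) := by
  refine ⟨‖LinearMap.toContinuousLinearMap φ‖, norm_nonneg _, fun x => ⟨?_, ?_⟩⟩
  · intro y y' h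
    have h1 : Function.update y (Fin.last d) 0 = Function.update y' (Fin.last d) 0 := by
      funext i
      by_cases hi : i = Fin.last d
      · rw [hi, Function.update_self, Function.update_self]
      · rw [Function.update_of_ne hi, Function.update_of_ne hi]
        refine h i ?_
        exact lt_of_le_of_ne (Nat.lt_succ_iff.1 i.2) (fun h2 => hi (Fin.ext h2))
    change φ _ + x = φ _ + x
    rw [h1]
  · intro y y'
    change |(φ _ + x) - (φ _ + x)| ≤ _
    rw [add_sub_add_right_eq_sub, ← map_sub]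
    have h1 := (LinearMap.toContinuousLinearMap φ).le_opNorm
      (Function.update y (Fin.last d) 0 - Function.update y' (Fin.last d) 0)
    rw [Real.norm_eq_abs] at h1
    refine le_trans h1 (mul_le_mul_of_nonneg_left ?_ (norm_nonneg _))
    rw [dist_eq_norm, pi_norm_le_iff_of_nonneg (norm_nonneg _)]
    intro i
    by_cases hi : i = Fin.last d
    · rw [hi, Pi.sub_apply, Function.update_self, Function.update_self, sub_zero, norm_zero]
      exact norm_nonneg _
    · rw [Pi.sub_apply, Function.update_of_ne hi, Function.update_of_ne hi, ← Pi.sub_apply]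
      exact norm_le_pi_norm _ i

theorem k1_inf {d : ℕ} {ι : Type*} (s : Finset ι) (hs : s.Nonempty) {L : ℝ}
    {f : ι → (Fin (d + 1) → ℝ) → ℝ} (h : ∀ i ∈ s, GF L (f i)) :
    GF L (fun a => s.inf' hs fun i => f i a) := by
  constructor
  · intro y y' hy
    refine Finset.inf'_congr hs rfl fun i hi => (h i hi).dep y y' hy
  · have key : ∀ y y', (s.inf' hs fun i => f i y) - L * dist y y' ≤ s.inf' hs fun i => f i y' := by
      intro y y'
      rw [Finset.le_inf'_iff]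
      intro i hi
      have h1 : (s.inf' hs fun i => f i y) ≤ f i y := Finset.inf'_le _ hi
      have h2 := (abs_le.1 ((h i hi).lip y y')).2
      linarith
    intro y y'
    have h1 := key y y'
    have h2 := key y' y
    rw [dist_comm y' y] at h2
    rw [abs_le]
    constructor <;> linarith

theorem k1_split {d : ℕ} {Λ : (Fin (d + 1) → ℝ) ≃ₗ[ℝ] (Fin (d + 1) → ℝ)} (hΛ : CH Λ)
    (a : Fin (d + 1) → ℝ) : Λ a = Λ (Function.update a (Fin.last d) 0) +
      a (Fin.last d) • (Pi.single 0 1 - Pi.single (Fin.last d) 1 : Fin (d + 1) → ℝ) := by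
  have h1 : a = Function.update a (Fin.last d) 0 +
      a (Fin.last d) • (Pi.single (Fin.last d) 1 : Fin (d + 1) → ℝ) := by
    funext i
    by_cases hi : i = Fin.last d
    · rw [hi, Pi.add_apply, Function.update_self, Pi.smul_apply, Pi.single_eq_same, zero_add,
        smul_eq_mul, mul_one]
    · rw [Pi.add_apply, Function.update_of_ne hi, Pi.smul_apply, Pi.single_eq_of_ne hi,
        smul_zero, add_zero]
  conv_lhs => rw [h1]
  rw [map_add, map_smul, hΛ.vert]

theorem BD_env {d : ℕ} (hd : 1 ≤ d) {Λ : (Fin (d + 1) → ℝ) ≃ₗ[ℝ] (Fin (d + 1) → ℝ)} (hΛ : CH Λ)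
    {δ : ℝ} (hδ : 0 < δ) : ∃ L : ℝ, 0 ≤ L ∧ ∀ (v : Fin (d + 1) → ℝ) (r : ℝ),
      ∃ β τ : (Fin (d + 1) → ℝ) → ℝ, GF L β ∧ GF L τ ∧
        ∀ a, (β a ≤ a (Fin.last d) ∧ a (Fin.last d) ≤ τ a) ↔ a ∈ BD Λ v δ r := by
  classical
  -- linear functionals
  let φ : Fin (d + 1) → (Fin (d + 1) → ℝ) →ₗ[ℝ] ℝ := fun j =>
    (LinearMap.proj j).comp (Λ : (Fin (d + 1) → ℝ) →ₗ[ℝ] (Fin (d + 1) → ℝ))
  have hφ : ∀ j a, φ j a = Λ a j := fun j a => rfl
  have hd0 : (0 : ℝ) < d := by exact_mod_cast hd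
  have hδd : 0 < δ * d := mul_pos hδ hd0
  have h0l : (0 : Fin (d + 1)) ≠ Fin.last d := by
    intro h
    have h1 := congrArg Fin.val h
    rw [Fin.val_last] at h1
    change 0 = d at h1
    omega
  let ψ : (Fin (d + 1) → ℝ) →ₗ[ℝ] ℝ := (δ * d)⁻¹ • (∑ j, φ j) - φ 0
  let χ : Fin (d + 1) → (Fin (d + 1) → ℝ) →ₗ[ℝ] ℝ := fun j =>
    if j = 0 ∨ j = Fin.last d then (1 + δ)⁻¹ • (φ (Fin.last d) - δ • φ 0) else δ⁻¹ • φ j - φ 0
  obtain ⟨C1, hC1, h1⟩ := k1_lin (-φ 0)
  obtain ⟨C2, hC2, h2⟩ := k1_lin ψ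
  choose C3 hC3 h3 using fun j => k1_lin (χ j)
  have hsum : 0 ≤ ∑ j, C3 j := Finset.sum_nonneg fun j _ => hC3 j
  refine ⟨C1 + C2 + ∑ j, C3 j, by positivity, ?_⟩
  intro v r
  let x2 : ℝ := (δ * d)⁻¹ * (∑ j, v j - r) - v 0
  let x3 : Fin (d + 1) → ℝ := fun j =>
    if j = 0 ∨ j = Fin.last d then (1 + δ)⁻¹ * (v (Fin.last d) - δ * v 0) else δ⁻¹ * v j - v 0
  let bs : (Fin (d + 1) → ℝ) → (Fin (d + 1) → ℝ) := fun a => Function.update a (Fin.last d) 0
  refine ⟨fun a => max ((-φ 0) (bs a) + -v 0) (ψ (bs a) + x2),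
    fun a => Finset.univ.inf' Finset.univ_nonempty fun j => χ j (bs a) + x3 j, ?_, ?_, ?_⟩
  · refine GF.max ((h1 (-v 0)).mono ?_) ((h2 x2).mono ?_)
    · linarith
    · linarith
  · refine k1_inf _ _ fun j _ => (h3 j (x3 j)).mono ?_
    have h4 : C3 j ≤ ∑ j, C3 j := Finset.single_le_sum (fun j _ => hC3 j) (Finset.mem_univ j)
    linarith
  · intro a
    set t := a (Fin.last d) with ht
    have hz : ∀ j, (Λ a + v) j = Λ (bs a) j + t * ((Pi.single 0 1 : Fin (d + 1) → ℝ) j -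
        (Pi.single (Fin.last d) 1 : Fin (d + 1) → ℝ) j) + v j := by
      intro j
      rw [k1_split hΛ a]
      rfl
    have hz0 : (Λ a + v) 0 = Λ (bs a) 0 + v 0 + t := by
      rw [hz, Pi.single_eq_same, Pi.single_eq_of_ne h0l]
      ring
    have hzl : (Λ a + v) (Fin.last d) = Λ (bs a) (Fin.last d) + v (Fin.last d) - t := by
      rw [hz, Pi.single_eq_same, Pi.single_eq_of_ne h0l.symm]
      ring
    have hzj : ∀ j, j ≠ 0 → j ≠ Fin.last d → (Λ a + v) j = Λ (bs a) j + v j := by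
      intro j hj hj'
      rw [hz, Pi.single_eq_of_ne hj, Pi.single_eq_of_ne hj']
      ring
    have hS : ∑ j, (Λ a + v) j = ∑ j, Λ (bs a) j + ∑ j, v j := by
      rw [Finset.sum_congr rfl fun j _ => hz j, Finset.sum_add_distrib, Finset.sum_add_distrib,
        ← Finset.mul_sum, Finset.sum_sub_distrib]
      rw [Finset.sum_pi_single', Finset.sum_pi_single', if_pos (Finset.mem_univ _),
        if_pos (Finset.mem_univ _)]
      ring
    -- the two envelopes
    have hb1 : (-φ 0) (bs a) + -v 0 ≤ t ↔ 0 ≤ (Λ a + v) 0 := by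
      rw [hz0, LinearMap.neg_apply, hφ]
      constructor <;> intro h <;> linarith
    have hb2 : ψ (bs a) + x2 ≤ t ↔ ∑ j, (Λ a + v) j - δ * d * (Λ a + v) 0 ≤ r := by
      have h5 : ψ (bs a) + x2 = (δ * d)⁻¹ * (∑ j, Λ (bs a) j + ∑ j, v j - r) -
          (Λ (bs a) 0 + v 0) := by
        change ((δ * d)⁻¹ • (∑ j, φ j) - φ 0) (bs a) + x2 = _
        rw [LinearMap.sub_apply, LinearMap.smul_apply, LinearMap.sum_apply, smul_eq_mul]
        simp only [hφ, x2]
        ring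
      rw [h5, hS, hz0, sub_le_iff_le_add, inv_mul_le_iff₀ hδd]
      constructor <;> intro h <;> linarith
    have hb3 : (∀ j, t ≤ χ j (bs a) + x3 j) ↔
        ∀ j, j ≠ 0 → δ * (Λ a + v) 0 ≤ (Λ a + v) j := by
      have hlast : t ≤ (1 + δ)⁻¹ * (Λ (bs a) (Fin.last d) - δ * Λ (bs a) 0) +
          (1 + δ)⁻¹ * (v (Fin.last d) - δ * v 0) ↔
          δ * (Λ a + v) 0 ≤ (Λ a + v) (Fin.last d) := by
        rw [hz0, hzl, ← mul_add, le_inv_mul_iff₀ (by linarith)]
        constructor <;> intro h <;> linarith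
      have hother : ∀ j, j ≠ 0 → j ≠ Fin.last d →
          (t ≤ (δ⁻¹ * Λ (bs a) j - Λ (bs a) 0) + (δ⁻¹ * v j - v 0) ↔
            δ * (Λ a + v) 0 ≤ (Λ a + v) j) := by
        intro j hj hj'
        rw [hz0, hzj j hj hj']
        have h6 : (δ⁻¹ * Λ (bs a) j - Λ (bs a) 0) + (δ⁻¹ * v j - v 0) =
            δ⁻¹ * (Λ (bs a) j + v j) - (Λ (bs a) 0 + v 0) := by ring
        rw [h6, le_sub_iff_add_le, le_inv_mul_iff₀ hδ]
        constructor <;> intro h <;> linarith
      have hχ1 : ∀ j, (j = 0 ∨ j = Fin.last d) → χ j (bs a) + x3 j =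
          (1 + δ)⁻¹ * (Λ (bs a) (Fin.last d) - δ * Λ (bs a) 0) +
          (1 + δ)⁻¹ * (v (Fin.last d) - δ * v 0) := by
        intro j hj
        simp only [χ, x3, if_pos hj]
        rfl
      have hχ2 : ∀ j, ¬ (j = 0 ∨ j = Fin.last d) → χ j (bs a) + x3 j =
          (δ⁻¹ * Λ (bs a) j - Λ (bs a) 0) + (δ⁻¹ * v j - v 0) := by
        intro j hj
        simp only [χ, x3, if_neg hj]
        rfl
      constructor
      · intro h j hj
        by_cases hj' : j = Fin.last d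
        · have h7 := h j
          rw [hχ1 j (Or.inr hj')] at h7
          rw [hj']
          exact hlast.1 h7
        · have h7 := h j
          rw [hχ2 j (by tauto)] at h7
          exact (hother j hj hj').1 h7
      · intro h j
        by_cases hj : j = 0 ∨ j = Fin.last d
        · rw [hχ1 j hj]
          exact hlast.2 (h _ h0l.symm)
        · rw [hχ2 j hj]
          push Not at hj
          exact (hother j hj.1 hj.2).2 (h j hj.1)
    change (max ((-φ 0) (bs a) + -v 0) (ψ (bs a) + x2) ≤ t ∧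
      t ≤ Finset.univ.inf' Finset.univ_nonempty fun j => χ j (bs a) + x3 j) ↔
      (0 ≤ (Λ a + v) 0 ∧ (∀ j, j ≠ 0 → δ * (Λ a + v) 0 ≤ (Λ a + v) j) ∧
        ∑ j, (Λ a + v) j - δ * d * (Λ a + v) 0 ≤ r)
    rw [max_le_iff, hb1, hb2, Finset.le_inf'_iff, ← hb3]
    constructor
    · rintro ⟨⟨h5, h6⟩, h7⟩
      exact ⟨h5, fun j => h7 j (Finset.mem_univ j), h6⟩
    · rintro ⟨h5, h6, h7⟩
      exact ⟨⟨h5, h7⟩, fun j _ => h6 j⟩

end Vale.Agent.P209.Strong
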