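import Vale.Agent.P209.Strong.K0

namespace Vale.Agent.P209.Strong

open MeasureTheory

/-! K2. Elementary properties of the tilted bodies. -/

section
variable {d : ℕ} {Λ : (Fin (d + 1) → ℝ) ≃ₗ[ℝ] (Fin (d + 1) → ℝ)} {v : Fin (d + 1) → ℝ}
  {δ r r' s μ R : ℝ}

/-- The two coordinates bounds in a tilted body. -/
theorem k2_le {z : Fin (d + 1) → ℝ} (h0 : 0 ≤ z 0) (h1 : ∀ j, j ≠ 0 → δ * z 0 ≤ z j)
    (h2 : ∑ j, z j - δ * d * z 0 ≤ r) : z 0 ≤ r ∧ ∀ j, j ≠ 0 → z j ≤ r + δ * z 0 := by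
  have e : ∑ j, z j - δ * d * z 0 = z 0 + ∑ i : Fin d, (z i.succ - δ * z 0) := by
    rw [Fin.sum_univ_succ, Finset.sum_sub_distrib, Finset.sum_const, Finset.card_univ,
      Fintype.card_fin, nsmul_eq_mul]
    ring
  have hn : ∀ i : Fin d, 0 ≤ z i.succ - δ * z 0 := fun i =>
    sub_nonneg.2 (h1 _ (Fin.succ_ne_zero i))
  rw [e] at h2
  constructor
  · have := Finset.sum_nonneg fun i (_ : i ∈ Finset.univ) => hn i
    linarith
  · intro j hj
    obtain ⟨i, rfl⟩ := Fin.exists_succ_eq.2 hj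
    have := Finset.single_le_sum (fun i (_ : i ∈ Finset.univ) => hn i) (Finset.mem_univ i)
    linarith

theorem k2_cont (v : Fin (d + 1) → ℝ) (j : Fin (d + 1)) :
    Continuous fun a : Fin (d + 1) → ℝ => (Λ a + v) j := by
  have h : Continuous (Λ : (Fin (d + 1) → ℝ) → Fin (d + 1) → ℝ) :=
    LinearMap.continuous_of_finiteDimensional Λ.toLinearMap
  exact ((continuous_apply j).comp h).add continuous_const

theorem k2_closed : IsClosed (BD Λ v δ r) := by
  have h0 := k2_cont (Λ := Λ) v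
  have hs : Continuous fun a : Fin (d + 1) → ℝ => ∑ j, (Λ a + v) j :=
    continuous_finsetSum _ fun j _ => h0 j
  have e : BD Λ v δ r = {a | 0 ≤ (Λ a + v) 0} ∩
      ((⋂ (j : Fin (d + 1)) (_ : j ≠ 0), {a | δ * (Λ a + v) 0 ≤ (Λ a + v) j}) ∩
        {a | ∑ j, (Λ a + v) j - δ * d * (Λ a + v) 0 ≤ r}) := by
    ext a
    simp only [BD, Set.mem_setOf_eq, Set.mem_inter_iff, Set.mem_iInter]
  rw [e]
  refine (isClosed_le continuous_const (h0 0)).inter
    ((isClosed_iInter fun j => isClosed_iInter fun _ => ?_).inter ?_)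
  · exact isClosed_le (continuous_const.mul (h0 0)) (h0 j)
  · exact isClosed_le (hs.sub (continuous_const.mul (h0 0))) continuous_const

theorem BD_compact (hδ : 0 < δ) : IsCompact (BD Λ v δ r) := by
  have hc : Continuous fun z : Fin (d + 1) → ℝ => Λ.symm (z - v) :=
    (LinearMap.continuous_of_finiteDimensional Λ.symm.toLinearMap).comp
      (continuous_id.sub continuous_const)
  refine ((isCompact_closedBall (0 : Fin (d + 1) → ℝ) (|r| + δ * |r|)).image hc).of_isClosed_subset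
    k2_closed ?_
  rintro a ⟨h0, h1, h2⟩
  obtain ⟨h3, h4⟩ := k2_le h0 h1 h2
  refine ⟨Λ a + v, ?_, by simp only [add_sub_cancel_right, LinearEquiv.symm_apply_apply]⟩
  have hr : r ≤ |r| := le_abs_self r
  have hr0 : 0 ≤ |r| := abs_nonneg r
  have hd : 0 ≤ δ * |r| := mul_nonneg hδ.le hr0
  rw [mem_closedBall_zero_iff, pi_norm_le_iff_of_nonneg (by positivity)]
  intro j
  rw [Real.norm_eq_abs, abs_le]
  have h5 : δ * (Λ a + v) 0 ≤ δ * |r| := mul_le_mul_of_nonneg_left (h3.trans hr) hδ.le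
  by_cases hj : j = 0
  · subst hj
    constructor <;> linarith
  · have h6 := h4 j hj
    have h7 := h1 j hj
    have h8 : 0 ≤ δ * (Λ a + v) 0 := mul_nonneg hδ.le h0
    constructor <;> linarith

theorem OD_open : IsOpen (OD Λ v δ r) := by
  have h0 := k2_cont (Λ := Λ) v
  have hs : Continuous fun a : Fin (d + 1) → ℝ => ∑ j, (Λ a + v) j :=
    continuous_finsetSum _ fun j _ => h0 j
  have e : OD Λ v δ r = {a | 0 < (Λ a + v) 0} ∩
      ((⋂ (j : Fin (d + 1)), {a | j ≠ 0 → δ * (Λ a + v) 0 < (Λ a + v) j}) ∩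
        {a | ∑ j, (Λ a + v) j - δ * d * (Λ a + v) 0 < r}) := by
    ext a
    simp only [OD, Set.mem_setOf_eq, Set.mem_inter_iff, Set.mem_iInter]
  rw [e]
  refine (isOpen_lt continuous_const (h0 0)).inter
    ((isOpen_iInter_of_finite fun j => ?_).inter ?_)
  · by_cases hj : j = 0
    · simp only [hj, ne_eq, not_true_eq_false, false_implies, Set.setOf_true, isOpen_univ]
    · simp only [ne_eq, hj, not_false_eq_true, true_implies]
      exact isOpen_lt (continuous_const.mul (h0 0)) (h0 j)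
  · exact isOpen_lt (hs.sub (continuous_const.mul (h0 0))) continuous_const

theorem OD_subset : OD Λ v δ r ⊆ BD Λ v δ r := by
  rintro a ⟨h0, h1, h2⟩
  exact ⟨h0.le, fun j hj => (h1 j hj).le, h2.le⟩

theorem BD_mono (h : r ≤ r') : BD Λ v δ r ⊆ BD Λ v δ r' := by
  rintro a ⟨h0, h1, h2⟩
  exact ⟨h0, h1, h2.trans h⟩

theorem BD_subset_CE (hδ : 0 < δ) (hμ : 0 < μ) (hr : 0 ≤ r)
    (h : r * (1 + δ * d) + (d + 1) * μ < s) : BD Λ (fun j => v j - μ) δ r ⊆ CE Λ v s := by
  rintro a ⟨h0, h1, h2⟩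
  obtain ⟨h3, h4⟩ := k2_le h0 h1 h2
  set z : Fin (d + 1) → ℝ := Λ a + fun j => v j - μ with hz
  have e : ∀ j, (Λ a + v) j = z j + μ := fun j => by
    simp only [hz, Pi.add_apply]
    ring
  refine ⟨fun j => ?_, ?_⟩
  · rw [e j]
    by_cases hj : j = 0
    · subst hj
      linarith
    · have h6 := h1 j hj
      have h7 : 0 ≤ δ * z 0 := mul_nonneg hδ.le h0
      linarith
  · simp only [e]
    rw [Finset.sum_add_distrib, Finset.sum_const, Finset.card_univ, Fintype.card_fin,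
      nsmul_eq_mul]
    have h5 : δ * d * z 0 ≤ δ * d * r := mul_le_mul_of_nonneg_left h3 (by positivity)
    push_cast
    linarith

theorem BD_scale (hR : 0 < R) (a : Fin (d + 1) → ℝ) :
    a ∈ BD Λ (fun j => R * v j) δ (R * r) ↔ (fun k => a k / R) ∈ BD Λ v δ r := by
  have ha : a = R • (fun k => a k / R) := by
    funext k
    simp only [Pi.smul_apply, smul_eq_mul]
    field_simp
  have e : ∀ j, (Λ a + fun j => R * v j) j = R * (Λ (fun k => a k / R) + v) j := fun j => by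
    conv_lhs => rw [ha]
    rw [map_smul]
    simp only [Pi.add_apply, Pi.smul_apply, smul_eq_mul]
    ring
  simp only [BD, Set.mem_setOf_eq, e]
  set w := Λ (fun k => a k / R) + v
  rw [← Finset.mul_sum]
  refine and_congr ?_ (and_congr (forall_congr' fun j => imp_congr_right fun _ => ?_) ?_)
  · exact mul_nonneg_iff_of_pos_left hR
  · rw [show δ * (R * w 0) = R * (δ * w 0) by ring]
    exact mul_le_mul_iff_right₀ hR
  · rw [show R * ∑ j, w j - δ * d * (R * w 0) = R * (∑ j, w j - δ * d * w 0) by ring]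
    exact mul_le_mul_iff_right₀ hR

end

end Vale.Agent.P209.Strong
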