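import Vale.Agent.P209.Strong.K2

namespace Vale.Agent.P209.Strong

open MeasureTheory

/-! K3. Balls embed in the tilted bodies. -/

/-- the open tilted body in the chart coordinates -/
def k3_OZ (d : ℕ) (δ s : ℝ) : Set (Fin (d + 1) → ℝ) :=
  {z | 0 < z 0 ∧ (∀ j, j ≠ 0 → δ * z 0 < z j) ∧ ∑ j, z j - δ * d * z 0 < s}

theorem k3_open (d : ℕ) (δ s : ℝ) : IsOpen (k3_OZ d δ s) := by
  have h : k3_OZ d δ s = {z : Fin (d + 1) → ℝ | 0 < z 0} ∩
      ((⋂ j : Fin (d + 1), {z : Fin (d + 1) → ℝ | j ≠ 0 → δ * z 0 < z j}) ∩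
        {z : Fin (d + 1) → ℝ | ∑ j, z j - δ * d * z 0 < s}) := by
    ext z
    simp [k3_OZ]
  rw [h]
  refine (isOpen_lt continuous_const (continuous_apply 0)).inter
    ((isOpen_iInter_of_finite fun j => ?_).inter ?_)
  · by_cases hj : j = 0
    · have : {z : Fin (d + 1) → ℝ | j ≠ 0 → δ * z 0 < z j} = Set.univ := by
        ext z
        simp [hj]
      rw [this]
      exact isOpen_univ
    · have : {z : Fin (d + 1) → ℝ | j ≠ 0 → δ * z 0 < z j} =
          {z : Fin (d + 1) → ℝ | δ * z 0 < z j} := by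
        ext z
        simp [hj]
      rw [this]
      exact isOpen_lt (continuous_const.mul (continuous_apply 0)) (continuous_apply j)
  · refine isOpen_lt (Continuous.sub (continuous_finsetSum _ fun j _ => continuous_apply j)
      (continuous_const.mul (continuous_apply 0))) continuous_const

theorem k3_emb {d : ℕ} {δ r r' : ℝ} (hδ : 0 < δ) (hr : 0 ≤ r) (h : r < r') :
    ∃ f, TEmb r f (k3_OZ d δ r') := by
  set κ : ℝ := (r' - r) / (2 * ((d : ℝ) + 1)) with hκ
  have hd1 : (0 : ℝ) < (d : ℝ) + 1 := by positivity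
  have hκ0 : 0 < κ := by
    rw [hκ]
    exact div_pos (by linarith) (by positivity)
  have hκ1 : ((d : ℝ) + 1) * κ = (r' - r) / 2 := by
    rw [hκ]
    field_simp
  refine exists_TEmb (fun j a _ => if j = 0 then κ else κ + δ * a 0) (fun j => ?_)
    (fun j y y' hy => ?_) r hr (k3_open d δ r') ?_
  · by_cases hj : j = 0
    · simp only [hj, if_true]
      exact continuous_const
    · simp only [hj, if_false]
      exact continuous_const.add (continuous_const.mul ((continuous_apply 0).comp continuous_fst))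
  · by_cases hj : j = 0
    · simp only [hj, if_true]
    · simp only [hj, if_false]
      rw [hy 0 (Fin.pos_iff_ne_zero.mpr hj)]
  · rintro a ⟨x, hx0, hx, hxn, ha⟩
    have ha0 : κ ≤ a 0 := by simpa using (ha 0).1
    have haj : ∀ j, j ≠ 0 → κ + δ * a 0 ≤ a j := by
      intro j hj
      simpa [hj] using (ha j).1
    refine ⟨hκ0.trans_le ha0, fun j hj => ?_, ?_⟩
    · have := haj j hj
      linarith
    · have h1 : ∑ j, a j ≤ ∑ j : Fin (d + 1), ((if j = 0 then κ else κ + δ * a 0) +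
          (x j - x (j + 1))) := Finset.sum_le_sum fun j _ => (ha j).2
      have h2 : ∑ j : Fin (d + 1), (x (j : ℕ) - x ((j : ℕ) + 1)) = x 0 - x (d + 1) := by
        rw [Fin.sum_univ_eq_sum_range (fun i => x i - x (i + 1)) (d + 1), Finset.sum_range_sub']
      have h3 : ∑ j : Fin (d + 1), (if j = 0 then κ else κ + δ * a 0) =
          ((d : ℝ) + 1) * κ + δ * d * a 0 := by
        rw [Fin.sum_univ_succ]
        simp only [if_true, Fin.succ_ne_zero, if_false, Finset.sum_const, Finset.card_univ,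
          Fintype.card_fin, nsmul_eq_mul]
        ring
      rw [Finset.sum_add_distrib, h2, h3, hxn] at h1
      linarith

theorem OD_emb {d : ℕ} {Λ : (Fin (d + 1) → ℝ) ≃ₗ[ℝ] (Fin (d + 1) → ℝ)} (hΛ : CH Λ)
    (v : Fin (d + 1) → ℝ) {δ r r' : ℝ} (hδ : 0 < δ) (hδ1 : δ < 1) (hr : 0 ≤ r) (h : r < r') :
    ∃ f, TEmb r f (OD Λ v δ r') := by
  have _ := hδ1
  obtain ⟨f, hf⟩ := k3_emb (d := d) hδ hr h
  have hpk : TPk (k3_OZ d δ r') (fun _ : Unit => r) :=
    ⟨fun _ => f, fun _ => hf, fun i j hij => absurd (Subsingleton.elim i j) hij⟩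
  have hint : ∀ i j, ∃ m : ℤ, Λ.symm (Pi.single i 1) j = m := hΛ.int'
  have hint' : ∀ i j, ∃ m : ℤ, Λ.symm.symm (Pi.single i 1) j = m := hΛ.int
  obtain ⟨g, hg, -⟩ := hpk.image Λ.symm hint hint' (-(Λ.symm v))
  have hEq : (fun a => Λ.symm a + -(Λ.symm v)) '' (k3_OZ d δ r') = OD Λ v δ r' := by
    ext a
    constructor
    · rintro ⟨z, hz, rfl⟩
      have hz' : Λ (Λ.symm z + -(Λ.symm v)) + v = z := by
        simp
      show 0 < (Λ (Λ.symm z + -(Λ.symm v)) + v) 0 ∧ _
      simp only [hz']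
      exact hz
    · intro ha
      refine ⟨Λ a + v, ha, ?_⟩
      simp
  rw [hEq] at hg
  exact ⟨g (), hg ()⟩

end Vale.Agent.P209.Strong
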