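import Vale.Agent.P209.Strong.K2
import Vale.Agent.P209.Strong.H2a

namespace Vale.Agent.P209.Strong

open MeasureTheory

/-! K4. Volume of the tilted bodies. -/

/-- The matrix of the shear `z_j ↦ z_j - δ z_0`, `j ≠ 0`. -/
def k4_mat (d : ℕ) (δ : ℝ) : Matrix (Fin (d + 1)) (Fin (d + 1)) ℝ :=
  Matrix.of fun i j => (if i = j then 1 else 0) - (if j = 0 then (if i = 0 then 0 else δ) else 0)

theorem k4_det (d : ℕ) (δ : ℝ) : (k4_mat d δ).det = 1 := by
  rw [Matrix.det_of_isLowerTriangular]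
  · refine Finset.prod_eq_one fun i _ => ?_
    rw [k4_mat, Matrix.of_apply, if_pos rfl]
    split_ifs <;> simp
  · intro i j hij
    have h : i < j := hij
    have h0 : j ≠ 0 := by
      rintro rfl
      exact absurd h (by simp)
    rw [k4_mat, Matrix.of_apply, if_neg h.ne, if_neg h0, sub_zero]

theorem k4_apply (d : ℕ) (δ : ℝ) (z : Fin (d + 1) → ℝ) (i : Fin (d + 1)) :
    Matrix.toLin' (k4_mat d δ) z i = z i - if i = 0 then 0 else δ * z 0 := by
  rw [Matrix.toLin'_apply, Matrix.mulVec, dotProduct]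
  simp only [k4_mat, Matrix.of_apply, sub_mul, ite_mul, one_mul, zero_mul]
  rw [Finset.sum_sub_distrib, Finset.sum_ite_eq, if_pos (Finset.mem_univ _),
    Finset.sum_ite_eq', if_pos (Finset.mem_univ _)]

theorem BD_volume {d : ℕ} {Λ : (Fin (d + 1) → ℝ) ≃ₗ[ℝ] (Fin (d + 1) → ℝ)} (hΛ : CH Λ)
    (v : Fin (d + 1) → ℝ) {δ r : ℝ} (hδ : 0 < δ) (hr : 0 ≤ r) :
    (volume (BD Λ v δ r)).toReal ≤ r ^ (d + 1) / ((d + 1).factorial : ℝ) := by
  have h1 := volume_image_of_integral (BD Λ v δ r) Λ hΛ.int hΛ.int' v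
  have h2 := Measure.addHaar_image_linearMap (volume : Measure (Fin (d + 1) → ℝ))
    (Matrix.toLin' (k4_mat d δ)) ((fun a => Λ a + v) '' BD Λ v δ r)
  rw [LinearMap.det_toLin', k4_det, abs_one, ENNReal.ofReal_one, one_mul, h1] at h2
  have h3 : (Matrix.toLin' (k4_mat d δ)) '' ((fun a => Λ a + v) '' BD Λ v δ r) ⊆
      h2aK (d + 1) r := by
    rintro _ ⟨_, ⟨a, ⟨ha0, ha1, ha2⟩, rfl⟩, rfl⟩
    refine ⟨fun j => ?_, ?_⟩
    · rw [k4_apply]
      by_cases hj : j = 0
      · subst hj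
        rw [if_pos rfl, sub_zero]
        exact ha0
      · rw [if_neg hj]
        exact sub_nonneg.2 (ha1 j hj)
    · have h4 : ∑ j, Matrix.toLin' (k4_mat d δ) (Λ a + v) j =
          ∑ j, (Λ a + v) j - δ * d * (Λ a + v) 0 := by
        simp only [k4_apply]
        rw [Finset.sum_sub_distrib, Fin.sum_univ_succ (fun j : Fin (d + 1) =>
          if j = 0 then (0 : ℝ) else δ * (Λ a + v) 0)]
        simp only [if_true, Fin.succ_ne_zero, if_false, Finset.sum_const, Finset.card_univ,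
          Fintype.card_fin, nsmul_eq_mul, zero_add]
        ring
      exact h4.le.trans ha2
  have h5 : volume (BD Λ v δ r) ≤ ENNReal.ofReal (r ^ (d + 1) / ((d + 1).factorial : ℝ)) := by
    rw [← h2]
    exact (measure_mono h3).trans (h2aK_volume (d + 1) (by omega) r hr)
  exact ENNReal.toReal_le_of_le_ofReal (by positivity) h5

end Vale.Agent.P209.Strong
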