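import Vale.Agent.P209.Strong.J9
import Vale.Agent.P209.Strong.K1
import Vale.Agent.P209.Strong.K3
import Vale.Agent.P209.Strong.K4

namespace Vale.Agent.P209.Strong

open MeasureTheory

/-! K5. Big balls in vertically ordered cells, and many small balls. -/

/-- The choice of the enlargement. -/
theorem k5_tau {M n : ℕ} {H T V : ℝ} (hH : 0 < H) (b : Fin M → ℝ)
    (hV : ∑ i, b i ^ n + V < T) :
    ∃ τ : ℝ, 0 < τ ∧ τ ≤ H ∧ ∑ i, (b i + τ) ^ n + V < T := by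
  have e1 : ∀ᶠ τ : ℝ in nhdsWithin 0 (Set.Ioi 0), τ < H :=
    nhdsWithin_le_nhds (Iio_mem_nhds hH)
  have e3 : ∀ᶠ τ : ℝ in nhdsWithin 0 (Set.Ioi 0), ∑ i, (b i + τ) ^ n + V < T := by
    have hc : Continuous fun τ : ℝ => ∑ i, (b i + τ) ^ n + V := by fun_prop
    have h0 : ∑ i, (b i + 0) ^ n + V < T := by
      simp only [add_zero]
      exact hV
    have h1 : ∀ᶠ τ : ℝ in nhds 0, ∑ i, (b i + τ) ^ n + V < T :=
      hc.continuousAt.eventually_lt continuousAt_const h0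
    exact nhdsWithin_le_nhds h1
  obtain ⟨τ, ⟨h1, h3⟩, h4⟩ :=
    ((e1.and e3).and (self_mem_nhdsWithin (a := (0 : ℝ)) (s := Set.Ioi 0))).exists
  exact ⟨τ, h4, h1.le, h3⟩

/-- The volume of a set minus a finite union. -/
theorem k5_vol {α : Type*} [MeasurableSpace α] {μ : Measure α} {M : ℕ} {S Ω : Set α}
    {B : Fin M → Set α} (hS : μ S ≠ ⊤) (hB : ∀ i, μ (B i) ≠ ⊤) (hΩ : Ω ⊆ S)
    (h : S ⊆ Ω ∪ ⋃ i, B i) :
    (μ S).toReal - ∑ i, (μ (B i)).toReal ≤ (μ Ω).toReal := by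
  have hΩf : μ Ω ≠ ⊤ := ne_top_of_le_ne_top hS (measure_mono hΩ)
  have hsf : ∑ i, μ (B i) ≠ ⊤ := (ENNReal.sum_lt_top.2 fun i _ => (hB i).lt_top).ne
  have h1 : μ S ≤ μ Ω + ∑ i, μ (B i) :=
    (measure_mono h).trans ((measure_union_le _ _).trans
      (add_le_add le_rfl (measure_iUnion_fintype_le _ _)))
  have h2 := ENNReal.toReal_mono (ENNReal.add_ne_top.2 ⟨hΩf, hsf⟩) h1
  rw [ENNReal.toReal_add hΩf hsf, ENNReal.toReal_sum fun i _ => hB i] at h2
  linarith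

theorem cells_packs (d : ℕ) (hd : 1 ≤ d) (M : ℕ)
    (Λ : ℕ → ((Fin (d + 1) → ℝ) ≃ₗ[ℝ] (Fin (d + 1) → ℝ))) (v : ℕ → (Fin (d + 1) → ℝ))
    (s : ℕ → ℝ) (hΛ : ∀ i < M, CH (Λ i)) (hs1 : ∀ i < M, s i ≤ 1)
    (hsub : ∀ i < M, CE (Λ i) (v i) (s i) ⊆ simplex (d + 1) 1)
    (ho : ∀ i j, i < j → j < M → ∀ a ∈ CE (Λ i) (v i) (s i), ∀ b ∈ CE (Λ j) (v j) (s j),
      (∀ k : Fin (d + 1), (k : ℕ) < d → a k = b k) → a (Fin.last d) < b (Fin.last d))
    (η : ℝ) (hη : 0 < η) (hηs : ∀ i < M, η ≤ s i) (δ N : ℝ) (hδ : 0 < δ) (hδ1 : δ ≤ 1)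
    (hN : 0 ≤ N) :
    ∃ R0 : ℝ, 0 < R0 ∧ ∀ R, R0 ≤ R → ∀ b : Fin M → ℝ, (∀ i, 0 ≤ b i) →
      (∀ i : Fin M, b i + η * R ≤ s i * R) →
      ∀ (ι : Type) [Fintype ι] (r : ι → ℝ) (J : Finset ι), (∀ i, 0 < r i ∧ r i ≤ 1) →
        (∀ i, i ∉ J → δ ≤ r i) → ∑ i ∈ J, r i ≤ N →
        ∑ i, b i ^ (d + 1) + ∑ i, r i ^ (d + 1) < R ^ (d + 1) →
        TPk (simplex (d + 1) R) (Sum.elim b r) := by
  classical
  obtain ⟨m, hm⟩ : ∃ m : ℝ, m = η / (8 * (d + 1)) := ⟨_, rfl⟩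
  obtain ⟨e, he⟩ : ∃ e : ℝ, e = min (1 / 2) m := ⟨_, rfl⟩
  have hd0 : (0 : ℝ) < d + 1 := by positivity
  have hm0 : 0 < m := by rw [hm]; positivity
  have he0 : 0 < e := by rw [he]; exact lt_min (by norm_num) hm0
  have he1 : e < 1 := by
    rw [he]
    exact (min_le_left _ _).trans_lt (by norm_num)
  have hem : e ≤ m := by rw [he]; exact min_le_right _ _
  have hdm : (d + 1 : ℝ) * m = η / 8 := by rw [hm]; field_simp
  have hed : e * d ≤ η / 8 := by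
    calc e * d ≤ m * (d + 1) := by
          apply mul_le_mul hem (by linarith) (Nat.cast_nonneg d) hm0.le
      _ = η / 8 := by rw [mul_comm, hdm]
  have hed0 : 0 ≤ e * d := by positivity
  -- the bodies
  obtain ⟨B, hB⟩ : ∃ B : ℕ → Set (Fin (d + 1) → ℝ),
    B = fun i => BD (Λ i) (fun j => v i j - m) e (s i - η / 2) := ⟨_, rfl⟩
  have hBc : ∀ i < M, IsCompact (B i) := by
    intro i _
    rw [hB]
    exact BD_compact he0
  have hBCE : ∀ i < M, B i ⊆ CE (Λ i) (v i) (s i) := by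
    intro i hi
    rw [hB]
    have h1 := hηs i hi
    have h2 := hs1 i hi
    refine BD_subset_CE he0 hm0 (by linarith) ?_
    have h3 : (s i - η / 2) * (e * d) ≤ 1 * (η / 8) :=
      mul_le_mul (by linarith) hed hed0 (by norm_num)
    calc (s i - η / 2) * (1 + e * d) + (d + 1) * m
        = (s i - η / 2) + (s i - η / 2) * (e * d) + (d + 1) * m := by ring
      _ < s i := by rw [hdm]; linarith
  have hBs : ∀ i < M, B i ⊆ simplex (d + 1) 1 := fun i hi => (hBCE i hi).trans (hsub i hi)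
  have hBo : ∀ i j, i < j → j < M → ∀ a ∈ B i, ∀ b ∈ B j,
      (∀ k : Fin (d + 1), (k : ℕ) < d → a k = b k) → a (Fin.last d) < b (Fin.last d) :=
    fun i j hij hj a ha b hb => ho i j hij hj a (hBCE i (hij.trans hj) ha) b (hBCE j hj hb)
  -- the envelopes
  have hLex : ∀ i, ∃ L : ℝ, i < M → 0 ≤ L ∧ ∀ (v : Fin (d + 1) → ℝ) (r : ℝ),
      ∃ β τ : (Fin (d + 1) → ℝ) → ℝ, GF L β ∧ GF L τ ∧
        ∀ a, (β a ≤ a (Fin.last d) ∧ a (Fin.last d) ≤ τ a) ↔ a ∈ BD (Λ i) v e r := by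
    intro i
    by_cases hi : i < M
    · obtain ⟨L, hL⟩ := BD_env hd (hΛ i hi) he0
      exact ⟨L, fun _ => hL⟩
    · exact ⟨0, fun h => absurd h hi⟩
  choose Lf hLf using hLex
  obtain ⟨L, hL⟩ : ∃ L : ℝ, ∀ i < M, Lf i ≤ L := by
    refine ⟨∑ i ∈ Finset.range M, Lf i, fun i hi => ?_⟩
    exact Finset.single_le_sum (f := Lf) (fun j hj => (hLf j (Finset.mem_range.1 hj)).1)
      (Finset.mem_range.2 hi)
  obtain ⟨R0, hR0, hF⟩ := SF_fill d hd M B hBc hBs hBo L δ N hδ hδ1 hN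
  refine ⟨R0, hR0, ?_⟩
  intro R hR b hb hbs ι _ r J hr hδr hJ hvol
  have hRp : 0 < R := hR0.trans_le hR
  obtain ⟨t, ht, htR, htv⟩ := k5_tau (H := η * R / 2) (by positivity) b hvol
  obtain ⟨bb, hbb⟩ : ∃ bb : ℕ → ℝ, ∀ i : Fin M, bb i = b i :=
    ⟨fun i => if h : i < M then b ⟨i, h⟩ else 0, fun i => by simp⟩
  -- the envelopes of the rescaled bodies
  have hβ : ∀ i, ∃ β τ : (Fin (d + 1) → ℝ) → ℝ, i < M → GF (Lf i) β ∧ GF (Lf i) τ ∧
        ∀ a, (β a ≤ a (Fin.last d) ∧ a (Fin.last d) ≤ τ a) ↔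
          a ∈ BD (Λ i) (fun j => R * (v i j - m)) e (bb i + t) := by
    intro i
    by_cases hi : i < M
    · obtain ⟨β, τ, h⟩ := (hLf i hi).2 (fun j => R * (v i j - m)) (bb i + t)
      exact ⟨β, τ, fun _ => h⟩
    · exact ⟨0, 0, fun h => absurd h hi⟩
  choose β τ hβτ using hβ
  -- rescaling
  have hsc : ∀ i < M, ∀ a, a ∈ BD (Λ i) (fun j => R * (v i j - m)) e (bb i + t) →
      (fun k => a k / R) ∈ B i := by
    intro i hi a ha
    have h1 : bb i + t = R * ((bb i + t) / R) := by field_simp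
    rw [h1] at ha
    have h2 := (BD_scale (v := fun j => v i j - m) hRp a).1 ha
    rw [hB]
    refine BD_mono ?_ h2
    rw [div_le_iff₀ hRp]
    have h3 := hbs ⟨i, hi⟩
    have h4 := hbb ⟨i, hi⟩
    simp only [] at h3 h4
    rw [h4]
    linarith
  have hin : ∀ i < M, ∀ a, (fun k => a k / R) ∈ B i → a ∈ simplex (d + 1) R := by
    intro i hi a ha
    obtain ⟨h1, h2⟩ := hBs i hi ha
    refine ⟨fun j => ?_, ?_⟩
    · have := h1 j
      simp only [] at this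
      exact (div_pos_iff_of_pos_right hRp).1 this
    · rw [← Finset.sum_div, div_lt_one hRp] at h2
      exact h2
  obtain ⟨Ω, hΩ⟩ : ∃ Ω : Set (Fin (d + 1) → ℝ), Ω = {a | a ∈ simplex (d + 1) R ∧
    ∀ i < M, ¬ (β i a ≤ a (Fin.last d) ∧ a (Fin.last d) ≤ τ i a)} := ⟨_, rfl⟩
  have hfill : Fill δ N Ω := by
    rw [hΩ]
    refine hF R hR β τ (fun i hi => ((hβτ i hi).1).mono (hL i hi))
      (fun i hi => ((hβτ i hi).2.1).mono (hL i hi)) fun i hi a h1 h2 => ?_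
    exact hsc i hi a (((hβτ i hi).2.2 a).1 ⟨h1, h2⟩)
  -- the volume
  have hΩS : Ω ⊆ simplex (d + 1) R := by
    rw [hΩ]
    exact fun a ha => ha.1
  have hvS := volume_simplex (d + 1) R hRp
  have hvS' : volume (simplex (d + 1) R) ≠ ⊤ := by
    rw [volume_simplex_ofReal (d + 1) R hRp]
    exact ENNReal.ofReal_ne_top
  have hcov : simplex (d + 1) R ⊆ Ω ∪ ⋃ i : Fin M,
      BD (Λ i) (fun j => R * (v i j - m)) e (b i + t) := by
    intro a ha
    by_cases h : ∀ i < M, ¬ (β i a ≤ a (Fin.last d) ∧ a (Fin.last d) ≤ τ i a)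
    · left
      rw [hΩ]
      exact ⟨ha, h⟩
    · right
      push Not at h
      obtain ⟨i, hi, h1⟩ := h
      have h2 := ((hβτ i hi).2.2 a).1 h1
      rw [Set.mem_iUnion]
      refine ⟨⟨i, hi⟩, ?_⟩
      have h4 := hbb ⟨i, hi⟩
      simp only [] at h4
      rw [h4] at h2
      exact h2
  have hvΩ := k5_vol (μ := volume) hvS' (fun i : Fin M => (BD_compact (Λ := Λ i)
    (v := fun j => R * (v i j - m)) (r := b i + t) he0).measure_ne_top) hΩS hcov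
  have hvB : ∑ i : Fin M, (volume (BD (Λ i) (fun j => R * (v i j - m)) e (b i + t))).toReal ≤
      ∑ i, (b i + t) ^ (d + 1) / ((d + 1).factorial : ℝ) :=
    Finset.sum_le_sum fun i _ => BD_volume (hΛ i i.2) _ he0 (by have := hb i; linarith)
  have hf : (0 : ℝ) < ((d + 1).factorial : ℝ) := by exact_mod_cast (d + 1).factorial_pos
  have hvol' : ∑ i, r i ^ (d + 1) / ((d + 1).factorial : ℝ) < (volume Ω).toReal := by
    refine lt_of_lt_of_le ?_ hvΩ
    rw [hvS]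
    have h5 : ∑ i, r i ^ (d + 1) / ((d + 1).factorial : ℝ) +
        ∑ i, (b i + t) ^ (d + 1) / ((d + 1).factorial : ℝ) <
        R ^ (d + 1) / ((d + 1).factorial : ℝ) := by
      rw [← Finset.sum_div, ← Finset.sum_div, ← add_div]
      apply div_lt_div_of_pos_right _ hf
      linarith
    linarith
  have hpk := hfill ι r J hr hδr hJ hvol'
  -- gluing
  have hCin : ∀ p : Fin M, ∀ a ∈ OD (Λ p) (fun j => R * (v p j - m)) e (b p + t),
      a ∈ BD (Λ p) (fun j => R * (v p j - m)) e (bb p + t) := by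
    intro p a ha
    rw [hbb]
    exact OD_subset ha
  refine TPk.glue (simplex (d + 1) R) Ω
    (fun p : Fin M => OD (Λ p) (fun j => R * (v p j - m)) e (b p + t)) b r
    (fun p => OD_emb (hΛ p p.2) _ he0 he1 (hb p) (by linarith)) hpk ?_ hΩS ?_ ?_
  · intro p a ha
    exact hin p p.2 a (hsc p p.2 a (hCin p a ha))
  · have key : ∀ p q : Fin M, p < q → ∀ a, a ∈ OD (Λ p) (fun j => R * (v p j - m)) e (b p + t) →
        a ∉ OD (Λ q) (fun j => R * (v q j - m)) e (b q + t) := by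
      intro p q hpq a h1 h2
      exact lt_irrefl _ (hBo p q hpq q.2 _ (hsc p p.2 a (hCin p a h1)) _
        (hsc q q.2 a (hCin q a h2)) fun _ _ => rfl)
    intro p q hpq
    rw [Set.disjoint_left]
    intro a h1 h2
    rcases lt_or_gt_of_ne hpq with h | h
    · exact key p q h a h1 h2
    · exact key q p h a h2 h1
  · intro p
    rw [Set.disjoint_left]
    intro a h1 h2
    rw [hΩ] at h2
    exact h2.2 p p.2 (((hβτ p p.2).2.2 a).2 (hCin p a h1))

end Vale.Agent.P209.Strong
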