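import Vale.Agent.P209.Strong.K5

namespace Vale.Agent.P209.Strong

open MeasureTheory

/-! K6. The same for a finite family of cells ordered by a key. -/

theorem cells_packs_key (d : ℕ) (hd : 1 ≤ d) (κ : Type) [Fintype κ]
    (Λ : κ → ((Fin (d + 1) → ℝ) ≃ₗ[ℝ] (Fin (d + 1) → ℝ))) (v : κ → (Fin (d + 1) → ℝ))
    (s : κ → ℝ) (key : κ → ℕ) (hΛ : ∀ i, CH (Λ i)) (hs1 : ∀ i, s i ≤ 1)
    (hsub : ∀ i, CE (Λ i) (v i) (s i) ⊆ simplex (d + 1) 1)
    (ho : ∀ i j, i ≠ j → key i ≤ key j → ∀ a ∈ CE (Λ i) (v i) (s i),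
      ∀ b ∈ CE (Λ j) (v j) (s j), (∀ k : Fin (d + 1), (k : ℕ) < d → a k = b k) →
      a (Fin.last d) < b (Fin.last d))
    (η : ℝ) (hη : 0 < η) (hηs : ∀ i, η ≤ s i) (δ N : ℝ) (hδ : 0 < δ) (hδ1 : δ ≤ 1)
    (hN : 0 ≤ N) :
    ∃ R0 : ℝ, 0 < R0 ∧ ∀ R, R0 ≤ R → ∀ b : κ → ℝ, (∀ i, 0 ≤ b i) →
      (∀ i, b i + η * R ≤ s i * R) →
      ∀ (ι : Type) [Fintype ι] (r : ι → ℝ) (J : Finset ι), (∀ i, 0 < r i ∧ r i ≤ 1) →
        (∀ i, i ∉ J → δ ≤ r i) → ∑ i ∈ J, r i ≤ N →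
        ∑ i, b i ^ (d + 1) + ∑ i, r i ^ (d + 1) < R ^ (d + 1) →
        TPk (simplex (d + 1) R) (Sum.elim b r) := by
  classical
  obtain ⟨e, he⟩ : ∃ e : Fin (Fintype.card κ) ≃ κ, Monotone (fun i => key (e i)) := by
    refine ⟨(Tuple.sort (key ∘ (Fintype.equivFin κ).symm)).trans (Fintype.equivFin κ).symm, ?_⟩
    exact Tuple.monotone_sort (key ∘ (Fintype.equivFin κ).symm)
  obtain ⟨R0, hR0, h⟩ := cells_packs d hd (Fintype.card κ)
    (fun i => if h : i < Fintype.card κ then Λ (e ⟨i, h⟩) else LinearEquiv.refl ℝ _)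
    (fun i => if h : i < Fintype.card κ then v (e ⟨i, h⟩) else 0)
    (fun i => if h : i < Fintype.card κ then s (e ⟨i, h⟩) else 0)
    (fun i hi => by simp only [dif_pos hi]; exact hΛ _)
    (fun i hi => by simp only [dif_pos hi]; exact hs1 _)
    (fun i hi => by simp only [dif_pos hi]; exact hsub _)
    (fun i j hij hj a ha b hb hab => by
      have hi : i < Fintype.card κ := hij.trans hj
      simp only [dif_pos hi] at ha
      simp only [dif_pos hj] at hb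
      refine ho _ _ (fun hh => hij.ne ?_)
        (he (show (⟨i, hi⟩ : Fin (Fintype.card κ)) ≤ ⟨j, hj⟩ from hij.le)) a ha b hb hab
      exact congrArg Fin.val (e.injective hh))
    η hη (fun i hi => by simp only [dif_pos hi]; exact hηs _) δ N hδ hδ1 hN
  refine ⟨R0, hR0, fun R hR b hb0 hb1 ι _ r J hr hrJ hJN hvol => ?_⟩
  have h1 := h R hR (fun i => b (e i)) (fun i => hb0 _) (fun i => by
    simp only [dif_pos i.2]
    exact hb1 _) ι r J hr hrJ hJN (by
      rw [Equiv.sum_comp e (fun k => b k ^ (d + 1))]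
      exact hvol)
  have h2 := h1.comp_inj (Sum.map e.symm id)
    (Sum.map_injective.2 ⟨e.symm.injective, Function.injective_id⟩)
  have e3 : (fun k => Sum.elim (fun i => b (e i)) r (Sum.map e.symm id k)) = Sum.elim b r := by
    funext x
    cases x with
    | inl k => simp
    | inr k => simp
  rw [e3] at h2
  exact h2

end Vale.Agent.P209.Strong
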