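import Vale.Agent.P209.Strong.K0

namespace Vale.Agent.P209.Strong

open MeasureTheory

/-! K7. Charts from barycentric coordinates. -/

/-- The `d + 2` barycentric coordinates of a vector (linear part). -/
def bary {d : ℕ} (x : Fin (d + 1) → ℝ) : Fin (d + 2) → ℝ :=
  Fin.snoc (α := fun _ => ℝ) x (-∑ j, x j)

private theorem k7_castSucc {d : ℕ} (x : Fin (d + 1) → ℝ) (j : Fin (d + 1)) :
    bary x j.castSucc = x j := by
  unfold bary
  exact Fin.snoc_castSucc _ _ _

private theorem k7_last {d : ℕ} (x : Fin (d + 1) → ℝ) :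
    bary x (Fin.last (d + 1)) = -∑ j, x j := by
  unfold bary
  exact Fin.snoc_last _ _

private theorem k7_sum {d : ℕ} (x : Fin (d + 1) → ℝ) : ∑ i, bary x i = 0 := by
  rw [Fin.sum_univ_castSucc, k7_last]
  simp only [k7_castSucc]
  ring

private theorem k7_add {d : ℕ} (x y : Fin (d + 1) → ℝ) (i : Fin (d + 2)) :
    bary (x + y) i = bary x i + bary y i := by
  refine Fin.lastCases ?_ (fun j => ?_) i
  · simp only [k7_last, Pi.add_apply, Finset.sum_add_distrib]
    ring
  · simp only [k7_castSucc, Pi.add_apply]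

private theorem k7_smul {d : ℕ} (c : ℝ) (x : Fin (d + 1) → ℝ) (i : Fin (d + 2)) :
    bary (c • x) i = c * bary x i := by
  refine Fin.lastCases ?_ (fun j => ?_) i
  · simp only [k7_last, Pi.smul_apply, smul_eq_mul, ← Finset.mul_sum]
    ring
  · simp only [k7_castSucc, Pi.smul_apply, smul_eq_mul]

private theorem k7_int {d : ℕ} (x : Fin (d + 1) → ℝ) (hx : ∀ j, ∃ m : ℤ, x j = m)
    (i : Fin (d + 2)) : ∃ m : ℤ, bary x i = m := by
  refine Fin.lastCases ?_ (fun j => ?_) i
  · choose m hm using hx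
    refine ⟨-∑ j, m j, ?_⟩
    rw [k7_last]
    push_cast
    simp only [hm]
  · rw [k7_castSucc]
    exact hx j

/-- The map of a permutation of the barycentric coordinates. -/
private def k7_P {d : ℕ} (π : Equiv.Perm (Fin (d + 2))) (x : Fin (d + 1) → ℝ) :
    Fin (d + 1) → ℝ := fun j => bary x (π j.castSucc)

private theorem k7_bary_P {d : ℕ} (π : Equiv.Perm (Fin (d + 2))) (x : Fin (d + 1) → ℝ)
    (i : Fin (d + 2)) : bary (k7_P π x) i = bary x (π i) := by
  refine Fin.lastCases ?_ (fun j => ?_) i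
  · rw [k7_last]
    have h1 : ∑ i, bary x (π i) = 0 := by
      rw [Equiv.sum_comp π (fun i => bary x i)]
      exact k7_sum x
    rw [Fin.sum_univ_castSucc] at h1
    have h2 : ∑ j, k7_P π x j = ∑ j : Fin (d + 1), bary x (π j.castSucc) := rfl
    rw [h2]
    linarith
  · rw [k7_castSucc]
    rfl

private theorem k7_P_inv {d : ℕ} (π : Equiv.Perm (Fin (d + 2))) (x : Fin (d + 1) → ℝ) :
    k7_P π⁻¹ (k7_P π x) = x := by
  funext j
  have h1 : k7_P π⁻¹ (k7_P π x) j = bary (k7_P π x) (π⁻¹ j.castSucc) := rfl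
  have h2 : π (π⁻¹ j.castSucc) = j.castSucc := π.apply_symm_apply _
  rw [h1, k7_bary_P, h2, k7_castSucc]

/-- The linear automorphism of a permutation. -/
private def k7_L {d : ℕ} (π : Equiv.Perm (Fin (d + 2))) :
    (Fin (d + 1) → ℝ) ≃ₗ[ℝ] (Fin (d + 1) → ℝ) where
  toFun := k7_P π
  map_add' x y := funext fun j => k7_add x y _
  map_smul' c x := funext fun j => k7_smul c x _
  invFun := k7_P π⁻¹
  left_inv x := k7_P_inv π x
  right_inv x := by
    have h := k7_P_inv π⁻¹ x
    rwa [inv_inv] at h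

private theorem k7_perm {m : ℕ} (c p q : Fin (m + 1)) (hc : c ≠ 0) (hpq : p ≠ q) :
    ∃ π : Equiv.Perm (Fin (m + 1)), π 0 = p ∧ π c = q := by
  have hq' : Equiv.swap 0 p q ≠ 0 := by
    intro h
    have h1 : Equiv.swap 0 p p = Equiv.swap 0 p q := by
      rw [h, Equiv.swap_apply_right]
    exact hpq ((Equiv.swap 0 p).injective h1)
  refine ⟨Equiv.swap 0 p * Equiv.swap c (Equiv.swap 0 p q), ?_, ?_⟩
  · rw [Equiv.Perm.mul_apply, Equiv.swap_apply_of_ne_of_ne hc.symm hq'.symm,
      Equiv.swap_apply_left]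
  · rw [Equiv.Perm.mul_apply, Equiv.swap_apply_left, Equiv.swap_apply_self]

/-- integer matrices send integer vectors to integer vectors -/
private theorem k7_intmap {n : ℕ} (f : (Fin n → ℝ) →ₗ[ℝ] (Fin n → ℝ))
    (hf : ∀ i j, ∃ m : ℤ, f (Pi.single i 1) j = m) (x : Fin n → ℝ) (hx : ∀ i, ∃ m : ℤ, x i = m)
    (j : Fin n) : ∃ m : ℤ, f x j = m := by
  choose a ha using hx
  choose b hb using hf
  refine ⟨∑ i, a i * b i j, ?_⟩
  have h1 : f x = ∑ i, x i • f (Pi.single i 1) := by
    conv_lhs => rw [pi_eq_sum_univ x]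
    rw [map_sum]
    refine Finset.sum_congr rfl fun i _ => ?_
    rw [map_smul]
    congr 2
    funext k
    rw [Pi.single_apply]
    simp only [eq_comm]
  rw [h1, Finset.sum_apply]
  push_cast
  refine Finset.sum_congr rfl fun i _ => ?_
  rw [Pi.smul_apply, smul_eq_mul, ha, hb]

/-- The barycentric coordinates of the point. -/
private theorem k7_cell {d : ℕ} (x : Fin (d + 1) → ℝ) (s : ℝ) (π : Equiv.Perm (Fin (d + 2)))
    (y : Fin (d + 1) → ℝ)
    (hy : ∀ j, y j = bary x (π j.castSucc) + if π j.castSucc = Fin.last (d + 1) then s else 0) :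
    ((∀ j, 0 < y j) ∧ ∑ j, y j < s) ↔ ((∀ j, 0 < x j) ∧ ∑ j, x j < s) := by
  set Y : Fin (d + 2) → ℝ := fun i => bary x i + if i = Fin.last (d + 1) then s else 0 with hY
  have hsum : ∑ i, Y i = s := by
    simp only [hY, Finset.sum_add_distrib, k7_sum, Finset.sum_ite_eq', Finset.mem_univ, if_true,
      zero_add]
  have hR : ((∀ j, 0 < x j) ∧ ∑ j, x j < s) ↔ ∀ i, 0 < Y i := by
    constructor
    · rintro ⟨h1, h2⟩ i
      refine Fin.lastCases ?_ (fun j => ?_) i
      · simp only [hY, if_true, k7_last]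
        linarith
      · simp only [hY, k7_castSucc, if_neg (Fin.castSucc_lt_last j).ne, add_zero]
        exact h1 j
    · intro h
      refine ⟨fun j => ?_, ?_⟩
      · have := h j.castSucc
        simp only [hY, k7_castSucc, if_neg (Fin.castSucc_lt_last j).ne, add_zero] at this
        exact this
      · have := h (Fin.last (d + 1))
        simp only [hY, if_true, k7_last] at this
        linarith
  have hyY : ∀ j, y j = Y (π j.castSucc) := hy
  have hsum' : ∑ j, y j = s - Y (π (Fin.last (d + 1))) := by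
    have h1 : ∑ i, Y (π i) = s := by
      rw [Equiv.sum_comp π Y]
      exact hsum
    rw [Fin.sum_univ_castSucc] at h1
    simp only [hyY]
    linarith
  rw [hR, hsum']
  constructor
  · rintro ⟨h1, h2⟩ i
    have h3 : ∀ i, 0 < Y (π i) := by
      intro i
      refine Fin.lastCases ?_ (fun j => ?_) i
      · linarith
      · rw [← hyY]
        exact h1 j
    have := h3 (π.symm i)
    rwa [Equiv.apply_symm_apply] at this
  · intro h
    refine ⟨fun j => ?_, ?_⟩
    · rw [hyY]
      exact h _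
    · have := h (π (Fin.last (d + 1)))
      linarith

theorem exists_chart (d : ℕ) (hd : 1 ≤ d) (Λ₀ : (Fin (d + 1) → ℝ) ≃ₗ[ℝ] (Fin (d + 1) → ℝ))
    (hi : ∀ i j, ∃ m : ℤ, Λ₀ (Pi.single i 1) j = m)
    (hi' : ∀ i j, ∃ m : ℤ, Λ₀.symm (Pi.single i 1) j = m) (p q : Fin (d + 2)) (hpq : p ≠ q)
    (hv : bary (Λ₀ (Pi.single (Fin.last d) 1)) = Pi.single p 1 - Pi.single q 1)
    (w : Fin (d + 1) → ℝ) (s : ℝ) :
    ∃ (Λ : (Fin (d + 1) → ℝ) ≃ₗ[ℝ] (Fin (d + 1) → ℝ)) (v : Fin (d + 1) → ℝ), CH Λ ∧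
      ∀ a, a ∈ CE Λ v s ↔ ((∀ j, 0 < (Λ₀ a + w) j) ∧ ∑ j, (Λ₀ a + w) j < s) := by
  have hc : (Fin.castSucc (Fin.last d) : Fin (d + 2)) ≠ 0 := by
    intro h
    have := congrArg Fin.val h
    simp at this
    omega
  obtain ⟨π, hπp, hπq⟩ := k7_perm (Fin.castSucc (Fin.last d)) p q hc hpq
  refine ⟨Λ₀.trans (k7_L π), fun j => bary w (π j.castSucc) +
    (if π j.castSucc = Fin.last (d + 1) then s else 0), ⟨fun i j => ?_, fun i j => ?_, ?_⟩,
    fun a => ?_⟩
  · exact k7_int _ (fun j => hi i j) _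
  · refine k7_intmap Λ₀.symm.toLinearMap hi' _ (fun k => ?_) j
    refine k7_int _ (fun j => ?_) _
    by_cases hij : j = i
    · exact ⟨1, by rw [hij, Pi.single_eq_same]; norm_num⟩
    · exact ⟨0, by rw [Pi.single_eq_of_ne hij]; norm_num⟩
  · funext j
    have h1 : (Λ₀.trans (k7_L π)) (Pi.single (Fin.last d) 1) j =
        bary (Λ₀ (Pi.single (Fin.last d) 1)) (π j.castSucc) := rfl
    rw [h1, hv, Pi.sub_apply, Pi.sub_apply]
    have h2 : ∀ (i : Fin (d + 2)) (r : Fin (d + 2)), (Pi.single (π r) (1 : ℝ) : Fin (d + 2) → ℝ) (π i)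
        = (Pi.single r (1 : ℝ) : Fin (d + 2) → ℝ) i := by
      intro i r
      simp only [Pi.single_apply, π.injective.eq_iff]
    rw [← hπp, ← hπq, h2, h2]
    congr 1
    · simp only [Pi.single_apply]
      congr 1
      exact propext ⟨fun h => Fin.castSucc_injective _ (by simpa using h), fun h => by simp [h]⟩
    · simp only [Pi.single_apply]
      congr 1
      exact propext ⟨fun h => Fin.castSucc_injective _ h, fun h => by rw [h]⟩
  · refine k7_cell (Λ₀ a + w) s π _ fun j => ?_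
    rw [k7_add]
    have h1 : ((Λ₀.trans (k7_L π)) a + fun j : Fin (d + 1) => bary w (π j.castSucc) +
        (if π j.castSucc = Fin.last (d + 1) then s else 0)) j =
        bary (Λ₀ a) (π j.castSucc) + (bary w (π j.castSucc) +
        (if π j.castSucc = Fin.last (d + 1) then s else 0)) := rfl
    rw [h1]
    ring

end Vale.Agent.P209.Strong
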