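import Mathlib

set_option linter.all false

namespace Vale.Agent.P209.Strong

open MeasureTheory
open scoped Pointwise

/-! M1. Points of the positive part of the unit ball of `ℓ_n^k` with a large coordinate are
exponentially rare as `k → ∞`. -/

/-- positive part of the unit ball of `ℓ_n^k` -/
def VB (n k : ℕ) : Set (Fin k → ℝ) := {x | (∀ i, 0 < x i) ∧ ∑ i, x i ^ n < 1}

theorem VB_smul_vol (n m : ℕ) {a : ℝ} (ha : 0 < a) :
    volume (a • VB n m) = ENNReal.ofReal (a ^ m) * volume (VB n m) := by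
  rw [Measure.addHaar_smul, Module.finrank_fin_fun, abs_of_pos (pow_pos ha m)]

/-- upper bound for the points with the coordinate `i` larger than `ε` -/
theorem VB_upper {n m : ℕ} (hn : 1 ≤ n) {ε a : ℝ} (hε : 0 < ε) (ha : 0 < a)
    (han : a ^ n = 1 - ε ^ n) (i : Fin (m + 1)) :
    volume {x : Fin (m + 1) → ℝ | x ∈ VB n (m + 1) ∧ ε < x i} ≤
      ENNReal.ofReal (a ^ m) * volume (VB n m) := by
  set e := MeasurableEquiv.piFinSuccAbove (fun _ : Fin (m + 1) => ℝ) i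
  have he : MeasurePreserving e := volume_preserving_piFinSuccAbove (fun _ : Fin (m + 1) => ℝ) i
  have hsub : {x : Fin (m + 1) → ℝ | x ∈ VB n (m + 1) ∧ ε < x i} ⊆
      e ⁻¹' (Set.Ioo 0 1 ×ˢ (a • VB n m)) := by
    rintro x ⟨⟨hx1, hx2⟩, hx3⟩
    have hs : ∑ j, x j ^ n = x i ^ n + ∑ j, x (i.succAbove j) ^ n :=
      Fin.sum_univ_succAbove (fun j => x j ^ n) i
    have h0 : 0 ≤ ∑ j, x (i.succAbove j) ^ n :=
      Finset.sum_nonneg fun j _ => pow_nonneg (hx1 _).le _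
    have h1 : x i ^ n < 1 := by linarith
    have h2 : x i < 1 := (pow_lt_one_iff_of_nonneg (hx1 i).le (by omega)).1 h1
    have h3 : ε ^ n ≤ x i ^ n := pow_le_pow_left₀ hε.le hx3.le n
    refine ⟨⟨hx1 i, h2⟩, ?_⟩
    rw [Set.mem_smul_set_iff_inv_smul_mem₀ ha.ne']
    refine ⟨fun j => ?_, ?_⟩
    · exact mul_pos (inv_pos.2 ha) (hx1 _)
    · have h4 : ∑ j, ((a⁻¹ • (e x).2) j) ^ n = (a ^ n)⁻¹ * ∑ j, x (i.succAbove j) ^ n := by
        rw [Finset.mul_sum]
        refine Finset.sum_congr rfl fun j _ => ?_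
        rw [Pi.smul_apply, smul_eq_mul, mul_pow, inv_pow]
        rfl
      rw [h4, inv_mul_lt_iff₀ (pow_pos ha n), han, mul_one]
      linarith
  refine (measure_mono hsub).trans ?_
  rw [he.measure_preimage_equiv, Measure.volume_eq_prod, Measure.prod_prod, VB_smul_vol n m ha,
    Real.volume_Ioo]
  simp

/-- lower bound for the volume -/
theorem VB_lower {n m : ℕ} {d b : ℝ} (hd : 0 < d) (hb : 0 < b)
    (hbn : b ^ n = 1 - d ^ n) :
    ENNReal.ofReal d * (ENNReal.ofReal (b ^ m) * volume (VB n m)) ≤ volume (VB n (m + 1)) := by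
  set e := MeasurableEquiv.piFinSuccAbove (fun _ : Fin (m + 1) => ℝ) 0
  have he : MeasurePreserving e := volume_preserving_piFinSuccAbove (fun _ : Fin (m + 1) => ℝ) 0
  have hsub : e ⁻¹' (Set.Ioo 0 d ×ˢ (b • VB n m)) ⊆ VB n (m + 1) := by
    rintro x ⟨⟨hx1, hx2⟩, hx3⟩
    rw [Set.mem_smul_set_iff_inv_smul_mem₀ hb.ne'] at hx3
    obtain ⟨h1, h2⟩ := hx3
    have h1' : ∀ j, 0 < x (Fin.succAbove 0 j) := fun j => by
      have h := h1 j
      exact (mul_pos_iff_of_pos_left (inv_pos.2 hb)).1 h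
    have h4 : ∑ j, ((b⁻¹ • (e x).2) j) ^ n = (b ^ n)⁻¹ * ∑ j, x (Fin.succAbove 0 j) ^ n := by
      rw [Finset.mul_sum]
      refine Finset.sum_congr rfl fun j _ => ?_
      rw [Pi.smul_apply, smul_eq_mul, mul_pow, inv_pow]
      rfl
    rw [h4, inv_mul_lt_iff₀ (pow_pos hb n), hbn, mul_one] at h2
    refine ⟨fun j => ?_, ?_⟩
    · rcases Fin.eq_self_or_eq_succAbove 0 j with h | ⟨l, h⟩
      · rw [h]; exact hx1
      · rw [h]; exact h1' l
    · rw [Fin.sum_univ_succAbove (fun j => x j ^ n) 0]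
      have h5 : x 0 ^ n ≤ d ^ n := pow_le_pow_left₀ hx1.le hx2.le n
      linarith
  refine le_trans (le_of_eq ?_) (measure_mono hsub)
  rw [he.measure_preimage_equiv, Measure.volume_eq_prod, Measure.prod_prod, VB_smul_vol n m hb,
    Real.volume_Ioo, sub_zero]

theorem VB_geom {r : ℝ} (h0 : 0 ≤ r) (h1 : r < 1) (m : ℕ) : ((m : ℝ) + 1) * r ^ m ≤ 1 / (1 - r) := by
  rw [le_div_iff₀ (by linarith)]
  have h2 : ((m : ℝ) + 1) * r ^ m ≤ ∑ j ∈ Finset.range (m + 1), r ^ j := by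
    have h3 : ∑ j ∈ Finset.range (m + 1), r ^ m ≤ ∑ j ∈ Finset.range (m + 1), r ^ j :=
      Finset.sum_le_sum fun j hj => pow_le_pow_of_le_one h0 h1.le
        (Nat.lt_succ_iff.1 (Finset.mem_range.1 hj))
    rw [Finset.sum_const, Finset.card_range, nsmul_eq_mul] at h3
    push_cast at h3
    exact h3
  have h4 := mul_neg_geom_sum r (m + 1)
  have h5 : 0 ≤ r ^ (m + 1) := pow_nonneg h0 _
  nlinarith

theorem VB_large (n : ℕ) (hn : 1 ≤ n) (ε : ℝ) (hε : 0 < ε) (hε1 : ε < 1) :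
    ∃ C q : ℝ, 0 < C ∧ 0 < q ∧ q < 1 ∧ ∀ k : ℕ,
      volume {x : Fin k → ℝ | x ∈ VB n k ∧ ∃ i, ε < x i} ≤
        ENNReal.ofReal (C * q ^ k) * volume (VB n k) := by
  have hn0 : n ≠ 0 := by omega
  set d : ℝ := ε / 2 with hd
  have hd0 : 0 < d := by positivity
  have hdε : d < ε := by rw [hd]; linarith
  have hd1 : d < 1 := hdε.trans hε1
  have e1 : ε ^ n < 1 := pow_lt_one₀ hε.le hε1 hn0
  have e2 : d ^ n < 1 := pow_lt_one₀ hd0.le hd1 hn0
  have e3 : d ^ n < ε ^ n := pow_lt_pow_left₀ hdε hd0.le hn0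
  set a : ℝ := (1 - ε ^ n) ^ ((n : ℝ)⁻¹) with ha
  set b : ℝ := (1 - d ^ n) ^ ((n : ℝ)⁻¹) with hb
  have ha0 : 0 < a := Real.rpow_pos_of_pos (by linarith) _
  have hb0 : 0 < b := Real.rpow_pos_of_pos (by linarith) _
  have han : a ^ n = 1 - ε ^ n := Real.rpow_inv_natCast_pow (by linarith) hn0
  have hbn : b ^ n = 1 - d ^ n := Real.rpow_inv_natCast_pow (by linarith) hn0
  have hab : a < b := lt_of_pow_lt_pow_left₀ n hb0.le (by rw [han, hbn]; linarith)
  set ρ : ℝ := a / b with hρ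
  have hρ0 : 0 < ρ := by positivity
  have hρ1 : ρ < 1 := (div_lt_one hb0).2 hab
  set q : ℝ := (1 + ρ) / 2 with hq
  have hq0 : 0 < q := by positivity
  have hq1 : q < 1 := by rw [hq]; linarith
  have hρq : ρ < q := by rw [hq]; linarith
  set r : ℝ := ρ / q with hr
  have hr0 : 0 ≤ r := by positivity
  have hr1 : r < 1 := (div_lt_one hq0).2 hρq
  have hr2 : 0 < 1 - r := by linarith
  refine ⟨1 / ((1 - r) * d * q), q, by positivity, hq0, hq1, fun k => ?_⟩
  rcases k with _ | m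
  · have : {x : Fin 0 → ℝ | x ∈ VB n 0 ∧ ∃ i, ε < x i} = ∅ := by
      ext x
      simp
    rw [this, measure_empty]
    exact zero_le
  have h1 : volume {x : Fin (m + 1) → ℝ | x ∈ VB n (m + 1) ∧ ∃ i, ε < x i} ≤
      ENNReal.ofReal ((m : ℝ) + 1) * (ENNReal.ofReal (a ^ m) * volume (VB n m)) := by
    have hsub : {x : Fin (m + 1) → ℝ | x ∈ VB n (m + 1) ∧ ∃ i, ε < x i} ⊆
        ⋃ i, {x : Fin (m + 1) → ℝ | x ∈ VB n (m + 1) ∧ ε < x i} := by
      rintro x ⟨hx, i, hi⟩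
      exact Set.mem_iUnion.2 ⟨i, hx, hi⟩
    refine (measure_mono hsub).trans ((measure_iUnion_le _).trans ?_)
    rw [tsum_fintype]
    refine (Finset.sum_le_sum fun i _ => VB_upper hn hε ha0 han i).trans (le_of_eq ?_)
    rw [Finset.sum_const, Finset.card_univ, Fintype.card_fin, nsmul_eq_mul]
    congr 1
    rw [← Nat.cast_succ, ENNReal.ofReal_natCast]
  have h2 := VB_lower (n := n) (m := m) hd0 hb0 hbn
  refine h1.trans (le_trans ?_ (mul_le_mul_right h2 _))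
  rw [← mul_assoc, ← mul_assoc, ← mul_assoc, ← ENNReal.ofReal_mul (by positivity),
    ← ENNReal.ofReal_mul (by positivity), ← ENNReal.ofReal_mul (by positivity)]
  refine mul_le_mul_left (ENNReal.ofReal_le_ofReal ?_) _
  have h3 := VB_geom hr0 hr1 m
  have h4 : a = r * q * b := by
    rw [hr, hρ]
    field_simp
  have h5 : ((m : ℝ) + 1) * a ^ m = ((m : ℝ) + 1) * r ^ m * (q * b) ^ m := by
    rw [mul_assoc, ← mul_pow, ← mul_assoc, ← h4]
  have h6 : 1 / ((1 - r) * d * q) * q ^ (m + 1) * d * b ^ m = 1 / (1 - r) * (q * b) ^ m := by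
    rw [mul_pow, pow_succ]
    field_simp
  rw [h5, h6]
  exact mul_le_mul_of_nonneg_right h3 (by positivity)

end Vale.Agent.P209.Strong
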