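import Vale.Agent.P209.Strong.M1

namespace Vale.Agent.P209.Strong

open MeasureTheory

/-- the parameter region of Conjecture A (with `R = 1`) -/
def PR (n k : ℕ) : Set (Fin k → ℝ) :=
  {x | (∀ i, 0 < x i) ∧ ∑ i, x i ^ n < 1 ∧ ∀ i j, i < j → x i + x j < 1}

theorem VB_vol_lt_top (n : ℕ) (hn : 1 ≤ n) (k : ℕ) : volume (VB n k) < ⊤ := by
  have hsub : VB n k ⊆ Set.Icc (0 : Fin k → ℝ) 1 := by
    rintro x ⟨hx1, hx2⟩
    refine ⟨fun i => (hx1 i).le, fun i => ?_⟩
    have h1 : x i ^ n ≤ ∑ j, x j ^ n :=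
      Finset.single_le_sum (f := fun j => x j ^ n) (fun j _ => pow_nonneg (hx1 j).le n)
        (Finset.mem_univ i)
    have h2 : x i ^ n < 1 := by linarith
    exact ((pow_lt_one_iff_of_nonneg (hx1 i).le (by omega)).1 h2).le
  exact (measure_mono hsub).trans_lt isCompact_Icc.measure_lt_top

theorem PR_vol_pos (n : ℕ) (hn : 1 ≤ n) (k : ℕ) : 0 < volume (PR n k) := by
  set c : ℝ := 1 / (2 * ((k : ℝ) + 1)) with hc
  have hk : (0 : ℝ) ≤ k := Nat.cast_nonneg k
  have hc0 : 0 < c := by positivity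
  have hc1 : c ≤ 1 / 2 := by
    rw [hc]
    apply one_div_le_one_div_of_le (by norm_num)
    linarith
  have hck : (k : ℝ) * c < 1 := by
    rw [hc, mul_one_div, div_lt_one (by positivity)]
    linarith
  have hsub : Set.pi Set.univ (fun _ : Fin k => Set.Ioo 0 c) ⊆ PR n k := by
    intro x hx
    have h1 : ∀ i, 0 < x i := fun i => (hx i (Set.mem_univ i)).1
    have h2 : ∀ i, x i < c := fun i => (hx i (Set.mem_univ i)).2
    refine ⟨h1, ?_, fun i j _ => ?_⟩
    · have h3 : ∑ i, x i ^ n ≤ ∑ _i : Fin k, c := by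
        refine Finset.sum_le_sum fun i _ => ?_
        have h4 : x i ^ n ≤ x i := pow_le_of_le_one (h1 i).le (by linarith [h2 i]) (by omega)
        exact h4.trans (h2 i).le
      rw [Finset.sum_const, Finset.card_univ, Fintype.card_fin, nsmul_eq_mul] at h3
      linarith
    · have := h2 i
      have := h2 j
      linarith
  refine lt_of_lt_of_le ?_ (measure_mono hsub)
  rw [Real.volume_pi_Ioo]
  simp only [sub_zero, Finset.prod_const]
  exact ENNReal.pow_pos (ENNReal.ofReal_pos.2 hc0) _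

theorem PR_sub_VB (n k : ℕ) : PR n k ⊆ VB n k := fun _ hx => ⟨hx.1, hx.2.1⟩

theorem VB_le_PR (n : ℕ) (hn : 1 ≤ n) : ∃ C : ℝ, 0 < C ∧ ∀ k : ℕ,
    volume (VB n k) ≤ ENNReal.ofReal C * volume (PR n k) := by
  obtain ⟨C0, q, hC0, hq0, hq1, hV⟩ := VB_large n hn (1 / 4) (by norm_num) (by norm_num)
  have hlim : Filter.Tendsto (fun k : ℕ => C0 * q ^ k) Filter.atTop (nhds (C0 * 0)) :=
    (tendsto_pow_atTop_nhds_zero_of_lt_one hq0.le hq1).const_mul C0
  rw [mul_zero] at hlim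
  obtain ⟨K0, hK0⟩ := Filter.eventually_atTop.1 (hlim.eventually (gt_mem_nhds
    (by norm_num : (0 : ℝ) < 1 / 2)))
  set r : ℕ → ℝ := fun k => (volume (VB n k) / volume (PR n k)).toReal with hr
  have hr0 : ∀ k, 0 ≤ r k := fun k => ENNReal.toReal_nonneg
  refine ⟨2 + ∑ k ∈ Finset.range K0, r k, by
    have := Finset.sum_nonneg (s := Finset.range K0) (fun k _ => hr0 k); linarith, fun k => ?_⟩
  have hfin := VB_vol_lt_top n hn k
  rcases lt_or_ge k K0 with hk | hk
  · have hpos := PR_vol_pos n hn k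
    have h1 : volume (VB n k) / volume (PR n k) ≠ ⊤ := (ENNReal.div_lt_top hfin.ne hpos.ne').ne
    have h2 : volume (VB n k) ≤ ENNReal.ofReal (r k) * volume (PR n k) := by
      rw [hr]
      simp only
      rw [ENNReal.ofReal_toReal h1]
      have hPtop : volume (PR n k) ≠ ⊤ :=
        ((measure_mono (PR_sub_VB n k)).trans_lt hfin).ne
      rw [ENNReal.div_mul_cancel hpos.ne' hPtop]
    refine h2.trans (mul_le_mul_left (ENNReal.ofReal_le_ofReal ?_) _)
    have h3 : r k ≤ ∑ k ∈ Finset.range K0, r k :=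
      Finset.single_le_sum (f := r) (fun j _ => hr0 j) (Finset.mem_range.2 hk)
    linarith
  · have hsub : VB n k ⊆ PR n k ∪ {x : Fin k → ℝ | x ∈ VB n k ∧ ∃ i, 1 / 4 < x i} := by
      intro x hx
      by_cases h : ∃ i, 1 / 4 < x i
      · exact Or.inr ⟨hx, h⟩
      · refine Or.inl ⟨hx.1, hx.2, fun i j _ => ?_⟩
        have h1 : x i ≤ 1 / 4 := not_lt.1 fun h' => h ⟨i, h'⟩
        have h2 : x j ≤ 1 / 4 := not_lt.1 fun h' => h ⟨j, h'⟩
        linarith
    have h1 : volume (VB n k) ≤ volume (PR n k) + ENNReal.ofReal (1 / 2) * volume (VB n k) := by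
      refine (measure_mono hsub).trans ((measure_union_le _ _).trans ?_)
      refine add_le_add le_rfl ((hV k).trans (mul_le_mul_left (ENNReal.ofReal_le_ofReal ?_) _))
      exact (hK0 k hk).le
    set V := volume (VB n k) with hVdef
    set P := volume (PR n k) with hPdef
    have h2 : V ≤ 2 * P := by
      have hPtop : P ≠ ⊤ :=
        ((measure_mono (PR_sub_VB n k)).trans_lt hfin).ne
      have h3 : V.toReal ≤ P.toReal + 1 / 2 * V.toReal := by
        have h4 := ENNReal.toReal_mono (ENNReal.add_ne_top.2 ⟨hPtop,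
          ENNReal.mul_ne_top ENNReal.ofReal_ne_top hfin.ne⟩) h1
        rw [ENNReal.toReal_add hPtop (ENNReal.mul_ne_top ENNReal.ofReal_ne_top hfin.ne),
          ENNReal.toReal_mul, ENNReal.toReal_ofReal (by norm_num)] at h4
        exact h4
      have h5 : V.toReal ≤ 2 * P.toReal := by linarith
      rw [← ENNReal.ofReal_toReal hfin.ne, ← ENNReal.ofReal_toReal hPtop]
      calc ENNReal.ofReal V.toReal ≤ ENNReal.ofReal (2 * P.toReal) := ENNReal.ofReal_le_ofReal h5
        _ = 2 * ENNReal.ofReal P.toReal := by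
            rw [ENNReal.ofReal_mul (by norm_num), ENNReal.ofReal_ofNat]
    refine h2.trans (mul_le_mul_left ?_ _)
    rw [← ENNReal.ofReal_ofNat]
    apply ENNReal.ofReal_le_ofReal
    have := Finset.sum_nonneg (s := Finset.range K0) (fun k _ => hr0 k)
    linarith

theorem PR_large (n : ℕ) (hn : 1 ≤ n) (ε : ℝ) (hε : 0 < ε) (hε1 : ε < 1) :
    ∃ C q : ℝ, 0 < C ∧ 0 < q ∧ q < 1 ∧ ∀ k : ℕ,
      volume {x : Fin k → ℝ | x ∈ PR n k ∧ ∃ i, ε < x i} ≤
        ENNReal.ofReal (C * q ^ k) * volume (PR n k) := by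
  obtain ⟨C, q, hC, hq0, hq1, hV⟩ := VB_large n hn ε hε hε1
  obtain ⟨C', hC', hP⟩ := VB_le_PR n hn
  refine ⟨C * C', q, mul_pos hC hC', hq0, hq1, fun k => ?_⟩
  have h1 : volume {x : Fin k → ℝ | x ∈ PR n k ∧ ∃ i, ε < x i} ≤
      volume {x : Fin k → ℝ | x ∈ VB n k ∧ ∃ i, ε < x i} :=
    measure_mono fun x hx => ⟨⟨hx.1.1, hx.1.2.1⟩, hx.2⟩
  refine h1.trans ((hV k).trans ((mul_le_mul_right (hP k) _).trans (le_of_eq ?_)))
  rw [← mul_assoc, ← ENNReal.ofReal_mul (by positivity)]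
  congr 2
  ring

end Vale.Agent.P209.Strong
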